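import Vale.Agent.P120.Descent

/-!
# P120, full answer: flat balls of comparable size in every ball

The bilateral flat balls that a bounded Riesz transform forces, in the form used for the roots of
the trees.
-/

namespace Vale.Agent.P120.Full

open MeasureTheory Set Filter
open scoped Topology RealInnerProductSpace ENNReal

variable {E : Type*} [NormedAddCommGroup E] [InnerProductSpace ℝ E] [MeasurableSpace E]
  [BorelSpace E] [FiniteDimensional ℝ E]

lemma trunc_bound {n : ℕ} {μ : Measure E} {CR : ℝ}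
    (hR : ∀ f : E → ℝ, MemLp f 2 μ → ∀ ε : ℝ, 0 < ε →
      (∀ᵐ x ∂μ, IntegrableOn (fun y => f y • kernel n (x - y)) {y | ε < dist x y} μ) ∧
        eLpNorm (riesz n μ ε f) 2 μ ≤ ENNReal.ofReal CR * eLpNorm f 2 μ)
    {x : E} {r : ℝ} (hfin : μ (Metric.ball x r) ≠ ⊤) {ε : ℝ} (hε : 0 < ε) {S : Set E}
    (hS : MeasurableSet S) :
    ∫ y, ‖trunc n (μ.restrict (Metric.ball x r)) ε S y‖ ^ 2 ∂(μ.restrict (Metric.ball x r)) ≤
      max CR 0 ^ 2 * (μ.restrict (Metric.ball x r)).real S := by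
  set U := Metric.ball x r
  set ν := μ.restrict U
  haveI : IsFiniteMeasure ν := isFiniteMeasure_restrict.2 hfin
  have hSU : MeasurableSet (S ∩ U) := hS.inter measurableSet_ball
  set f := (S ∩ U).indicator fun _ => (1 : ℝ) with hf
  have hμfin : μ (S ∩ U) ≠ ⊤ := ne_top_of_le_ne_top hfin (measure_mono inter_subset_right)
  have hmem : MemLp f 2 μ := memLp_indicator_const 2 hSU 1 (Or.inr hμfin)
  have heq : riesz n μ ε f = trunc n ν ε S := by
    funext y
    have hfar := measurableSet_far ε y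
    have e : (fun w => f w • kernel n (y - w)) = (S ∩ U).indicator fun w => kernel n (y - w) := by
      funext w
      by_cases hw : w ∈ S ∩ U
      · rw [hf, indicator_of_mem hw, indicator_of_mem hw, one_smul]
      · rw [hf, indicator_of_notMem hw, indicator_of_notMem hw, zero_smul]
    rw [riesz, e, setIntegral_indicator hSU, trunc, Measure.restrict_restrict (hS.inter hfar)]
    congr 2
    ext w
    simp only [mem_inter_iff]
    tauto
  have h1 : eLpNorm (trunc n ν ε S) 2 ν ≤ ENNReal.ofReal (max CR 0) * μ (S ∩ U) ^ (1 / 2 : ℝ) := by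
    refine (eLpNorm_mono_measure _ Measure.restrict_le_self).trans ?_
    rw [← heq]
    refine (hR f hmem ε hε).2.trans (mul_le_mul' (ENNReal.ofReal_le_ofReal (le_max_left _ _)) ?_)
    rw [hf, eLpNorm_indicator_const hSU (by norm_num) (by norm_num),
      ENNReal.toReal_ofNat, enorm_one, one_mul]
  have h2 : ∫⁻ y, ‖trunc n ν ε S y‖ₑ ^ (2 : ℝ) ∂ν ≤
      ENNReal.ofReal (max CR 0) ^ (2 : ℝ) * μ (S ∩ U) := by
    have h := ENNReal.rpow_le_rpow h1 (show (0 : ℝ) ≤ 2 by norm_num)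
    rw [ENNReal.mul_rpow_of_nonneg _ _ (show (0 : ℝ) ≤ 2 by norm_num), ← ENNReal.rpow_mul,
      show (1 / 2 : ℝ) * 2 = 1 by norm_num, ENNReal.rpow_one] at h
    refine le_of_eq_of_le ?_ h
    exact (eLpNorm_nnreal_pow_eq_lintegral (p := (2 : NNReal)) two_ne_zero).symm
  have h3 : ∫⁻ y, ENNReal.ofReal (‖trunc n ν ε S y‖ ^ 2) ∂ν ≤
      ENNReal.ofReal (max CR 0 ^ 2 * ν.real S) := by
    rw [ENNReal.ofReal_mul (sq_nonneg _), ofReal_measureReal]
    refine le_of_eq_of_le ?_ (h2.trans (le_of_eq ?_))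
    · refine lintegral_congr fun y => ?_
      rw [show (2 : ℝ) = ((2 : ℕ) : ℝ) by norm_num, ENNReal.rpow_natCast,
        ENNReal.ofReal_pow (norm_nonneg _), ofReal_norm]
    · rw [show (2 : ℝ) = ((2 : ℕ) : ℝ) by norm_num, ENNReal.rpow_natCast,
        ENNReal.ofReal_pow (le_max_right _ _), Measure.restrict_apply hS]
  rw [integral_eq_lintegral_of_nonneg_ae (Eventually.of_forall fun y => sq_nonneg _)
    ((stronglyMeasurable_trunc ε hS).norm.pow 2).aestronglyMeasurable]
  exact ENNReal.toReal_le_of_le_ofReal (mul_nonneg (sq_nonneg _) measureReal_nonneg) h3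

/-- The flat profile of a measure with bounded Riesz transform. -/
theorem exists_flat_balls {n : ℕ} (hn : 1 ≤ n) (hnd : n < Module.finrank ℝ E) (μ : Measure E)
    (hAD : ADRegular n μ) (hR : RieszBounded n μ) {ε : ℝ} (hε : 0 < ε) :
    ∃ c : ℝ, 0 < c ∧ ∀ x ∈ μ.support, ∀ r : ℝ, 0 < r →
      ENNReal.ofReal r ≤ Metric.ediam μ.support → ∃ x' ∈ μ.support, ∃ r' : ℝ, c * r ≤ r' ∧
        Metric.closedBall x' r' ⊆ Metric.ball x r ∧
        ∃ W : Submodule ℝ E, Module.finrank ℝ W = n ∧ BilaterallyFlat μ.support x' r' ε W := by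
  obtain ⟨C, hC, hAD⟩ := hAD
  obtain ⟨CR, hR⟩ := hR
  set A := windowBound n C (max CR 0) with hA
  have hA0 : 0 ≤ A := by
    have : 0 < C := lt_of_lt_of_le one_pos hC
    rw [hA, windowBound, kerConst]
    positivity
  obtain ⟨c1, hc1, hflat⟩ := exists_bilaterallyFlat (μ := μ) hn hnd.le hC hA0 hε
  obtain ⟨c2, hc2, hgood⟩ := exists_good (μ := μ) (n := n) (CR := max CR 0) hC hc1
  refine ⟨c1 * c2, mul_pos hc1 hc2, fun x hx r hr hrd => ?_⟩
  have had : LocalAD μ n C r := ⟨hC, hr, fun y hy t ht htr =>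
    hAD y hy t ht ((ENNReal.ofReal_le_ofReal htr).trans hrd)⟩
  obtain ⟨z, hz, s, hs1, hs2, hsub, hG⟩ := hgood x hx r had fun δ hδ S hS =>
    trunc_bound hR (had.ne_top hx hr le_rfl) hδ hS
  have hs : 0 < s := lt_of_lt_of_le (mul_pos hc2 hr) hs1
  obtain ⟨x', hx', t, ht, hsub', W, hW, hbf⟩ := hflat z hz s (had.mono hs (by linarith)) hG
  exact ⟨x', hx', t, by rw [mul_assoc]; exact le_trans (mul_le_mul_of_nonneg_left hs1 hc1.le) ht,
    hsub'.trans hsub, W, hW, hbf⟩

end Vale.Agent.P120.Full
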