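import Vale.Agent.P120.Full.Image
import Vale.Agent.P120.Full.Balls

/-!
# P120, full answer, module F: from the finite measures to uniform rectifiability

For `x` in the support and `r` up to its diameter, the restriction of `μ` to `ball x r` is one of
the finite measures on which the argument runs, so the big piece there is the one asked for.
-/

namespace Vale.Agent.P120.Full

open MeasureTheory Set Filter
open scoped Topology ENNReal NNReal

noncomputable section

variable {E : Type*} [NormedAddCommGroup E] [InnerProductSpace ℝ E] [MeasurableSpace E]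
  [BorelSpace E] [FiniteDimensional ℝ E] {n : ℕ} {μ : Measure E}

/-- The restriction of `μ` to a ball centred on the support is nice. -/
lemma nice_restrict {C CR : ℝ}
    (hR : ∀ f : E → ℝ, MemLp f 2 μ → ∀ ε : ℝ, 0 < ε →
      (∀ᵐ x ∂μ, IntegrableOn (fun y => f y • kernel n (x - y)) {y | ε < dist x y} μ) ∧
        eLpNorm (riesz n μ ε f) 2 μ ≤ ENNReal.ofReal CR * eLpNorm f 2 μ)
    {x : E} {r : ℝ} (h : LocalAD μ n C r) (hx : x ∈ μ.support) :
    Nice n (C * 2 ^ n) (max CR 0) (μ.restrict (Metric.ball x r)) x r := by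
  have hC : 1 ≤ C := h.1
  have hr : 0 < r := h.2.1
  have hCC : C ≤ C * 2 ^ n := le_mul_of_one_le_right (by linarith) (one_le_pow₀ (by norm_num))
  refine ⟨hC.trans hCC, le_max_right _ _, hr, ?_, fun z t ht => h.growth hx z ht, ?_,
    fun ε hε => trunc_bound hR (h.ne_top hx hr le_rfl) hε MeasurableSet.univ⟩
  · rw [Measure.restrict_apply_univ]
    exact (h.2.2 x hx r hr le_rfl).2.trans
      (ENNReal.ofReal_le_ofReal (mul_le_mul_of_nonneg_right hCC (by positivity)))
  · intro y hy hyx t ht htr
    have hyμ : y ∈ μ.support := Measure.support_mono Measure.restrict_le_self hy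
    have hsub : Metric.ball y t ⊆ Metric.ball x r := Metric.ball_subset_ball' (by linarith)
    rw [measureReal_restrict_apply measurableSet_ball, inter_eq_left.2 hsub]
    exact (mul_le_mul_of_nonneg_right (inv_anti₀ (by linarith) hCC) (by positivity)).trans
      (h.le_real hyμ ht (by linarith))

/-- Module F, assembly: cells and coronas give uniform rectifiability. -/
theorem uniformlyRectifiable_of_corona (hn : 1 ≤ n) (hnd : n < Module.finrank ℝ E)
    (hA : CellsExist E n) (hE : CoronaExist E n) (hAD : ADRegular n μ) (hR : RieszBounded n μ) :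
    UniformlyRectifiable n μ := by
  have hballs : ∀ ε : ℝ, ∃ c : ℝ, 0 < ε → 0 < c ∧ ∀ x ∈ μ.support, ∀ r : ℝ, 0 < r →
      ENNReal.ofReal r ≤ Metric.ediam μ.support → ∃ x' ∈ μ.support, ∃ r' : ℝ, c * r ≤ r' ∧
        Metric.closedBall x' r' ⊆ Metric.ball x r ∧
        ∃ W : Submodule ℝ E, Module.finrank ℝ W = n ∧ BilaterallyFlat μ.support x' r' ε W := by
    intro ε
    by_cases hε : 0 < ε
    · obtain ⟨c, hc⟩ := exists_flat_balls hn hnd μ hAD hR hε
      exact ⟨c, fun _ => hc⟩
    · exact ⟨0, fun h => absurd h hε⟩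
  choose cp hcp using hballs
  obtain ⟨C, hC, hAD⟩ := hAD
  obtain ⟨CR, hR⟩ := hR
  obtain ⟨θ, hθ, M, hM⟩ := bigPiece hn hA hE (C := C * 2 ^ n) (A := max CR 0)
    (one_le_mul_of_one_le_of_one_le hC (one_le_pow₀ (by norm_num))) (le_max_right _ _) cp
  refine ⟨θ, hθ, M, fun x hx r hr hrd => ?_⟩
  have had : LocalAD μ n C r := ⟨hC, hr, fun y hy t ht htr =>
    hAD y hy t ht ((ENNReal.ofReal_le_ofReal htr).trans hrd)⟩
  have hxs : x ∈ (μ.restrict (Metric.ball x r)).support :=
    Measure.interior_inter_support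
      ⟨by rw [Metric.isOpen_ball.interior_eq]; exact Metric.mem_ball_self hr, hx⟩
  have hflat : FlatAt n cp (μ.restrict (Metric.ball x r)) x r := by
    intro ε hε
    obtain ⟨hc0, hc⟩ := hcp ε hε
    refine ⟨hc0, fun z hz hzx t ht htr => ?_⟩
    have hsub : (μ.restrict (Metric.ball x r)).support ⊆ μ.support :=
      Measure.support_mono Measure.restrict_le_self
    obtain ⟨x', hx', r', hr', hsb, W, hW, hflat, -⟩ := hc z (hsub hz) t ht
      ((ENNReal.ofReal_le_ofReal (by linarith)).trans hrd)
    have hr'0 : 0 ≤ r' := le_trans (by positivity) hr'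
    have hmem : x' ∈ Metric.ball x r := by
      have h1 := hsb (Metric.mem_closedBall_self hr'0)
      rw [Metric.mem_ball] at h1 ⊢
      linarith [dist_triangle x' z x]
    exact ⟨x', Measure.interior_inter_support
      ⟨by rw [Metric.isOpen_ball.interior_eq]; exact hmem, hx'⟩, r', hr', hsb, W, hW,
      fun y hy => hflat y (hsub hy)⟩
  obtain ⟨g, hg, hge⟩ := hM _ x r (nice_restrict hR had hx) hxs hflat
  refine ⟨g, hg.lipschitzOnWith, ?_⟩
  haveI : IsFiniteMeasure (μ.restrict (Metric.ball x r)) :=
    isFiniteMeasure_restrict.2 (had.ne_top hx hr le_rfl)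
  refine (ENNReal.ofReal_le_ofReal hge).trans ?_
  rw [ofReal_measureReal (measure_ne_top _ _)]
  exact Measure.restrict_apply_le _ _

end

end Vale.Agent.P120.Full
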