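import Vale.Agent.P120.Full.Graph

/-!
# P120, full answer, module E: bookkeeping of roots, exits and cells outside all trees

Flat cells are left only where the coefficients are large; they are entered at most once more
often.  Every cell has a flat descendant within boundedly many generations, so the cells that are
not flat are controlled by the entries.
-/

namespace Vale.Agent.P120.Full

open MeasureTheory Set Filter
open scoped Topology Classical

noncomputable section

variable {E : Type*} [NormedAddCommGroup E] [InnerProductSpace ℝ E] [MeasurableSpace E]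
  [BorelSpace E] [FiniteDimensional ℝ E] {n : ℕ} {C A R ε θ : ℝ} {ν : Measure E} {x₀ : E}
  {D : Cells ν x₀ R} {pl : ℕ → E → E × Submodule ℝ E}

/-- The flat children of cells that are not flat, at generation `k + 1`. -/
def entries (n : ℕ) (D : Cells ν x₀ R) (ε : ℝ) (k : ℕ) : Finset E :=
  (D.inner (k + 1)).filter fun w => cellB n D (k + 1) w ≤ ε ∧ ¬cellB n D k (D.parent k w) ≤ ε

/-- The children of flat cells that are not flat, at generation `k + 1`. -/
def exits (n : ℕ) (D : Cells ν x₀ R) (ε : ℝ) (k : ℕ) : Finset E :=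
  (D.inner (k + 1)).filter fun w => ¬cellB n D (k + 1) w ≤ ε ∧ cellB n D k (D.parent k w) ≤ ε

/-- The flat children of flat cells whose plane leaves the angle, at generation `k + 1`. -/
def angleStops (n : ℕ) (D : Cells ν x₀ R) (pl : ℕ → E → E × Submodule ℝ E) (ε θ : ℝ) (k : ℕ) :
    Finset E :=
  (D.inner (k + 1)).filter fun w => cellB n D (k + 1) w ≤ ε ∧
    cellB n D k (D.parent k w) ≤ ε ∧
    ¬AngleLE θ (pl (treeRoot n D pl ε θ k (D.parent k w)).1
      (treeRoot n D pl ε θ k (D.parent k w)).2).2 (pl (k + 1) w).2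

/-- The roots of generation `k`. -/
def rootsAt (n : ℕ) (D : Cells ν x₀ R) (pl : ℕ → E → E × Submodule ℝ E) (ε θ : ℝ) (k : ℕ) :
    Finset E :=
  (D.inner k).filter fun z => cellB n D k z ≤ ε ∧ treeRoot n D pl ε θ k z = (k, z)

/-- What is known about the root of a flat cell. -/
lemma root_props (hθ : 0 ≤ θ) : ∀ {k : ℕ} {z : E}, z ∈ D.inner k → cellB n D k z ≤ ε →
    (treeRoot n D pl ε θ k z).1 ≤ k ∧
      (treeRoot n D pl ε θ k z).2 ∈
        rootsAt n D pl ε θ (treeRoot n D pl ε θ k z).1 ∧
      D.anc k z (treeRoot n D pl ε θ k z).1 = (treeRoot n D pl ε θ k z).2 ∧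
      (∀ i, (treeRoot n D pl ε θ k z).1 ≤ i → i ≤ k →
        cellB n D i (D.anc k z i) ≤ ε ∧
          treeRoot n D pl ε θ i (D.anc k z i) = treeRoot n D pl ε θ k z ∧
          AngleLE θ (pl (treeRoot n D pl ε θ k z).1 (treeRoot n D pl ε θ k z).2).2
            (pl i (D.anc k z i)).2) := by
  intro k
  induction k with
  | zero =>
    intro z hz hb
    have e : treeRoot n D pl ε θ 0 z = (0, z) := rfl
    rw [e]
    refine ⟨le_rfl, Finset.mem_filter.2 ⟨hz, hb, rfl⟩, D.anc_of_ge z le_rfl, fun i h1 h2 => ?_⟩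
    obtain rfl : i = 0 := by omega
    rw [D.anc_of_ge z le_rfl]
    exact ⟨hb, rfl, angleLE_self hθ _⟩
  | succ k ih =>
    intro z hz hb
    by_cases hc : cellB n D (k + 1) z ≤ ε ∧ cellB n D k (D.parent k z) ≤ ε ∧
        AngleLE θ (pl (treeRoot n D pl ε θ k (D.parent k z)).1
          (treeRoot n D pl ε θ k (D.parent k z)).2).2 (pl (k + 1) z).2
    · have e : treeRoot n D pl ε θ (k + 1) z = treeRoot n D pl ε θ k (D.parent k z) := by
        rw [treeRoot, if_pos hc]
      obtain ⟨h1, h2, h3, h4⟩ := ih (D.parent_inner hz) hc.2.1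
      rw [e]
      refine ⟨h1.trans (Nat.le_succ k), h2, by rw [D.anc_succ z h1]; exact h3, fun i hi hik => ?_⟩
      rcases hik.eq_or_lt with rfl | hlt
      · rw [D.anc_of_ge z le_rfl]
        exact ⟨hb, e, hc.2.2⟩
      · rw [D.anc_succ z (by omega)]
        exact h4 i hi (by omega)
    · have e : treeRoot n D pl ε θ (k + 1) z = (k + 1, z) := by rw [treeRoot, if_neg hc]
      rw [e]
      refine ⟨le_rfl, Finset.mem_filter.2 ⟨hz, hb, e⟩, D.anc_of_ge z le_rfl, fun i h1 h2 => ?_⟩
      obtain rfl : i = k + 1 := le_antisymm h2 h1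
      rw [D.anc_of_ge z le_rfl]
      exact ⟨hb, e, angleLE_self hθ _⟩

lemma rootsAt_succ_subset (k : ℕ) :
    rootsAt n D pl ε θ (k + 1) ⊆ entries n D ε k ∪ angleStops n D pl ε θ k := by
  intro w hw
  obtain ⟨hw, hb, hr⟩ := Finset.mem_filter.1 hw
  rw [Finset.mem_union]
  by_cases hp : cellB n D k (D.parent k w) ≤ ε
  · refine Or.inr (Finset.mem_filter.2 ⟨hw, hb, hp, fun ha => ?_⟩)
    rw [treeRoot, if_pos ⟨hb, hp, ha⟩] at hr
    have : ∀ {k : ℕ} {z : E}, (treeRoot n D pl ε θ k z).1 ≤ k := by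
      intro k
      induction k with
      | zero => intro z; exact le_rfl
      | succ k ih =>
        intro z
        rw [treeRoot]
        split_ifs
        · exact ih.trans (Nat.le_succ k)
        · exact le_rfl
    have h1 := (congrArg Prod.fst hr).symm.trans_le this
    simp only at h1
    omega
  · exact Or.inl (Finset.mem_filter.2 ⟨hw, hb, hp⟩)

/-- Flat cells are entered at most once more often than they are left. -/
lemma sum_entries_le [IsFiniteMeasure ν] (hR : 0 < R) (M : ℕ) :
    ∑ k ∈ Finset.range M, ∑ w ∈ entries n D ε k, ν.real (D.cell (k + 1) w) ≤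
      ν.real univ +
        ∑ k ∈ Finset.range M, ∑ w ∈ exits n D ε k, ν.real (D.cell (k + 1) w) := by
  set F := fun k => ∑ z ∈ D.inner k,
    (if cellB n D k z ≤ ε then (1 : ℝ) else 0) * ν.real (D.cell k z) with hF
  have hid : ∀ k, (∑ w ∈ entries n D ε k, ν.real (D.cell (k + 1) w)) =
      F (k + 1) - F k + ∑ w ∈ exits n D ε k, ν.real (D.cell (k + 1) w) := by
    intro k
    rw [show F k = ∑ w ∈ D.inner (k + 1), (if cellB n D k (D.parent k w) ≤ ε then (1 : ℝ) else 0) *
      ν.real (D.cell (k + 1) w) from (D.sum_parent hR k _).symm, entries, exits, hF,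
      Finset.sum_filter, Finset.sum_filter, ← Finset.sum_sub_distrib, ← Finset.sum_add_distrib]
    refine Finset.sum_congr rfl fun w _ => ?_
    by_cases h1 : cellB n D (k + 1) w ≤ ε <;>
      by_cases h2 : cellB n D k (D.parent k w) ≤ ε <;> simp [h1, h2]
  rw [Finset.sum_congr rfl fun k _ => hid k, Finset.sum_add_distrib, Finset.sum_range_sub]
  have h0 : 0 ≤ F 0 := Finset.sum_nonneg fun z _ =>
    mul_nonneg (by split_ifs <;> norm_num) measureReal_nonneg
  have hM : F M ≤ ν.real univ := by
    refine le_trans (Finset.sum_le_sum fun z _ => ?_) (D.sum_inner_le M)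
    exact mul_le_of_le_one_left measureReal_nonneg (by split_ifs <;> norm_num)
  linarith

/-- A flat cell is left only where the coefficients are large. -/
lemma sum_exits_le [IsFiniteMeasure ν] (hR : 0 < R) {K : ℝ} (hK : 0 ≤ K) (hε : 0 < ε)
    (hstep : ∀ k, ∀ w ∈ D.inner (k + 1), cellB n D k (D.parent k w) ≤ ε →
      cellB n D (k + 1) w ≤
        1 / 2 * cellB n D k (D.parent k w) + K * cellE n D k (D.parent k w))
    (M : ℕ) :
    ∑ k ∈ Finset.range M, ∑ w ∈ exits n D ε k, ν.real (D.cell (k + 1) w) ≤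
      (2 * K / ε) ^ 2 *
        ∑ k ∈ Finset.range M, ∑ z ∈ D.inner k, cellE n D k z ^ 2 * ν.real (D.cell k z) := by
  rw [Finset.mul_sum]
  refine Finset.sum_le_sum fun k _ => ?_
  rw [← D.sum_parent hR k fun z => cellE n D k z ^ 2, Finset.mul_sum]
  refine le_trans (Finset.sum_le_sum fun w hw => ?_) (Finset.sum_le_sum_of_subset_of_nonneg
    (Finset.filter_subset _ _) fun w _ _ => by positivity)
  obtain ⟨hw, hb, hp⟩ := Finset.mem_filter.1 hw
  have h1 := hstep k w hw hp
  have h2 : 1 ≤ 2 * K / ε * cellE n D k (D.parent k w) := by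
    rw [div_mul_eq_mul_div, le_div_iff₀ hε]
    linarith [not_le.1 hb]
  rw [← mul_assoc, ← mul_pow]
  exact le_mul_of_one_le_left measureReal_nonneg (one_le_pow₀ h2)

omit [FiniteDimensional ℝ E] in
lemma flatness_le_sup [FiniteDimensional ℝ E] (hN : Nice n C A ν x₀ R) {z p : E} {l b : ℝ}
    (hl : 0 < l) (hb : 0 ≤ b) {W : Submodule ℝ E}
    (h : ∀ y ∈ ν.support, dist y z < 4 * l → ‖perp W (y - p)‖ ≤ b * l) :
    flatness ν n z l p W ≤ b * (C * 4 ^ n + 1) := by
  haveI := hN.finite
  have hC : 1 ≤ C := hN.1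
  have h1 : ∫ y in Metric.ball z (4 * l), ‖perp W (y - p)‖ ^ 2 ∂ν ≤
      (b * l) ^ 2 * (C * (4 * l) ^ n) := by
    refine le_trans (setIntegral_mono_ae_restrict (g := fun _ => (b * l) ^ 2)
      (integrableOn_ball_of_continuous ((continuous_perp W p).norm.pow 2) z (4 * l))
      (integrableOn_const (measure_ne_top _ _)) ?_) ?_
    · filter_upwards [ae_restrict_mem measurableSet_ball,
        ae_restrict_of_ae (Measure.support_mem_ae : ν.support ∈ ae ν)] with y hy hys
      exact pow_le_pow_left₀ (norm_nonneg _) (h y hys (Metric.mem_ball.1 hy)) 2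
    · rw [setIntegral_const, smul_eq_mul, mul_comm]
      exact mul_le_mul_of_nonneg_left (hN.2.2.2.2.1 z _ (by positivity)) (sq_nonneg _)
  have h4 : (1 : ℝ) ≤ 4 ^ n := one_le_pow₀ (by norm_num)
  have hC4 : 0 ≤ C * 4 ^ n := by positivity
  rw [flatness, Real.sqrt_le_left (by positivity), div_le_iff₀ (by positivity)]
  refine h1.trans ?_
  rw [mul_pow, mul_pow, mul_pow, show b ^ 2 * l ^ 2 * (C * (4 ^ n * l ^ n)) =
    b ^ 2 * (C * 4 ^ n) * l ^ (n + 2) by rw [pow_add]; ring]
  refine mul_le_mul_of_nonneg_right (mul_le_mul_of_nonneg_left ?_ (sq_nonneg b)) (by positivity)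
  nlinarith

lemma beta_le (hN : Nice n C A ν x₀ R) (hnd : n ≤ Module.finrank ℝ E) (z : E) {l : ℝ}
    (hl : 0 < l) : beta n ν z l ≤ 4 * (C * 4 ^ n + 1) := by
  obtain ⟨W, hW⟩ := exists_finrank_submodule (E := E) hnd
  refine (beta_le_flatness (p := z) hW).trans (flatness_le_sup hN hl (by norm_num) fun y _ hy => ?_)
  refine (norm_perp_le W _).trans ?_
  rw [← dist_eq_norm]
  exact hy.le

/-- Every cell has a flat descendant within boundedly many generations. -/
lemma exists_flat_descendant (hn : 1 ≤ n) (hnd : n ≤ Module.finrank ℝ E) (hC : 1 ≤ C)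
    {c : ℝ → ℝ} {ε : ℝ} (hε : 0 < ε) :
    ∃ J : ℕ, ∀ (ν : Measure E) (x₀ : E) (R A : ℝ), Nice n C A ν x₀ R → FlatAt n c ν x₀ R →
      ∀ (D : Cells ν x₀ R) (k : ℕ), ∀ z ∈ D.inner k, ∃ i, i ≤ J ∧ ∃ w ∈ D.inner (k + i),
        D.anc (k + i) w k = z ∧ cellB n D (k + i) w ≤ ε := by
  have hC0 : 0 < C := lt_of_lt_of_le one_pos hC
  set P := C * 4 ^ n + 1 with hP
  have hP0 : 0 < P := by positivity
  set X := 1 + 6 * P with hX
  have hX0 : 0 < X := by positivity
  obtain ⟨J0, hJ0⟩ := exists_pow_lt_of_lt_one (show 0 < ε / 2 / X by positivity)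
    (show (1 / 4 : ℝ) < 1 by norm_num)
  set ε' := ε / 4 / (96 * 16 ^ J0 * P) with hε'
  have hε'0 : 0 < ε' := by positivity
  set c0 := min (c ε') 1
  have hc1 : c0 ≤ c ε' := min_le_left _ _
  by_cases hcpos : 0 < c ε'
  swap
  · exact ⟨0, fun ν x₀ R A _ hflat => absurd (hflat ε' hε'0).1 hcpos⟩
  obtain ⟨i1, hi1⟩ := exists_pow_lt_of_lt_one (show 0 < c ε' / 24 by positivity)
    (show (1 / 16 : ℝ) < 1 by norm_num)
  refine ⟨i1 + J0, fun ν x₀ R A hN hflat D k z hz => ?_⟩
  haveI := hN.finite
  have hR : 0 < R := hN.2.2.1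
  have hsk := scale_pos' hR k
  have hlek := scale_le' hR k
  obtain ⟨hzs, -⟩ := D.mem_support k z (D.inner_subset hz)
  obtain ⟨-, hball⟩ := hflat ε' hε'0
  obtain ⟨x', hx', r', hr', hsub, W, hW, hWflat⟩ :=
    hball z hzs (by linarith [D.dist_inner hR hz]) (scale R k / 4) (by positivity) (by linarith)
  have hr'0 : 0 < r' := lt_of_lt_of_le (by positivity) hr'
  have hr'up : r' ≤ scale R k / 4 := by
    haveI : Nontrivial E := Module.finrank_pos_iff.1 (lt_of_lt_of_le hn hnd)
    obtain ⟨u, hu⟩ := exists_ne (0 : E)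
    set v := (r' / ‖u‖) • u
    have hv : ‖v‖ = r' := by
      rw [norm_smul, Real.norm_eq_abs, abs_div, abs_norm, abs_of_pos hr'0,
        div_mul_cancel₀ _ (norm_ne_zero_iff.2 hu)]
    have h1 : x' + v ∈ Metric.closedBall x' r' := by
      rw [Metric.mem_closedBall, dist_eq_norm, add_sub_cancel_left, hv]
    have h2 : x' - v ∈ Metric.closedBall x' r' := by
      rw [Metric.mem_closedBall, dist_eq_norm, sub_sub_cancel_left, norm_neg, hv]
    have h3 := hsub h1
    have h4 := hsub h2
    rw [Metric.mem_ball] at h3 h4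
    have h5 := dist_triangle_right (x' + v) (x' - v) z
    rw [dist_eq_norm (x' + v), show x' + v - (x' - v) = (2 : ℝ) • v by rw [two_smul]; abel,
      norm_smul, hv, Real.norm_ofNat] at h5
    linarith
  -- the first generation inside the flat ball
  have hex : ∃ t, 6 * scale R (k + t) ≤ r' := by
    refine ⟨i1, le_trans ?_ hr'⟩
    have e : scale R (k + i1) = scale R k * (1 / 16 : ℝ) ^ i1 := by
      rw [scale, scale, show k + i1 + 4 = k + 4 + i1 by ring, pow_add]; ring
    rw [e]
    have := mul_le_mul_of_nonneg_left hi1.le hsk.le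
    linarith
  set t0 := Nat.find hex with ht0
  have ht0i : t0 ≤ i1 := by
    refine Nat.find_min' hex (le_trans ?_ hr')
    have e : scale R (k + i1) = scale R k * (1 / 16 : ℝ) ^ i1 := by
      rw [scale, scale, show k + i1 + 4 = k + 4 + i1 by ring, pow_add]; ring
    rw [e]
    have := mul_le_mul_of_nonneg_left hi1.le hsk.le
    linarith
  set m0 := k + t0 with hm0
  have hs6 : 6 * scale R m0 ≤ r' := Nat.find_spec hex
  have hlow : r' ≤ 96 * scale R m0 := by
    rcases Nat.eq_zero_or_pos t0 with h | h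
    · rw [hm0, h, add_zero]; linarith
    · have h6 := Nat.find_min hex (show t0 - 1 < t0 by omega)
      have h7 := scale_succ' R (k + (t0 - 1))
      rw [show k + (t0 - 1) + 1 = m0 by omega] at h7
      linarith [not_le.1 h6]
  -- the cell at the last generation containing the centre of the flat ball
  have hx'cell : x' ∈ D.cell k z :=
    D.ball_subset k z (D.inner_subset hz) (by linarith [D.dist_inner hR hz])
      ⟨hx', hsub (Metric.mem_closedBall_self hr'0.le)⟩
  obtain ⟨w, hwZ, hx'w⟩ := D.exists_cell_of_inner (l := k + (t0 + J0)) hR hz hx'cell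
  obtain ⟨hw, hanc⟩ := D.inner_of_mem hz (Nat.le_add_right k _) hwZ hx'w hx'cell
  refine ⟨t0 + J0, by omega, w, hw, hanc, ?_⟩
  -- betas: bounded everywhere, small inside the flat ball
  have hbig : ∀ j ≤ k + (t0 + J0), cellB n D j (D.anc (k + (t0 + J0)) w j) ≤ X := by
    intro j
    induction j with
    | zero =>
      intro _
      rw [cellB, bHat, Finset.Icc_self, Finset.sum_singleton]
      simp only [Nat.sub_self, pow_zero, one_mul]
      have := beta_le hN hnd (D.anc 0 (D.anc (k + (t0 + J0)) w 0) 0) (scale_pos' hR 0)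
      rw [← hP] at this
      linarith
    | succ j ih =>
      intro hj
      have hp : D.parent j (D.anc (k + (t0 + J0)) w (j + 1)) = D.anc (k + (t0 + J0)) w j := by
        have hy := D.inner_mem_cell hR hw
        have hj1 := D.anc_inner hw (j + 1) hj
        exact D.eq_of_mem (D.parent_mem j _ (D.inner_subset hj1))
          (D.inner_subset (D.anc_inner hw j (by omega)))
          (D.cell_subset j _ (D.inner_subset hj1) (D.cell_subset_anc hw (j + 1) hj hy))
          (D.cell_subset_anc hw j (by omega) hy)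
      rw [cellB_succ, hp]
      have := beta_le hN hnd (D.anc (k + (t0 + J0)) w (j + 1)) (scale_pos' hR (j + 1))
      rw [← hP] at this
      linarith [ih (by omega)]
  have hsmall : ∀ j, m0 ≤ j → j ≤ k + (t0 + J0) →
      beta n ν (D.anc (k + (t0 + J0)) w j) (scale R j) ≤ ε / 4 := by
    intro j hj1 hj2
    have hsj := scale_pos' hR j
    have hscale : scale R m0 ≤ scale R j * 16 ^ J0 := by
      obtain ⟨d, rfl⟩ := Nat.exists_eq_add_of_le hj1
      rw [scale, scale, show m0 + d + 4 = m0 + 4 + d by ring, pow_add _ (m0 + 4) d]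
      have h1 : (1 / 16 : ℝ) ^ J0 ≤ (1 / 16) ^ d :=
        pow_le_pow_of_le_one (by norm_num) (by norm_num) (by omega)
      have h2 : (1 / 16 : ℝ) ^ J0 * 16 ^ J0 = 1 := by rw [← mul_pow]; norm_num
      have h3 := mul_le_mul_of_nonneg_right h1 (show (0 : ℝ) ≤ 16 ^ J0 by positivity)
      have h4 : 0 ≤ R * (1 / 16 : ℝ) ^ (m0 + 4) := by positivity
      nlinarith
    have hmono : scale R j ≤ scale R m0 :=
      mul_le_mul_of_nonneg_left (pow_le_pow_of_le_one (by norm_num) (by norm_num) (by omega)) hR.le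
    set b := ε' * r' / scale R j with hb
    have hb0 : 0 ≤ b := by positivity
    refine (beta_le_flatness (p := x') hW).trans ((flatness_le_sup hN hsj hb0 fun y hy hyd => ?_).trans ?_)
    · have hcj : dist x' (D.anc (k + (t0 + J0)) w j) ≤ 2 * scale R j :=
        (D.subset_ball j _ (D.inner_subset (D.anc_inner hw j hj2))
          (D.cell_subset_anc hw j hj2 hx'w)).2
      obtain ⟨v, hv, hvd⟩ := hWflat y hy (by
        linarith [dist_triangle_right y x' (D.anc (k + (t0 + J0)) w j)])
      have e : perp W (y - x') = perp W (y - (x' + v)) := by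
        rw [show y - (x' + v) = y - x' - v by abel, perp_sub W (y - x') v, perp_eq_zero hv,
          sub_zero]
      rw [e, hb, div_mul_cancel₀ _ hsj.ne']
      exact (norm_perp_le W _).trans (by rw [← dist_eq_norm]; exact hvd)
    · rw [hb, ← hP, div_mul_eq_mul_div, div_le_iff₀ hsj]
      have h8 : r' ≤ 96 * 16 ^ J0 * scale R j := by linarith
      have e : ε' * (96 * 16 ^ J0 * P) = ε / 4 := div_mul_cancel₀ _ (by positivity)
      calc ε' * r' * P ≤ ε' * (96 * 16 ^ J0 * scale R j) * P := by gcongr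
        _ = ε' * (96 * 16 ^ J0 * P) * scale R j := by ring
        _ = _ := by rw [e]
  -- the descent
  have hdec : ∀ t ≤ J0, cellB n D (m0 + t) (D.anc (k + (t0 + J0)) w (m0 + t)) ≤
      (1 / 4 : ℝ) ^ t * X + ε / 2 := by
    intro t
    induction t with
    | zero =>
      intro _
      rw [pow_zero, one_mul, add_zero]
      linarith [hbig m0 (by omega)]
    | succ t ih =>
      intro ht
      have hj : m0 + t + 1 ≤ k + (t0 + J0) := by omega
      have hp : D.parent (m0 + t) (D.anc (k + (t0 + J0)) w (m0 + t + 1)) =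
          D.anc (k + (t0 + J0)) w (m0 + t) := by
        have hy := D.inner_mem_cell hR hw
        have hj1 := D.anc_inner hw _ hj
        exact D.eq_of_mem (D.parent_mem _ _ (D.inner_subset hj1))
          (D.inner_subset (D.anc_inner hw _ (by omega)))
          (D.cell_subset _ _ (D.inner_subset hj1) (D.cell_subset_anc hw _ hj hy))
          (D.cell_subset_anc hw _ (by omega) hy)
      rw [← add_assoc, cellB_succ, hp, pow_succ]
      linarith [ih (by omega), hsmall (m0 + t + 1) (by omega) hj]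
  have h9 := hdec J0 le_rfl
  rw [show m0 + J0 = k + (t0 + J0) by omega, D.anc_of_ge w le_rfl] at h9
  rw [lt_div_iff₀ hX0] at hJ0
  linarith

/-- The cells that are not flat are controlled by the entries below them. -/
lemma exists_sum_notFlat_le (hn : 1 ≤ n) (hnd : n ≤ Module.finrank ℝ E) (hC : 1 ≤ C)
    {c : ℝ → ℝ} {ε : ℝ} (hε : 0 < ε) :
    ∃ J : ℕ, ∃ Λ : ℝ, 0 ≤ Λ ∧ ∀ (ν : Measure E) (x₀ : E) (R A : ℝ), Nice n C A ν x₀ R →
      FlatAt n c ν x₀ R → ∀ (D : Cells ν x₀ R) (M : ℕ),
        ∑ k ∈ Finset.range M, ∑ z ∈ (D.inner k).filter (fun z => ¬cellB n D k z ≤ ε),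
            ν.real (D.cell k z) ≤
          Λ * ∑ k ∈ Finset.range (M + J), ∑ w ∈ entries n D ε k, ν.real (D.cell (k + 1) w) := by
  obtain ⟨J, hJ⟩ := exists_flat_descendant (E := E) (c := c) hn hnd hC hε
  have hC0 : 0 < C := lt_of_lt_of_le one_pos hC
  set Λ0 := C ^ 2 * 12 ^ n * (16 : ℝ) ^ (J * n) with hΛ0
  refine ⟨J, Λ0 * J, by positivity, fun ν x₀ R A hN hflat D M => ?_⟩
  haveI := hN.finite
  have hR : 0 < R := hN.2.2.1
  set Fib := fun (k t : ℕ) (z : E) =>
    (entries n D ε (k + t)).filter fun u => D.anc (k + t + 1) u k = z with hFib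
  have hone : ∀ k, ∀ z ∈ (D.inner k).filter (fun z => ¬cellB n D k z ≤ ε),
      ν.real (D.cell k z) ≤
        Λ0 * ∑ t ∈ Finset.range J, ∑ u ∈ Fib k t z, ν.real (D.cell (k + t + 1) u) := by
    intro k z hz
    obtain ⟨hz, hzb⟩ := Finset.mem_filter.1 hz
    obtain ⟨i, hiJ, w, hw, hanc, hwb⟩ := hJ ν x₀ R A hN hflat D k z hz
    have hex : ∃ t, cellB n D (k + t) (D.anc (k + i) w (k + t)) ≤ ε :=
      ⟨i, by rw [D.anc_of_ge w le_rfl]; exact hwb⟩
    have hti : Nat.find hex ≤ i := Nat.find_min' hex (by rw [D.anc_of_ge w le_rfl]; exact hwb)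
    have hspec := Nat.find_spec hex
    have hpos : Nat.find hex ≠ 0 := by
      intro h
      rw [h, add_zero, hanc] at hspec
      exact hzb hspec
    obtain ⟨t, ht⟩ : ∃ t, Nat.find hex = t + 1 := ⟨Nat.find hex - 1, by omega⟩
    rw [ht, ← add_assoc] at hspec
    have hmin := Nat.find_min hex (show t < Nat.find hex by omega)
    set u := D.anc (k + i) w (k + t + 1)
    have hu : u ∈ D.inner (k + t + 1) := D.anc_inner hw _ (by omega)
    have hy := D.inner_mem_cell hR hw
    have hyu := D.cell_subset_anc hw (k + t + 1) (by omega) hy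
    have hpu : D.parent (k + t) u = D.anc (k + i) w (k + t) :=
      D.eq_of_mem (D.parent_mem _ _ (D.inner_subset hu))
        (D.inner_subset (D.anc_inner hw _ (by omega)))
        (D.cell_subset _ _ (D.inner_subset hu) hyu) (D.cell_subset_anc hw _ (by omega) hy)
    have hyz : w ∈ D.cell k z := hanc ▸ D.cell_subset_anc hw k (by omega) hy
    have huz := (D.inner_of_mem hz (show k ≤ k + t + 1 by omega) (D.inner_subset hu) hyu hyz).2
    have hmem : u ∈ Fib k t z :=
      Finset.mem_filter.2 ⟨Finset.mem_filter.2 ⟨hu, hspec, by rw [hpu]; exact hmin⟩, huz⟩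
    have hvol : ν.real (D.cell k z) ≤ Λ0 * ν.real (D.cell (k + t + 1) u) := by
      refine (D.measure_cell_le hN hz).trans
        (le_trans ?_ (mul_le_mul_of_nonneg_left (D.le_measure_cell hN hu) (by positivity)))
      have e : scale R (k + t + 1) = scale R k * (1 / 16 : ℝ) ^ (t + 1) := by
        rw [scale, scale, show k + t + 1 + 4 = k + 4 + (t + 1) by ring, pow_add]; ring
      have h1 : (1 / 16 : ℝ) ^ J ≤ (1 / 16) ^ (t + 1) :=
        pow_le_pow_of_le_one (by norm_num) (by norm_num) (by omega)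
      have h2 : (16 : ℝ) ^ J * (1 / 16) ^ J = 1 := by rw [← mul_pow]; norm_num
      have h3 : 3 * scale R k ≤ 12 * 16 ^ J * (scale R (k + t + 1) / 4) := by
        rw [e]
        have := mul_le_mul_of_nonneg_left h1
          (mul_nonneg (show (0 : ℝ) ≤ 16 ^ J by positivity) (scale_pos' hR k).le)
        nlinarith [scale_pos' hR k]
      refine (mul_le_mul_of_nonneg_left (pow_le_pow_left₀
        (mul_nonneg (by norm_num) (scale_pos' hR k).le) h3 n) hC0.le).trans (le_of_eq ?_)
      rw [hΛ0, mul_pow, mul_pow, pow_mul]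
      field_simp
    refine hvol.trans (mul_le_mul_of_nonneg_left ?_ (by positivity))
    exact (Finset.single_le_sum (fun u _ => measureReal_nonneg) hmem).trans
      (Finset.single_le_sum (f := fun t => ∑ u ∈ Fib k t z, ν.real (D.cell (k + t + 1) u))
        (fun t _ => Finset.sum_nonneg fun u _ => measureReal_nonneg)
        (Finset.mem_range.2 (by omega : t < J)))
  set q := fun j => ∑ u ∈ entries n D ε j, ν.real (D.cell (j + 1) u)
  have hfib : ∀ k t, ∑ z ∈ (D.inner k).filter (fun z => ¬cellB n D k z ≤ ε),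
      ∑ u ∈ Fib k t z, ν.real (D.cell (k + t + 1) u) ≤ q (k + t) := by
    intro k t
    rw [← Finset.sum_biUnion]
    · exact Finset.sum_le_sum_of_subset_of_nonneg
        (Finset.biUnion_subset.2 fun z _ => Finset.filter_subset _ _) fun u _ _ => measureReal_nonneg
    · intro a _ b _ hab
      rw [Function.onFun, Finset.disjoint_left]
      intro u hua hub
      exact hab ((Finset.mem_filter.1 hua).2.symm.trans (Finset.mem_filter.1 hub).2)
  calc ∑ k ∈ Finset.range M, ∑ z ∈ (D.inner k).filter (fun z => ¬cellB n D k z ≤ ε),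
        ν.real (D.cell k z)
      ≤ ∑ k ∈ Finset.range M, ∑ z ∈ (D.inner k).filter (fun z => ¬cellB n D k z ≤ ε),
          Λ0 * ∑ t ∈ Finset.range J, ∑ u ∈ Fib k t z, ν.real (D.cell (k + t + 1) u) :=
        Finset.sum_le_sum fun k _ => Finset.sum_le_sum (hone k)
    _ ≤ ∑ k ∈ Finset.range M, Λ0 * ∑ t ∈ Finset.range J, q (k + t) :=
        Finset.sum_le_sum fun k _ => by
          rw [← Finset.mul_sum, Finset.sum_comm]
          exact mul_le_mul_of_nonneg_left (Finset.sum_le_sum fun t _ => hfib k t) (by positivity)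
    _ = Λ0 * ∑ t ∈ Finset.range J, ∑ k ∈ Finset.range M, q (k + t) := by
        rw [← Finset.mul_sum, Finset.sum_comm]
    _ ≤ Λ0 * ∑ _t ∈ Finset.range J, ∑ j ∈ Finset.range (M + J), q j := by
        refine mul_le_mul_of_nonneg_left (Finset.sum_le_sum fun t ht => ?_) (by positivity)
        rw [← Finset.sum_image (f := q) (g := fun k => k + t) (by intro a _ b _ h; simpa using h)]
        refine Finset.sum_le_sum_of_subset_of_nonneg ?_
          fun j _ _ => Finset.sum_nonneg fun u _ => measureReal_nonneg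
        intro j hj
        obtain ⟨a, ha, rfl⟩ := Finset.mem_image.1 hj
        rw [Finset.mem_range] at ha ht ⊢
        omega
    _ = _ := by rw [Finset.sum_const, Finset.card_range, nsmul_eq_mul]; ring

end

end Vale.Agent.P120.Full
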