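import Vale.Agent.P120.Full.Defs

/-!
# P120, full answer: the interface of the nested cells
-/

namespace Vale.Agent.P120.Full

open MeasureTheory Set

variable {E : Type*} [NormedAddCommGroup E] [InnerProductSpace ℝ E] [MeasurableSpace E]
  [BorelSpace E]

/-- Nested cells around separated nets, generation `k` living at `scale R k`, over the part of the
support within `R / 32` of `x₀`. -/
structure Cells (ν : Measure E) (x₀ : E) (R : ℝ) where
  Z : ℕ → Finset E
  cell : ℕ → E → Set E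
  parent : ℕ → E → E
  mem_support : ∀ k, ∀ z ∈ Z k, z ∈ ν.support ∧ dist z x₀ ≤ R / 16
  separated : ∀ k, (↑(Z k) : Set E).Pairwise fun u v => scale R k ≤ dist u v
  measurableSet_cell : ∀ k, ∀ z ∈ Z k, MeasurableSet (cell k z)
  disjoint_cell : ∀ k, (↑(Z k) : Set E).PairwiseDisjoint (cell k)
  cover : ∀ k, ν.support ∩ Metric.ball x₀ (R / 32) ⊆ ⋃ z ∈ Z k, cell k z
  subset_ball : ∀ k, ∀ z ∈ Z k, cell k z ⊆ ν.support ∩ Metric.closedBall z (2 * scale R k)
  ball_subset : ∀ k, ∀ z ∈ Z k, dist z x₀ ≤ R / 64 →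
    ν.support ∩ Metric.ball z (scale R k / 4) ⊆ cell k z
  parent_mem : ∀ k, ∀ z ∈ Z (k + 1), parent k z ∈ Z k
  cell_subset : ∀ k, ∀ z ∈ Z (k + 1), cell (k + 1) z ⊆ cell k (parent k z)
  dist_parent : ∀ k, ∀ z ∈ Z (k + 1), dist z (parent k z) ≤ 2 * scale R k

/-- Module A: cells exist. -/
def CellsExist (E : Type*) [NormedAddCommGroup E] [InnerProductSpace ℝ E] [MeasurableSpace E]
    [BorelSpace E] (n : ℕ) : Prop :=
  ∀ (C A : ℝ) (ν : Measure E) (x₀ : E) (R : ℝ), Nice n C A ν x₀ R →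
    x₀ ∈ ν.support → Nonempty (Cells ν x₀ R)

end Vale.Agent.P120.Full
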