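import Vale.Agent.P120.Full.Defs

/-!
# P120, full answer: elementary facts about the pairing and the energy
-/

namespace Vale.Agent.P120.Full

open MeasureTheory Set Filter
open scoped Topology RealInnerProductSpace ENNReal

noncomputable section

variable {E : Type*} [NormedAddCommGroup E] [InnerProductSpace ℝ E] [MeasurableSpace E]
  [BorelSpace E] {n : ℕ} {C A R : ℝ} {ν : Measure E} {x₀ : E}

lemma Nice.finite (h : Nice n C A ν x₀ R) : IsFiniteMeasure ν :=
  ⟨h.2.2.2.1.trans_lt ENNReal.ofReal_lt_top⟩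

lemma Nice.real_univ_le (h : Nice n C A ν x₀ R) : ν.real univ ≤ C * R ^ n :=
  ENNReal.toReal_le_of_le_ofReal
    (mul_nonneg (zero_le_one.trans h.1) (pow_nonneg h.2.2.1.le n)) h.2.2.2.1

lemma scale_pos (hR : 0 < R) (k : ℕ) : 0 < scale R k := mul_pos hR (by positivity)

lemma scale_le (hR : 0 < R) (k : ℕ) : scale R k ≤ R / 65536 := by
  have h : (1 / 16 : ℝ) ^ (k + 4) ≤ (1 / 16) ^ 4 :=
    pow_le_pow_of_le_one (by norm_num) (by norm_num) (by omega)
  rw [scale]
  calc R * (1 / 16 : ℝ) ^ (k + 4) ≤ R * (1 / 16) ^ 4 := mul_le_mul_of_nonneg_left h hR.le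
    _ = R / 65536 := by ring

/-- The uniform bound on potentials of order `n - 1`. -/
lemma Nice.integral_inv_pow_le [FiniteDimensional ℝ E] (hn : 1 ≤ n) (h : Nice n C A ν x₀ R)
    (z : E) :
    ∫⁻ y, ENNReal.ofReal ((dist z y ^ (n - 1))⁻¹) ∂ν ≤
      ENNReal.ofReal ((2 ^ n + 1) * C * R) := by
  have := h.finite
  obtain ⟨hC, -, hR, -, hgr, -, -⟩ := id h
  have hC0 : 0 ≤ C := zero_le_one.trans hC
  have hz : ν {z} = 0 := by
    have hle : ∀ t : ℝ, 0 < t → ν.real {z} ≤ C * t ^ n := fun t ht =>
      (measureReal_mono (Set.singleton_subset_iff.2 (Metric.mem_ball_self ht))).trans (hgr z t ht)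
    have hlim : Tendsto (fun t : ℝ => C * t ^ n) (𝓝[>] 0) (𝓝 0) := by
      have hc : Continuous fun t : ℝ => C * t ^ n := by fun_prop
      simpa [zero_pow (by omega : n ≠ 0)] using (hc.tendsto 0).mono_left nhdsWithin_le_nhds
    have h0 : ν.real {z} ≤ 0 := ge_of_tendsto hlim (eventually_nhdsWithin_of_forall hle)
    exact (measureReal_eq_zero_iff).1 (le_antisymm h0 measureReal_nonneg)
  set f := fun y : E => (dist z y ^ (n - 1))⁻¹ with hf
  have hfar : ∫⁻ y in {y | R ≤ dist z y}, ENNReal.ofReal (f y) ∂ν ≤ ENNReal.ofReal (C * R) := by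
    refine (setLIntegral_mono measurable_const fun y (hy : R ≤ dist z y) => ENNReal.ofReal_le_ofReal
      (inv_anti₀ (pow_pos hR _) (pow_le_pow_left₀ hR.le hy _))).trans ?_
    refine (setLIntegral_const _ _).trans_le ?_
    calc ENNReal.ofReal ((R ^ (n - 1))⁻¹) * ν {y | R ≤ dist z y}
        ≤ ENNReal.ofReal ((R ^ (n - 1))⁻¹) * ENNReal.ofReal (C * R ^ n) := by
          gcongr
          exact (measure_mono (subset_univ _)).trans h.2.2.2.1
      _ = _ := by
          rw [← ENNReal.ofReal_mul (by positivity)]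
          congr 1
          obtain ⟨m, rfl⟩ : ∃ m, n = m + 1 := ⟨n - 1, by omega⟩
          simp only [Nat.add_sub_cancel, pow_succ]
          field_simp
  set S : ℕ → Set E := fun j => annulus z (1 / (j + 1 : ℝ)) R with hS
  have hmono : Monotone S := fun i j hij y hy =>
    ⟨le_trans (one_div_le_one_div_of_le (by positivity) (by exact_mod_cast Nat.add_le_add_right hij 1))
      hy.1, hy.2⟩
  have hnear : ∫⁻ y in ⋃ j, S j, ENNReal.ofReal (f y) ∂ν ≤ ENNReal.ofReal (2 ^ n * C * R) := by
    rw [setLIntegral_iUnion_of_directed _ hmono.directed_le]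
    refine iSup_le fun j => ?_
    have hint : IntegrableOn f (S j) ν :=
      integrableOn_inv_pow z (by positivity : (0 : ℝ) < 1 / (j + 1 : ℝ)) (n - 1)
        (measurableSet_annulus _ _ _) fun y hy => hy.1
    rw [← ofReal_integral_eq_lintegral_ofReal hint
      (Eventually.of_forall fun y => by simp only [hf, Pi.zero_apply]; positivity)]
    exact ENNReal.ofReal_le_ofReal (inner_integral_le hn hgr hC0 z (by positivity) hR)
  have hsub : (univ : Set E) ⊆ ({z} ∪ ⋃ j, S j) ∪ {y | R ≤ dist z y} := by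
    intro y _
    by_cases hy : R ≤ dist z y
    · exact Or.inr hy
    · refine Or.inl ?_
      by_cases hyz : y = z
      · exact Or.inl (mem_singleton_iff.2 hyz)
      · obtain ⟨j, hj⟩ := exists_nat_one_div_lt (dist_pos.2 (Ne.symm hyz))
        exact Or.inr (mem_iUnion.2 ⟨j, hj.le, not_le.1 hy⟩)
  calc ∫⁻ y, ENNReal.ofReal (f y) ∂ν
      = ∫⁻ y in univ, ENNReal.ofReal (f y) ∂ν := (setLIntegral_univ _).symm
    _ ≤ ∫⁻ y in ({z} ∪ ⋃ j, S j) ∪ {y | R ≤ dist z y}, ENNReal.ofReal (f y) ∂ν :=
        lintegral_mono_set hsub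
    _ ≤ ((∫⁻ y in {z}, ENNReal.ofReal (f y) ∂ν) + ∫⁻ y in ⋃ j, S j, ENNReal.ofReal (f y) ∂ν) +
          ∫⁻ y in {y | R ≤ dist z y}, ENNReal.ofReal (f y) ∂ν :=
        (lintegral_union_le _ _ _).trans (add_le_add (lintegral_union_le _ _ _) le_rfl)
    _ ≤ ENNReal.ofReal (2 ^ n * C * R) + ENNReal.ofReal (C * R) := by
        rw [setLIntegral_measure_zero _ _ hz, zero_add]
        exact add_le_add hnear hfar
    _ = _ := by
        rw [← ENNReal.ofReal_add (by positivity) (by positivity)]
        congr 1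
        ring

lemma Nice.integrable_inv_pow_prod [FiniteDimensional ℝ E] (hn : 1 ≤ n) (h : Nice n C A ν x₀ R) :
    Integrable (fun p : E × E => (dist p.1 p.2 ^ (n - 1))⁻¹) (ν.prod ν) := by
  have := h.finite
  refine ⟨Measurable.aestronglyMeasurable (by fun_prop), ?_⟩
  rw [hasFiniteIntegral_iff_ofReal (Eventually.of_forall fun p => by positivity),
    lintegral_prod _ (Measurable.aemeasurable (by fun_prop))]
  refine (lintegral_mono fun x => h.integral_inv_pow_le hn x).trans_lt ?_
  rw [lintegral_const]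
  exact ENNReal.mul_lt_top ENNReal.ofReal_lt_top (measure_lt_top _ _)

variable {φ ψ : E → E}

lemma abs_inner_sub_kernel_le (hn : 1 ≤ n) {L : NNReal} (hφ : LipschitzWith L φ) (x y : E) :
    |⟪φ x - φ y, kernel n (x - y)⟫| ≤ L * (dist x y ^ (n - 1))⁻¹ := by
  rcases eq_or_ne x y with rfl | hxy
  · rw [sub_self (φ x), inner_zero_left, abs_zero]
    positivity
  · refine (abs_real_inner_le_norm _ _).trans ?_
    have h1 : ‖φ x - φ y‖ ≤ L * dist x y := by rw [← dist_eq_norm]; exact hφ.dist_le_mul x y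
    have h2 := norm_kernel_le n (x - y)
    rw [← dist_eq_norm] at h2
    refine (mul_le_mul h1 h2 (norm_nonneg _) (by positivity)).trans (le_of_eq ?_)
    have h0 : dist x y ≠ 0 := dist_ne_zero.2 hxy
    obtain ⟨m, rfl⟩ : ∃ m, n = m + 1 := ⟨n - 1, by omega⟩
    rw [Nat.add_sub_cancel, pow_succ]
    field_simp

lemma Nice.integrable_pair [FiniteDimensional ℝ E] (hn : 1 ≤ n) (h : Nice n C A ν x₀ R)
    {L : NNReal} (hφ : LipschitzWith L φ) :
    Integrable (fun p : E × E => ⟪φ p.1 - φ p.2, kernel n (p.1 - p.2)⟫) (ν.prod ν) := by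
  refine ((h.integrable_inv_pow_prod hn).const_mul (L : ℝ)).mono' ?_
    (Eventually.of_forall fun p => abs_inner_sub_kernel_le hn hφ p.1 p.2)
  have := hφ.continuous.measurable
  exact ((this.comp measurable_fst).sub (this.comp measurable_snd)).inner
    ((measurable_kernel n).comp (measurable_fst.sub measurable_snd)) |>.aestronglyMeasurable

lemma Nice.integrable_energy [FiniteDimensional ℝ E] (hn : 1 ≤ n) (h : Nice n C A ν x₀ R)
    {L : NNReal} (hφ : LipschitzWith L φ) :
    Integrable (fun p : E × E => ‖φ p.1 - φ p.2‖ ^ 2 / dist p.1 p.2 ^ (n + 1)) (ν.prod ν) := by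
  refine ((h.integrable_inv_pow_prod hn).const_mul ((L : ℝ) ^ 2)).mono' ?_
    (Eventually.of_forall fun p => ?_)
  · have := hφ.continuous
    exact (Measurable.div (by fun_prop) (by fun_prop)).aestronglyMeasurable
  · rw [Real.norm_eq_abs, abs_of_nonneg (by positivity)]
    rcases eq_or_ne (dist p.1 p.2) 0 with h0 | h0
    · rw [h0, zero_pow (by omega : n + 1 ≠ 0), div_zero]; positivity
    · have h1 : ‖φ p.1 - φ p.2‖ ≤ L * dist p.1 p.2 := by
        rw [← dist_eq_norm]; exact hφ.dist_le_mul _ _
      refine (div_le_div_of_nonneg_right (pow_le_pow_left₀ (norm_nonneg _) h1 2)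
        (by positivity)).trans (le_of_eq ?_)
      obtain ⟨m, rfl⟩ : ∃ m, n = m + 1 := ⟨n - 1, by omega⟩
      rw [Nat.add_sub_cancel]
      field_simp
      ring

lemma energy_nonneg (n : ℕ) (ν : Measure E) (φ : E → E) : 0 ≤ energy n ν φ :=
  integral_nonneg fun p => by positivity

lemma Nice.memLp_lipschitz [FiniteDimensional ℝ E] (h : Nice n C A ν x₀ R) {L : NNReal}
    (hφ : LipschitzWith L φ) (hb : ∃ K, ∀ x, ‖φ x‖ ≤ K) : MemLp φ 2 ν := by
  have := h.finite
  obtain ⟨K, hK⟩ := hb
  exact MemLp.of_bound hφ.continuous.aestronglyMeasurable K (Eventually.of_forall hK)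

/-- The Riesz bound turns into a bound of the pairing by the `L²` norm. -/
theorem abs_pair_le [FiniteDimensional ℝ E] (hn : 1 ≤ n) (h : Nice n C A ν x₀ R)
    {L : NNReal} (hφ : LipschitzWith L φ) {K : ℝ} (hK : ∀ x, ‖φ x‖ ≤ K) :
    |pair n ν φ| ≤ Real.sqrt (A ^ 2 * ν.real univ) * Real.sqrt (∫ y, ‖φ y‖ ^ 2 ∂ν) := by
  have := h.finite
  set G : E × E → ℝ := fun p => ⟪φ p.1 - φ p.2, kernel n (p.1 - p.2)⟫ with hG
  have hGint : Integrable G (ν.prod ν) := h.integrable_pair hn hφ
  set e : ℕ → ℝ := fun j => 1 / (j + 1 : ℝ) with he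
  set F : ℕ → E × E → ℝ := fun j => ({p : E × E | e j < dist p.1 p.2}).indicator G with hF
  have hms : ∀ t : ℝ, MeasurableSet {p : E × E | t < dist p.1 p.2} := fun t =>
    measurableSet_lt measurable_const (by fun_prop)
  have hlim : Tendsto (fun j => ∫ p, F j p ∂(ν.prod ν)) atTop (𝓝 (∫ p, G p ∂(ν.prod ν))) := by
    refine tendsto_integral_of_dominated_convergence (fun p => ‖G p‖)
      (fun j => (hGint.indicator (hms _)).aestronglyMeasurable) hGint.norm
      (fun j => Eventually.of_forall fun p => norm_indicator_le_norm_self _ _)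
      (Eventually.of_forall fun p => ?_)
    rcases eq_or_ne p.1 p.2 with hp | hp
    · have : ∀ j, F j p = G p := fun j => by
        simp [hF, hG, Set.indicator, hp]
      simp [this]
    · refine tendsto_const_nhds.congr' ?_
      have hev : ∀ᶠ j in atTop, e j < dist p.1 p.2 :=
        (tendsto_one_div_add_atTop_nhds_zero_nat).eventually_lt_const (dist_pos.2 hp)
      filter_upwards [hev] with j hj
      simp [hF, Set.indicator, hj]
  have hj : ∀ j, |∫ p, F j p ∂(ν.prod ν)| ≤
      2 * (Real.sqrt (A ^ 2 * ν.real univ) * Real.sqrt (∫ y, ‖φ y‖ ^ 2 ∂ν)) := by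
    intro j
    have hej : 0 < e j := by positivity
    set H : E × E → ℝ := fun p => ({p : E × E | e j < dist p.1 p.2}).indicator
      (fun p => ⟪φ p.1, kernel n (p.1 - p.2)⟫) p with hH
    have hHint : Integrable H (ν.prod ν) := by
      refine Integrable.of_bound (C := K * (e j ^ n)⁻¹) ?_ (Eventually.of_forall fun p => ?_)
      · exact ((((hφ.continuous.measurable).comp measurable_fst).inner
          ((measurable_kernel n).comp (measurable_fst.sub measurable_snd))).indicator
            (hms _)).aestronglyMeasurable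
      · have hK0 : 0 ≤ K := (norm_nonneg _).trans (hK p.1)
        by_cases hp : e j < dist p.1 p.2
        · simp only [hH, indicator_of_mem (show p ∈ {p : E × E | e j < dist p.1 p.2} from hp)]
          refine (abs_real_inner_le_norm _ _).trans ?_
          have h2 := norm_kernel_le n (p.1 - p.2)
          rw [← dist_eq_norm] at h2
          exact mul_le_mul (hK _) (h2.trans (inv_anti₀ (by positivity)
            (pow_le_pow_left₀ hej.le hp.le _))) (norm_nonneg _) hK0
        · simp only [hH, indicator_of_notMem (show p ∉ {p : E × E | e j < dist p.1 p.2} from hp)]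
          rw [norm_zero]; positivity
    have hswap : ∫ p, F j p ∂(ν.prod ν) = 2 * ∫ p, H p ∂(ν.prod ν) := by
      have hanti : ∀ p, F j p = H p + H p.swap := by
        intro p
        simp only [hF, hH, hG, Set.indicator_apply, mem_setOf_eq, Prod.fst_swap, Prod.snd_swap,
          dist_comm p.2 p.1]
        split_ifs
        · rw [inner_sub_left, show p.2 - p.1 = -(p.1 - p.2) by abel,
            show kernel n (-(p.1 - p.2)) = -kernel n (p.1 - p.2) by
              rw [kernel, kernel, norm_neg, smul_neg], inner_neg_right]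
          ring
        · simp
      simp only [hanti]
      rw [integral_add hHint (show Integrable (fun p => H p.swap) (ν.prod ν) from hHint.swap),
        integral_prod_swap]
      ring
    have hinner : ∫ p, H p ∂(ν.prod ν) = ∫ x, ⟪φ x, trunc n ν (e j) univ x⟫ ∂ν := by
      rw [integral_prod _ hHint]
      refine integral_congr_ae (Eventually.of_forall fun x => ?_)
      simp only [trunc, univ_inter]
      rw [← integral_inner (integrableOn_kernel x hej (measurableSet_far _ x) fun y hy =>
        le_of_lt hy), ← integral_indicator (measurableSet_far _ x)]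
      exact integral_congr_ae (Eventually.of_forall fun y => by
        simp [hH, Set.indicator_apply])
    rw [hswap, hinner, abs_mul, abs_two]
    refine mul_le_mul_of_nonneg_left ?_ two_pos.le
    have hT : MemLp (trunc n ν (e j) univ) 2 ν :=
      MemLp.of_bound (stronglyMeasurable_trunc (e j) MeasurableSet.univ).aestronglyMeasurable _
        (Eventually.of_forall fun x => norm_trunc_le hej MeasurableSet.univ x)
    have hP : MemLp φ 2 ν := h.memLp_lipschitz hφ ⟨K, hK⟩
    calc |∫ x, ⟪φ x, trunc n ν (e j) univ x⟫ ∂ν|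
        ≤ ∫ x, ‖φ x‖ * ‖trunc n ν (e j) univ x‖ ∂ν := by
          rw [← Real.norm_eq_abs]
          refine (norm_integral_le_integral_norm _).trans (integral_mono_of_nonneg
            (Eventually.of_forall fun x => norm_nonneg _) (hP.norm.integrable_mul hT.norm)
            (Eventually.of_forall fun x => abs_real_inner_le_norm _ _))
      _ ≤ Real.sqrt (∫ y, ‖φ y‖ ^ 2 ∂ν) *
          Real.sqrt (∫ y, ‖trunc n ν (e j) univ y‖ ^ 2 ∂ν) := by
          have := integral_mul_le_Lp_mul_Lq_of_nonneg Real.HolderConjugate.two_two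
            (μ := ν) (Eventually.of_forall fun x => norm_nonneg (φ x))
            (Eventually.of_forall fun x => norm_nonneg (trunc n ν (e j) univ x))
            (by simpa using hP.norm) (by simpa using hT.norm)
          simpa [Real.sqrt_eq_rpow] using this
      _ ≤ Real.sqrt (∫ y, ‖φ y‖ ^ 2 ∂ν) * Real.sqrt (A ^ 2 * ν.real univ) :=
          mul_le_mul_of_nonneg_left (Real.sqrt_le_sqrt (h.2.2.2.2.2.2 _ hej)) (Real.sqrt_nonneg _)
      _ = _ := mul_comm _ _
  have hfin := le_of_tendsto hlim.abs (Eventually.of_forall hj)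
  rw [pair, abs_mul, abs_of_pos (by norm_num : (0 : ℝ) < 1 / 2)]
  linarith

lemma pair_sum [FiniteDimensional ℝ E] (hn : 1 ≤ n) (h : Nice n C A ν x₀ R) {ι : Type*}
    (s : Finset ι) (w : ι → ℝ) (f : ι → E → E) (hf : ∀ i ∈ s, ∃ L : NNReal, LipschitzWith L (f i)) :
    pair n ν (fun y => ∑ i ∈ s, w i • f i y) = ∑ i ∈ s, w i * pair n ν (f i) := by
  have hint : ∀ i ∈ s, Integrable (fun p : E × E =>
      w i * ⟪f i p.1 - f i p.2, kernel n (p.1 - p.2)⟫) (ν.prod ν) := fun i hi => by
    obtain ⟨L, hL⟩ := hf i hi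
    exact (h.integrable_pair hn hL).const_mul _
  simp only [pair, ← Finset.sum_sub_distrib, ← smul_sub, sum_inner, real_inner_smul_left]
  rw [integral_finsetSum _ hint, Finset.mul_sum]
  refine Finset.sum_congr rfl fun i _ => ?_
  rw [integral_const_mul]
  ring

end

end Vale.Agent.P120.Full
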