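import Vale.Agent.P120.Generations
import Vale.Agent.P120.Full.Cubes
import Vale.Agent.P120.Full.Pair

/-!
# P120, full answer: nested cells exist

Finite maximal separated nets, the nearest point of the previous net as parent, and for every point
the first chain (in a well ordering) among those that converge to it.
-/

namespace Vale.Agent.P120.Full

open MeasureTheory Set Filter
open scoped Topology

noncomputable section

variable {E : Type*} [NormedAddCommGroup E] [InnerProductSpace ℝ E] [MeasurableSpace E]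
  [BorelSpace E] [FiniteDimensional ℝ E]

lemma exists_finite_net {S : Set E} (hS : IsCompact S) {σ : ℝ} (hσ : 0 < σ) :
    ∃ Z : Finset E, ↑Z ⊆ S ∧ (↑Z : Set E).Pairwise (fun u v => σ ≤ dist u v) ∧
      ∀ x ∈ S, ∃ z ∈ Z, dist x z ≤ σ := by
  classical
  obtain ⟨t, -, htf, hcov⟩ := finite_cover_balls_of_compact hS (half_pos hσ)
  obtain ⟨Z, hZS, hZp, hZc⟩ := exists_sep (S := S) (σ := σ / 2) (N := htf.toFinset.card)
    fun Z hZ hp => by
      have hex : ∀ z ∈ Z, ∃ y ∈ t, dist z y < σ / 2 := fun z hz => by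
        simpa using hcov (hZ hz)
      choose! f hf hfd using hex
      refine Finset.card_le_card_of_injOn f (fun z hz => by simpa using hf z hz) ?_
      intro u hu v hv huv
      by_contra hne
      have h1 := hp hu hv hne
      have h2 := hfd u hu
      have h3 := hfd v hv
      rw [huv] at h2
      linarith [dist_triangle_right u v (f v)]
  refine ⟨Z, hZS, fun u hu v hv huv => ?_, fun x hx => ?_⟩
  · have := hZp hu hv huv
    show σ ≤ dist u v
    linarith
  · rcases hZc x hx with h | ⟨z, hz, hd⟩
    · exact ⟨x, h, by rw [dist_self]; exact hσ.le⟩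
    · exact ⟨z, hz, by linarith⟩

omit [InnerProductSpace ℝ E] [MeasurableSpace E] [BorelSpace E] [FiniteDimensional ℝ E] in
lemma exists_nearest (Z : Finset E) (z : E) :
    ∃ p : E, Z.Nonempty → p ∈ Z ∧ ∀ y ∈ Z, dist z p ≤ dist z y := by
  by_cases h : Z.Nonempty
  · obtain ⟨p, hp, hm⟩ := Z.exists_min_image (fun y => dist z y) h
    exact ⟨p, fun _ => ⟨hp, hm⟩⟩
  · exact ⟨z, fun h' => absurd h' h⟩

/-- Points within reach of the descendants of `z`, `j` generations down. -/
def reach (Z : ℕ → Finset E) (par : ℕ → E → E) (r : ℕ → ℝ) : ℕ → ℕ → E → Set E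
  | 0, k, z => Metric.closedBall z (2 * r k)
  | j + 1, k, z => ⋃ c ∈ {c | c ∈ Z (k + 1) ∧ par k c = z}, reach Z par r j (k + 1) c

/-- Points approached by descendants of `z` in every generation. -/
def lim (S : Set E) (Z : ℕ → Finset E) (par : ℕ → E → E) (r : ℕ → ℝ) (k : ℕ) (z : E) : Set E :=
  S ∩ ⋂ j, reach Z par r j k z

/-- The cells: the first chain converging to a point. -/
def cellSet (S : Set E) (Z : ℕ → Finset E) (par : ℕ → E → E) (r : ℕ → ℝ) : ℕ → E → Set E
  | 0, z => lim S Z par r 0 z \ ⋃ z' ∈ {z' | z' ∈ Z 0 ∧ WellOrderingRel z' z}, lim S Z par r 0 z'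
  | k + 1, z => cellSet S Z par r k (par k z) ∩ (lim S Z par r (k + 1) z \
      ⋃ z' ∈ {z' | z' ∈ Z (k + 1) ∧ par k z' = par k z ∧ WellOrderingRel z' z},
        lim S Z par r (k + 1) z')

variable {S : Set E} {Z : ℕ → Finset E} {par : ℕ → E → E} {r : ℕ → ℝ}

omit [InnerProductSpace ℝ E] [MeasurableSpace E] [BorelSpace E] [FiniteDimensional ℝ E] in
lemma isClosed_reach : ∀ j k z, IsClosed (reach Z par r j k z)
  | 0, _, _ => Metric.isClosed_closedBall
  | j + 1, k, _ => ((Z (k + 1)).finite_toSet.subset fun _ hc => hc.1).isClosed_biUnion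
      fun c _ => isClosed_reach j (k + 1) c

omit [InnerProductSpace ℝ E] [MeasurableSpace E] [BorelSpace E] [FiniteDimensional ℝ E] in
lemma cellSet_subset_lim : ∀ k z, cellSet S Z par r k z ⊆ lim S Z par r k z
  | 0, _ => fun _ hx => hx.1
  | _ + 1, _ => fun _ hx => hx.2.1

omit [InnerProductSpace ℝ E] [FiniteDimensional ℝ E] in
lemma measurableSet_cellSet (hS : IsClosed S) : ∀ k z, MeasurableSet (cellSet S Z par r k z) := by
  have hl : ∀ k z, MeasurableSet (lim S Z par r k z) := fun k z =>
    hS.measurableSet.inter (MeasurableSet.iInter fun j => (isClosed_reach j k z).measurableSet)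
  intro k
  induction k with
  | zero =>
    intro z
    exact (hl 0 z).diff (MeasurableSet.biUnion
      ((Z 0).finite_toSet.subset fun _ h => h.1).countable fun c _ => hl 0 c)
  | succ k ih =>
    intro z
    exact (ih _).inter ((hl _ z).diff (MeasurableSet.biUnion
      ((Z (k + 1)).finite_toSet.subset fun _ h => h.1).countable fun c _ => hl _ c))

omit [InnerProductSpace ℝ E] [MeasurableSpace E] [BorelSpace E] [FiniteDimensional ℝ E] in
lemma disjoint_cellSet (hpm : ∀ k z, par k z ∈ Z k) :
    ∀ k, (↑(Z k) : Set E).PairwiseDisjoint (cellSet S Z par r k) := by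
  intro k
  induction k with
  | zero =>
    intro u hu v hv huv
    refine Set.disjoint_left.2 fun x hxu hxv => ?_
    rcases trichotomous_of WellOrderingRel u v with h | h | h
    · exact hxv.2 (mem_biUnion ⟨hu, h⟩ hxu.1)
    · exact huv h
    · exact hxu.2 (mem_biUnion ⟨hv, h⟩ hxv.1)
  | succ k ih =>
    intro u hu v hv huv
    refine Set.disjoint_left.2 fun x hxu hxv => ?_
    by_cases hp : par k u = par k v
    · rcases trichotomous_of WellOrderingRel u v with h | h | h
      · exact hxv.2.2 (mem_biUnion ⟨hu, hp, h⟩ hxu.2.1)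
      · exact huv h
      · exact hxu.2.2 (mem_biUnion ⟨hv, hp.symm, h⟩ hxv.2.1)
    · exact Set.disjoint_left.1 (ih (hpm k u) (hpm k v) hp) hxu.1 hxv.1

/-- Module A. -/
theorem cellsExist (n : ℕ) : CellsExist E n := by
  classical
  intro C A ν x₀ R h hx₀
  have hR : 0 < R := h.2.2.1
  have hs : ∀ k, 0 < scale R k := scale_pos hR
  have hsc : ∀ k, scale R (k + 1) = scale R k / 16 := fun k => by simp only [scale]; ring
  set S := ν.support ∩ Metric.closedBall x₀ (R / 16) with hSdef
  have hSc : IsCompact S := (isCompact_closedBall x₀ (R / 16)).inter_left Measure.isClosed_support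
  have hx₀S : x₀ ∈ S := ⟨hx₀, Metric.mem_closedBall_self (by positivity)⟩
  choose Z hZS hZp hZc using fun k => exists_finite_net hSc (hs k)
  choose par hpar using fun k z => exists_nearest (Z k) z
  have hne : ∀ k, (Z k).Nonempty := fun k => ⟨_, (hZc k x₀ hx₀S).choose_spec.1⟩
  have hpm : ∀ k z, par k z ∈ Z k := fun k z => (hpar k z (hne k)).1
  have hpd : ∀ k, ∀ z ∈ Z (k + 1), dist z (par k z) ≤ scale R k := fun k z hz => by
    obtain ⟨w, hw, hwd⟩ := hZc k z (hZS _ hz)
    exact ((hpar k z (hne k)).2 w hw).trans hwd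
  -- reach decreases
  have hanti : ∀ j k z, reach Z par (scale R) (j + 1) k z ⊆ reach Z par (scale R) j k z := by
    intro j
    induction j with
    | zero =>
      intro k z x hx
      simp only [reach, mem_iUnion, mem_ofPred_eq, Metric.mem_closedBall] at hx ⊢
      obtain ⟨c, ⟨hc, rfl⟩, hd⟩ := hx
      linarith [dist_triangle x c (par k c), hpd k c hc, hsc k, hs k]
    | succ j ih =>
      intro k z x hx
      simp only [reach, mem_iUnion, mem_ofPred_eq] at hx ⊢
      obtain ⟨c, hc, hd⟩ := hx
      exact ⟨c, hc, ih (k + 1) c (by simpa [reach] using hd)⟩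
  have hanti' : ∀ {i j} k z, i ≤ j → reach Z par (scale R) j k z ⊆ reach Z par (scale R) i k z := by
    intro i j k z hij
    induction j, hij using Nat.le_induction with
    | base => exact Subset.rfl
    | succ j _ ih => exact (hanti j k z).trans ih
  -- finitely many candidates, one of them in every generation
  have hpigeon : ∀ k (s : Finset E) x, (∀ j, ∃ z ∈ s, x ∈ reach Z par (scale R) j k z) →
      ∃ z ∈ s, ∀ j, x ∈ reach Z par (scale R) j k z := by
    intro k s x hex
    by_contra hcon
    simp only [not_exists, not_and, not_forall] at hcon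
    choose! J hJ using hcon
    obtain ⟨z, hz, hzx⟩ := hex (s.sup J)
    exact hJ z hz (hanti' k z (Finset.le_sup hz) hzx)
  have hchild : ∀ k z x, x ∈ lim S Z par (scale R) k z →
      ∃ c ∈ Z (k + 1), par k c = z ∧ x ∈ lim S Z par (scale R) (k + 1) c := by
    intro k z x hx
    obtain ⟨c, hc, hcx⟩ := hpigeon (k + 1) ((Z (k + 1)).filter fun c => par k c = z) x fun j => by
      have := mem_iInter.1 hx.2 (j + 1)
      simp only [reach, mem_iUnion, mem_ofPred_eq] at this
      obtain ⟨c, hc, hcx⟩ := this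
      exact ⟨c, Finset.mem_filter.2 hc, hcx⟩
    rw [Finset.mem_filter] at hc
    exact ⟨c, hc.1, hc.2, hx.1, mem_iInter.2 hcx⟩
  have hcoverlim : ∀ x ∈ S, ∃ z ∈ Z 0, x ∈ lim S Z par (scale R) 0 z := by
    intro x hx
    have hall : ∀ j k, ∃ z ∈ Z k, x ∈ reach Z par (scale R) j k z := by
      intro j
      induction j with
      | zero =>
        intro k
        obtain ⟨z, hz, hd⟩ := hZc k x hx
        exact ⟨z, hz, Metric.mem_closedBall.2 (hd.trans (by linarith [hs k]))⟩
      | succ j ih =>
        intro k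
        obtain ⟨c, hc, hcx⟩ := ih (k + 1)
        refine ⟨par k c, hpm k c, ?_⟩
        simp only [reach, mem_iUnion, mem_ofPred_eq]
        exact ⟨c, ⟨hc, rfl⟩, hcx⟩
    obtain ⟨z, hz, hzx⟩ := hpigeon 0 (Z 0) x fun j => hall j 0
    exact ⟨z, hz, hx, mem_iInter.2 hzx⟩
  have hcover : ∀ k, ∀ x ∈ S, ∃ z ∈ Z k, x ∈ cellSet S Z par (scale R) k z := by
    intro k
    induction k with
    | zero =>
      intro x hx
      obtain ⟨z, ⟨hz, hzx⟩, hmin⟩ := (IsWellFounded.wf (r := WellOrderingRel (α := E))).has_min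
        {z | z ∈ Z 0 ∧ x ∈ lim S Z par (scale R) 0 z} (hcoverlim x hx)
      refine ⟨z, hz, hzx, fun hmem => ?_⟩
      simp only [mem_iUnion, mem_ofPred_eq] at hmem
      obtain ⟨z', ⟨hz', hlt⟩, hx'⟩ := hmem
      exact hmin z' ⟨hz', hx'⟩ hlt
    | succ k ih =>
      intro x hx
      obtain ⟨q, hq, hqx⟩ := ih x hx
      obtain ⟨z, ⟨hz, hzp, hzx⟩, hmin⟩ := (IsWellFounded.wf (r := WellOrderingRel (α := E))).has_min
        {z | z ∈ Z (k + 1) ∧ par k z = q ∧ x ∈ lim S Z par (scale R) (k + 1) z}
        (hchild k q x (cellSet_subset_lim k q hqx))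
      refine ⟨z, hz, by rw [hzp]; exact hqx, hzx, fun hmem => ?_⟩
      simp only [mem_iUnion, mem_ofPred_eq] at hmem
      obtain ⟨z', ⟨hz', hp', hlt⟩, hx'⟩ := hmem
      exact hmin z' ⟨hz', hp'.trans hzp, hx'⟩ hlt
  have hball : ∀ k z x, x ∈ lim S Z par (scale R) k z → dist x z ≤ 2 * scale R k := fun k z x hx =>
    Metric.mem_closedBall.1 (mem_iInter.1 hx.2 0)
  exact ⟨{
    Z := Z
    cell := cellSet S Z par (scale R)
    parent := par
    mem_support := fun k z hz => ⟨(hZS k hz).1, Metric.mem_closedBall.1 (hZS k hz).2⟩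
    separated := hZp
    measurableSet_cell := fun k z _ => measurableSet_cellSet hSc.isClosed k z
    disjoint_cell := disjoint_cellSet hpm
    cover := fun k x hx => by
      obtain ⟨z, hz, hzx⟩ := hcover k x ⟨hx.1, Metric.mem_closedBall.2
        (le_trans (le_of_lt (Metric.mem_ball.1 hx.2)) (by linarith))⟩
      exact mem_iUnion₂.2 ⟨z, hz, hzx⟩
    subset_ball := fun k z _ x hx => by
      have hx' := cellSet_subset_lim k z hx
      exact ⟨hx'.1.1, Metric.mem_closedBall.2 (hball k z x hx')⟩
    ball_subset := fun k z hz hzd x hx => by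
      have hxd := Metric.mem_ball.1 hx.2
      have hl := scale_le hR k
      obtain ⟨w, hw, hwx⟩ := hcover k x ⟨hx.1, Metric.mem_closedBall.2
        (by linarith [dist_triangle x z x₀])⟩
      obtain ⟨c, hc, rfl, hcx⟩ := hchild k w x (cellSet_subset_lim k w hwx)
      have h1 := hball (k + 1) c x hcx
      have h2 := (hpar k c (hne k)).2 z hz
      by_contra hne'
      have hzw : z ≠ par k c := fun e => hne' (e ▸ hwx)
      have h3 := hZp k hz (hpm k c) hzw
      linarith [dist_triangle_left c z x, dist_triangle z c (par k c), hsc k, hs k,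
        dist_comm x c, dist_comm z c]
    parent_mem := fun k z _ => hpm k z
    cell_subset := fun k z _ => fun x hx => hx.1
    dist_parent := fun k z hz => (hpd k z hz).trans (by linarith [hs k]) }⟩

end

end Vale.Agent.P120.Full
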