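import Vale.Agent.P120.Full.Cubes

/-!
# P120, full answer: the interface between the trees (module E) and the layers (module F)

A corona marks every cell as continuing the tree of its parent or not.  The cells that do not
continue (tree roots and cells outside all trees) pack, and a chain of continuing cells stays close
to a Lipschitz graph: this is stated through a projection `π` to `ℝ^n`.
-/

namespace Vale.Agent.P120.Full

open MeasureTheory Set
open scoped Classical

noncomputable section

variable {E : Type*} [NormedAddCommGroup E] [InnerProductSpace ℝ E] [MeasurableSpace E]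
  [BorelSpace E]

/-- The cells of generation `k` that meet the small ball `ball x₀ (R / 256)`. -/
def relevant {ν : Measure E} {x₀ : E} {R : ℝ} (D : Cells ν x₀ R) (k : ℕ) : Finset E :=
  (D.Z k).filter fun z => (D.cell k z ∩ Metric.ball x₀ (R / 256)).Nonempty

/-- The data handed from module E to module F. -/
structure Corona (n : ℕ) {ν : Measure E} {x₀ : E} {R : ℝ} (D : Cells ν x₀ R) (K : ℝ) where
  /-- The cell continues the tree of its parent. -/
  cont : ℕ → E → Prop
  /-- Below a cell with a continuing child everything continuing lies near a graph. -/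
  graph : ∀ k, ∀ z ∈ relevant D k,
    (∃ z' ∈ D.Z (k + 1), D.parent k z' = z ∧ cont (k + 1) z') →
    ∃ π : E → EuclideanSpace ℝ (Fin n), LipschitzWith 1 π ∧
      ∀ j, k ≤ j → ∀ x ∈ D.cell k z, ∀ y ∈ D.cell k z,
        (∀ i, k < i → i ≤ j → ∀ w ∈ D.Z i, x ∈ D.cell i w → cont i w) →
        dist x y ≤ 2 * dist (π x) (π y) + 1 / 512 * scale R j
  /-- The cells that do not continue pack. -/
  packing : ∀ M : ℕ,
    ∑ k ∈ Finset.range M, ∑ z ∈ (relevant D k).filter (fun z => ¬cont k z),
      ν.real (D.cell k z) ≤ K * R ^ n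

/-- Every ball centred near `x₀` holds a comparable ball in which the support lies near an
`n`-plane to any accuracy, the loss being given by the profile `c`. -/
def FlatAt (n : ℕ) (c : ℝ → ℝ) (ν : Measure E) (x₀ : E) (R : ℝ) : Prop :=
  ∀ ε : ℝ, 0 < ε → 0 < c ε ∧ ∀ x ∈ ν.support, dist x x₀ ≤ R / 4 → ∀ r : ℝ, 0 < r → r ≤ R / 4 →
    ∃ x' ∈ ν.support, ∃ r' : ℝ, c ε * r ≤ r' ∧ Metric.closedBall x' r' ⊆ Metric.ball x r ∧
      ∃ W : Submodule ℝ E, Module.finrank ℝ W = n ∧
        ∀ y ∈ ν.support, dist y x' ≤ r' → ∃ w ∈ W, dist y (x' + w) ≤ ε * r'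

/-- Module E: coronas exist. -/
def CoronaExist (E : Type*) [NormedAddCommGroup E] [InnerProductSpace ℝ E] [MeasurableSpace E]
    [BorelSpace E] (n : ℕ) : Prop :=
  ∀ C A : ℝ, 1 ≤ C → 0 ≤ A → ∀ c : ℝ → ℝ, ∃ K : ℝ, ∀ (ν : Measure E) (x₀ : E) (R : ℝ),
    Nice n C A ν x₀ R → x₀ ∈ ν.support → FlatAt n c ν x₀ R →
      ∀ D : Cells ν x₀ R, Nonempty (Corona n D K)

end

end Vale.Agent.P120.Full
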