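import Vale.Agent.P120.Full.Bookkeeping

/-!
# P120, full answer, module E: the corona

`StopsBound` is the estimate for the stops of one tree, abstract over the tree.  It is summed over
all roots; as the roots have small flatness their share is absorbed, so the roots pack.
-/

namespace Vale.Agent.P120.Full

open MeasureTheory Set Filter
open scoped Topology Classical

noncomputable section

/-- The estimate for the stops `S` of one tree `T` with root `(k₀, z₀)`. -/
def StopsBound (E : Type*) [NormedAddCommGroup E] [InnerProductSpace ℝ E] [MeasurableSpace E]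
    [BorelSpace E] [FiniteDimensional ℝ E] (n : ℕ) : Prop :=
  ∀ C A θ ε₀ : ℝ, 1 ≤ C → 0 ≤ A → 0 < θ → 0 < ε₀ → ε₀ ≤ 1 →
    ∃ K : ℝ, ∀ (ν : Measure E) (x₀ : E) (R : ℝ), Nice n C A ν x₀ R →
      ∀ (D : Cells ν x₀ R) (k₀ : ℕ) (z₀ : E) (T S : Finset (ℕ × E)) (p : ℕ × E → E)
        (W : ℕ × E → Submodule ℝ E) (b g : ℕ × E → ℝ),
        (k₀, z₀) ∈ T → S ⊆ T → b (k₀, z₀) ≤ ε₀ →
        (∀ q ∈ T, k₀ ≤ q.1 ∧ (q.1 = k₀ → q.2 = z₀) ∧ q.2 ∈ D.Z q.1 ∧ dist q.2 x₀ ≤ R / 64) →
        (∀ j w, (j + 1, w) ∈ T → k₀ ≤ j → (j, D.parent j w) ∈ T ∧ (j, D.parent j w) ∉ S ∧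
          b (j, D.parent j w) ≤ ε₀ ∧
          b (j + 1, w) ≤ b (j, D.parent j w) / 2 + g (j, D.parent j w)) →
        (∀ q ∈ T, Module.finrank ℝ (W q) = n ∧ 0 ≤ b q ∧
          flatness ν n q.2 (scale R q.1) (p q) (W q) ≤ b q) →
        (∀ q ∈ T, b q ≤ ε₀ → ∀ w ∈ W q, ‖perp (W (k₀, z₀)) w‖ ≤ 1 / 2 * ‖w‖) →
        (∀ q ∈ T, ∀ r ∈ T, b q ≤ ε₀ → b r ≤ ε₀ → q.1 ≤ r.1 →
          ‖perp (W (k₀, z₀)) (r.2 - q.2)‖ ≤ 1 / 2 * ‖r.2 - q.2‖ + scale R q.1 / 64) →
        (∀ q ∈ S, ε₀ < b q ∨ ∃ w ∈ W q, θ * ‖w‖ < ‖perp (W (k₀, z₀)) w‖) →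
        ∑ q ∈ S, ν.real (D.cell q.1 q.2) ≤
          K * (b (k₀, z₀) ^ 2 * ν.real (D.cell k₀ z₀) +
            ∑ q ∈ T, g q ^ 2 * ν.real (D.cell q.1 q.2))

variable {E : Type*} [NormedAddCommGroup E] [InnerProductSpace ℝ E] [MeasurableSpace E]
  [BorelSpace E] [FiniteDimensional ℝ E] {n : ℕ}

lemma sum_levels {M : ℕ} (s : ℕ → Finset E) (f : ℕ × E → ℝ) (d : ℕ) :
    ∑ q ∈ (Finset.range M).biUnion (fun k => (s k).image (Prod.mk (k + d))), f q =
      ∑ k ∈ Finset.range M, ∑ z ∈ s k, f (k + d, z) := by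
  rw [Finset.sum_biUnion]
  · exact Finset.sum_congr rfl fun k _ => Finset.sum_image fun a _ b _ h => (Prod.ext_iff.1 h).2
  · intro a _ b _ hab
    rw [Function.onFun, Finset.disjoint_left]
    intro q hqa hqb
    obtain ⟨u, -, rfl⟩ := Finset.mem_image.1 hqa
    obtain ⟨v, -, h⟩ := Finset.mem_image.1 hqb
    have := congrArg Prod.fst h
    simp only at this
    exact hab (by omega)

/-- Module E from the decay, the packing of the coefficients, the comparison of planes and the
estimate for one tree. -/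
theorem coronaExist_of (hn : 1 ≤ n) (hnd : n ≤ Module.finrank ℝ E) (hd : Decay E n)
    (hB : CoefPacking E n) (hp : PlaneCompare E n) (hs : StopsBound E n) : CoronaExist E n := by
  intro C A hC hA c
  obtain ⟨εd, Kd, hεd, hKd, hstep⟩ := exists_cellB_step hd hC hA
  obtain ⟨εg, hεg, hgraph⟩ := exists_chainGraph (E := E) (n := n) hC
  obtain ⟨εa, hεa, hangle⟩ := exists_child_angle hp hC hA (show (0 : ℝ) < 1 / 16 by norm_num)
  obtain ⟨KE, hKE, hE⟩ := exists_sum_cellE_le hn hB hC hA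
  set ε₀ := min (min εd εg) (min εa 1)
  have hε₀ : 0 < ε₀ := lt_min (lt_min hεd hεg) (lt_min hεa one_pos)
  have hε₀d : ε₀ ≤ εd := (min_le_left _ _).trans (min_le_left _ _)
  have hε₀g : ε₀ ≤ εg := (min_le_left _ _).trans (min_le_right _ _)
  have hε₀a : ε₀ ≤ εa := (min_le_right _ _).trans (min_le_left _ _)
  have hε₀1 : ε₀ ≤ 1 := (min_le_right _ _).trans (min_le_right _ _)
  obtain ⟨Ks₀, hKs⟩ := hs C A (1 / 16) ε₀ hC hA (by norm_num) hε₀ hε₀1
  set Ks := max Ks₀ 0
  have hKs0 : 0 ≤ Ks := le_max_right _ _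
  set ε := min ε₀ (1 / (2 * (Ks + 1)))
  have hε : 0 < ε := lt_min hε₀ (by positivity)
  have hεε₀ : ε ≤ ε₀ := min_le_left _ _
  have habs : Ks * ε ^ 2 ≤ 1 / 2 := by
    have h1 : ε ^ 2 ≤ ε := by
      rw [sq]; exact mul_le_of_le_one_left hε.le (hεε₀.trans hε₀1)
    have h2 : ε * (2 * (Ks + 1)) ≤ 1 := by
      have := (le_div_iff₀ (show 0 < 2 * (Ks + 1) by positivity)).1
        (min_le_right ε₀ (1 / (2 * (Ks + 1))))
      exact this
    nlinarith [mul_le_mul_of_nonneg_left h1 hKs0]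
  obtain ⟨J, Λ, hΛ, hnotflat⟩ := exists_sum_notFlat_le (E := E) (c := c) hn hnd hC hε
  set P1 := C + (2 * Kd / ε) ^ 2 * KE
  refine ⟨Λ * P1 + 2 * (C + P1) + 4 * Ks * (Kd ^ 2 * (2 * KE)),
    fun ν x₀ R hN _ hflat D => ?_⟩
  haveI := hN.finite
  have hR : 0 < R := hN.2.2.1
  obtain ⟨pl, hpl⟩ := exists_planes hnd D
  have hθ : (0 : ℝ) ≤ 1 / 16 := by norm_num
  set root := treeRoot n D pl ε (1 / 16) with hroot
  have huniv : ν.real univ ≤ C * R ^ n := hN.real_univ_le
  have hRn : 0 ≤ R ^ n := by positivity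
  have hstep' : ∀ k, ∀ w ∈ D.inner (k + 1), cellB n D k (D.parent k w) ≤ ε →
      cellB n D (k + 1) w ≤
        1 / 2 * cellB n D k (D.parent k w) + Kd * cellE n D k (D.parent k w) :=
    fun k w hw hb => hstep ν x₀ R hN hn D k w hw (hb.trans (hεε₀.trans hε₀d))
  -- a continuing cell keeps the root of its parent
  have hkeep : ∀ k z, root (k + 1) z ≠ (k + 1, z) →
      cellB n D k (D.parent k z) ≤ ε ∧ root (k + 1) z = root k (D.parent k z) := by
    intro k z hne
    simp only [hroot, treeRoot] at hne ⊢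
    split_ifs at hne ⊢ with h
    · exact ⟨h.2.1, rfl⟩
    · exact absurd rfl hne
  refine ⟨⟨fun k z => z ∈ D.inner k ∧ cellB n D k z ≤ ε ∧ root k z ≠ (k, z),
    fun k z hz hch => ?_, fun M => ?_⟩⟩
  -- the graph
  · obtain ⟨z', hz'Z, hpz, -, -, hz'r⟩ := hch
    have hzi := D.inner_of_relevant hR hz
    have hzb : cellB n D k z ≤ ε := hpz ▸ (hkeep k z' hz'r).1
    obtain ⟨hr1, hr2, -, -⟩ := root_props (pl := pl) hθ hzi hzb
    set W₀ := (pl (root k z).1 (root k z).2).2 with hW₀
    have hW₀n : Module.finrank ℝ W₀ = n := (hpl _ _ (Finset.mem_filter.1 hr2).1).1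
    obtain ⟨π, hπ, hπd⟩ := exists_coordinates hW₀n
    refine ⟨π, hπ, fun j hj x hx y hy hchain => ?_⟩
    obtain ⟨w, hwZ, hxw⟩ := D.exists_cell_of_inner (l := j) hR hzi hx
    obtain ⟨hw, hanc⟩ := D.inner_of_mem hzi hj hwZ hxw hx
    have hall : ∀ i, k ≤ i → i ≤ j →
        cellB n D i (D.anc j w i) ≤ ε ∧ root i (D.anc j w i) = root k z := by
      intro i hki
      induction i, hki using Nat.le_induction with
      | base =>
        intro _
        rw [hanc]
        exact ⟨hzb, rfl⟩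
      | succ i hki ih =>
        intro hij
        have hi1 := D.anc_inner hw (i + 1) hij
        have hx1 := D.cell_subset_anc hw (i + 1) hij hxw
        obtain ⟨-, hb, hne⟩ :=
          hchain (i + 1) (by omega) hij _ (D.inner_subset hi1) hx1
        have hp' : D.parent i (D.anc j w (i + 1)) = D.anc j w i :=
          D.eq_of_mem (D.parent_mem _ _ (D.inner_subset hi1))
            (D.inner_subset (D.anc_inner hw i (by omega)))
            (D.cell_subset _ _ (D.inner_subset hi1) hx1) (D.cell_subset_anc hw i (by omega) hxw)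
        exact ⟨hb, by rw [(hkeep i _ hne).2, hp']; exact (ih (by omega)).2⟩
    have h1 := hgraph ν x₀ R A hN D pl W₀ (1 / 16) hθ k j hj w hw (fun i hki hij => by
      obtain ⟨hb, he⟩ := hall i hki hij
      have hi := D.anc_inner hw i hij
      obtain ⟨q1, -, -, q4⟩ := root_props (pl := pl) hθ hi hb
      refine ⟨(flatness_le_cellB hpl hi).trans (hb.trans (hεε₀.trans hε₀g)), ?_⟩
      have h := (q4 i q1 le_rfl).2.2
      rw [D.anc_of_ge _ le_rfl] at h
      simp only [hroot] at he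
      rw [he] at h
      exact h) x hxw y (by rw [hanc]; exact hy)
    have h2 := hπd x y
    have h3 := scale_pos' hR j
    linarith [dist_nonneg (x := π x) (y := π y)]
  -- the packing
  set EM := fun N => ∑ k ∈ Finset.range N, ∑ z ∈ D.inner k,
    cellE n D k z ^ 2 * ν.real (D.cell k z)
  have hentries : ∀ N, ∑ k ∈ Finset.range N, ∑ w ∈ entries n D ε k, ν.real (D.cell (k + 1) w) ≤
      P1 * R ^ n := by
    intro N
    refine (sum_entries_le hR N).trans ?_
    have h1 := (sum_exits_le hR hKd hε hstep' N).trans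
      (mul_le_mul_of_nonneg_left (hE ν x₀ R hN D N) (sq_nonneg _))
    rw [add_mul]
    linarith
  set Rts := ∑ k ∈ Finset.range M,
    ∑ z ∈ rootsAt n D pl ε (1 / 16) k, ν.real (D.cell k z) with hRtsdef
  set Stp := ∑ k ∈ Finset.range M,
    ∑ w ∈ angleStops n D pl ε (1 / 16) k, ν.real (D.cell (k + 1) w) with hStpdef
  have hRts : Rts ≤ ν.real univ + P1 * R ^ n + Stp := by
    rcases Nat.eq_zero_or_pos M with rfl | hM
    · simp only [hRtsdef, hStpdef, Finset.range_zero, Finset.sum_empty, add_zero]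
      exact add_nonneg measureReal_nonneg (mul_nonneg (by positivity) hRn)
    obtain ⟨M', rfl⟩ : ∃ M', M = M' + 1 := ⟨M - 1, by omega⟩
    rw [hRtsdef, Finset.sum_range_succ']
    have h0 : ∑ z ∈ rootsAt n D pl ε (1 / 16) 0, ν.real (D.cell 0 z) ≤ ν.real univ :=
      (Finset.sum_le_sum_of_subset_of_nonneg (Finset.filter_subset _ _)
        fun z _ _ => measureReal_nonneg).trans (D.sum_inner_le 0)
    have h1 : ∑ k ∈ Finset.range M', ∑ z ∈ rootsAt n D pl ε (1 / 16) (k + 1),
        ν.real (D.cell (k + 1) z) ≤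
        ∑ k ∈ Finset.range M', ∑ w ∈ entries n D ε k, ν.real (D.cell (k + 1) w) + Stp := by
      refine le_trans (le_trans (Finset.sum_le_sum fun k _ => ?_)
        (le_of_eq Finset.sum_add_distrib)) (add_le_add le_rfl
          (Finset.sum_le_sum_of_subset_of_nonneg (Finset.range_mono (Nat.le_succ M'))
            fun k _ _ => Finset.sum_nonneg fun w _ => measureReal_nonneg))
      refine (Finset.sum_le_sum_of_subset_of_nonneg (rootsAt_succ_subset k)
        fun w _ _ => measureReal_nonneg).trans ?_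
      rw [← Finset.sum_union_inter]
      exact le_add_of_nonneg_right (Finset.sum_nonneg fun w _ => measureReal_nonneg)
    linarith [hentries M']
  -- the trees
  set RM := (Finset.range M).biUnion fun k =>
    (rootsAt n D pl ε (1 / 16) k).image (Prod.mk k) with hRM
  have hroot_mem : ∀ k < M, ∀ z ∈ D.inner k, cellB n D k z ≤ ε → root k z ∈ RM := by
    intro k hk z hz hb
    obtain ⟨h1, h2, -, -⟩ := root_props (pl := pl) hθ hz hb
    exact Finset.mem_biUnion.2
      ⟨_, Finset.mem_range.2 (lt_of_le_of_lt h1 hk), Finset.mem_image.2 ⟨_, h2, rfl⟩⟩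
  set TL := treeLevel n D pl ε (1 / 16) with hTL
  set TS := tiltStops n D pl ε (1 / 16) with hTS
  have hone : ∀ r ∈ RM, ∑ k ∈ Finset.range M, ∑ w ∈ TS r k, ν.real (D.cell (k + 1) w) ≤
      Ks * (ε ^ 2 * ν.real (D.cell r.1 r.2) + Kd ^ 2 *
        (∑ k ∈ Finset.range M, ∑ z ∈ TL r k, cellE n D k z ^ 2 * ν.real (D.cell k z) +
          ∑ k ∈ Finset.range M, ∑ w ∈ TS r k,
            cellE n D (k + 1) w ^ 2 * ν.real (D.cell (k + 1) w))) := by
    intro r hr
    obtain ⟨k₀, hk₀, hr'⟩ := Finset.mem_biUnion.1 hr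
    obtain ⟨z₀, hz₀, rfl⟩ := Finset.mem_image.1 hr'
    rw [Finset.mem_range] at hk₀
    obtain ⟨hz₀i, hz₀b, hz₀r⟩ := Finset.mem_filter.1 hz₀
    set S := (Finset.range M).biUnion fun k => (TS (k₀, z₀) k).image (Prod.mk (k + 1)) with hS
    set T := ((Finset.range M).biUnion fun k => (TL (k₀, z₀) k).image (Prod.mk (k + 0))) ∪ S
      with hT
    have hTree : ∀ k, k < M → ∀ z ∈ TL (k₀, z₀) k, (k, z) ∈ T := fun k hk z hz =>
      Finset.mem_union_left _ (Finset.mem_biUnion.2 ⟨k, Finset.mem_range.2 hk,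
        Finset.mem_image.2 ⟨z, hz, rfl⟩⟩)
    have hSmem : ∀ q ∈ S, ∃ k w, k < M ∧ w ∈ TS (k₀, z₀) k ∧ q = (k + 1, w) := by
      intro q hq
      obtain ⟨k, hk, hq⟩ := Finset.mem_biUnion.1 hq
      obtain ⟨w, hw, rfl⟩ := Finset.mem_image.1 hq
      exact ⟨k, w, Finset.mem_range.1 hk, hw, rfl⟩
    have hcase : ∀ q ∈ T,
        (q.1 < M ∧ q.2 ∈ TL (k₀, z₀) q.1) ∨
          ∃ k w, k < M ∧ w ∈ TS (k₀, z₀) k ∧ q = (k + 1, w) := by
      intro q hq
      rcases Finset.mem_union.1 hq with hq | hq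
      · obtain ⟨k, hk, hq⟩ := Finset.mem_biUnion.1 hq
        obtain ⟨z, hz, rfl⟩ := Finset.mem_image.1 hq
        exact Or.inl ⟨Finset.mem_range.1 hk, hz⟩
      · exact Or.inr (hSmem q hq)
    -- the chain of every member of the tree
    have hfacts : ∀ q ∈ T, q.2 ∈ D.inner q.1 ∧ cellB n D q.1 q.2 ≤ ε ∧ k₀ ≤ q.1 ∧
        (q.1 = k₀ → q.2 = z₀) ∧ D.anc q.1 q.2 k₀ = z₀ ∧
        ∀ i, k₀ ≤ i → i ≤ q.1 → cellB n D i (D.anc q.1 q.2 i) ≤ ε ∧
          AngleLE (1 / 8) (pl k₀ z₀).2 (pl i (D.anc q.1 q.2 i)).2 := by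
      intro q hq
      have htree : ∀ k z, z ∈ TL (k₀, z₀) k → z ∈ D.inner k ∧ cellB n D k z ≤ ε ∧ k₀ ≤ k ∧
          D.anc k z k₀ = z₀ ∧ ∀ i, k₀ ≤ i → i ≤ k → cellB n D i (D.anc k z i) ≤ ε ∧
            AngleLE (1 / 16) (pl k₀ z₀).2 (pl i (D.anc k z i)).2 := by
        intro k z hz
        obtain ⟨hzi, hzb, hzr⟩ := Finset.mem_filter.1 hz
        obtain ⟨h1, -, h3, h4⟩ := root_props (pl := pl) hθ hzi hzb
        rw [hzr] at h1 h3 h4
        exact ⟨hzi, hzb, h1, h3, fun i hi hik => ⟨(h4 i hi hik).1, (h4 i hi hik).2.2⟩⟩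
      have hweak : ∀ W : Submodule ℝ E, AngleLE (1 / 16) (pl k₀ z₀).2 W →
          AngleLE (1 / 8) (pl k₀ z₀).2 W := fun W h v hv =>
        (h v hv).trans (mul_le_mul_of_nonneg_right (by norm_num) (norm_nonneg v))
      rcases hcase q hq with ⟨-, hq'⟩ | ⟨k, w, -, hw, rfl⟩
      · obtain ⟨a1, a2, a3, a4, a5⟩ := htree q.1 q.2 hq'
        refine ⟨a1, a2, a3, fun h => ?_, a4, fun i hi hik =>
          ⟨(a5 i hi hik).1, hweak _ (a5 i hi hik).2⟩⟩
        rw [← a4, ← h, D.anc_of_ge _ le_rfl]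
      · obtain ⟨hwi, hwb, hwp, -⟩ := Finset.mem_filter.1 hw
        obtain ⟨a1, a2, a3, a4, a5⟩ := htree k _ hwp
        refine ⟨hwi, hwb, by simp only; omega, fun h => absurd h (by simp only; omega),
          by simp only; rw [D.anc_succ w a3]; exact a4, fun i hi hik => ?_⟩
        simp only at hik ⊢
        rcases hik.eq_or_lt with rfl | hlt
        · rw [D.anc_of_ge w le_rfl]
          refine ⟨hwb, fun v hv => ?_⟩
          have h1 := (a5 k a3 le_rfl).2
          rw [D.anc_of_ge _ le_rfl] at h1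
          have h2 := hangle ν x₀ R hN D pl hpl k w hwi (a2.trans (hεε₀.trans hε₀a))
            (hwb.trans (hεε₀.trans hε₀a)) v hv
          linarith [h1.norm_perp_le hθ v]
        · rw [D.anc_succ w (by omega)]
          exact ⟨(a5 i hi (by omega)).1, hweak _ (a5 i hi (by omega)).2⟩
    have hmain := hKs ν x₀ R hN D k₀ z₀ T S (fun q => (pl q.1 q.2).1) (fun q => (pl q.1 q.2).2)
      (fun q => cellB n D q.1 q.2) (fun q => Kd * cellE n D q.1 q.2)
      (hTree k₀ hk₀ z₀ (Finset.mem_filter.2 ⟨hz₀i, hz₀b, hz₀r⟩)) Finset.subset_union_right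
      (hz₀b.trans hεε₀)
      (fun q hq => by
        obtain ⟨a1, -, a3, a4, -, -⟩ := hfacts q hq
        exact ⟨a3, a4, D.inner_subset a1, by linarith [D.dist_inner hR a1]⟩)
      (fun j w hjw hj => by
        obtain ⟨hwi, hwb, -, -, -, -⟩ := hfacts _ hjw
        simp only at hwi hwb
        have hpT : D.parent j w ∈ TL (k₀, z₀) j ∧ j < M := by
          rcases hcase _ hjw with ⟨hlt, hw'⟩ | ⟨k, w', hk, hw', he⟩
          · obtain ⟨-, -, hwr⟩ := Finset.mem_filter.1 hw'
            simp only at hwr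
            obtain ⟨hb, he⟩ := hkeep j w (by
              rw [hroot, hwr]
              intro h
              have := congrArg Prod.fst h
              simp only at this
              omega)
            exact ⟨Finset.mem_filter.2 ⟨D.parent_inner hwi, hb, by rw [← hroot, ← he, hroot, hwr]⟩,
              by simp only at hlt; omega⟩
          · obtain ⟨rfl, rfl⟩ : j = k ∧ w = w' := by
              simp only [Prod.mk.injEq] at he
              exact ⟨by omega, he.2⟩
            exact ⟨(Finset.mem_filter.1 hw').2.2.1, hk⟩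
        obtain ⟨-, hpb, hpr⟩ := Finset.mem_filter.1 hpT.1
        refine ⟨hTree j hpT.2 _ hpT.1, fun hpS => ?_, hpb.trans hεε₀, ?_⟩
        · obtain ⟨k, w', -, hw', he⟩ := hSmem _ hpS
          simp only [Prod.mk.injEq] at he
          obtain ⟨rfl, rfl⟩ := he
          obtain ⟨-, -, hwp, hna⟩ := Finset.mem_filter.1 hw'
          obtain ⟨-, -, hpr'⟩ := Finset.mem_filter.1 hwp
          have h : treeRoot n D pl ε (1 / 16) (k + 1) (D.parent (k + 1) w) =
              (k + 1, D.parent (k + 1) w) := by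
            rw [treeRoot, if_neg]
            rintro ⟨-, -, ha⟩
            rw [hpr'] at ha
            exact hna ha
          have hle := (root_props (pl := pl) hθ (D.parent_inner (D.parent_inner hwi))
            (Finset.mem_filter.1 hwp).2.1).1
          rw [hpr'] at hle
          rw [hpr] at h
          have := congrArg Prod.fst h
          simp only at this hle
          omega
        · have := hstep' j w hwi hpb
          simp only
          linarith)
      (fun q hq => ⟨(hpl _ _ (hfacts q hq).1).1, cellB_nonneg D _ _,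
        flatness_le_cellB hpl (hfacts q hq).1⟩)
      (fun q hq _ v hv => by
        obtain ⟨-, -, hk, -, -, h⟩ := hfacts q hq
        have h1 := (h q.1 hk le_rfl).2
        rw [D.anc_of_ge _ le_rfl] at h1
        exact (h1 v hv).trans (mul_le_mul_of_nonneg_right (by norm_num) (norm_nonneg v)))
      (fun q hq r hr _ _ hle => by
        obtain ⟨hqi, -, hk, -, hqa, h⟩ := hfacts q hq
        obtain ⟨hri, -, hrk, -, hra, -⟩ := hfacts r hr
        have h1 := hgraph ν x₀ R A hN D pl (pl k₀ z₀).2 (1 / 8) (by norm_num) k₀ q.1 hk q.2 hqi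
          (fun i hi hik => ⟨(flatness_le_cellB hpl (D.anc_inner hqi i hik)).trans
            ((h i hi hik).1.trans (hεε₀.trans hε₀g)), (h i hi hik).2⟩)
          q.2 (D.inner_mem_cell hR hqi) r.2
          (by rw [hqa, ← hra]; exact D.cell_subset_anc hri k₀ hrk (D.inner_mem_cell hR hri))
        have e : ‖perp (pl k₀ z₀).2 (r.2 - q.2)‖ = ‖perp (pl k₀ z₀).2 (q.2 - r.2)‖ := by
          rw [perp_sub, perp_sub, norm_sub_rev]
        rw [dist_eq_norm, norm_sub_rev q.2 r.2] at h1
        have h2 := scale_pos' hR q.1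
        show ‖perp (pl k₀ z₀).2 (r.2 - q.2)‖ ≤ _
        linarith [norm_nonneg (r.2 - q.2)])
      (fun q hq => by
        obtain ⟨k, w, -, hw, rfl⟩ := hSmem q hq
        have hna := (Finset.mem_filter.1 hw).2.2.2
        simp only [AngleLE, not_forall, not_le] at hna
        obtain ⟨v, hv, hlt⟩ := hna
        exact Or.inr ⟨v, hv, hlt⟩)
    rw [hS, sum_levels (fun k => TS (k₀, z₀) k) (fun q => ν.real (D.cell q.1 q.2)) 1] at hmain
    refine hmain.trans (le_trans (mul_le_mul_of_nonneg_right (le_max_left Ks₀ 0) ?_)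
      (mul_le_mul_of_nonneg_left (add_le_add ?_ ?_) hKs0))
    · exact add_nonneg (by positivity) (Finset.sum_nonneg fun q _ => by positivity)
    · exact mul_le_mul_of_nonneg_right (pow_le_pow_left₀ (cellB_nonneg D k₀ z₀) hz₀b 2)
        measureReal_nonneg
    · simp only [mul_pow, mul_assoc, ← Finset.mul_sum]
      refine mul_le_mul_of_nonneg_left ?_ (sq_nonneg Kd)
      rw [← sum_levels (fun k => TS (k₀, z₀) k)
        (fun q => cellE n D q.1 q.2 ^ 2 * ν.real (D.cell q.1 q.2)) 1]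
      rw [show (∑ k ∈ Finset.range M, ∑ z ∈ TL (k₀, z₀) k,
          cellE n D k z ^ 2 * ν.real (D.cell k z)) =
        ∑ k ∈ Finset.range M, ∑ z ∈ TL (k₀, z₀) k,
          cellE n D (k + 0) z ^ 2 * ν.real (D.cell (k + 0) z) from rfl,
        ← sum_levels (fun k => TL (k₀, z₀) k)
          (fun q => cellE n D q.1 q.2 ^ 2 * ν.real (D.cell q.1 q.2)) 0, ← Finset.sum_union_inter]
      exact le_add_of_nonneg_right (Finset.sum_nonneg fun q _ => by positivity)
  -- the sum over all roots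
  have hStp : Stp ≤ Ks * (ε ^ 2 * Rts + Kd ^ 2 * (2 * KE * R ^ n)) := by
    have h1 : Stp ≤ ∑ r ∈ RM, ∑ k ∈ Finset.range M, ∑ w ∈ TS r k, ν.real (D.cell (k + 1) w) := by
      rw [Finset.sum_comm, hStpdef]
      refine Finset.sum_le_sum fun k hk => ?_
      rw [← Finset.sum_fiberwise_of_maps_to (s := angleStops n D pl ε (1 / 16) k) (g := fun w => root k (D.parent k w))
        fun w hw => hroot_mem k (Finset.mem_range.1 hk) _
          (D.parent_inner (Finset.mem_filter.1 hw).1) (Finset.mem_filter.1 hw).2.2.1]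
      refine Finset.sum_le_sum fun r _ => Finset.sum_le_sum_of_subset_of_nonneg ?_
        fun w _ _ => measureReal_nonneg
      intro w hw
      obtain ⟨hw, hwr⟩ := Finset.mem_filter.1 hw
      obtain ⟨hwi, hwb, hwp, hna⟩ := Finset.mem_filter.1 hw
      simp only [hroot] at hwr
      rw [hwr] at hna
      exact Finset.mem_filter.2
        ⟨hwi, hwb, Finset.mem_filter.2 ⟨D.parent_inner hwi, hwp, hwr⟩, hna⟩
    refine h1.trans ((Finset.sum_le_sum hone).trans ?_)
    rw [← Finset.mul_sum]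
    refine mul_le_mul_of_nonneg_left ?_ hKs0
    rw [Finset.sum_add_distrib, ← Finset.mul_sum, ← Finset.mul_sum]
    refine add_le_add (mul_le_mul_of_nonneg_left (le_of_eq ?_) (sq_nonneg _))
      (mul_le_mul_of_nonneg_left ?_ (sq_nonneg _))
    · rw [hRM, show (Finset.range M).biUnion (fun k =>
          (rootsAt n D pl ε (1 / 16) k).image (Prod.mk k)) = (Finset.range M).biUnion (fun k =>
          (rootsAt n D pl ε (1 / 16) k).image (Prod.mk (k + 0))) from rfl,
        sum_levels (fun k => rootsAt n D pl ε (1 / 16) k)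
          (fun q => ν.real (D.cell q.1 q.2)) 0]
      rfl
    · rw [Finset.sum_add_distrib]
      have htree : ∑ r ∈ RM, ∑ k ∈ Finset.range M, ∑ z ∈ TL r k,
          cellE n D k z ^ 2 * ν.real (D.cell k z) ≤ EM M := by
        rw [Finset.sum_comm]
        refine Finset.sum_le_sum fun k _ => ?_
        rw [← Finset.sum_biUnion]
        · exact Finset.sum_le_sum_of_subset_of_nonneg
            (Finset.biUnion_subset.2 fun r _ => Finset.filter_subset _ _) fun z _ _ => by positivity
        · intro a _ b _ hab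
          rw [Function.onFun, Finset.disjoint_left]
          exact fun z hza hzb => hab
            ((Finset.mem_filter.1 hza).2.2.symm.trans (Finset.mem_filter.1 hzb).2.2)
      have hstops : ∑ r ∈ RM, ∑ k ∈ Finset.range M, ∑ w ∈ TS r k,
          cellE n D (k + 1) w ^ 2 * ν.real (D.cell (k + 1) w) ≤ EM (M + 1) := by
        rw [Finset.sum_comm]
        refine le_trans (Finset.sum_le_sum (g := fun k => ∑ w ∈ D.inner (k + 1),
          cellE n D (k + 1) w ^ 2 * ν.real (D.cell (k + 1) w)) fun k _ => ?_) ?_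
        · rw [← Finset.sum_biUnion]
          · exact Finset.sum_le_sum_of_subset_of_nonneg
              (Finset.biUnion_subset.2 fun r _ => Finset.filter_subset _ _)
              fun z _ _ => by positivity
          · intro a _ b _ hab
            rw [Function.onFun, Finset.disjoint_left]
            exact fun z hza hzb => hab
              ((Finset.mem_filter.1 (Finset.mem_filter.1 hza).2.2.1).2.2.symm.trans
                (Finset.mem_filter.1 (Finset.mem_filter.1 hzb).2.2.1).2.2)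
        · simp only [EM]
          rw [Finset.sum_range_succ' _ M]
          exact le_add_of_nonneg_right (Finset.sum_nonneg fun z _ => by positivity)
      linarith [hE ν x₀ R hN D M, hE ν x₀ R hN D (M + 1)]
  have hRts0 : 0 ≤ Rts :=
    Finset.sum_nonneg fun k _ => Finset.sum_nonneg fun z _ => measureReal_nonneg
  have hbad := (hnotflat ν x₀ R A hN hflat D M).trans
    (mul_le_mul_of_nonneg_left (hentries (M + J)) hΛ)
  have hsplit : ∀ k, ∑ z ∈ (relevant D k).filter (fun z =>
      ¬(z ∈ D.inner k ∧ cellB n D k z ≤ ε ∧ root k z ≠ (k, z))), ν.real (D.cell k z) ≤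
      ∑ z ∈ (D.inner k).filter (fun z => ¬cellB n D k z ≤ ε), ν.real (D.cell k z) +
        ∑ z ∈ rootsAt n D pl ε (1 / 16) k, ν.real (D.cell k z) := by
    intro k
    rw [← Finset.sum_union_inter]
    refine le_add_of_le_of_nonneg (Finset.sum_le_sum_of_subset_of_nonneg ?_
      fun z _ _ => measureReal_nonneg) (Finset.sum_nonneg fun z _ => measureReal_nonneg)
    intro z hz
    obtain ⟨hz, hc⟩ := Finset.mem_filter.1 hz
    have hzi := D.inner_of_relevant hR hz
    rw [Finset.mem_union]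
    by_cases hb : cellB n D k z ≤ ε
    · exact Or.inr (Finset.mem_filter.2 ⟨hzi, hb, by by_contra h; exact hc ⟨hzi, hb, h⟩⟩)
    · exact Or.inl (Finset.mem_filter.2 ⟨hzi, hb⟩)
  refine le_trans (le_of_eq (Finset.sum_congr rfl fun k _ => Finset.sum_congr ?_ fun _ _ => rfl))
    ((Finset.sum_le_sum (s := Finset.range M) fun k _ => hsplit k).trans ?_)
  · ext z; simp only [Finset.mem_filter]
  rw [Finset.sum_add_distrib, ← hRtsdef]
  have habs' := mul_le_mul_of_nonneg_right habs hRts0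
  have hnn : 0 ≤ Ks * (Kd ^ 2 * (2 * KE)) * R ^ n := by positivity
  linarith

end

end Vale.Agent.P120.Full
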