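import Vale.Agent.P120.Full.Tilt

/-!
# P120, full answer: the tilt packing theorem
-/

namespace Vale.Agent.P120.Full

open MeasureTheory Set Filter Metric Finset
open scoped Topology RealInnerProductSpace

noncomputable section

variable {n M : ℕ}

/-- The geometric weight between two levels. -/
def levelWeight (j k : ℕ) : ℝ := (1 / 16 : ℝ) ^ ((k - j) + (j - k))

theorem levelWeight_comm (j k : ℕ) : levelWeight j k = levelWeight k j := by
  simp only [levelWeight, Nat.add_comm]

theorem levelWeight_nonneg (j k : ℕ) : 0 ≤ levelWeight j k := by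
  unfold levelWeight; positivity

theorem levelWeight_le_one (j k : ℕ) : levelWeight j k ≤ 1 :=
  pow_le_one₀ (by norm_num) (by norm_num)

theorem geom_le_three_halves (N : ℕ) : ∑ i ∈ Finset.range N, (1 / 16 : ℝ) ^ i ≤ 3 / 2 := by
  rw [geom_sum_eq (by norm_num), div_le_iff_of_neg (by norm_num)]
  linarith [pow_nonneg (show (0 : ℝ) ≤ 1 / 16 by norm_num) N]

theorem sum_levelWeight (j N : ℕ) : ∑ k ∈ Finset.range N, levelWeight j k ≤ 3 := by
  rw [← Finset.sum_filter_add_sum_filter_not (Finset.range N) fun k => k ≤ j]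
  have h1 : ∑ k ∈ (Finset.range N).filter (fun k => k ≤ j), levelWeight j k ≤ 3 / 2 := by
    refine le_trans (le_of_eq ?_) ((Finset.sum_le_sum_of_subset_of_nonneg
      (s := ((Finset.range N).filter fun k => k ≤ j).image fun k => j - k)
      (t := Finset.range (j + 1)) (fun i hi => ?_) (fun i _ _ => by positivity)).trans
      (geom_le_three_halves (j + 1)))
    · rw [Finset.sum_image fun a ha b hb h => by
        have := (Finset.mem_filter.1 ha).2
        have := (Finset.mem_filter.1 hb).2
        omega]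
      refine Finset.sum_congr rfl fun k hk => ?_
      rw [levelWeight, Nat.sub_eq_zero_of_le (Finset.mem_filter.1 hk).2, zero_add]
    · obtain ⟨k, -, rfl⟩ := Finset.mem_image.1 hi
      exact Finset.mem_range.2 (by omega)
  have h2 : ∑ k ∈ (Finset.range N).filter (fun k => ¬k ≤ j), levelWeight j k ≤ 3 / 2 := by
    refine le_trans (le_of_eq ?_) ((Finset.sum_le_sum_of_subset_of_nonneg
      (s := ((Finset.range N).filter fun k => ¬k ≤ j).image fun k => k - j)
      (t := Finset.range N) (fun i hi => ?_) (fun i _ _ => by positivity)).trans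
      (geom_le_three_halves N))
    · rw [Finset.sum_image fun a ha b hb h => by
        have := (Finset.mem_filter.1 ha).2
        have := (Finset.mem_filter.1 hb).2
        omega]
      refine Finset.sum_congr rfl fun k hk => ?_
      rw [levelWeight, Nat.sub_eq_zero_of_le (le_of_lt (not_le.1 (Finset.mem_filter.1 hk).2)),
        add_zero]
    · obtain ⟨k, hk, rfl⟩ := Finset.mem_image.1 hi
      have := Finset.mem_range.1 (Finset.mem_filter.1 hk).1
      exact Finset.mem_range.2 (by omega)
  linarith

theorem tilt_scale_mul {L : ℝ} {j k : ℕ} (h : j ≤ k) :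
    tiltScale L k = tiltScale L j * levelWeight j k := by
  rw [tiltScale, tiltScale, levelWeight, Nat.sub_eq_zero_of_le h, add_zero, mul_assoc, ← pow_add,
    Nat.add_sub_cancel' h]

namespace TiltData

variable {ι : Type} (D : TiltData n M ι) (B : TiltBounds n M) {e : TiltSpace n}

/-- The constant of the increments. -/
def incrConst : ℝ := M * B.Cw * (2 + 6 * M * B.Cw)

theorem incrConst_nonneg : 0 ≤ incrConst B := by
  have := B.Cw_nonneg
  unfold incrConst
  positivity

/-- A dominating function for the square of `bsum`. -/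
def bsq (k : ℕ) (x : TiltSpace n) : ℝ :=
  M * ∑ p ∈ D.lvl k, (Metric.closedBall (D.c p) (4 * D.sc k)).indicator (fun _ => D.b p ^ 2) x

theorem bsum_sq_le (k : ℕ) (x : TiltSpace n) : D.bsum k x ^ 2 ≤ D.bsq k x := by
  classical
  set s := (D.lvl k).filter fun p => x ∈ Metric.closedBall (D.c p) (4 * D.sc k)
  have h1 : D.bsum k x = ∑ p ∈ s, D.b p := by
    rw [Finset.sum_filter]
    exact Finset.sum_congr rfl fun p _ => Set.indicator_apply _ _ _
  have h2 : D.bsq k x = M * ∑ p ∈ s, D.b p ^ 2 := by
    rw [Finset.sum_filter, bsq]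
    exact congrArg _ (Finset.sum_congr rfl fun p _ => Set.indicator_apply _ _ _)
  rw [h1, h2]
  refine sq_sum_le_card_mul_sum_sq.trans (mul_le_mul_of_nonneg_right (Nat.cast_le.2 ?_)
    (Finset.sum_nonneg fun p _ => sq_nonneg _))
  refine (Finset.card_le_card fun p hp => ?_).trans (D.count x k)
  obtain ⟨hp1, hp2⟩ := Finset.mem_filter.1 hp
  exact Finset.mem_filter.2 ⟨(D.mem_lvl.1 hp1).1, (D.mem_lvl.1 hp1).2, Metric.mem_closedBall.1 hp2⟩

theorem bsq_nonneg (k : ℕ) (x : TiltSpace n) : 0 ≤ D.bsq k x :=
  (sq_nonneg _).trans (D.bsum_sq_le k x)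

theorem integrable_indicator_ball (c : TiltSpace n) (r u : ℝ) :
    Integrable ((Metric.closedBall c r).indicator fun _ => u) :=
  (integrableOn_const measure_closedBall_lt_top.ne).integrable_indicator measurableSet_closedBall

theorem integrable_bsq (k : ℕ) : Integrable (D.bsq k) :=
  (integrable_finsetSum _ fun _ _ => integrable_indicator_ball _ _ _).const_mul _

theorem integrable_bsum (k : ℕ) : Integrable (D.bsum k) :=
  integrable_finsetSum _ fun _ _ => integrable_indicator_ball _ _ _

theorem integral_bsq (k : ℕ) : ∫ x, D.bsq k x =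
    M * (4 ^ n * (volume : Measure (TiltSpace n)).real (ball 0 1)) *
      ∑ p ∈ D.lvl k, D.b p ^ 2 * D.sc k ^ n := by
  simp only [bsq]
  rw [integral_const_mul, integral_finsetSum _ fun _ _ => integrable_indicator_ball _ _ _,
    Finset.mul_sum, Finset.mul_sum]
  refine Finset.sum_congr rfl fun p _ => ?_
  rw [integral_indicator measurableSet_closedBall, setIntegral_const, smul_eq_mul,
    Measure.addHaar_real_closedBall volume _ (by linarith [D.sc_pos k]), finrank_euclideanSpace_fin,
    mul_pow]
  ring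

theorem abs_incr_le (he : ‖e‖ = 1) (k : ℕ) (x : TiltSpace n) :
    |D.incr k x| ≤ incrConst B * D.bsum k x * D.sc k :=
  (abs_le_jetSize (e := e) (D.sc_pos (k + 1)).le).trans (D.incr_le B he k x)

theorem abs_dirDeriv_incr_le (he : ‖e‖ = 1) (k : ℕ) (x : TiltSpace n) :
    |dirDeriv e (D.incr k) x| ≤ 16 * incrConst B * D.bsum k x := by
  refine (dirDeriv_le_jetSize (D.sc_pos (k + 1))).trans ?_
  rw [div_le_iff₀ (D.sc_pos (k + 1))]
  refine (D.incr_le B he k x).trans_eq ?_
  rw [D.sc_succ, incrConst]; ring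

theorem abs_dirDeriv_two_incr_le (he : ‖e‖ = 1) (k : ℕ) (x : TiltSpace n) :
    |dirDeriv e (dirDeriv e (D.incr k)) x| ≤ 512 * incrConst B * D.bsum k x / D.sc k := by
  refine (dirDeriv_two_le_jetSize (D.sc_pos (k + 1))).trans ?_
  have hs := D.sc_pos k
  have h := D.incr_le B he k x
  rw [D.sc_succ] at h ⊢
  rw [div_le_div_iff₀ (by positivity) hs]
  have h' := mul_le_mul_of_nonneg_right h hs.le
  simp only [incrConst]
  nlinarith

include B in
theorem hasCompactSupport_incr (he : ‖e‖ = 1) (k : ℕ) : HasCompactSupport (D.incr k) := by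
  refine HasCompactSupport.intro ((D.lvl k).isCompact_biUnion fun p _ =>
    isCompact_closedBall (D.c p) (4 * D.sc k)) fun x hx => ?_
  have h0 : D.bsum k x = 0 := Finset.sum_eq_zero fun p hp => Set.indicator_of_notMem
    (fun h => hx (Set.mem_biUnion hp h)) _
  have h := D.abs_incr_le B he k x
  rw [h0, mul_zero, zero_mul] at h
  exact abs_nonpos_iff.1 h

theorem approx_succ (k : ℕ) : D.approx (k + 1) = fun x => D.approx k x + D.incr k x := rfl

theorem dirDeriv_approx (N : ℕ) :
    dirDeriv e (D.approx N) = fun x => ∑ k ∈ Finset.range N, dirDeriv e (D.incr k) x := by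
  induction N with
  | zero => funext x; simp [approx, dirDeriv]
  | succ N ih =>
    rw [D.approx_succ, dirDeriv_add ((D.contDiff_approx N).differentiable (by norm_num))
      ((D.contDiff_incr N).differentiable (by norm_num)), ih]
    funext x
    rw [Finset.sum_range_succ]

include B in
theorem hasCompactSupport_dirDeriv_approx (he : ‖e‖ = 1) (N : ℕ) :
    HasCompactSupport (dirDeriv e (D.approx N)) := by
  have : HasCompactSupport (D.approx N) := by
    induction N with
    | zero => exact HasCompactSupport.zero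
    | succ N ih => rw [D.approx_succ]; exact ih.add (D.hasCompactSupport_incr B he N)
  exact this.fderiv_apply ℝ e

theorem integral_mul_bsum_le (j k : ℕ) {F : TiltSpace n → ℝ} (hF : Integrable F) {C : ℝ}
    (hC : 0 ≤ C) (h : ∀ x, F x ≤ C * (D.bsum j x * D.bsum k x)) :
    ∫ x, F x ≤ C / 2 * ((∫ x, D.bsq j x) + ∫ x, D.bsq k x) := by
  rw [← integral_add (D.integrable_bsq j) (D.integrable_bsq k), ← integral_const_mul]
  refine integral_mono hF (((D.integrable_bsq j).add (D.integrable_bsq k)).const_mul _) fun x => ?_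
  refine (h x).trans ?_
  nlinarith [two_mul_le_add_sq (D.bsum j x) (D.bsum k x), D.bsum_sq_le j x, D.bsum_sq_le k x]

include B in
/-- The gradients of the increments are almost orthogonal. -/
theorem incr_inner_le (he : ‖e‖ = 1) {j k : ℕ} (hjk : j ≤ k) :
    |∫ x, dirDeriv e (D.incr j) x * dirDeriv e (D.incr k) x| ≤
      256 * incrConst B ^ 2 * levelWeight j k * ((∫ x, D.bsq j x) + ∫ x, D.bsq k x) := by
  have c1 := contDiff_dirDeriv (e := e) (D.contDiff_incr j)
  have c0 := D.contDiff_incr k
  have cc := (continuous_dirDeriv_two (e := e) (D.contDiff_incr j))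
  have hk := D.hasCompactSupport_incr B he k
  have hk1 : HasCompactSupport (dirDeriv e (D.incr k)) := hk.fderiv_apply ℝ e
  have h := integral_mul_fderiv_eq_neg_fderiv_mul_of_integrable (μ := volume) (v := e)
    (f := dirDeriv e (D.incr j)) (g := D.incr k)
    ((cc.mul c0.continuous).integrable_of_hasCompactSupport hk.mul_left)
    ((c1.continuous.mul (contDiff_dirDeriv c0).continuous).integrable_of_hasCompactSupport hk1.mul_left)
    ((c1.continuous.mul c0.continuous).integrable_of_hasCompactSupport hk.mul_left)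
    (fun x _ => c1.differentiable (by norm_num) x) (fun x _ => c0.differentiable (by norm_num) x)
  rw [show (∫ x, dirDeriv e (D.incr j) x * dirDeriv e (D.incr k) x) =
    -∫ x, dirDeriv e (dirDeriv e (D.incr j)) x * D.incr k x from h, abs_neg]
  refine (abs_integral_le_integral_abs).trans
    ((D.integral_mul_bsum_le j k (C := 512 * incrConst B ^ 2 * levelWeight j k)
      ((cc.mul c0.continuous).integrable_of_hasCompactSupport hk.mul_left).abs
      (mul_nonneg (by positivity) (levelWeight_nonneg j k)) fun x => ?_).trans_eq (by ring))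
  rw [Pi.mul_apply, abs_mul]
  have hC := incrConst_nonneg B
  have hb := D.bsum_nonneg j x
  have hsj := D.sc_pos j
  refine (mul_le_mul (D.abs_dirDeriv_two_incr_le B he j x) (D.abs_incr_le B he k x) (abs_nonneg _)
    (by positivity)).trans_eq ?_
  rw [show D.sc k = D.sc j * levelWeight j k from tilt_scale_mul hjk]
  field_simp

include B in
/-- The energy of the glued map. -/
theorem energy_le (he : ‖e‖ = 1) (N : ℕ) :
    ∫ x, dirDeriv e (D.approx N) x ^ 2 ≤
      1536 * incrConst B ^ 2 * ∑ k ∈ Finset.range N, ∫ x, D.bsq k x := by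
  have hint : ∀ j k : ℕ, Integrable fun x => dirDeriv e (D.incr j) x * dirDeriv e (D.incr k) x :=
    fun j k => ((contDiff_dirDeriv (D.contDiff_incr j)).continuous.mul
      (contDiff_dirDeriv (D.contDiff_incr k)).continuous).integrable_of_hasCompactSupport
      ((D.hasCompactSupport_incr B he k).fderiv_apply ℝ e).mul_left
  have hsq : (fun x => dirDeriv e (D.approx N) x ^ 2) = fun x => ∑ j ∈ Finset.range N,
      ∑ k ∈ Finset.range N, dirDeriv e (D.incr j) x * dirDeriv e (D.incr k) x := funext fun x => by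
    rw [D.dirDeriv_approx N, sq, Finset.sum_mul_sum]
  rw [hsq, integral_finsetSum _ fun j _ => integrable_finsetSum _ fun k _ => hint j k]
  simp only [integral_finsetSum _ fun k _ => hint _ k]
  set I := fun k => ∫ x, D.bsq k x
  set A := 256 * incrConst B ^ 2
  have hI : ∀ k, 0 ≤ I k := fun k => integral_nonneg (D.bsq_nonneg k)
  have hA : 0 ≤ A := by positivity
  refine (Finset.sum_le_sum fun j _ => Finset.sum_le_sum fun k _ => ?_ :
    _ ≤ ∑ j ∈ Finset.range N, ∑ k ∈ Finset.range N, A * levelWeight j k * (I j + I k)).trans ?_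
  · refine (le_abs_self _).trans ?_
    rcases le_total j k with h | h
    · exact D.incr_inner_le B he h
    · rw [levelWeight_comm, add_comm (I j), show (∫ x, dirDeriv e (D.incr j) x *
        dirDeriv e (D.incr k) x) = ∫ x, dirDeriv e (D.incr k) x * dirDeriv e (D.incr j) x from
        integral_congr_ae (.of_forall fun x => mul_comm _ _)]
      exact D.incr_inner_le B he h
  · simp only [mul_add, Finset.sum_add_distrib]
    rw [Finset.sum_comm (f := fun j k => A * levelWeight j k * I k)]
    have key : ∀ w : ℕ → ℕ → ℝ, (∀ j, ∑ k ∈ Finset.range N, w j k ≤ 3) →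
        ∑ j ∈ Finset.range N, ∑ k ∈ Finset.range N, A * w j k * I j ≤
          3 * A * ∑ j ∈ Finset.range N, I j := fun w hw => by
      rw [Finset.mul_sum]
      refine Finset.sum_le_sum fun j _ => ?_
      rw [← Finset.sum_mul, ← Finset.mul_sum]
      exact mul_le_mul_of_nonneg_right (by linarith [mul_le_mul_of_nonneg_left (hw j) hA]) (hI j)
    have k1 := key levelWeight fun j => sum_levelWeight j N
    have k2 := key (fun j k => levelWeight k j) fun j => by
      simpa only [levelWeight_comm] using sum_levelWeight j N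
    linarith

/-- The square of a weighted sum plus one more term. -/
theorem sq_add_weighted_le (k N : ℕ) (G : ℝ) (u v : ℕ → ℝ) (h : ∀ j, u j ^ 2 ≤ v j) :
    (G + ∑ j ∈ Finset.range N, levelWeight k j * u j) ^ 2 ≤
      2 * G ^ 2 + 6 * ∑ j ∈ Finset.range N, v j := by
  have h1 : (∑ j ∈ Finset.range N, levelWeight k j * u j) ^ 2 ≤
      (∑ j ∈ Finset.range N, levelWeight k j) * ∑ j ∈ Finset.range N, levelWeight k j * u j ^ 2 :=
    Finset.sum_sq_le_sum_mul_sum_of_sq_le_mul _ (fun j _ => levelWeight_nonneg k j)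
      (fun j _ => mul_nonneg (levelWeight_nonneg k j) (sq_nonneg _)) fun j _ => le_of_eq (by ring)
  have h2 : ∑ j ∈ Finset.range N, levelWeight k j * u j ^ 2 ≤ ∑ j ∈ Finset.range N, v j :=
    Finset.sum_le_sum fun j _ => (mul_le_of_le_one_left (sq_nonneg _) (levelWeight_le_one k j)).trans (h j)
  have h3 : 0 ≤ ∑ j ∈ Finset.range N, levelWeight k j * u j ^ 2 :=
    Finset.sum_nonneg fun j _ => mul_nonneg (levelWeight_nonneg k j) (sq_nonneg _)
  nlinarith [mul_le_mul_of_nonneg_right (sum_levelWeight k N) h3,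
    sq_nonneg (G - ∑ j ∈ Finset.range N, levelWeight k j * u j)]

end TiltData

/-- Constants for the test functions. -/
theorem testProfile_bounds (n : ℕ) : ∃ Ct m : ℝ, 0 ≤ Ct ∧ 0 < m ∧
    ∀ (c : TiltSpace n) (r : ℝ), 0 < r →
      (∫ x, placed (testProfile n) c r x) = r ^ n * m ∧
      ∀ e x : TiltSpace n, ‖e‖ = 1 → |dirDeriv e (placed (testProfile n) c r) x| ≤ Ct / r := by
  obtain ⟨Ct, hCt, hC⟩ := jetSize_le_bound (F := testProfile n) (testProfile n).contDiff
    (testProfile n).hasCompactSupport
  refine ⟨Ct, ∫ x, testProfile n x, hCt, (testProfile n).integral_pos (μ := volume),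
    fun c r hr => ⟨?_, fun e x he => ?_⟩⟩
  · simp only [placed]
    rw [integral_sub_right_eq_self (μ := volume) (fun x => testProfile n (r⁻¹ • x)) c,
      Measure.integral_comp_inv_smul, finrank_euclideanSpace_fin, abs_of_nonneg (by positivity),
      smul_eq_mul]
  · refine (dirDeriv_le_jetSize hr).trans (div_le_div_of_nonneg_right ?_ hr.le)
    rw [jetSize_placed (testProfile n).contDiff hr]
    exact hC e he _

theorem testProfile_zero {c x : TiltSpace n} {r : ℝ} (hr : 0 < r) (h : r < dist x c) :
    placed (testProfile n) c r =ᶠ[𝓝 x] fun _ => 0 := by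
  filter_upwards [(isOpen_lt continuous_const (continuous_id.dist continuous_const)).mem_nhds h]
    with y hy
  refine (testProfile n).zero_of_le_dist ?_
  rw [dist_zero_right, norm_smul, norm_inv, Real.norm_eq_abs, abs_of_pos hr, ← dist_eq_norm,
    inv_mul_eq_div, le_div_iff₀ hr]
  show 1 * r ≤ dist y c
  rw [one_mul]
  exact hy.le

namespace TiltData

variable {ι : Type} (D : TiltData n M ι) (B : TiltBounds n M) {e : TiltSpace n}

include B in
/-- The tilt of one stop is controlled by the energy in its ball. -/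
theorem stop_le {Ct m : ℝ} (hCt : 0 ≤ Ct) (hm : 0 < m)
    (htest : ∀ (c : TiltSpace n) (r : ℝ), 0 < r →
      (∫ x, placed (testProfile n) c r x) = r ^ n * m ∧
      ∀ e x : TiltSpace n, ‖e‖ = 1 → |dirDeriv e (placed (testProfile n) c r) x| ≤ Ct / r)
    (he : ‖e‖ = 1) {N : ℕ} {q : ι} (hq : q ∈ D.T) (hN : D.lev q < N) :
    ⟪D.a q, e⟫ ^ 2 * D.sc (D.lev q) ^ n ≤
      (1 + 6 * M * B.Cw + 200 * Ct * incrConst B) ^ 2 * (volume : Measure (TiltSpace n)).real (ball 0 1)
          * 400 ^ n / m ^ 2 *
        ∫ x in ball (D.c q) (D.sc (D.lev q) / 100),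
          (2 * dirDeriv e (D.approx N) x ^ 2 + 6 * ∑ j ∈ Finset.range N, D.bsq j x) := by
  set k := D.lev q
  set l := D.sc k
  have hl : 0 < l := D.sc_pos k
  set U := ball (D.c q) (l / 100)
  have hqk : q ∈ D.lvl k := D.mem_lvl.2 ⟨hq, rfl⟩
  set ψ := placed (testProfile n) (D.c q) (l / 200)
  have hr : 0 < l / 200 := by positivity
  obtain ⟨hψi, hψd⟩ := htest (D.c q) (l / 200) hr
  have hψc : ContDiff ℝ 2 ψ := contDiff_placed (testProfile n).contDiff _ _
  have hψ0 : ∀ x, x ∉ U → ψ x = 0 ∧ dirDeriv e ψ x = 0 := fun x hx => by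
    have h := testProfile_zero (c := D.c q) (x := x) hr (by
      simp only [U, Metric.mem_ball, not_lt] at hx; linarith)
    refine ⟨h.eq_of_nhds, ?_⟩
    show fderiv ℝ (placed (testProfile n) (D.c q) (l / 200)) x e = 0
    rw [h.fderiv_eq]
    simp
  have hψs : HasCompactSupport ψ := HasCompactSupport.intro (isCompact_closedBall (D.c q) (l / 100))
    fun x hx => (hψ0 x fun h => hx (ball_subset_closedBall h)).1
  have hψ1 : ∀ x, 0 ≤ ψ x ∧ ψ x ≤ 1 := fun x => ⟨(testProfile n).nonneg, (testProfile n).le_one⟩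
  have hψs' : HasCompactSupport (dirDeriv e ψ) := hψs.fderiv_apply ℝ e
  set C3 := 1 + 6 * M * B.Cw + 200 * Ct * incrConst B
  set F := fun x => |dirDeriv e (D.approx N) x| + ∑ j ∈ Finset.range N, levelWeight k j * D.bsum j x
  have hF0 : ∀ x, 0 ≤ F x := fun x => add_nonneg (abs_nonneg _) (Finset.sum_nonneg fun j _ =>
    mul_nonneg (levelWeight_nonneg k j) (D.bsum_nonneg j x))
  have hGs := D.hasCompactSupport_dirDeriv_approx B he N
  have hGc := (contDiff_dirDeriv (e := e) (D.contDiff_approx N)).continuous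
  have hFi : Integrable F := (hGc.integrable_of_hasCompactSupport hGs).abs.add
    (integrable_finsetSum _ fun j _ => (D.integrable_bsum j).const_mul _)
  set H := fun x => 2 * dirDeriv e (D.approx N) x ^ 2 + 6 * ∑ j ∈ Finset.range N, D.bsq j x
  have hHi : Integrable H := (((hGc.pow 2).integrable_of_hasCompactSupport (μ := volume) (by
      simpa only [pow_two] using hGs.mul_left)).const_mul 2).add
    ((integrable_finsetSum _ fun j _ => D.integrable_bsq j).const_mul 6)
  have hdev : ∀ x ∈ U, |dirDeriv e (fun y => D.approx k y - D.aff q y) x| ≤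
      6 * M * B.Cw * D.bsum k x := fun x hx => by
    refine (dirDeriv_le_jetSize hl).trans ?_
    rw [div_le_iff₀ hl]
    exact D.dev_le B he hqk (by simp only [U, Metric.mem_ball] at hx; linarith)
  -- the tilt tested with the bump
  have haff : ∀ x, dirDeriv e (D.aff q) x = ⟪D.a q, e⟫ := fun x => by
    have h : HasFDerivAt (fun z : TiltSpace n => D.v q + ⟪D.a q, z - D.c q⟫) (innerSL ℝ (D.a q)) x :=
      (((innerSL ℝ (D.a q)).hasFDerivAt).comp x ((hasFDerivAt_id x).sub_const (D.c q))).const_add _
    show fderiv ℝ (fun z => D.v q + ⟪D.a q, z - D.c q⟫) x e = _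
    simp [h.fderiv]
  have hsum : ∀ x, dirDeriv e (D.approx N) x =
      dirDeriv e (D.approx k) x + ∑ j ∈ Finset.Ico k N, dirDeriv e (D.incr j) x := fun x => by
    simp only [D.dirDeriv_approx]
    rw [Finset.sum_range_add_sum_Ico _ hN.le]
  have hid : ∀ x, ψ x * ⟪D.a q, e⟫ = ψ x * dirDeriv e (D.approx N) x -
      ψ x * dirDeriv e (fun y => D.approx k y - D.aff q y) x -
      ∑ j ∈ Finset.Ico k N, ψ x * dirDeriv e (D.incr j) x := fun x => by
    rw [← Finset.mul_sum, hsum, dirDeriv_sub ((D.contDiff_approx k).differentiable (by norm_num))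
      ((D.contDiff_aff q).differentiable (by norm_num))]
    simp only [haff]
    ring
  have i1 : Integrable fun x => ψ x * dirDeriv e (D.approx N) x :=
    (hψc.continuous.mul hGc).integrable_of_hasCompactSupport hψs.mul_right
  have i2 : Integrable fun x => ψ x * dirDeriv e (fun y => D.approx k y - D.aff q y) x :=
    (hψc.continuous.mul (contDiff_dirDeriv ((D.contDiff_approx k).sub
      (D.contDiff_aff q))).continuous).integrable_of_hasCompactSupport hψs.mul_right
  have i3 : ∀ j, Integrable fun x => ψ x * dirDeriv e (D.incr j) x := fun j =>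
    (hψc.continuous.mul (contDiff_dirDeriv (D.contDiff_incr j)).continuous).integrable_of_hasCompactSupport
      hψs.mul_right
  have i4 : ∀ j, Integrable fun x => dirDeriv e ψ x * D.incr j x := fun j =>
    ((contDiff_dirDeriv hψc).continuous.mul (D.contDiff_incr j).continuous).integrable_of_hasCompactSupport
      hψs'.mul_right
  have local_le : ∀ (u w : TiltSpace n → ℝ), IntegrableOn w U → (∀ x, x ∉ U → u x = 0) →
      (∀ x ∈ U, |u x| ≤ w x) → |∫ x, u x| ≤ ∫ x in U, w x := fun u w hw h0 h => by
    rw [← setIntegral_eq_integral_of_forall_compl_eq_zero h0]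
    exact (abs_integral_le_integral_abs).trans (integral_mono_of_nonneg (.of_forall fun x => abs_nonneg _)
      hw ((ae_restrict_mem measurableSet_ball).mono h))
  have t1 : |∫ x, ψ x * dirDeriv e (D.approx N) x| ≤ ∫ x in U, |dirDeriv e (D.approx N) x| :=
    local_le _ _ (hGc.integrable_of_hasCompactSupport hGs).abs.integrableOn
      (fun x hx => by rw [(hψ0 x hx).1, zero_mul]) fun x _ => by
        rw [abs_mul, abs_of_nonneg (hψ1 x).1]
        exact mul_le_of_le_one_left (abs_nonneg _) (hψ1 x).2
  have t2 : |∫ x, ψ x * dirDeriv e (fun y => D.approx k y - D.aff q y) x| ≤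
      ∫ x in U, 6 * M * B.Cw * D.bsum k x :=
    local_le _ _ ((D.integrable_bsum k).const_mul _).integrableOn
      (fun x hx => by rw [(hψ0 x hx).1, zero_mul]) fun x hx => by
        rw [abs_mul, abs_of_nonneg (hψ1 x).1]
        exact (mul_le_of_le_one_left (abs_nonneg _) (hψ1 x).2).trans (hdev x hx)
  have t3 : ∀ j ∈ Finset.Ico k N, |∫ x, ψ x * dirDeriv e (D.incr j) x| ≤
      ∫ x in U, 200 * Ct * incrConst B * (levelWeight k j * D.bsum j x) := fun j hj => by
    rw [show (∫ x, ψ x * dirDeriv e (D.incr j) x) = -∫ x, dirDeriv e ψ x * D.incr j x from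
      integral_mul_fderiv_eq_neg_fderiv_mul_of_integrable (μ := volume) (v := e) (f := ψ) (g := D.incr j)
        (i4 j) (i3 j) ((hψc.continuous.mul (D.contDiff_incr j).continuous).integrable_of_hasCompactSupport
          hψs.mul_right) (fun x _ => hψc.differentiable (by norm_num) x)
        (fun x _ => (D.contDiff_incr j).differentiable (by norm_num) x), abs_neg]
    refine local_le _ _ (((D.integrable_bsum j).const_mul _).const_mul _).integrableOn
      (fun x hx => by rw [(hψ0 x hx).2, zero_mul]) fun x _ => ?_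
    rw [abs_mul]
    refine (mul_le_mul (hψd e x he) (D.abs_incr_le B he j x) (abs_nonneg _)
      (div_nonneg hCt hr.le)).trans_eq ?_
    rw [show D.sc j = l * levelWeight k j from tilt_scale_mul (Finset.mem_Ico.1 hj).1]
    field_simp
  have hmain : |⟪D.a q, e⟫| * ((l / 200) ^ n * m) ≤ C3 * ∫ x in U, F x := by
    have h1 : ⟪D.a q, e⟫ * ((l / 200) ^ n * m) = ∫ x, (ψ x * dirDeriv e (D.approx N) x -
        ψ x * dirDeriv e (fun y => D.approx k y - D.aff q y) x -
        ∑ j ∈ Finset.Ico k N, ψ x * dirDeriv e (D.incr j) x) := by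
      rw [← hψi, ← integral_const_mul]
      exact integral_congr_ae (.of_forall fun x => (mul_comm _ _).trans (hid x))
    have i12 : Integrable fun x => ψ x * dirDeriv e (D.approx N) x -
        ψ x * dirDeriv e (fun y => D.approx k y - D.aff q y) x := i1.sub i2
    have i5 : Integrable fun x => ∑ j ∈ Finset.Ico k N, ψ x * dirDeriv e (D.incr j) x :=
      integrable_finsetSum _ fun j _ => i3 j
    rw [integral_sub i12 i5, integral_sub i1 i2,
      integral_finsetSum (f := fun j x => ψ x * dirDeriv e (D.incr j) x) _ fun j _ => i3 j] at h1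
    rw [← abs_of_nonneg (show (0 : ℝ) ≤ (l / 200) ^ n * m by positivity), ← abs_mul, h1]
    refine (abs_sub _ _).trans ((add_le_add ((abs_sub _ _).trans (add_le_add t1 t2))
      ((Finset.abs_sum_le_sum_abs _ _).trans (Finset.sum_le_sum t3))).trans ?_)
    rw [← integral_finsetSum _ fun j _ => (((D.integrable_bsum j).const_mul _).const_mul _).integrableOn,
      ← integral_add (hGc.integrable_of_hasCompactSupport hGs).abs.integrableOn
        ((D.integrable_bsum k).const_mul _).integrableOn, ← integral_add, ← integral_const_mul]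
    · refine setIntegral_mono ?_ (hFi.const_mul C3).integrableOn fun x => ?_
      · exact (((hGc.integrable_of_hasCompactSupport hGs).abs.add ((D.integrable_bsum k).const_mul _)).add
          (integrable_finsetSum _ fun j _ => ((D.integrable_bsum j).const_mul _).const_mul _)).integrableOn
      have hS : ∀ s ⊆ Finset.range N, ∑ j ∈ s, levelWeight k j * D.bsum j x ≤
          ∑ j ∈ Finset.range N, levelWeight k j * D.bsum j x := fun s hs =>
        Finset.sum_le_sum_of_subset_of_nonneg hs fun j _ _ =>
          mul_nonneg (levelWeight_nonneg k j) (D.bsum_nonneg j x)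
      have s1 := hS {k} (Finset.singleton_subset_iff.2 (Finset.mem_range.2 hN))
      have s2 := hS (Finset.Ico k N) fun j hj => Finset.mem_range.2 (Finset.mem_Ico.1 hj).2
      rw [Finset.sum_singleton, show levelWeight k k = 1 by simp [levelWeight], one_mul] at s1
      have hC := incrConst_nonneg B
      have hw := B.Cw_nonneg
      have hG := abs_nonneg (dirDeriv e (D.approx N) x)
      rw [← Finset.mul_sum]
      simp only [F, C3]
      nlinarith [mul_le_mul_of_nonneg_left s1 (show 0 ≤ 6 * (M : ℝ) * B.Cw by positivity),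
        mul_le_mul_of_nonneg_left s2 (show 0 ≤ 200 * Ct * incrConst B by positivity),
        mul_nonneg (show 0 ≤ 6 * (M : ℝ) * B.Cw + 200 * Ct * incrConst B by positivity) hG,
        (D.bsum_nonneg k x).trans s1]
    · exact ((hGc.integrable_of_hasCompactSupport hGs).abs.add
        ((D.integrable_bsum k).const_mul _)).integrableOn
    · exact (integrable_finsetSum _ fun j _ =>
        ((D.integrable_bsum j).const_mul _).const_mul _).integrableOn
  -- Cauchy–Schwarz in the ball
  set v1 := (volume : Measure (TiltSpace n)).real (ball 0 1)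
  have hvol : (volume : Measure (TiltSpace n)).real U = (l / 100) ^ n * v1 := by
    simp only [U, v1, measureReal_def]
    rw [Measure.addHaar_ball_of_pos volume _ (by positivity), ENNReal.toReal_mul,
      ENNReal.toReal_ofReal (by positivity), finrank_euclideanSpace_fin]
  have hCS : (∫ x in U, F x) ^ 2 ≤ (l / 100) ^ n * v1 * ∫ x in U, H x := by
    set V := (l / 100) ^ n * v1
    have hV : 0 ≤ V := mul_nonneg (by positivity) measureReal_nonneg
    have key : ∀ t : ℝ, 0 ≤ t → 2 * t * (∫ x in U, F x) ≤ (∫ x in U, H x) + t ^ 2 * V := fun t _ => by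
      rw [← integral_const_mul, ← hvol,
        show t ^ 2 * (volume : Measure (TiltSpace n)).real U = ∫ _ in U, t ^ 2 by
          rw [setIntegral_const, smul_eq_mul, mul_comm],
        ← integral_add hHi.integrableOn (integrableOn_const measure_ball_lt_top.ne)]
      refine setIntegral_mono (hFi.const_mul _).integrableOn
        (hHi.integrableOn.add (integrableOn_const measure_ball_lt_top.ne)) fun x => ?_
      have := sq_add_weighted_le k N |dirDeriv e (D.approx N) x| (fun j => D.bsum j x)
        (fun j => D.bsq j x) fun j => D.bsum_sq_le j x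
      rw [sq_abs] at this
      simp only [H, Pi.add_apply]
      nlinarith [sq_nonneg (F x - t)]
    rcases hV.eq_or_lt with h | h
    · have hU : (volume : Measure (TiltSpace n)).real U = 0 := by rw [hvol]; exact h.symm
      rw [setIntegral_measure_zero _ ((measureReal_eq_zero_iff measure_ball_lt_top.ne).1 hU), ← h]
      simp
    · have h2 := key ((∫ x in U, F x) / V) (div_nonneg (integral_nonneg hF0) h.le)
      field_simp at h2
      linarith
  have hsq : ⟪D.a q, e⟫ ^ 2 * ((l / 200) ^ n * m) ^ 2 ≤ C3 ^ 2 * (∫ x in U, F x) ^ 2 := by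
    have := pow_le_pow_left₀ (by positivity) hmain 2
    rwa [mul_pow |⟪D.a q, e⟫|, mul_pow C3, sq_abs] at this
  have hfin := hsq.trans (mul_le_mul_of_nonneg_left hCS (sq_nonneg _))
  have e1 : (l / 200) ^ n * 200 ^ n = l ^ n := by rw [← mul_pow]; congr 1; ring
  have e2 : (l / 100) ^ n * 100 ^ n = l ^ n := by rw [← mul_pow]; congr 1; ring
  have e3 : (400 : ℝ) ^ n * 100 ^ n = 200 ^ n * 200 ^ n := by rw [← mul_pow, ← mul_pow]; norm_num
  rw [div_mul_eq_mul_div, le_div_iff₀ (by positivity)]
  refine le_of_mul_le_mul_right ?_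
    (show (0 : ℝ) < (l / 100) ^ n * 100 ^ n by positivity)
  have hfin2 := mul_le_mul_of_nonneg_right hfin (show (0 : ℝ) ≤ 200 ^ n * 200 ^ n by positivity)
  calc ⟪D.a q, e⟫ ^ 2 * l ^ n * m ^ 2 * ((l / 100) ^ n * 100 ^ n)
      = ⟪D.a q, e⟫ ^ 2 * ((l / 200) ^ n * m) ^ 2 * (200 ^ n * 200 ^ n) := by
        rw [e2, ← e1]; ring
    _ ≤ C3 ^ 2 * ((l / 100) ^ n * v1 * ∫ x in U, H x) * (200 ^ n * 200 ^ n) := hfin2
    _ = C3 ^ 2 * v1 * 400 ^ n * (∫ x in U, H x) * ((l / 100) ^ n * 100 ^ n) := by rw [← e3]; ring

end TiltData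

/-- Tilt packing: in a tree of nearly compatible affine maps over the root plane, the squared
tilts over separated stops are controlled by the squared compatibility numbers. -/
theorem tilt_packing (n M : ℕ) : ∃ K : ℝ, ∀ (L : ℝ), 0 < L → ∀ (ι : Type) (T : Finset ι)
    (lev : ι → ℕ) (c a : ι → TiltSpace n) (v b : ι → ℝ),
    (∀ q ∈ T, 0 ≤ b q) →
    (∀ q ∈ T, lev q = 0 → a q = 0 ∧ v q = 0) →
    (∀ q ∈ T, 0 < lev q → ∃ p ∈ T, lev p + 1 = lev q ∧ dist (c q) (c p) ≤ 2 * tiltScale L (lev p)) →
    (∀ p ∈ T, ∀ q ∈ T, (lev q = lev p ∧ dist (c q) (c p) ≤ 7 * tiltScale L (lev p)) ∨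
        (lev q = lev p + 1 ∧ dist (c q) (c p) ≤ 4 * tiltScale L (lev p)) →
      ‖a q - a p‖ ≤ b p ∧ |v q - (v p + ⟪a p, c q - c p⟫)| ≤ b p * tiltScale L (lev p)) →
    (∀ x k, (T.filter fun q => lev q = k ∧ dist x (c q) ≤ 4 * tiltScale L k).card ≤ M) →
    ∀ S ⊆ T, ((↑S : Set ι).PairwiseDisjoint fun q => Metric.ball (c q) (tiltScale L (lev q) / 100)) →
      ∑ q ∈ S, ‖a q‖ ^ 2 * tiltScale L (lev q) ^ n ≤
        K * ∑ q ∈ T, b q ^ 2 * tiltScale L (lev q) ^ n := by
  obtain ⟨B⟩ := tiltBounds n M
  obtain ⟨Ct, m, hCt, hm, htest⟩ := testProfile_bounds n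
  set v1 := (volume : Measure (TiltSpace n)).real (ball 0 1)
  set C4 := (1 + 6 * M * B.Cw + 200 * Ct * TiltData.incrConst B) ^ 2 * v1 * 400 ^ n / m ^ 2
  have hC4 : 0 ≤ C4 := div_nonneg (mul_nonneg (mul_nonneg (sq_nonneg _) measureReal_nonneg)
    (by positivity)) (sq_nonneg _)
  refine ⟨n * (C4 * ((3072 * TiltData.incrConst B ^ 2 + 6) * (M * (4 ^ n * v1)))),
    fun L hL ι T lev c a v b h1 h2 h3 h4 h5 S hS hdisj => ?_⟩
  let D : TiltData n M ι :=
    ⟨L, hL, T, lev, c, a, v, b, h1, h2, h3, h4, h5⟩
  set N := T.sup lev + 1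
  have hN : ∀ q ∈ T, lev q < N := fun q hq => Nat.lt_succ_of_le (Finset.le_sup hq)
  set btot := ∑ q ∈ T, b q ^ 2 * tiltScale L (lev q) ^ n
  have hI : ∑ k ∈ Finset.range N, ∫ x, D.bsq k x = M * (4 ^ n * v1) * btot := by
    simp only [D.integral_bsq, ← Finset.mul_sum]
    congr 1
    refine Eq.trans ?_ (Finset.sum_fiberwise_of_maps_to (s := T) (t := Finset.range N) (g := lev)
      (fun q hq => Finset.mem_range.2 (hN q hq)) _)
    refine Finset.sum_congr rfl fun k _ => Finset.sum_congr rfl fun q hq => ?_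
    rw [← (D.mem_lvl.1 hq).2]
    rfl
  have comp : ∀ i : Fin n, ∑ q ∈ S, a q i ^ 2 * tiltScale L (lev q) ^ n ≤
      C4 * ((3072 * TiltData.incrConst B ^ 2 + 6) * (M * (4 ^ n * v1))) * btot := fun i => by
    set e : TiltSpace n := EuclideanSpace.single i 1
    have he : ‖e‖ = 1 := by simp [e]
    set H := fun x => 2 * dirDeriv e (D.approx N) x ^ 2 + 6 * ∑ j ∈ Finset.range N, D.bsq j x
    have hG2 : Integrable fun x => dirDeriv e (D.approx N) x ^ 2 :=
      ((contDiff_dirDeriv (D.contDiff_approx N)).continuous.pow 2).integrable_of_hasCompactSupport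
        (by simpa only [pow_two] using (D.hasCompactSupport_dirDeriv_approx B he N).mul_left)
    have hHi : Integrable H :=
      (hG2.const_mul 2).add ((integrable_finsetSum _ fun j _ => D.integrable_bsq j).const_mul 6)
    have hH0 : ∀ x, 0 ≤ H x := fun x => add_nonneg (by positivity)
      (mul_nonneg (by norm_num) (Finset.sum_nonneg fun j _ => D.bsq_nonneg j x))
    have hE : ∫ x, H x ≤ (3072 * TiltData.incrConst B ^ 2 + 6) * (M * (4 ^ n * v1)) * btot := by
      rw [integral_add (hG2.const_mul 2)
        ((integrable_finsetSum _ fun j _ => D.integrable_bsq j).const_mul 6), integral_const_mul,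
        integral_const_mul, integral_finsetSum _ fun j _ => D.integrable_bsq j, mul_assoc, ← hI]
      have := D.energy_le B he N
      linarith
    calc ∑ q ∈ S, a q i ^ 2 * tiltScale L (lev q) ^ n
        ≤ ∑ q ∈ S, C4 * ∫ x in ball (c q) (tiltScale L (lev q) / 100), H x :=
          Finset.sum_le_sum fun q hq => by
            have h := D.stop_le B hCt hm htest he (hS hq) (hN q (hS hq))
            have hi : ⟪a q, e⟫ = a q i := by simp [e, EuclideanSpace.inner_single_right]
            rw [show ⟪D.a q, e⟫ = a q i from hi] at h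
            exact h
      _ = C4 * ∫ x in ⋃ q ∈ S, ball (c q) (tiltScale L (lev q) / 100), H x := by
          rw [← Finset.mul_sum, integral_biUnion_finset S (fun _ _ => measurableSet_ball) hdisj
            fun _ _ => hHi.integrableOn]
      _ ≤ C4 * ∫ x, H x :=
          mul_le_mul_of_nonneg_left (setIntegral_le_integral hHi (.of_forall hH0)) hC4
      _ ≤ _ := (mul_le_mul_of_nonneg_left hE hC4).trans_eq (by ring)
  calc ∑ q ∈ S, ‖a q‖ ^ 2 * tiltScale L (lev q) ^ n
      = ∑ i : Fin n, ∑ q ∈ S, a q i ^ 2 * tiltScale L (lev q) ^ n := by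
        rw [Finset.sum_comm]
        exact Finset.sum_congr rfl fun q _ => by rw [EuclideanSpace.real_norm_sq_eq, Finset.sum_mul]
    _ ≤ ∑ _i : Fin n, C4 * ((3072 * TiltData.incrConst B ^ 2 + 6) * (M * (4 ^ n * v1))) * btot :=
        Finset.sum_le_sum fun i _ => comp i
    _ = _ := by rw [Finset.sum_const, Finset.card_univ, Fintype.card_fin, nsmul_eq_mul]; ring

end

end Vale.Agent.P120.Full
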