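import Vale.Agent.P120.Full.StopsBasic
import Vale.Agent.P120.Full.TiltPacking

/-!
# P120, full answer: the stops of one tree pack

The stops where `b` is large are controlled by the sum of `b²`; the stops where the plane turns are
controlled by `tilt_packing`, applied to each coordinate of the planes over the root plane.
-/

namespace Vale.Agent.P120.Full

open MeasureTheory Set
open scoped RealInnerProductSpace

noncomputable section

variable {E : Type*} [NormedAddCommGroup E] [InnerProductSpace ℝ E] [MeasurableSpace E]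
  [BorelSpace E] [FiniteDimensional ℝ E] {n : ℕ} {C A : ℝ} {ν : Measure E} {x₀ : E} {R : ℝ}

/-- `tilt_packing` for an index type in any universe. -/
theorem tilt_packing_of_finset.{u} (n M : ℕ) : ∃ K : ℝ, ∀ (L : ℝ), 0 < L → ∀ (ι : Type u)
    (T : Finset ι) (lev : ι → ℕ) (c a : ι → TiltSpace n) (v b : ι → ℝ),
    (∀ q ∈ T, 0 ≤ b q) →
    (∀ q ∈ T, lev q = 0 → a q = 0 ∧ v q = 0) →
    (∀ q ∈ T, 0 < lev q →
      ∃ p ∈ T, lev p + 1 = lev q ∧ dist (c q) (c p) ≤ 2 * tiltScale L (lev p)) →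
    (∀ p ∈ T, ∀ q ∈ T, (lev q = lev p ∧ dist (c q) (c p) ≤ 7 * tiltScale L (lev p)) ∨
        (lev q = lev p + 1 ∧ dist (c q) (c p) ≤ 4 * tiltScale L (lev p)) →
      ‖a q - a p‖ ≤ b p ∧ |v q - (v p + ⟪a p, c q - c p⟫)| ≤ b p * tiltScale L (lev p)) →
    (∀ x k, (T.filter fun q => lev q = k ∧ dist x (c q) ≤ 4 * tiltScale L k).card ≤ M) →
    ∀ S ⊆ T,
      ((↑S : Set ι).PairwiseDisjoint fun q => Metric.ball (c q) (tiltScale L (lev q) / 100)) →
      ∑ q ∈ S, ‖a q‖ ^ 2 * tiltScale L (lev q) ^ n ≤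
        K * ∑ q ∈ T, b q ^ 2 * tiltScale L (lev q) ^ n := by
  classical
  obtain ⟨K, hK⟩ := tilt_packing n M
  refine ⟨K, fun L hL ι T lev c a v b h1 h2 h3 h4 h5 S hS hd => ?_⟩
  set f : Fin T.card → ι := fun i => T.equivFin.symm i
  have hf : ∀ i, f i ∈ T := fun i => (T.equivFin.symm i).2
  have hinj : Function.Injective f := Subtype.val_injective.comp T.equivFin.symm.injective
  have hsurj : ∀ q ∈ T, ∃ i, f i = q := fun q hq =>
    ⟨T.equivFin ⟨q, hq⟩, by simp [f]⟩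
  have himg : Finset.univ.image f = T := by
    ext q
    simp only [Finset.mem_image, Finset.mem_univ, true_and]
    exact ⟨fun ⟨i, hi⟩ => hi ▸ hf i, hsurj q⟩
  have himgS : (Finset.univ.filter fun i => f i ∈ S).image f = S := by
    ext q
    simp only [Finset.mem_image, Finset.mem_filter, Finset.mem_univ, true_and]
    refine ⟨fun ⟨i, hi, e⟩ => e ▸ hi, fun hq => ?_⟩
    obtain ⟨i, e⟩ := hsurj q (hS hq)
    exact ⟨i, e.symm ▸ hq, e⟩
  have h := hK L hL (Fin T.card) Finset.univ (lev ∘ f) (c ∘ f) (a ∘ f) (v ∘ f) (b ∘ f)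
    (fun i _ => h1 _ (hf i)) (fun i _ => h2 _ (hf i))
    (fun i _ h0 => by
      obtain ⟨p, hp, e1, e2⟩ := h3 _ (hf i) h0
      obtain ⟨j, rfl⟩ := hsurj p hp
      exact ⟨j, Finset.mem_univ _, e1, e2⟩)
    (fun i _ j _ => h4 _ (hf i) _ (hf j))
    (fun x k => le_trans (Finset.card_le_card_of_injOn f
      (fun i hi => Finset.mem_filter.2 ⟨hf i, (Finset.mem_filter.1 hi).2⟩) hinj.injOn) (h5 x k))
    (Finset.univ.filter fun i => f i ∈ S) (Finset.subset_univ _)
    (fun i hi j hj hne =>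
      hd (Finset.mem_filter.1 hi).2 (Finset.mem_filter.1 hj).2 (hinj.ne hne))
  rw [← himg, ← himgS, Finset.sum_image hinj.injOn, Finset.sum_image hinj.injOn]
  exact h

/-- A flatness bound as a bound for the integral. -/
theorem integral_le_of_flatness {z p : E} {l b : ℝ} (W : Submodule ℝ E) (hl : 0 < l)
    (h : flatness ν n z l p W ≤ b) :
    ∫ y in Metric.ball z (4 * l), ‖perp W (y - p)‖ ^ 2 ∂ν ≤ b ^ 2 * l ^ (n + 2) :=
  (div_le_iff₀ (pow_pos hl _)).1 (Real.sqrt_le_iff.1 h).2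

/-- The centre is within a bounded number of scales of a plane of bounded flatness. -/
theorem perp_center_le (hN : Nice n C A ν x₀ R) {z p : E} {l b : ℝ} (W : Submodule ℝ E)
    (hz : z ∈ ν.support) (hd : dist z x₀ ≤ R / 2) (hl : 0 < l) (hlR : l ≤ R / 4) (hb : b ≤ 1)
    (hb0 : 0 ≤ b) (h : flatness ν n z l p W ≤ b) :
    ‖perp W (z - p)‖ ≤ (C + 1) * l := by
  have := hN.finite
  have hC : 0 < C := zero_lt_one.trans_le hN.1
  by_contra hcon
  push Not at hcon
  have hi : IntegrableOn (fun y => ‖perp W (y - p)‖ ^ 2) (Metric.ball z (4 * l)) ν :=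
    integrableOn_ball_of_continuous ((continuous_perp W p).norm.pow 2) z _
  have hsub : Metric.ball z l ⊆ Metric.ball z (4 * l) := Metric.ball_subset_ball (by linarith)
  set γ := ‖perp W (z - p)‖ - l
  have hγ : C * l < γ := by simp only [γ]; linarith
  have hpt : ∀ y ∈ Metric.ball z l, γ ^ 2 ≤ ‖perp W (y - p)‖ ^ 2 := fun y hy => by
    refine pow_le_pow_left₀ ((by positivity : 0 ≤ C * l).trans hγ.le) ?_ 2
    have h1 := norm_sub_le (perp W (y - p)) (perp W (y - z))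
    rw [← perp_sub, show y - p - (y - z) = z - p by abel] at h1
    have h2 := norm_perp_le W (y - z)
    rw [← dist_eq_norm] at h2
    simp only [γ]
    linarith [Metric.mem_ball.1 hy]
  have h1 : γ ^ 2 * (C⁻¹ * l ^ n) ≤ b ^ 2 * l ^ (n + 2) := by
    refine le_trans ?_ (integral_le_of_flatness W hl h)
    calc γ ^ 2 * (C⁻¹ * l ^ n) ≤ γ ^ 2 * ν.real (Metric.ball z l) :=
          mul_le_mul_of_nonneg_left (hN.2.2.2.2.2.1 z hz hd l hl hlR) (sq_nonneg _)
      _ = ∫ _y in Metric.ball z l, γ ^ 2 ∂ν := by rw [setIntegral_const, smul_eq_mul, mul_comm]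
      _ ≤ ∫ y in Metric.ball z l, ‖perp W (y - p)‖ ^ 2 ∂ν := setIntegral_mono_on
          (integrable_const _).integrableOn (hi.mono_set hsub) measurableSet_ball hpt
      _ ≤ _ := setIntegral_mono_set hi (Filter.Eventually.of_forall fun y => sq_nonneg _)
          (Filter.Eventually.of_forall hsub)
  have h2 : (C * l) ^ 2 * (C⁻¹ * l ^ n) < γ ^ 2 * (C⁻¹ * l ^ n) :=
    mul_lt_mul_of_pos_right (pow_lt_pow_left₀ hγ (by positivity) two_ne_zero) (by positivity)
  have h3 : b ^ 2 * l ^ (n + 2) ≤ C * l ^ (n + 2) :=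
    mul_le_mul_of_nonneg_right ((pow_le_one₀ hb0 hb).trans hN.1) (by positivity)
  rw [show (C * l) ^ 2 * (C⁻¹ * l ^ n) = C * l ^ (n + 2) by rw [pow_add]; field_simp] at h2
  linarith

namespace StopData

variable {D : Cells ν x₀ R} {ε₀ : ℝ} (P : StopData n D ε₀)

/-- The cells where `b` is small. -/
def low : Finset (ℕ × E) := P.T.filter fun q => P.b q ≤ ε₀

theorem mem_low {q : ℕ × E} : q ∈ P.low ↔ q ∈ P.T ∧ P.b q ≤ ε₀ := Finset.mem_filter

/-- The parent, the root being its own parent. -/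
def par' (q : ℕ × E) : ℕ × E := if q.1 = P.k₀ then q else P.par q

theorem par'_mem {q : ℕ × E} (hq : q ∈ P.low) : P.par' q ∈ P.low := by
  unfold par'
  split_ifs with h
  · exact hq
  · obtain ⟨h1, -, h2, -⟩ := P.par_spec (P.mem_low.1 hq).1
      (lt_of_le_of_ne (P.mem q (P.mem_low.1 hq).1).1 (Ne.symm h))
    exact P.mem_low.2 ⟨h1, h2⟩

/-- The cells near a given one in neighbouring generations. -/
def nbr (q : ℕ × E) : Finset (ℕ × E) :=
  P.low.filter fun r => (q.1 ≤ r.1 + 1 ∧ r.1 ≤ q.1 + 1) ∧ dist r.2 q.2 ≤ 32 * scale R q.1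

theorem mem_nbr {q r : ℕ × E} : r ∈ P.nbr q ↔
    r ∈ P.low ∧ (q.1 ≤ r.1 + 1 ∧ r.1 ≤ q.1 + 1) ∧ dist r.2 q.2 ≤ 32 * scale R q.1 :=
  Finset.mem_filter

theorem scale_anti (hR : 0 < R) {i j : ℕ} (h : i ≤ j) : scale R j ≤ scale R i :=
  mul_le_mul_of_nonneg_left (pow_le_pow_of_le_one (by norm_num) (by norm_num) (by omega)) hR.le

theorem scale_le_sixteen (hR : 0 < R) {i j : ℕ} (h : j ≤ i + 1) :
    scale R i ≤ 16 * scale R j := by
  have h1 := scale_anti hR h
  rw [scale_succ'] at h1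
  linarith

/-- Few cells of three neighbouring generations are near a point. -/
theorem card_three (hN : Nice n C A ν x₀ R) {k : ℕ} {x : E} (F : Finset (ℕ × E)) (hF : F ⊆ P.T)
    (h : ∀ q ∈ F, (k ≤ q.1 + 1 ∧ q.1 ≤ k + 1) ∧ dist q.2 x ≤ 512 * scale R q.1) :
    (F.card : ℝ) ≤ 3 * (C ^ 2 * 1026 ^ n) := by
  classical
  rw [Finset.card_eq_sum_card_fiberwise (f := Prod.fst) (t := Finset.Icc (k - 1) (k + 1))
    (fun q hq => by
      have := (h q hq).1
      simp only [Finset.coe_Icc, Set.mem_Icc]; omega), Nat.cast_sum]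
  refine (Finset.sum_le_card_nsmul _ _ (C ^ 2 * 1026 ^ n) fun j _ => ?_).trans ?_
  · refine (P.card_near hN (k := j) (x := x) (ρ := 512) (by norm_num) _
      ((Finset.filter_subset _ _).trans hF) fun q hq => ?_).trans (le_of_eq (by norm_num))
    obtain ⟨h1, rfl⟩ := Finset.mem_filter.1 hq
    exact ⟨rfl, (h q h1).2⟩
  · rw [nsmul_eq_mul]
    refine mul_le_mul_of_nonneg_right ?_ (by have := hN.1; positivity)
    have : (Finset.Icc (k - 1) (k + 1)).card ≤ 3 := by rw [Nat.card_Icc]; omega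
    exact_mod_cast this

/-- The squared neighbourhood sums are controlled by the sum of squares. -/
theorem sum_nbr_sq_le (hN : Nice n C A ν x₀ R) :
    ∑ q ∈ P.low, (∑ r ∈ P.nbr q, P.b r) ^ 2 * scale R q.1 ^ n ≤
      (3 * (C ^ 2 * 1026 ^ n)) ^ 2 * 16 ^ n * ∑ r ∈ P.low, P.b r ^ 2 * scale R r.1 ^ n := by
  classical
  set N := 3 * (C ^ 2 * 1026 ^ n)
  have hR := hN.2.2.1
  have hN0 : 0 ≤ N := by have := hN.1; positivity
  have hs : ∀ k, 0 < scale R k := scale_pos hR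
  calc ∑ q ∈ P.low, (∑ r ∈ P.nbr q, P.b r) ^ 2 * scale R q.1 ^ n
      ≤ ∑ q ∈ P.low, N * ∑ r ∈ P.nbr q, P.b r ^ 2 * scale R q.1 ^ n :=
        Finset.sum_le_sum fun q hq => by
          rw [← Finset.sum_mul, ← mul_assoc]
          refine mul_le_mul_of_nonneg_right (sq_sum_le_card_mul_sum_sq.trans
            (mul_le_mul_of_nonneg_right ?_ (Finset.sum_nonneg fun r _ => sq_nonneg _)))
            (pow_nonneg (hs _).le n)
          refine P.card_three hN (k := q.1) (x := q.2) _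
            (fun r hr => (P.mem_low.1 (P.mem_nbr.1 hr).1).1) fun r hr => ?_
          obtain ⟨-, hl, hd⟩ := P.mem_nbr.1 hr
          exact ⟨hl, hd.trans (by linarith [scale_le_sixteen (R := R) hR hl.2])⟩
    _ = N * ∑ r ∈ P.low, ∑ q ∈ P.low.filter (fun q => r ∈ P.nbr q),
          P.b r ^ 2 * scale R q.1 ^ n := by
        rw [← Finset.mul_sum]
        congr 1
        exact Finset.sum_comm' fun q r => by
          simp only [Finset.mem_filter]
          exact ⟨fun h => ⟨⟨h.1, h.2⟩, (P.mem_nbr.1 h.2).1⟩, fun h => ⟨h.1.1, h.1.2⟩⟩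
    _ ≤ N * ∑ r ∈ P.low, N * 16 ^ n * (P.b r ^ 2 * scale R r.1 ^ n) := by
        refine mul_le_mul_of_nonneg_left (Finset.sum_le_sum fun r _ => ?_) hN0
        refine (Finset.sum_le_card_nsmul _ _ (16 ^ n * (P.b r ^ 2 * scale R r.1 ^ n))
          fun q hq => ?_).trans ?_
        · obtain ⟨-, hl, -⟩ := P.mem_nbr.1 (Finset.mem_filter.1 hq).2
          rw [mul_left_comm, ← mul_pow]
          exact mul_le_mul_of_nonneg_left
            (pow_le_pow_left₀ (hs _).le (scale_le_sixteen hR hl.2) n) (sq_nonneg _)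
        · rw [nsmul_eq_mul, mul_assoc N]
          refine mul_le_mul_of_nonneg_right (P.card_three hN (k := r.1) (x := r.2) _
            (fun q hq => (P.mem_low.1 (Finset.mem_filter.1 hq).1).1) fun q hq => ?_)
            (by have := hs r.1; positivity)
          obtain ⟨-, ⟨hl₁, hl₂⟩, hd⟩ := P.mem_nbr.1 (Finset.mem_filter.1 hq).2
          rw [dist_comm] at hd
          exact ⟨⟨hl₂, hl₁⟩, hd.trans (by linarith [hs q.1])⟩
    _ = _ := by rw [← Finset.mul_sum]; ring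

/-- Comparison of the planes of two cells, one ball containing the other. -/
theorem plane_step {K : ℝ} (hK : 0 ≤ K)
    (hcmp : ∀ (z : E) (t a a' : ℝ) (p p' : E) (W W' : Submodule ℝ E),
      z ∈ ν.support → dist z x₀ ≤ R / 4 → 0 < t → t ≤ R / 8 → 0 ≤ a → 0 ≤ a' →
      Module.finrank ℝ W = n → Module.finrank ℝ W' = n →
      ∫ y in Metric.ball z t, ‖perp W (y - p)‖ ^ 2 ∂ν ≤ a ^ 2 * t ^ (n + 2) →
      ∫ y in Metric.ball z t, ‖perp W' (y - p')‖ ^ 2 ∂ν ≤ a' ^ 2 * t ^ (n + 2) →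
      ∀ y : E, ‖perp W (y - p)‖ ≤ K * (‖perp W' (y - p')‖ + (a + a') * (t + dist y z)))
    (hN : Nice n C A ν x₀ R) {q r : ℕ × E} (hq : q ∈ P.T) (hr : r ∈ P.T)
    (hball : dist q.2 r.2 + 4 * scale R q.1 ≤ 4 * scale R r.1)
    (hs : scale R r.1 ≤ 256 * scale R q.1) (y : E) :
    ‖perp (P.W q) (y - P.p q)‖ ≤ K * (4 * 256 ^ (n + 2)) *
        (‖perp (P.W r) (y - P.p r)‖ + (P.b q + P.b r) * (scale R q.1 + dist y q.2)) ∧
    ‖perp (P.W r) (y - P.p r)‖ ≤ K * (4 * 256 ^ (n + 2)) *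
        (‖perp (P.W q) (y - P.p q)‖ + (P.b q + P.b r) * (scale R q.1 + dist y q.2)) := by
  have := hN.finite
  have hR := hN.2.2.1
  obtain ⟨hWq, hbq, hfq⟩ := P.plane q hq
  obtain ⟨hWr, hbr, hfr⟩ := P.plane r hr
  obtain ⟨-, -, hzq, hdq⟩ := P.mem q hq
  have hsq := scale_pos hR q.1
  have hsr := scale_pos hR r.1
  set c := (256 : ℝ) ^ (n + 2)
  have hc : 1 ≤ c := one_le_pow₀ (by norm_num)
  have hi1 : ∫ y in Metric.ball q.2 (4 * scale R q.1), ‖perp (P.W q) (y - P.p q)‖ ^ 2 ∂ν ≤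
      P.b q ^ 2 * (4 * scale R q.1) ^ (n + 2) :=
    (integral_le_of_flatness _ hsq hfq).trans (mul_le_mul_of_nonneg_left
      (pow_le_pow_left₀ hsq.le (by linarith) _) (sq_nonneg _))
  have hi2 : ∫ y in Metric.ball q.2 (4 * scale R q.1), ‖perp (P.W r) (y - P.p r)‖ ^ 2 ∂ν ≤
      (c * P.b r) ^ 2 * (4 * scale R q.1) ^ (n + 2) := by
    refine (setIntegral_mono_set
      (integrableOn_ball_of_continuous ((continuous_perp (P.W r) (P.p r)).norm.pow 2) r.2 _)
      (Filter.Eventually.of_forall fun y => sq_nonneg _)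
      (Filter.Eventually.of_forall (Metric.ball_subset_ball' (by linarith)))).trans
      ((integral_le_of_flatness _ hsr hfr).trans ?_)
    rw [mul_pow c, mul_comm (c ^ 2), mul_assoc]
    refine mul_le_mul_of_nonneg_left ?_ (sq_nonneg _)
    calc scale R r.1 ^ (n + 2) ≤ (256 * scale R q.1) ^ (n + 2) :=
          pow_le_pow_left₀ hsr.le hs _
      _ = c * scale R q.1 ^ (n + 2) := mul_pow _ _ _
      _ ≤ c ^ 2 * (4 * scale R q.1) ^ (n + 2) := by
          refine mul_le_mul (le_self_pow₀ hc two_ne_zero)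
            (pow_le_pow_left₀ hsq.le (by linarith) _) (by positivity) (by positivity)
  have hzs := (D.mem_support _ _ hzq).1
  have hdq' : dist q.2 x₀ ≤ R / 4 := by linarith
  have ht : 4 * scale R q.1 ≤ R / 8 := by linarith [scale_le hR q.1]
  have hcb : 0 ≤ c * P.b r := by positivity
  have key : ∀ u : ℝ, 0 ≤ u → K * (u + (P.b q + c * P.b r) * (4 * scale R q.1 + dist y q.2)) ≤
      K * (4 * c) * (u + (P.b q + P.b r) * (scale R q.1 + dist y q.2)) := fun u hu => by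
    rw [mul_assoc K]
    refine mul_le_mul_of_nonneg_left ?_ hK
    rw [mul_add (4 * c)]
    refine add_le_add (le_mul_of_one_le_left hu (by linarith)) ?_
    calc (P.b q + c * P.b r) * (4 * scale R q.1 + dist y q.2)
        ≤ (c * (P.b q + P.b r)) * (4 * (scale R q.1 + dist y q.2)) :=
          mul_le_mul (by rw [mul_add]; linarith [le_mul_of_one_le_left hbq hc])
            (by linarith [dist_nonneg (x := y) (y := q.2)]) (by positivity) (by positivity)
      _ = _ := by ring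
  constructor
  · exact (hcmp q.2 _ _ _ _ _ _ _ hzs hdq' (by linarith) ht hbq hcb hWq hWr hi1 hi2 y).trans
      (key _ (norm_nonneg _))
  · have h := hcmp q.2 _ _ _ _ _ _ _ hzs hdq' (by linarith) ht hcb hbq hWr hWq hi2 hi1 y
    rw [add_comm (c * P.b r)] at h
    exact h.trans (key _ (norm_nonneg _))

/-- Two nearby planes of the tree are vertically close, linearly in the neighbouring `b`. -/
theorem height_le {K : ℝ} (hK : 0 ≤ K)
    (hcmp : ∀ (z : E) (t a a' : ℝ) (p p' : E) (W W' : Submodule ℝ E),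
      z ∈ ν.support → dist z x₀ ≤ R / 4 → 0 < t → t ≤ R / 8 → 0 ≤ a → 0 ≤ a' →
      Module.finrank ℝ W = n → Module.finrank ℝ W' = n →
      ∫ y in Metric.ball z t, ‖perp W (y - p)‖ ^ 2 ∂ν ≤ a ^ 2 * t ^ (n + 2) →
      ∫ y in Metric.ball z t, ‖perp W' (y - p')‖ ^ 2 ∂ν ≤ a' ^ 2 * t ^ (n + 2) →
      ∀ y : E, ‖perp W (y - p)‖ ≤ K * (‖perp W' (y - p')‖ + (a + a') * (t + dist y z)))
    (hN : Nice n C A ν x₀ R) (hε1 : ε₀ ≤ 1) (c : RootCoord n (P.W (P.k₀, P.z₀)))
    (hang : ∀ q ∈ P.low, ∀ w ∈ P.W q, ‖perp (P.W (P.k₀, P.z₀)) w‖ ≤ 1 / 2 * ‖w‖)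
    (L : ℕ × E → TiltSpace n →L[ℝ] E)
    (hL : ∀ q ∈ P.low, ∀ ξ, L q ξ ∈ P.W q ∧ c.π (L q ξ) = ξ ∧ ‖L q ξ‖ ≤ 2 * ‖ξ‖)
    {p q : ℕ × E} (hp : p ∈ P.low) (hq : q ∈ P.low)
    (hpq : (q.1 = p.1 ∧ dist q.2 p.2 ≤ 15 * scale R p.1) ∨
      (q.1 = p.1 + 1 ∧ dist q.2 p.2 ≤ 9 * scale R p.1))
    (η : TiltSpace n) (hη : ‖η - c.π q.2‖ ≤ scale R p.1) :
    ‖planePoint c (L q) (P.p q) η - planePoint c (L p) (P.p p) η‖ ≤
      3 * (K * (4 * 256 ^ (n + 2)) * (K * (4 * 256 ^ (n + 2)) + 1) * (3 * C + 21)) *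
        (3 * ∑ r ∈ P.nbr p, P.b r) * scale R p.1 := by
  have hR := hN.2.2.1
  have hC1 : (1 : ℝ) ≤ C := hN.1
  have hpT := (P.mem_low.1 hp).1
  have hqT := (P.mem_low.1 hq).1
  have hsp := scale_pos hR p.1
  have hsq := scale_pos hR q.1
  have hb : ∀ r ∈ P.low, 0 ≤ P.b r := fun r hr => (P.plane r (P.mem_low.1 hr).1).2.1
  have hqs : scale R q.1 ≤ scale R p.1 := scale_anti hR (by omega)
  have hdq : dist q.2 p.2 ≤ 15 * scale R p.1 := by
    rcases hpq with ⟨-, h⟩ | ⟨-, h⟩ <;> linarith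
  set r := P.par' p with hr_def
  have hr : r ∈ P.low := P.par'_mem hp
  have hrT := (P.mem_low.1 hr).1
  have hrn : r ∈ P.nbr p := by
    refine P.mem_nbr.2 ⟨hr, ?_⟩
    rw [hr_def, par']
    split_ifs with h
    · exact ⟨⟨by omega, by omega⟩, by rw [dist_self]; positivity⟩
    · obtain ⟨h1, h2, -⟩ := P.dist_par hpT (lt_of_le_of_ne (P.mem p hpT).1 (Ne.symm h))
      refine ⟨⟨by omega, by omega⟩, ?_⟩
      rw [dist_comm]
      linarith [scale_le_sixteen (R := R) hR (i := (P.par p).1) (j := p.1) (by omega)]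
  have hqn : q ∈ P.nbr p :=
    P.mem_nbr.2 ⟨hq, by rcases hpq with ⟨h, -⟩ | ⟨h, -⟩ <;> omega, by linarith⟩
  have hpn : p ∈ P.nbr p :=
    P.mem_nbr.2 ⟨hp, by omega, by rw [dist_self]; positivity⟩
  have hgeom : (dist p.2 r.2 + 4 * scale R p.1 ≤ 4 * scale R r.1 ∧
      scale R r.1 ≤ 256 * scale R p.1) ∧ (dist q.2 r.2 + 4 * scale R q.1 ≤ 4 * scale R r.1 ∧
      scale R r.1 ≤ 256 * scale R q.1) := by
    have h16 : scale R p.1 ≤ 16 * scale R q.1 := scale_le_sixteen hR (by omega)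
    rw [hr_def, par']
    split_ifs with h
    · refine ⟨⟨by simp, by linarith⟩, ?_, by linarith⟩
      rcases hpq with ⟨h1, -⟩ | ⟨h1, -⟩
      · rw [P.eq_root hqT (h1.trans h), ← P.eq_root hpT h, dist_self, zero_add]
      · obtain ⟨h2, h3, -⟩ := P.dist_par hqT (by omega)
        have hpar : P.par q = p := by
          rw [P.eq_root hpT h]
          exact P.eq_root (P.par_spec hqT (by omega)).1 (by omega)
        rw [hpar] at h3
        have : scale R q.1 = scale R p.1 / 16 := by rw [h1, scale_succ']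
        linarith
    · obtain ⟨h1, h2, -⟩ := P.dist_par hpT (lt_of_le_of_ne (P.mem p hpT).1 (Ne.symm h))
      have hs : scale R (P.par p).1 = 16 * scale R p.1 := by
        have := scale_succ' R (P.par p).1
        rw [h1] at this
        linarith
      have h3 := dist_triangle q.2 p.2 (P.par p).2
      exact ⟨⟨by linarith, by linarith⟩, by linarith, by linarith⟩
  set K1 := K * (4 * 256 ^ (n + 2))
  have hK1 : 0 ≤ K1 := by positivity
  set y := planePoint c (L q) (P.p q) η with hy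
  have hperp : perp (P.W q) (y - P.p q) = 0 := by
    simp [perp, Submodule.starProjection_eq_self_iff.2
      (planePoint_sub_mem c (fun ξ => (hL q hq ξ).1) (P.p q) η), hy]
  have hyq : dist y q.2 ≤ (3 * C + 5) * scale R p.1 := by
    have hsc := perp_center_le hN (P.W q) (D.mem_support _ _ (P.mem q hqT).2.2.1).1
      (by linarith [(P.mem q hqT).2.2.2]) hsq (by linarith [scale_le hR q.1])
      ((P.mem_low.1 hq).2.trans hε1) (hb q hq) (P.plane q hqT).2.2
    have h1 := norm_sub_planePoint_le c (hang q hq)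
      (fun ξ => ⟨(hL q hq ξ).1, (hL q hq ξ).2.1⟩) q.2 (P.p q)
    have h2 : y = planePoint c (L q) (P.p q) (c.π q.2) + L q (η - c.π q.2) := by
      rw [← planePoint_add, add_sub_cancel, hy]
    rw [dist_eq_norm, h2, show planePoint c (L q) (P.p q) (c.π q.2) + L q (η - c.π q.2) - q.2 =
      L q (η - c.π q.2) - (q.2 - planePoint c (L q) (P.p q) (c.π q.2)) by abel]
    refine (norm_sub_le _ _).trans ?_
    have h3 := (hL q hq (η - c.π q.2)).2.2
    have h4 : (C + 1) * scale R q.1 ≤ (C + 1) * scale R p.1 :=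
      mul_le_mul_of_nonneg_left hqs (by linarith)
    linarith
  have hyp : dist y p.2 ≤ (3 * C + 20) * scale R p.1 := by
    linarith [dist_triangle y q.2 p.2]
  have hbq := hb q hq
  have hbp := hb p hp
  have hbr := hb r hr
  set β := 3 * ∑ r ∈ P.nbr p, P.b r with hβ
  have hle : ∀ a ∈ P.nbr p, P.b a ≤ ∑ r ∈ P.nbr p, P.b r := fun a ha =>
    Finset.single_le_sum (fun r hr => hb r (P.mem_nbr.1 hr).1) ha
  have hβ1 : P.b p + P.b r ≤ β := by
    linarith [hle p hpn, hle r hrn, hle q hqn]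
  have hβ2 : P.b q + P.b r ≤ β := by
    linarith [hle p hpn, hle r hrn, hle q hqn]
  have hβ0 : 0 ≤ β := by linarith
  set Λ := 3 * C + 21
  have e1 := (P.plane_step hK hcmp hN hqT hrT hgeom.2.1 hgeom.2.2 y).2
  rw [hperp, norm_zero, zero_add] at e1
  have e2 := (P.plane_step hK hcmp hN hpT hrT hgeom.1.1 hgeom.1.2 y).1
  have f1 : (P.b q + P.b r) * (scale R q.1 + dist y q.2) ≤ β * (Λ * scale R p.1) :=
    mul_le_mul hβ2 (by simp only [Λ]; linarith) (by positivity) hβ0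
  have f2 : (P.b p + P.b r) * (scale R p.1 + dist y p.2) ≤ β * (Λ * scale R p.1) :=
    mul_le_mul hβ1 (by simp only [Λ]; linarith) (by positivity) hβ0
  have e3 : ‖perp (P.W p) (y - P.p p)‖ ≤ K1 * (K1 + 1) * Λ * β * scale R p.1 := by
    refine e2.trans ?_
    refine le_of_le_of_eq (mul_le_mul_of_nonneg_left
      (add_le_add (e1.trans (mul_le_mul_of_nonneg_left f1 hK1)) f2) hK1) ?_
    ring
  refine (norm_planePoint_sub_le c (hang p hp) (fun ξ => ⟨(hL p hp ξ).1, (hL p hp ξ).2.1⟩)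
    (fun ξ => (hL q hq ξ).2.1) (P.p p) (P.p q) η).trans ?_
  rw [← hy]
  linarith

open scoped Classical in
/-- The stops where the plane turns pack. -/
theorem tilt_stops_le {K Kt θ : ℝ} (hK : 0 ≤ K) (hKt : 0 ≤ Kt) (hθ : 0 ≤ θ)
    (hcmp : ∀ (z : E) (t a a' : ℝ) (p p' : E) (W W' : Submodule ℝ E),
      z ∈ ν.support → dist z x₀ ≤ R / 4 → 0 < t → t ≤ R / 8 → 0 ≤ a → 0 ≤ a' →
      Module.finrank ℝ W = n → Module.finrank ℝ W' = n →
      ∫ y in Metric.ball z t, ‖perp W (y - p)‖ ^ 2 ∂ν ≤ a ^ 2 * t ^ (n + 2) →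
      ∫ y in Metric.ball z t, ‖perp W' (y - p')‖ ^ 2 ∂ν ≤ a' ^ 2 * t ^ (n + 2) →
      ∀ y : E, ‖perp W (y - p)‖ ≤ K * (‖perp W' (y - p')‖ + (a + a') * (t + dist y z)))
    (htilt : ∀ (L : ℝ), 0 < L → ∀ (ι : Type u_1) (T : Finset ι)
      (lev : ι → ℕ) (c a : ι → TiltSpace n) (v b : ι → ℝ),
      (∀ q ∈ T, 0 ≤ b q) →
      (∀ q ∈ T, lev q = 0 → a q = 0 ∧ v q = 0) →
      (∀ q ∈ T, 0 < lev q →
        ∃ p ∈ T, lev p + 1 = lev q ∧ dist (c q) (c p) ≤ 2 * tiltScale L (lev p)) →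
      (∀ p ∈ T, ∀ q ∈ T, (lev q = lev p ∧ dist (c q) (c p) ≤ 7 * tiltScale L (lev p)) ∨
          (lev q = lev p + 1 ∧ dist (c q) (c p) ≤ 4 * tiltScale L (lev p)) →
        ‖a q - a p‖ ≤ b p ∧ |v q - (v p + ⟪a p, c q - c p⟫)| ≤ b p * tiltScale L (lev p)) →
      (∀ x k, (T.filter fun q => lev q = k ∧ dist x (c q) ≤ 4 * tiltScale L k).card ≤
        ⌈C ^ 2 * (36 : ℝ) ^ n⌉₊) →
      ∀ S ⊆ T,
        ((↑S : Set ι).PairwiseDisjoint fun q => Metric.ball (c q) (tiltScale L (lev q) / 100)) →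
        ∑ q ∈ S, ‖a q‖ ^ 2 * tiltScale L (lev q) ^ n ≤
          Kt * ∑ q ∈ T, b q ^ 2 * tiltScale L (lev q) ^ n)
    (hN : Nice n C A ν x₀ R) (hε1 : ε₀ ≤ 1)
    (hang : ∀ q ∈ P.low, ∀ w ∈ P.W q, ‖perp (P.W (P.k₀, P.z₀)) w‖ ≤ 1 / 2 * ‖w‖)
    (hsep : ∀ q ∈ P.low, ∀ r ∈ P.low, q.1 ≤ r.1 →
      ‖perp (P.W (P.k₀, P.z₀)) (r.2 - q.2)‖ ≤ 1 / 2 * ‖r.2 - q.2‖ + scale R q.1 / 64) :
    θ ^ 2 * ∑ q ∈ P.S.filter (fun q => q ∈ P.low ∧
        ∃ w ∈ P.W q, θ * ‖w‖ < ‖perp (P.W (P.k₀, P.z₀)) w‖), ν.real (D.cell q.1 q.2) ≤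
      C * 3 ^ n * (Module.finrank ℝ E * (Kt *
        ((2 * (3 * (K * (4 * 256 ^ (n + 2)) * (K * (4 * 256 ^ (n + 2)) + 1) * (3 * C + 21))) * 3)
          ^ 2 * ((3 * (C ^ 2 * 1026 ^ n)) ^ 2 * 16 ^ n * (C * 4 ^ n *
            ∑ q ∈ P.T, P.b q ^ 2 * ν.real (D.cell q.1 q.2)))))) := by
  classical
  have := hN.finite
  have hR := hN.2.2.1
  have hC0 : 0 < C := zero_lt_one.trans_le hN.1
  have hrootlow : (P.k₀, P.z₀) ∈ P.low := P.mem_low.2 ⟨P.root, P.b_root⟩
  set W₀ := P.W (P.k₀, P.z₀) with hW₀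
  obtain ⟨c⟩ := rootCoord W₀ (P.plane _ P.root).1
  choose! L hL using fun q (hq : q ∈ P.low) =>
    c.exists_section (P.plane q (P.mem_low.1 hq).1).1 (hang q hq)
  set K2 := 3 * (K * (4 * 256 ^ (n + 2)) * (K * (4 * 256 ^ (n + 2)) + 1) * (3 * C + 21))
  have hK2 : 0 ≤ K2 := by positivity
  have hheight := fun p q hp hq hpq η hη =>
    P.height_le hK hcmp hN hε1 c hang L hL (p := p) (q := q) hp hq hpq η hη
  -- scales and distances
  set lev : ℕ × E → ℕ := fun q => q.1 - P.k₀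
  have hscale : ∀ q ∈ P.low, tiltScale (scale R P.k₀) (lev q) = scale R q.1 := fun q hq => by
    rw [tiltScale, scale, scale, mul_assoc, ← pow_add]
    congr 2
    have := (P.mem q (P.mem_low.1 hq).1).1
    simp only [lev]; omega
  have hback : ∀ q ∈ P.low, ∀ r ∈ P.low, q.1 ≤ r.1 →
      dist r.2 q.2 ≤ 2 * dist (c.π r.2) (c.π q.2) + scale R q.1 / 32 := fun q hq r hr h => by
    have := c.le_of_slant (hsep q hq r hr h)
    rw [dist_eq_norm, dist_eq_norm, ← map_sub]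
    linarith
  set bT : ℕ × E → ℝ := fun p => 2 * K2 * (3 * ∑ r ∈ P.nbr p, P.b r)
  have hbT : ∀ p, 0 ≤ ∑ r ∈ P.nbr p, P.b r := fun p =>
    Finset.sum_nonneg fun r hr => (P.plane r (P.mem_low.1 (P.mem_nbr.1 hr).1).1).2.1
  -- coordinates of the planes
  set P₀ : E →L[ℝ] E := W₀ᗮ.starProjection
  have hP₀ : ∀ x, P₀ x = perp W₀ x := fun x => (perp_eq W₀ x).symm
  set a : E → ℕ × E → TiltSpace n := fun u q =>
    (InnerProductSpace.toDual ℝ (TiltSpace n)).symm ((innerSL ℝ u).comp (P₀.comp (L q)))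
  have ha : ∀ u q x, ⟪a u q, x⟫ = ⟪u, P₀ (L q x)⟫ := fun u q x => by
    simp [a, InnerProductSpace.toDual_symm_apply]
  set v : E → ℕ × E → ℝ := fun u q =>
    ⟪u, P₀ (planePoint c (L q) (P.p q) (c.π q.2) - P.p (P.k₀, P.z₀))⟫
  set S₂ := P.S.filter (fun q => q ∈ P.low ∧ ∃ w ∈ P.W q, θ * ‖w‖ < ‖perp W₀ w‖)
  have hS₂ : S₂ ⊆ P.low := fun q hq => (Finset.mem_filter.1 hq).2.1
  have hbsum : ∑ q ∈ P.low, bT q ^ 2 * tiltScale (scale R P.k₀) (lev q) ^ n ≤
      (2 * K2 * 3) ^ 2 * ((3 * (C ^ 2 * 1026 ^ n)) ^ 2 * 16 ^ n * (C * 4 ^ n *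
        ∑ q ∈ P.T, P.b q ^ 2 * ν.real (D.cell q.1 q.2))) := by
    calc ∑ q ∈ P.low, bT q ^ 2 * tiltScale (scale R P.k₀) (lev q) ^ n
        = (2 * K2 * 3) ^ 2 * ∑ q ∈ P.low, (∑ r ∈ P.nbr q, P.b r) ^ 2 * scale R q.1 ^ n := by
          rw [Finset.mul_sum]
          exact Finset.sum_congr rfl fun q hq => by rw [hscale q hq]; simp only [bT]; ring
      _ ≤ _ := by
          refine mul_le_mul_of_nonneg_left ((P.sum_nbr_sq_le hN).trans
            (mul_le_mul_of_nonneg_left ?_ (by positivity))) (sq_nonneg _)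
          rw [Finset.mul_sum]
          refine (Finset.sum_le_sum fun q hq => ?_).trans
            (Finset.sum_le_sum_of_subset_of_nonneg (Finset.filter_subset _ _) fun q _ _ => by
              positivity)
          obtain ⟨-, -, hz, hd⟩ := P.mem q (Finset.mem_filter.1 hq).1
          calc P.b q ^ 2 * scale R q.1 ^ n ≤ P.b q ^ 2 * (C * 4 ^ n * ν.real (D.cell q.1 q.2)) :=
                mul_le_mul_of_nonneg_left (scale_pow_le_cell hN D hz hd) (sq_nonneg _)
            _ = _ := by ring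
  have key : ∀ u : E, ‖u‖ = 1 → ∑ q ∈ S₂, ‖a u q‖ ^ 2 * tiltScale (scale R P.k₀) (lev q) ^ n ≤
      Kt * ∑ q ∈ P.low, bT q ^ 2 * tiltScale (scale R P.k₀) (lev q) ^ n := fun u hu => by
    have hu1 : ∀ x, |⟪u, P₀ x⟫| ≤ ‖x‖ := fun x => by
      refine (abs_real_inner_le_norm _ _).trans ?_
      rw [hu, one_mul, hP₀]
      exact norm_perp_le _ _
    refine htilt _ (scale_pos hR _) (ℕ × E) P.low lev (fun q => c.π q.2) (a u) (v u) bT
      (fun q _ => mul_nonneg (by positivity) (mul_nonneg (by norm_num) (hbT q))) ?_ ?_ ?_ ?_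
      S₂ hS₂ ?_
    · -- the root
      intro q hq h0
      have hqT := (P.mem_low.1 hq).1
      have : q.1 = P.k₀ := by
        have := (P.mem q hqT).1
        simp only [lev] at h0; omega
      have hqe := P.eq_root hqT this
      subst hqe
      refine ⟨ext_inner_right ℝ fun x => ?_, ?_⟩
      · rw [ha, inner_zero_left, hP₀, perp,
          Submodule.starProjection_eq_self_iff.2 (hL _ hrootlow x).1, sub_self, inner_zero_right]
      · simp only [v]
        rw [hP₀, perp, Submodule.starProjection_eq_self_iff.2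
          (planePoint_sub_mem c (fun ξ => (hL _ hrootlow ξ).1) _ _), sub_self, inner_zero_right]
    · -- parents
      intro q hq h0
      have hqT := (P.mem_low.1 hq).1
      have hk : P.k₀ < q.1 := by simp only [lev] at h0; omega
      obtain ⟨h1, h2, -⟩ := P.dist_par hqT hk
      obtain ⟨h3, -, h4, -⟩ := P.par_spec hqT hk
      have hpl := P.mem_low.2 ⟨h3, h4⟩
      refine ⟨P.par q, hpl, ?_, ?_⟩
      · have := (P.mem _ h3).1
        simp only [lev]; omega
      · rw [hscale _ hpl]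
        refine le_trans ?_ h2
        rw [dist_eq_norm, dist_eq_norm, ← map_sub]
        exact c.norm_le _
    · -- compatibility
      intro p hp q hq h
      rw [hscale p hp] at h ⊢
      have hsp := scale_pos hR p.1
      have hpk := (P.mem p (P.mem_low.1 hp).1).1
      have hqk := (P.mem q (P.mem_low.1 hq).1).1
      have hpq : (q.1 = p.1 ∧ dist q.2 p.2 ≤ 15 * scale R p.1) ∨
          (q.1 = p.1 + 1 ∧ dist q.2 p.2 ≤ 9 * scale R p.1) := by
        simp only [lev] at h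
        rcases h with ⟨h1, h2⟩ | ⟨h1, h2⟩
        · exact Or.inl ⟨by omega, by linarith [hback p hp q hq (by omega)]⟩
        · exact Or.inr ⟨by omega, by linarith [hback p hp q hq (by omega)]⟩
      set β := 3 * ∑ r ∈ P.nbr p, P.b r
      have hH : ∀ η, ‖η - c.π q.2‖ ≤ scale R p.1 →
          ‖planePoint c (L q) (P.p q) η - planePoint c (L p) (P.p p) η‖ ≤
            K2 * β * scale R p.1 := hheight p q hp hq hpq
      have hlin : ∀ ξ, ‖L q ξ - L p ξ‖ ≤ 2 * K2 * β * ‖ξ‖ := fun ξ => by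
        by_cases h0 : ξ = 0
        · simp [h0]
        have hξ : 0 < ‖ξ‖ := norm_pos_iff.2 h0
        set t := scale R p.1 / ‖ξ‖ with ht
        have ht0 : 0 < t := by positivity
        have e : ‖t • ξ‖ = scale R p.1 := by
          rw [norm_smul, Real.norm_eq_abs, abs_of_pos ht0, ht, div_mul_cancel₀ _ hξ.ne']
        have h1 := hH (c.π q.2 + t • ξ) (by rw [add_sub_cancel_left, e])
        have h2 := hH (c.π q.2) (by simpa using hsp.le)
        rw [planePoint_add, planePoint_add] at h1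
        have h3 : ‖L q (t • ξ) - L p (t • ξ)‖ ≤ 2 * K2 * β * scale R p.1 := by
          rw [show L q (t • ξ) - L p (t • ξ) =
            (planePoint c (L q) (P.p q) (c.π q.2) + L q (t • ξ) -
              (planePoint c (L p) (P.p p) (c.π q.2) + L p (t • ξ))) -
            (planePoint c (L q) (P.p q) (c.π q.2) - planePoint c (L p) (P.p p) (c.π q.2)) by abel]
          exact (norm_sub_le _ _).trans (by linarith)
        rw [map_smul, map_smul, ← smul_sub, norm_smul, Real.norm_eq_abs, abs_of_pos ht0, ← e,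
          norm_smul, Real.norm_eq_abs, abs_of_pos ht0, mul_left_comm] at h3
        exact le_of_mul_le_mul_left h3 ht0
      refine ⟨?_, ?_⟩
      · set d := a u q - a u p
        have h1 : ‖d‖ ^ 2 ≤ bT p * ‖d‖ := by
          calc ‖d‖ ^ 2 = ⟪u, P₀ (L q d - L p d)⟫ := by
                rw [map_sub, inner_sub_right, ← ha, ← ha, ← inner_sub_left,
                  real_inner_self_eq_norm_sq]
            _ ≤ ‖L q d - L p d‖ := (le_abs_self _).trans (hu1 _)
            _ ≤ _ := hlin d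
        by_cases h0 : ‖d‖ = 0
        · rw [h0]; exact mul_nonneg (by positivity) (mul_nonneg (by norm_num) (hbT p))
        · refine le_of_mul_le_mul_right ?_ (lt_of_le_of_ne (norm_nonneg _) (Ne.symm h0))
          rwa [← sq]
      · have e : v u q - (v u p + ⟪a u p, c.π q.2 - c.π p.2⟫) =
            ⟪u, P₀ (planePoint c (L q) (P.p q) (c.π q.2) -
              planePoint c (L p) (P.p p) (c.π q.2))⟫ := by
          have e2 : planePoint c (L p) (P.p p) (c.π q.2) =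
              planePoint c (L p) (P.p p) (c.π p.2) + L p (c.π q.2 - c.π p.2) := by
            rw [← planePoint_add, add_sub_cancel]
          rw [e2, ha]
          simp only [v, map_sub, map_add, inner_sub_right, inner_add_right]
          ring
        rw [e]
        refine (hu1 _).trans ((hH _ (by simpa using hsp.le)).trans ?_)
        refine mul_le_mul_of_nonneg_right ?_ hsp.le
        simp only [bT]
        linarith [mul_nonneg hK2 (mul_nonneg (by norm_num : (0 : ℝ) ≤ 3) (hbT p))]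
    · -- count
      intro x k
      set F := P.low.filter fun q => lev q = k ∧
        dist x (c.π q.2) ≤ 4 * tiltScale (scale R P.k₀) k
      rcases F.eq_empty_or_nonempty with hF | ⟨r, hr⟩
      · simp [hF]
      obtain ⟨hrl, hrk, hrd⟩ := Finset.mem_filter.1 hr
      have hcard : (F.card : ℝ) ≤ C ^ 2 * (36 : ℝ) ^ n := by
        refine (P.card_near hN (k := r.1) (x := r.2) (ρ := 17) (by norm_num) F
          ((Finset.filter_subset _ _).trans (Finset.filter_subset _ _)) fun q hq => ?_).trans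
          (le_of_eq (by norm_num))
        obtain ⟨hql, hqk, hqd⟩ := Finset.mem_filter.1 hq
        have e : q.1 = r.1 := by
          have h1 := (P.mem q (P.mem_low.1 hql).1).1
          have h2 := (P.mem r (P.mem_low.1 hrl).1).1
          simp only [lev] at hrk hqk; omega
        have hs : tiltScale (scale R P.k₀) k = scale R r.1 := by rw [← hrk, hscale r hrl]
        rw [hs] at hqd hrd
        refine ⟨e, ?_⟩
        have h3 := hback r hrl q hql e.ge
        have h4 := dist_triangle_left (c.π q.2) (c.π r.2) x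
        linarith [scale_pos hR r.1]
      exact_mod_cast hcard.trans (Nat.le_ceil _)
    · -- separated projections
      have main : ∀ q ∈ S₂, ∀ r ∈ S₂, q ≠ r → q.1 ≤ r.1 →
          Disjoint (Metric.ball (c.π q.2) (tiltScale (scale R P.k₀) (lev q) / 100))
            (Metric.ball (c.π r.2) (tiltScale (scale R P.k₀) (lev r) / 100)) := by
        intro q hq r hr hne hle
        rw [hscale q (hS₂ hq), hscale r (hS₂ hr)]
        refine Metric.ball_disjoint_ball ?_
        by_contra hlt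
        have hqT := (P.mem_low.1 (hS₂ hq)).1
        have hrT := (P.mem_low.1 (hS₂ hr)).1
        obtain ⟨hqk, -, hqz, hqd⟩ := P.mem q hqT
        have hrs : scale R r.1 ≤ scale R q.1 := scale_anti hR hle
        have hd := hback q (hS₂ hq) r (hS₂ hr) hle
        rw [dist_comm (c.π r.2)] at hd
        have hsq := scale_pos hR q.1
        have hmem : r.2 ∈ D.cell q.1 q.2 := D.ball_subset _ _ hqz hqd
          ⟨(D.mem_support _ _ (P.mem r hrT).2.2.1).1, Metric.mem_ball.2 (by linarith)⟩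
        obtain ⟨b, hb, hsub, hbS⟩ := P.ancestor hR hrT hqk hle
        have hbq : b = q.2 := D.eq_of_mem (P.mem _ hb).2.2.1 hqz
          (hsub (P.center_mem hR hrT)) hmem
        subst hbq
        rcases hle.lt_or_eq with h | h
        · exact hbS h (Finset.mem_filter.1 hq).1
        · refine hne (Prod.ext h (D.eq_of_mem hqz ?_ hmem ?_))
          · rw [h]; exact (P.mem r hrT).2.2.1
          · rw [h]; exact P.center_mem hR hrT
      intro q hq r hr hne
      rcases le_total q.1 r.1 with h | h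
      · exact main q hq r hr hne h
      · exact (main r hr q hq hne.symm h).symm
  -- sum over the coordinates
  set o := stdOrthonormalBasis ℝ E
  have hlow : ∀ q ∈ S₂, θ ^ 2 ≤ ∑ i, ‖a (o i) q‖ ^ 2 := fun q hq => by
    obtain ⟨-, hql, w, hw, hwθ⟩ := Finset.mem_filter.1 hq
    have hLw : L q (c.π w) = w := by
      have hz : c.π (L q (c.π w) - w) = 0 := by rw [map_sub, (hL q hql _).2.1, sub_self]
      have := c.le_of_slant (x := L q (c.π w) - w) (s := 0)
        (by simpa using hang q hql _ (sub_mem (hL q hql _).1 hw))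
      rw [hz, norm_zero, mul_zero, add_zero] at this
      exact sub_eq_zero.1 (norm_le_zero_iff.1 this)
    have hw0 : 0 < ‖w‖ := by
      refine norm_pos_iff.2 fun h => ?_
      subst h
      simp [perp] at hwθ
    have h1 : ‖P₀ w‖ ^ 2 ≤ (∑ i, ‖a (o i) q‖ ^ 2) * ‖w‖ ^ 2 := by
      rw [← o.sum_sq_inner_right (P₀ w), Finset.sum_mul]
      refine Finset.sum_le_sum fun i _ => ?_
      rw [show (⟪o i, P₀ w⟫ : ℝ) = ⟪a (o i) q, c.π w⟫ by rw [ha, hLw], ← sq_abs, ← mul_pow]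
      exact pow_le_pow_left₀ (abs_nonneg _) ((abs_real_inner_le_norm _ _).trans
        (mul_le_mul_of_nonneg_left (c.norm_le w) (norm_nonneg _))) 2
    have h2 : (θ * ‖w‖) ^ 2 ≤ ‖P₀ w‖ ^ 2 :=
      pow_le_pow_left₀ (by positivity) (by rw [hP₀]; exact hwθ.le) 2
    rw [mul_pow] at h2
    exact le_of_mul_le_mul_right (h2.trans h1) (by positivity)
  calc θ ^ 2 * ∑ q ∈ S₂, ν.real (D.cell q.1 q.2)
      ≤ C * 3 ^ n * ∑ q ∈ S₂,
          ∑ i, ‖a (o i) q‖ ^ 2 * tiltScale (scale R P.k₀) (lev q) ^ n := by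
        rw [Finset.mul_sum, Finset.mul_sum]
        refine Finset.sum_le_sum fun q hq => ?_
        rw [hscale q (hS₂ hq), ← Finset.sum_mul, mul_left_comm]
        exact mul_le_mul (hlow q hq) (cell_real_le hN D (P.mem q (P.mem_low.1 (hS₂ hq)).1).2.2.1)
          measureReal_nonneg (Finset.sum_nonneg fun i _ => sq_nonneg _)
    _ ≤ _ := by
        refine mul_le_mul_of_nonneg_left ?_ (by positivity)
        rw [Finset.sum_comm]
        refine (Finset.sum_le_card_nsmul _ _ _ fun i _ =>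
          (key (o i) (o.orthonormal.1 i)).trans (mul_le_mul_of_nonneg_left hbsum hKt)).trans
          (le_of_eq ?_)
        simp [nsmul_eq_mul]

end StopData

/-- The stops of one tree: their measure is bounded by the square of `b` at the root times the
measure of the root plus the squares of `g` over the tree. -/
theorem stops_le (hn : 1 ≤ n) (C A θ ε₀ : ℝ) (hC : 1 ≤ C) (hA : 0 ≤ A) (hθ : 0 < θ) (hε : 0 < ε₀)
    (hε1 : ε₀ ≤ 1) :
    ∃ K : ℝ, ∀ (ν : Measure E) (x₀ : E) (R : ℝ), Nice n C A ν x₀ R →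
      ∀ (D : Cells ν x₀ R) (k₀ : ℕ) (z₀ : E) (T S : Finset (ℕ × E)) (p : ℕ × E → E)
        (W : ℕ × E → Submodule ℝ E) (b g : ℕ × E → ℝ),
        (k₀, z₀) ∈ T → S ⊆ T → b (k₀, z₀) ≤ ε₀ →
        (∀ q ∈ T, k₀ ≤ q.1 ∧ (q.1 = k₀ → q.2 = z₀) ∧ q.2 ∈ D.Z q.1 ∧ dist q.2 x₀ ≤ R / 64) →
        (∀ j w, (j + 1, w) ∈ T → k₀ ≤ j → (j, D.parent j w) ∈ T ∧ (j, D.parent j w) ∉ S ∧
            b (j, D.parent j w) ≤ ε₀ ∧
            b (j + 1, w) ≤ b (j, D.parent j w) / 2 + g (j, D.parent j w)) →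
        (∀ q ∈ T, Module.finrank ℝ (W q) = n ∧ 0 ≤ b q ∧
            flatness ν n q.2 (scale R q.1) (p q) (W q) ≤ b q) →
        (∀ q ∈ T, b q ≤ ε₀ → ∀ w ∈ W q, ‖perp (W (k₀, z₀)) w‖ ≤ 1 / 2 * ‖w‖) →
        (∀ q ∈ T, ∀ r ∈ T, b q ≤ ε₀ → b r ≤ ε₀ → q.1 ≤ r.1 →
            ‖perp (W (k₀, z₀)) (r.2 - q.2)‖ ≤ 1 / 2 * ‖r.2 - q.2‖ + scale R q.1 / 64) →
        (∀ q ∈ S, ε₀ < b q ∨ ∃ w ∈ W q, θ * ‖w‖ < ‖perp (W (k₀, z₀)) w‖) →
        ∑ q ∈ S, ν.real (D.cell q.1 q.2) ≤
          K * (b (k₀, z₀) ^ 2 * ν.real (D.cell k₀ z₀) +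
            ∑ q ∈ T, g q ^ 2 * ν.real (D.cell q.1 q.2)) := by
  classical
  obtain ⟨K₀, hK₀, hcmp⟩ := planeCompare (E := E) hn C A hC hA
  obtain ⟨Kt, hKt⟩ := tilt_packing_of_finset n ⌈C ^ 2 * (36 : ℝ) ^ n⌉₊
  set K1 := K₀ * (4 * 256 ^ (n + 2))
  set G := C * 3 ^ n * (Module.finrank ℝ E * (max Kt 0 *
    ((2 * (3 * (K1 * (K1 + 1) * (3 * C + 21))) * 3) ^ 2 *
      ((3 * (C ^ 2 * 1026 ^ n)) ^ 2 * 16 ^ n * (C * 4 ^ n)))))
  have hG : 0 ≤ G := by positivity
  refine ⟨(1 / ε₀ ^ 2 + G / θ ^ 2) * 4, ?_⟩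
  intro ν x₀ R hN D k₀ z₀ T S p W b g h1 h2 h3 h4 h5 h6 h7 h8 h9
  set P : StopData n D ε₀ := ⟨k₀, z₀, T, S, p, W, b, g, h1, h2, h3, h4, h5, h6⟩
  set Sb := ∑ q ∈ T, b q ^ 2 * ν.real (D.cell q.1 q.2)
  have hSb : Sb ≤ 4 * (b (k₀, z₀) ^ 2 * ν.real (D.cell k₀ z₀) +
      ∑ q ∈ T, g q ^ 2 * ν.real (D.cell q.1 q.2)) := by
    have h := P.sum_sq_le hN
    simp only [P] at h
    linarith [mul_nonneg (sq_nonneg (b (k₀, z₀))) (measureReal_nonneg : 0 ≤ ν.real (D.cell k₀ z₀))]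
  have hhigh : ε₀ ^ 2 * ∑ q ∈ S.filter (fun q => ε₀ < b q), ν.real (D.cell q.1 q.2) ≤ Sb := by
    rw [Finset.mul_sum]
    refine le_trans (Finset.sum_le_sum fun q hq => ?_)
      (Finset.sum_le_sum_of_subset_of_nonneg ((Finset.filter_subset _ _).trans h2)
        fun q _ _ => by positivity)
    exact mul_le_mul_of_nonneg_right (pow_le_pow_left₀ hε.le (Finset.mem_filter.1 hq).2.le 2)
      measureReal_nonneg
  have htlt := P.tilt_stops_le hK₀ (le_max_right Kt 0) hθ.le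
    (fun z t a a' q q' V V' => hcmp ν x₀ R hN z t a a' q q' V V')
    (fun L hL ι T' lev c a v b' e1 e2 e3 e4 e5 S' hS' hd =>
      (hKt L hL ι T' lev c a v b' e1 e2 e3 e4 e5 S' hS' hd).trans
        (mul_le_mul_of_nonneg_right (le_max_left Kt 0)
          (Finset.sum_nonneg fun q _ => mul_nonneg (sq_nonneg _)
            (pow_nonneg (mul_pos hL (by positivity)).le n))))
    hN hε1 (fun q hq => h7 q (P.mem_low.1 hq).1 (P.mem_low.1 hq).2)
    (fun q hq r hr => h8 q (P.mem_low.1 hq).1 r (P.mem_low.1 hr).1 (P.mem_low.1 hq).2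
      (P.mem_low.1 hr).2)
  set S₂ := P.S.filter fun q => q ∈ P.low ∧
    ∃ w ∈ P.W q, θ * ‖w‖ < ‖perp (P.W (P.k₀, P.z₀)) w‖
  have htlt' : θ ^ 2 * ∑ q ∈ S₂, ν.real (D.cell q.1 q.2) ≤ G * Sb :=
    htlt.trans (le_of_eq (by simp only [G, K1, Sb, P]; ring))
  have hsplit : ∑ q ∈ S, ν.real (D.cell q.1 q.2) ≤
      (∑ q ∈ S.filter (fun q => ε₀ < b q), ν.real (D.cell q.1 q.2)) +
        ∑ q ∈ S₂, ν.real (D.cell q.1 q.2) := by
    rw [← Finset.sum_filter_add_sum_filter_not S (fun q => ε₀ < b q)]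
    refine add_le_add le_rfl (Finset.sum_le_sum_of_subset_of_nonneg (fun q hq => ?_)
      fun q _ _ => measureReal_nonneg)
    obtain ⟨hq1, hq2⟩ := Finset.mem_filter.1 hq
    exact Finset.mem_filter.2 ⟨hq1, P.mem_low.2 ⟨h2 hq1, not_lt.1 hq2⟩,
      (h9 q hq1).resolve_left hq2⟩
  calc ∑ q ∈ S, ν.real (D.cell q.1 q.2)
      ≤ Sb / ε₀ ^ 2 + G * Sb / θ ^ 2 := hsplit.trans (add_le_add
        ((le_div_iff₀' (pow_pos hε 2)).2 hhigh) ((le_div_iff₀' (pow_pos hθ 2)).2 htlt'))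
    _ = (1 / ε₀ ^ 2 + G / θ ^ 2) * Sb := by ring
    _ ≤ _ := by
        rw [mul_assoc]
        exact mul_le_mul_of_nonneg_left hSb (by positivity)

end

end Vale.Agent.P120.Full
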