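import Vale.Agent.P120.Full.CoronaBuild
import Vale.Agent.P120.Full.Stops

/-!
# P120, full answer, module E: coronas exist, given the decay
-/

namespace Vale.Agent.P120.Full

open MeasureTheory

variable {E : Type*} [NormedAddCommGroup E] [InnerProductSpace ℝ E] [MeasurableSpace E]
  [BorelSpace E] [FiniteDimensional ℝ E] {n : ℕ}

/-- The stops of one tree are bounded. -/
theorem stopsBound (hn : 1 ≤ n) : StopsBound E n := fun C A θ ε₀ => stops_le hn C A θ ε₀

/-- Module E. -/
theorem coronaExist (hn : 1 ≤ n) (hnd : n ≤ Module.finrank ℝ E) (hd : Decay E n) :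
    CoronaExist E n :=
  coronaExist_of hn hnd hd (coefPacking hn) (planeCompare hn) (stopsBound hn)

end Vale.Agent.P120.Full
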