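import Vale.Agent.P120.Full.Defs

/-!
# P120, full answer: interfaces between the analytic modules
-/

namespace Vale.Agent.P120.Full

open MeasureTheory Set

variable (E : Type*) [NormedAddCommGroup E] [InnerProductSpace ℝ E] [MeasurableSpace E]
  [BorelSpace E] [FiniteDimensional ℝ E]

/-- Two planes that are both close to the measure in the same ball are close to each other,
linearly in the two flatness numbers. -/
def PlaneCompare (n : ℕ) : Prop :=
  ∀ C A : ℝ, 1 ≤ C → 0 ≤ A → ∃ K : ℝ, 0 ≤ K ∧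
    ∀ (ν : Measure E) (x₀ : E) (R : ℝ), Nice n C A ν x₀ R →
      ∀ (z : E) (t a a' : ℝ) (p p' : E) (W W' : Submodule ℝ E),
        z ∈ ν.support → dist z x₀ ≤ R / 4 → 0 < t → t ≤ R / 8 → 0 ≤ a → 0 ≤ a' →
        Module.finrank ℝ W = n → Module.finrank ℝ W' = n →
        ∫ y in Metric.ball z t, ‖perp W (y - p)‖ ^ 2 ∂ν ≤ a ^ 2 * t ^ (n + 2) →
        ∫ y in Metric.ball z t, ‖perp W' (y - p')‖ ^ 2 ∂ν ≤ a' ^ 2 * t ^ (n + 2) →
        ∀ y : E, ‖perp W (y - p)‖ ≤
          K * (‖perp W' (y - p')‖ + (a + a') * (t + dist y z))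

/-- Module D1: the energy of the normal coordinate of any plane is controlled linearly by the
flatness of the ancestors with respect to this plane and by one coefficient. -/
def EnergyBound (n : ℕ) : Prop :=
  ∀ C A : ℝ, 1 ≤ C → 0 ≤ A → ∃ K : ℝ, 0 ≤ K ∧
    ∀ (ν : Measure E) (x₀ : E) (R : ℝ), Nice n C A ν x₀ R →
      ∀ (c : ℕ → E) (j₀ j : ℕ), j₀ < j →
        (∀ i, j₀ ≤ i → i ≤ j → c i ∈ ν.support ∧ dist (c i) x₀ ≤ R / 8) →
        (∀ i, j₀ ≤ i → i < j → dist (c (i + 1)) (c i) ≤ 2 * scale R i) →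
        ∀ (p : E) (W : Submodule ℝ E), Module.finrank ℝ W = n →
          ∫ q in Metric.ball (c j) (3 * scale R j) ×ˢ Metric.ball (c j) (3 * scale R j),
              ‖perp W (q.1 - q.2)‖ ^ 2 / dist q.1 q.2 ^ (n + 1) ∂(ν.prod ν) ≤
            K * (((1 / 16 : ℝ) ^ (j - j₀) +
                  ∑ i ∈ Finset.Icc j₀ j, (1 / 16 : ℝ) ^ (j - i) * flatness ν n (c i) (scale R i) p W) ^ 2 +
                coef n ν (c j) (scale R j) ^ 2) * scale R j ^ (n + 1)

end Vale.Agent.P120.Full
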