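import Vale.Agent.P120.Full.Packing
import Vale.Agent.P120.Full.Interfaces

/-!
# P120, full answer: the cutoff off normal coordinate
-/

namespace Vale.Agent.P120.Full

open MeasureTheory Set Filter
open scoped Topology RealInnerProductSpace ENNReal

noncomputable section

variable {E : Type*} [NormedAddCommGroup E] [InnerProductSpace ℝ E] [MeasurableSpace E]
  [BorelSpace E] [FiniteDimensional ℝ E] {n : ℕ} {C A R : ℝ} {ν : Measure E} {x₀ : E}

omit [MeasurableSpace E] [BorelSpace E] in
lemma perp_map_sub (W : Submodule ℝ E) (a b : E) : perp W (a - b) = perp W a - perp W b := by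
  simp only [perp, map_sub]; abel

omit [MeasurableSpace E] [BorelSpace E] in
lemma norm_perp_apply_le (W : Submodule ℝ E) (a : E) : ‖perp W a‖ ≤ ‖a‖ := by
  have h1 : ⟪W.starProjection a, perp W a⟫ = 0 :=
    W.inner_right_of_mem_orthogonal (W.starProjection_apply_mem a)
      (W.sub_starProjection_mem_orthogonal a)
  have h2 := norm_add_sq_eq_norm_sq_add_norm_sq_real h1
  rw [show W.starProjection a + perp W a = a by simp [perp]] at h2
  nlinarith [mul_self_nonneg ‖W.starProjection a‖, norm_nonneg (perp W a), norm_nonneg a]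

omit [MeasurableSpace E] [BorelSpace E] in
lemma inner_perp_left (W : Submodule ℝ E) (a b : E) : ⟪perp W a, b⟫ = ⟪perp W a, perp W b⟫ := by
  have h1 : ⟪W.starProjection b, perp W a⟫ = 0 :=
    W.inner_right_of_mem_orthogonal (W.starProjection_apply_mem b)
      (W.sub_starProjection_mem_orthogonal a)
  rw [show perp W b = b - W.starProjection b from rfl, inner_sub_right,
    real_inner_comm (W.starProjection b), h1, sub_zero]

omit [MeasurableSpace E] [BorelSpace E] in
lemma continuous_perp_map (W : Submodule ℝ E) : Continuous (perp W) :=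
  continuous_id.sub W.starProjection.continuous

/-- A cutoff off, one on `ball c (3 l)`, zero outside `ball c (4 l)`. -/
def cutoff (c : E) (l : ℝ) (y : E) : ℝ := max 0 (min 1 (4 - dist y c / l))

omit [InnerProductSpace ℝ E] [MeasurableSpace E] [BorelSpace E] [FiniteDimensional ℝ E] in
lemma cutoff_mem (c : E) (l : ℝ) (y : E) : 0 ≤ cutoff c l y ∧ cutoff c l y ≤ 1 :=
  ⟨le_max_left _ _, max_le zero_le_one (min_le_left _ _)⟩

omit [InnerProductSpace ℝ E] [MeasurableSpace E] [BorelSpace E] [FiniteDimensional ℝ E] in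
lemma cutoff_eq_one {c y : E} {l : ℝ} (hl : 0 < l) (h : dist y c ≤ 3 * l) : cutoff c l y = 1 := by
  have : dist y c / l ≤ 3 := (div_le_iff₀ hl).2 h
  rw [cutoff, min_eq_left (by linarith), max_eq_right zero_le_one]

omit [InnerProductSpace ℝ E] [MeasurableSpace E] [BorelSpace E] [FiniteDimensional ℝ E] in
lemma cutoff_eq_zero {c y : E} {l : ℝ} (hl : 0 < l) (h : 4 * l ≤ dist y c) : cutoff c l y = 0 := by
  have : 4 ≤ dist y c / l := (le_div_iff₀ hl).2 h
  exact max_eq_left ((min_le_right _ _).trans (by linarith))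

omit [InnerProductSpace ℝ E] [MeasurableSpace E] [BorelSpace E] [FiniteDimensional ℝ E] in
lemma abs_cutoff_sub_le {c : E} {l : ℝ} (hl : 0 < l) (x y : E) :
    |cutoff c l x - cutoff c l y| ≤ dist x y / l := by
  refine (abs_max_sub_max_le_max _ _ _ _).trans (max_le (by simp; positivity) ?_)
  refine (abs_min_sub_min_le_max _ _ _ _).trans (max_le (by simp; positivity) ?_)
  rw [sub_sub_sub_cancel_left, ← sub_div, abs_div, abs_of_pos hl]
  exact div_le_div_of_nonneg_right ((abs_dist_sub_le _ _ _).trans (le_of_eq (dist_comm _ _))) hl.le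

omit [InnerProductSpace ℝ E] [MeasurableSpace E] [BorelSpace E] [FiniteDimensional ℝ E] in
lemma continuous_cutoff (c : E) (l : ℝ) : Continuous (cutoff c l) := by unfold cutoff; fun_prop

/-- The mean of the normal coordinate against the squared cutoff off. -/
def nMean (ν : Measure E) (c : E) (l : ℝ) (p : E) (W : Submodule ℝ E) : E :=
  (∫ y, cutoff c l y ^ 2 ∂ν)⁻¹ • ∫ y, cutoff c l y ^ 2 • perp W (y - p) ∂ν

/-- The centred normal coordinate. -/
def nCoord (ν : Measure E) (c : E) (l : ℝ) (p : E) (W : Submodule ℝ E) (y : E) : E :=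
  perp W (y - p) - nMean ν c l p W

/-- The test field. -/
def nField (ν : Measure E) (c : E) (l : ℝ) (p : E) (W : Submodule ℝ E) (y : E) : E :=
  cutoff c l y ^ 2 • nCoord ν c l p W y

lemma norm_nCoord_sub_le (ν : Measure E) (c : E) (l : ℝ) (p : E) (W : Submodule ℝ E) (x y : E) :
    ‖nCoord ν c l p W x - nCoord ν c l p W y‖ ≤ dist x y := by
  rw [nCoord, nCoord, sub_sub_sub_cancel_right, ← perp_map_sub, dist_eq_norm]
  refine (norm_perp_apply_le W _).trans (le_of_eq ?_)
  rw [sub_sub_sub_cancel_right]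

lemma continuous_nCoord (ν : Measure E) (c : E) (l : ℝ) (p : E) (W : Submodule ℝ E) :
    Continuous (nCoord ν c l p W) :=
  ((continuous_perp_map W).comp (continuous_id.sub continuous_const)).sub continuous_const

lemma exists_lipschitz_nField {c : E} {l : ℝ} (hl : 0 < l) (ν : Measure E) (p : E)
    (W : Submodule ℝ E) : ∃ L : NNReal, LipschitzWith L (nField ν c l p W) := by
  set v := nCoord ν c l p W with hv
  set η := fun y => cutoff c l y ^ 2 with hη
  obtain ⟨B, hB⟩ := (isCompact_closedBall c (4 * l)).exists_bound_of_continuousOn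
    (continuous_nCoord ν c l p W).continuousOn
  have hB0 : 0 ≤ B := (norm_nonneg _).trans (hB c (Metric.mem_closedBall_self (by positivity)))
  refine ⟨⟨2 / l * B + 1, by positivity⟩, LipschitzWith.of_dist_le_mul fun x y => ?_⟩
  have hηd : ∀ x y, |η x - η y| ≤ 2 / l * dist x y := fun x y => by
    have h1 := cutoff_mem c l x
    have h2 := cutoff_mem c l y
    simp only [hη]
    rw [show cutoff c l x ^ 2 - cutoff c l y ^ 2 = (cutoff c l x - cutoff c l y) * (cutoff c l x + cutoff c l y) by
      ring, abs_mul]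
    calc |cutoff c l x - cutoff c l y| * |cutoff c l x + cutoff c l y| ≤ dist x y / l * 2 :=
          mul_le_mul (abs_cutoff_sub_le hl x y) (abs_le.2 ⟨by linarith, by linarith⟩) (abs_nonneg _)
            (by positivity)
      _ = _ := by ring
  rw [dist_eq_norm]
  show ‖η x • v x - η y • v y‖ ≤ (2 / l * B + 1) * dist x y
  by_cases hx : dist x c ≤ 4 * l
  · rw [show η x • v x - η y • v y = (η x - η y) • v x + η y • (v x - v y) by
      simp only [sub_smul, smul_sub]; abel]
    refine (norm_add_le _ _).trans ?_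
    rw [norm_smul, norm_smul, Real.norm_eq_abs, Real.norm_eq_abs, add_mul]
    refine add_le_add ?_ ?_
    · calc |η x - η y| * ‖v x‖ ≤ 2 / l * dist x y * B :=
            mul_le_mul (hηd x y) (hB x (Metric.mem_closedBall.2 hx)) (norm_nonneg _) (by positivity)
        _ = _ := by ring
    · refine mul_le_mul ?_ (norm_nCoord_sub_le ν c l p W x y) (norm_nonneg _) zero_le_one
      have h2 := cutoff_mem c l y
      rw [hη]; dsimp only
      rw [abs_of_nonneg (sq_nonneg _)]
      exact pow_le_one₀ h2.1 h2.2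
  · have hx0 : η x = 0 := by simp [hη, cutoff_eq_zero hl (le_of_lt (not_le.1 hx))]
    rw [hx0, zero_smul, zero_sub, norm_neg, norm_smul, Real.norm_eq_abs]
    by_cases hy : dist y c ≤ 4 * l
    · have := hηd y x
      rw [hx0, sub_zero, dist_comm] at this
      calc |η y| * ‖v y‖ ≤ 2 / l * dist x y * B :=
            mul_le_mul this (hB y (Metric.mem_closedBall.2 hy)) (norm_nonneg _) (by positivity)
        _ ≤ _ := by nlinarith [dist_nonneg (x := x) (y := y)]
    · simp only [hη, cutoff_eq_zero hl (le_of_lt (not_le.1 hy))]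
      norm_num
      positivity

/-- The potential of order `n - 1` of a ball. -/
lemma lintegral_inv_pow_ball_le (hn : 1 ≤ n) (h : Nice n C A ν x₀ R) (z : E) {T : ℝ} (hT : 0 < T) :
    ∫⁻ y in Metric.ball z T, ENNReal.ofReal ((dist z y ^ (n - 1))⁻¹) ∂ν ≤
      ENNReal.ofReal (2 ^ n * C * T) := by
  have := h.finite
  obtain ⟨hC, -, -, -, hgr, -, -⟩ := id h
  have hC0 : 0 ≤ C := zero_le_one.trans hC
  have hz : ν {z} = 0 := by
    have hle : ∀ t : ℝ, 0 < t → ν.real {z} ≤ C * t ^ n := fun t ht =>
      (measureReal_mono (Set.singleton_subset_iff.2 (Metric.mem_ball_self ht))).trans (hgr z t ht)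
    have hlim : Tendsto (fun t : ℝ => C * t ^ n) (𝓝[>] 0) (𝓝 0) := by
      have hc : Continuous fun t : ℝ => C * t ^ n := by fun_prop
      simpa [zero_pow (by omega : n ≠ 0)] using (hc.tendsto 0).mono_left nhdsWithin_le_nhds
    have h0 : ν.real {z} ≤ 0 := ge_of_tendsto hlim (eventually_nhdsWithin_of_forall hle)
    exact (measureReal_eq_zero_iff).1 (le_antisymm h0 measureReal_nonneg)
  set S : ℕ → Set E := fun j => annulus z (1 / (j + 1 : ℝ)) T with hS
  have hmono : Monotone S := fun i j hij y hy =>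
    ⟨le_trans (one_div_le_one_div_of_le (by positivity)
      (by exact_mod_cast Nat.add_le_add_right hij 1)) hy.1, hy.2⟩
  calc ∫⁻ y in Metric.ball z T, ENNReal.ofReal ((dist z y ^ (n - 1))⁻¹) ∂ν
      ≤ ∫⁻ y in {z} ∪ ⋃ j, S j, ENNReal.ofReal ((dist z y ^ (n - 1))⁻¹) ∂ν := by
        refine lintegral_mono_set fun y hy => ?_
        rw [Metric.mem_ball, dist_comm] at hy
        by_cases hyz : y = z
        · exact Or.inl (mem_singleton_iff.2 hyz)
        · obtain ⟨j, hj⟩ := exists_nat_one_div_lt (dist_pos.2 (Ne.symm hyz))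
          exact Or.inr (mem_iUnion.2 ⟨j, hj.le, hy⟩)
    _ ≤ (∫⁻ y in {z}, ENNReal.ofReal ((dist z y ^ (n - 1))⁻¹) ∂ν) +
          ∫⁻ y in ⋃ j, S j, ENNReal.ofReal ((dist z y ^ (n - 1))⁻¹) ∂ν := lintegral_union_le _ _ _
    _ ≤ _ := by
        rw [setLIntegral_measure_zero _ _ hz, zero_add,
          setLIntegral_iUnion_of_directed _ hmono.directed_le]
        refine iSup_le fun j => ?_
        have hint : IntegrableOn (fun y => (dist z y ^ (n - 1))⁻¹) (S j) ν :=
          integrableOn_inv_pow z (by positivity : (0 : ℝ) < 1 / (j + 1 : ℝ)) (n - 1)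
            (measurableSet_annulus _ _ _) fun y hy => hy.1
        rw [← ofReal_integral_eq_lintegral_ofReal hint
          (Eventually.of_forall fun y => by simp only [Pi.zero_apply]; positivity)]
        exact ENNReal.ofReal_le_ofReal (inner_integral_le hn hgr hC0 z (by positivity) hT)

/-- A weighted double integral over a ball times itself. -/
lemma integral_mul_inv_pow_le (hn : 1 ≤ n) (h : Nice n C A ν x₀ R) {c : E} {T : ℝ} (hT : 0 < T)
    {g : E → ℝ} (hg : Continuous g) (hg0 : ∀ y, 0 ≤ g y) :
    IntegrableOn (fun q : E × E => g q.1 * (dist q.1 q.2 ^ (n - 1))⁻¹)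
        (Metric.ball c T ×ˢ Metric.ball c T) (ν.prod ν) ∧
      ∫ q in Metric.ball c T ×ˢ Metric.ball c T, g q.1 * (dist q.1 q.2 ^ (n - 1))⁻¹ ∂(ν.prod ν) ≤
        2 ^ n * C * (2 * T) * ∫ y in Metric.ball c T, g y ∂ν := by
  have := h.finite
  set S := Metric.ball c T
  have hC0 : 0 ≤ C := zero_le_one.trans h.1
  obtain ⟨B, hB⟩ := (isCompact_closedBall c T).exists_bound_of_continuousOn hg.continuousOn
  have hint : IntegrableOn (fun q : E × E => g q.1 * (dist q.1 q.2 ^ (n - 1))⁻¹) (S ×ˢ S)
      (ν.prod ν) := by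
    refine ((h.integrable_inv_pow_prod hn).const_mul B).integrableOn.mono'
      ((Measurable.mul (by fun_prop) (by fun_prop)).aestronglyMeasurable) ?_
    refine (ae_restrict_iff' (measurableSet_ball.prod measurableSet_ball)).2
      (Eventually.of_forall fun q hq => ?_)
    have := hB q.1 (Metric.ball_subset_closedBall hq.1)
    rw [Real.norm_eq_abs, abs_mul, abs_of_nonneg (inv_nonneg.2 (pow_nonneg dist_nonneg _) :
      0 ≤ (dist q.1 q.2 ^ (n - 1))⁻¹)]
    exact mul_le_mul_of_nonneg_right this (by positivity)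
  refine ⟨hint, ?_⟩
  rw [setIntegral_prod _ hint, ← integral_const_mul]
  refine integral_mono_of_nonneg (Eventually.of_forall fun x => integral_nonneg fun y =>
    mul_nonneg (hg0 x) (by positivity)) (((hg.continuousOn.integrableOn_compact
      (isCompact_closedBall c T)).mono_set Metric.ball_subset_closedBall).const_mul _)
    ((ae_restrict_iff' measurableSet_ball).2 (Eventually.of_forall fun x hx => ?_))
  show ∫ y in S, g x * (dist x y ^ (n - 1))⁻¹ ∂ν ≤ 2 ^ n * C * (2 * T) * g x
  rw [integral_const_mul, mul_comm _ (g x)]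
  refine mul_le_mul_of_nonneg_left ?_ (hg0 x)
  rw [integral_eq_lintegral_of_nonneg_ae (Eventually.of_forall fun y => by
    simp only [Pi.zero_apply]; positivity) (Measurable.aestronglyMeasurable (by fun_prop))]
  refine ENNReal.toReal_le_of_le_ofReal (by positivity) ?_
  refine le_trans (lintegral_mono_set fun y hy => ?_) (lintegral_inv_pow_ball_le hn h x (by positivity))
  rw [Metric.mem_ball] at hy hx ⊢
  linarith [dist_triangle_right y x c]

end

end Vale.Agent.P120.Full
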