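import Mathlib

/-!
# P120, full answer: representing functionals on test functions, limits along an ultrafilter
-/

namespace Vale.Agent.P120.Full

open MeasureTheory Set Filter
open scoped Topology RealInnerProductSpace ENNReal

noncomputable section

variable {n : ℕ}

/-- The test functions of the blow-up argument. -/
def IsTest (φ : EuclideanSpace ℝ (Fin n) → ℝ) : Prop := Continuous φ ∧ HasCompactSupport φ

lemma IsTest.add {φ ψ : EuclideanSpace ℝ (Fin n) → ℝ} (h : IsTest φ) (h' : IsTest ψ) :
    IsTest (φ + ψ) := ⟨h.1.add h'.1, h.2.add h'.2⟩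

lemma IsTest.smul {φ : EuclideanSpace ℝ (Fin n) → ℝ} (h : IsTest φ) (a : ℝ) : IsTest (a • φ) :=
  ⟨h.1.const_smul a, h.2.smul_left⟩

/-- Test functions as a submodule. -/
def testFns (n : ℕ) : Submodule ℝ (EuclideanSpace ℝ (Fin n) → ℝ) where
  carrier := {φ | IsTest φ}
  add_mem' := IsTest.add
  zero_mem' := ⟨continuous_const, HasCompactSupport.zero⟩
  smul_mem' := fun a _ h => IsTest.smul h a

/-- A functional on test functions bounded in a weighted `L²` norm is given by a function. -/
theorem exists_rep {Λ : (EuclideanSpace ℝ (Fin n) → ℝ) → ℝ}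
    (hadd : ∀ φ ψ, IsTest φ → IsTest ψ → Λ (φ + ψ) = Λ φ + Λ ψ)
    (hsmul : ∀ (a : ℝ) φ, IsTest φ → Λ (a • φ) = a * Λ φ)
    {w : EuclideanSpace ℝ (Fin n) → ℝ} (hw : Continuous w) (hw0 : ∀ x, 0 < w x) {M : ℝ}
    (hM : 0 ≤ M) (hbd : ∀ φ, IsTest φ → Λ φ ^ 2 ≤ M * ∫ x, φ x ^ 2 * w x) :
    ∃ g : EuclideanSpace ℝ (Fin n) → ℝ, Measurable g ∧ LocallyIntegrable g ∧
      Integrable (fun x => g x ^ 2 / w x) ∧ ∫ x, g x ^ 2 / w x ≤ M ∧
      ∀ φ, IsTest φ → Λ φ = ∫ x, φ x * g x := by
  set s := fun x => Real.sqrt (w x)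
  have hsc : Continuous s := hw.sqrt
  have hmem : ∀ φ : testFns n, MemLp (fun x => φ.1 x * s x) 2 volume := fun φ =>
    (φ.2.1.mul hsc).memLp_of_hasCompactSupport φ.2.2.mul_right
  set ι : testFns n →ₗ[ℝ] Lp ℝ 2 (volume : Measure (EuclideanSpace ℝ (Fin n))) :=
    { toFun := fun φ => (hmem φ).toLp _
      map_add' := fun φ ψ => by
        rw [← MemLp.toLp_add]
        exact MemLp.toLp_congr _ _ (Eventually.of_forall fun x => by simp [add_mul])
      map_smul' := fun a φ => by
        rw [RingHom.id_apply, ← MemLp.toLp_const_smul]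
        exact MemLp.toLp_congr _ _ (Eventually.of_forall fun x => by simp [mul_assoc]) } with hι
  set L : testFns n →ₗ[ℝ] ℝ :=
    { toFun := fun φ => Λ φ.1
      map_add' := fun φ ψ => hadd _ _ φ.2 ψ.2
      map_smul' := fun a φ => hsmul a _ φ.2 }
  have hnorm : ∀ φ, |L φ| ≤ Real.sqrt M * ‖ι φ‖ := fun φ => by
    rw [← Real.sqrt_sq (norm_nonneg (ι φ)), ← Real.sqrt_mul hM, ← Real.sqrt_sq_eq_abs]
    refine Real.sqrt_le_sqrt ((hbd _ φ.2).trans (le_of_eq ?_))
    rw [← real_inner_self_eq_norm_sq, L2.inner_def]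
    congr 1
    refine integral_congr_ae ?_
    filter_upwards [(hmem φ).coeFn_toLp] with x hx
    simp only [hι, LinearMap.coe_mk, AddHom.coe_mk, hx, RCLike.inner_apply, conj_trivial]
    rw [← sq, mul_pow, Real.sq_sqrt (hw0 x).le]
  have hker : LinearMap.ker ι ≤ LinearMap.ker L := fun φ hφ => by
    rw [LinearMap.mem_ker] at hφ
    have := hnorm φ
    rw [hφ, norm_zero, mul_zero, abs_nonpos_iff] at this
    rwa [LinearMap.mem_ker]
  set σ : LinearMap.range ι →ₗ[ℝ] ℝ :=
    (LinearMap.ker ι).liftQ L hker ∘ₗ ι.quotKerEquivRange.symm.toLinearMap with hσdef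
  have hLσ : ∀ φ, σ (ι.rangeRestrict φ) = L φ := fun φ => by
    have h1 : ι.quotKerEquivRange.symm (ι.rangeRestrict φ) = Submodule.Quotient.mk φ := by
      rw [LinearEquiv.symm_apply_eq]
      rfl
    rw [hσdef, LinearMap.comp_apply, LinearEquiv.coe_coe, h1, Submodule.liftQ_apply]
  set F : StrongDual ℝ (LinearMap.range ι) :=
    σ.mkContinuous (Real.sqrt M) fun y => by
      obtain ⟨φ, hφ⟩ := y.2
      have hy : y = ι.rangeRestrict φ := Subtype.ext hφ.symm
      rw [hy, hLσ]
      exact hnorm φ
  obtain ⟨G, hG, hGn⟩ := exists_extension_norm_eq (LinearMap.range ι) F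
  set h := (InnerProductSpace.toDual ℝ (Lp ℝ 2 (volume : Measure
    (EuclideanSpace ℝ (Fin n))))).symm G
  obtain ⟨h', hh'm, hh'⟩ := (Lp.aestronglyMeasurable h).aemeasurable
  have hh'2 : MemLp h' 2 volume := (memLp_congr_ae hh').1 (Lp.memLp h)
  refine ⟨fun x => s x * h' x, hsc.measurable.mul hh'm, ?_, ?_, ?_, ?_⟩
  · exact (hh'2.locallyIntegrable one_le_two).continuous_smul hsc
  · have : (fun x => (s x * h' x) ^ 2 / w x) = fun x => h' x ^ 2 := by
      funext x
      rw [mul_pow, Real.sq_sqrt (hw0 x).le, mul_comm, mul_div_assoc, div_self (hw0 x).ne', mul_one]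
    rw [this]
    exact hh'2.integrable_sq
  · have h1 : ‖h‖ ≤ Real.sqrt M := by
      rw [LinearIsometryEquiv.norm_map, hGn]
      exact LinearMap.mkContinuous_norm_le _ (Real.sqrt_nonneg _) _
    have h2 := pow_le_pow_left₀ (norm_nonneg _) h1 2
    rw [Real.sq_sqrt hM] at h2
    refine le_of_eq_of_le ?_ h2
    rw [← real_inner_self_eq_norm_sq, L2.inner_def]
    refine integral_congr_ae ?_
    filter_upwards [hh'] with x hx
    rw [mul_pow, Real.sq_sqrt (hw0 x).le, mul_comm, mul_div_assoc, div_self (hw0 x).ne', mul_one,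
      RCLike.inner_apply, conj_trivial, hx, sq]
  · intro φ hφ
    set φ' : testFns n := ⟨φ, hφ⟩
    have h1 : G (ι φ') = L φ' := by
      have := hG (ι.rangeRestrict φ')
      rw [show F (ι.rangeRestrict φ') = L φ' from hLσ φ'] at this
      exact this
    rw [show Λ φ = L φ' from rfl, ← h1, ← InnerProductSpace.toDual_symm_apply, L2.inner_def]
    refine integral_congr_ae ?_
    filter_upwards [hh', (hmem φ').coeFn_toLp] with x hx hx'
    simp only [hι, LinearMap.coe_mk, AddHom.coe_mk, hx', RCLike.inner_apply, conj_trivial, hx, φ',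
      h]
    ring

/-- Integrals over balls decide the sign of a locally integrable function. -/
theorem ae_nonneg_of_ball {g : EuclideanSpace ℝ (Fin n) → ℝ} (hg : LocallyIntegrable g)
    (h : ∀ z r, 0 < r → 0 ≤ ∫ x in Metric.closedBall z r, g x) : ∀ᵐ x, 0 ≤ g x := by
  filter_upwards [IsUnifLocDoublingMeasure.ae_tendsto_average volume hg 1] with x hx
  have h1 := hx (l := 𝓝[>] (0 : ℝ)) (fun _ => x) id tendsto_id
    (by filter_upwards [self_mem_nhdsWithin] with r hr
        simp only [one_mul, id, Metric.mem_closedBall, dist_self]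
        exact le_of_lt hr)
  refine ge_of_tendsto h1 ?_
  filter_upwards [self_mem_nhdsWithin] with r hr
  rw [setAverage_eq, smul_eq_mul]
  exact mul_nonneg (inv_nonneg.2 measureReal_nonneg) (h x r hr)

/-- A function with nonnegative integral against nonnegative test functions is nonnegative. -/
theorem ae_nonneg_of_test {g : EuclideanSpace ℝ (Fin n) → ℝ} (hg : LocallyIntegrable g)
    (h : ∀ φ, IsTest φ → (∀ x, 0 ≤ φ x) → 0 ≤ ∫ x, φ x * g x) : ∀ᵐ x, 0 ≤ g x := by
  refine ae_nonneg_of_ball hg fun z r hr => ?_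
  set K := Metric.closedBall z r
  set φ : ℕ → EuclideanSpace ℝ (Fin n) → ℝ := fun k x =>
    max 0 (1 - ((k : ℝ) + 1) * Metric.infDist x K)
  have hKne : K.Nonempty := ⟨z, Metric.mem_closedBall_self hr.le⟩
  have hK1 : IsCompact (Metric.cthickening 1 K) :=
    (isCompact_closedBall z r).cthickening
  have hsupp : ∀ k x, x ∉ Metric.cthickening 1 K → φ k x = 0 := by
    intro k x hx
    refine max_eq_left ?_
    have h1 : 1 < Metric.infDist x K := by
      by_contra h0
      refine hx (Metric.mem_cthickening_iff.2 ?_)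
      rw [← ENNReal.ofReal_toReal (Metric.infEDist_ne_top hKne (x := x))]
      exact ENNReal.ofReal_le_ofReal (not_lt.1 h0)
    nlinarith [Nat.cast_nonneg (α := ℝ) k]
  have hφc : ∀ k, Continuous (φ k) := fun k =>
    continuous_const.max (continuous_const.sub (continuous_const.mul (Metric.continuous_infDist_pt K)))
  have hlim : Tendsto (fun k => ∫ x, φ k x * g x) atTop (𝓝 (∫ x in K, g x)) := by
    rw [← integral_indicator measurableSet_closedBall]
    refine tendsto_integral_of_dominated_convergence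
      (fun x => (Metric.cthickening 1 K).indicator (fun y => ‖g y‖) x) (fun k => ?_) ?_ ?_ ?_
    · exact (hφc k).aestronglyMeasurable.mul hg.aestronglyMeasurable
    · exact IntegrableOn.integrable_indicator ((hg.integrableOn_isCompact hK1).norm)
        hK1.isClosed.measurableSet
    · refine fun k => Eventually.of_forall fun x => ?_
      by_cases hx : x ∈ Metric.cthickening 1 K
      · rw [indicator_of_mem hx, norm_mul, Real.norm_eq_abs, abs_of_nonneg (le_max_left _ _)]
        refine mul_le_of_le_one_left (norm_nonneg _) (max_le zero_le_one ?_)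
        have := Metric.infDist_nonneg (x := x) (s := K)
        nlinarith [Nat.cast_nonneg (α := ℝ) k]
      · rw [indicator_of_notMem hx, hsupp k x hx, zero_mul, norm_zero]
    · refine Eventually.of_forall fun x => ?_
      by_cases hx : x ∈ K
      · refine tendsto_const_nhds.congr' (Eventually.of_forall fun k => ?_)
        rw [indicator_of_mem hx]
        simp [φ, Metric.infDist_zero_of_mem hx]
      · rw [indicator_of_notMem hx]
        have hpos : 0 < Metric.infDist x K :=
          (Metric.isClosed_closedBall.notMem_iff_infDist_pos hKne).1 hx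
        obtain ⟨N, hN⟩ := exists_nat_gt (1 / Metric.infDist x K)
        refine tendsto_const_nhds.congr' ((eventually_ge_atTop N).mono fun k hk => ?_)
        rw [div_lt_iff₀ hpos] at hN
        have : (N : ℝ) ≤ k := Nat.cast_le.2 hk
        simp only [φ]
        rw [max_eq_left (by nlinarith), zero_mul]
  exact ge_of_tendsto' hlim fun k => h (φ k) ⟨hφc k, HasCompactSupport.intro hK1 (hsupp k)⟩
    fun x => le_max_left _ _

/-- A real sequence bounded along an ultrafilter converges along it. -/
theorem exists_tendsto_of_bdd {ι : Type*} (U : Ultrafilter ι) {a : ι → ℝ} {M : ℝ}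
    (h : ∀ᶠ i in (U : Filter ι), |a i| ≤ M) : ∃ x, Tendsto a U (𝓝 x) := by
  obtain ⟨x, -, hx⟩ := (isCompact_Icc (a := -M) (b := M)).ultrafilter_le_nhds (U.map a) (by
    rw [Ultrafilter.coe_map, le_principal_iff, mem_map]
    filter_upwards [h] with i hi
    exact abs_le.1 hi)
  exact ⟨x, hx⟩

end

end Vale.Agent.P120.Full
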