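import Vale.Agent.P120.Defs

/-!
# P120: uniform rectifiability

Uniform rectifiability as the problem defines it, by big pieces of Lipschitz images.
-/

namespace Vale.Agent.P120.Full

open MeasureTheory

variable {E : Type*} [NormedAddCommGroup E] [InnerProductSpace ℝ E] [MeasurableSpace E]
  [BorelSpace E]

/-- Uniform rectifiability as in the problem: big pieces of Lipschitz images. -/
def UniformlyRectifiable (n : ℕ) (μ : Measure E) : Prop :=
  ∃ θ : ℝ, 0 < θ ∧ ∃ M : NNReal, ∀ x ∈ μ.support, ∀ r : ℝ, 0 < r →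
    ENNReal.ofReal r ≤ Metric.ediam μ.support →
    ∃ g : EuclideanSpace ℝ (Fin n) → E, LipschitzOnWith M g (Metric.ball 0 r) ∧
      ENNReal.ofReal (θ * r ^ n) ≤ μ (Metric.ball x r ∩ g '' Metric.ball 0 r)

end Vale.Agent.P120.Full
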