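import Vale.Agent.P120.Defs
import Vale.Agent.P120.Basic
import Vale.Agent.P120.Windows
import Vale.Agent.P120.Full.Uniform

/-!
# P120, full answer: shared definitions and module interfaces

Everything takes place inside one finite measure `ν`, the restriction of the given measure to a
large ball `ball x₀ R`. Scales are `scale R k = R * 16⁻¹ ^ (k + 4)`.
-/

namespace Vale.Agent.P120.Full

open MeasureTheory Set Filter
open scoped Topology RealInnerProductSpace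

noncomputable section

variable {E : Type*} [NormedAddCommGroup E] [InnerProductSpace ℝ E] [MeasurableSpace E]
  [BorelSpace E]

/-- The finite measures on which the whole argument runs. -/
def Nice (n : ℕ) (C A : ℝ) (ν : Measure E) (x₀ : E) (R : ℝ) : Prop :=
  1 ≤ C ∧ 0 ≤ A ∧ 0 < R ∧ ν univ ≤ ENNReal.ofReal (C * R ^ n) ∧
    (∀ z : E, ∀ t : ℝ, 0 < t → ν.real (Metric.ball z t) ≤ C * t ^ n) ∧
    (∀ y ∈ ν.support, dist y x₀ ≤ R / 2 → ∀ t : ℝ, 0 < t → t ≤ R / 4 →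
      C⁻¹ * t ^ n ≤ ν.real (Metric.ball y t)) ∧
    ∀ ε : ℝ, 0 < ε → ∫ y, ‖trunc n ν ε univ y‖ ^ 2 ∂ν ≤ A ^ 2 * ν.real univ

/-- The scale of generation `k`. -/
def scale (R : ℝ) (k : ℕ) : ℝ := R * (1 / 16 : ℝ) ^ (k + 4)

/-- The pairing of the Riesz transform of one with a vector field, antisymmetrised. -/
def pair (n : ℕ) (ν : Measure E) (φ : E → E) : ℝ :=
  1 / 2 * ∫ p, ⟪φ p.1 - φ p.2, kernel n (p.1 - p.2)⟫ ∂(ν.prod ν)

/-- The energy of half a derivative. -/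
def energy (n : ℕ) (ν : Measure E) (φ : E → E) : ℝ :=
  ∫ p, ‖φ p.1 - φ p.2‖ ^ 2 / dist p.1 p.2 ^ (n + 1) ∂(ν.prod ν)

/-- A test field at position `z` and scale `l`. -/
def Mol (n : ℕ) (ν : Measure E) (z : E) (l : ℝ) (φ : E → E) : Prop :=
  (∃ L : NNReal, LipschitzWith L φ) ∧ (∀ y, 8 * l ≤ dist y z → φ y = 0) ∧
    ∫ y, φ y ∂ν = 0 ∧ (∫ y, ‖φ y‖ ^ 2 ∂ν) + l * energy n ν φ ≤ l ^ n

/-- The coefficient of the Riesz transform of one at position `z` and scale `l`. -/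
def coef (n : ℕ) (ν : Measure E) (z : E) (l : ℝ) : ℝ :=
  sSup {c : ℝ | ∃ φ, Mol n ν z l φ ∧ c = |pair n ν φ| / l ^ n}

/-- The component orthogonal to `W`. -/
def perp [FiniteDimensional ℝ E] (W : Submodule ℝ E) (v : E) : E :=
  v - (W.starProjection v)

/-- The quadratic flatness of `ν` in `ball z (4 l)` with respect to the plane `p + W`. -/
def flatness [FiniteDimensional ℝ E] (ν : Measure E) (n : ℕ) (z : E) (l : ℝ) (p : E)
    (W : Submodule ℝ E) : ℝ :=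
  Real.sqrt ((∫ y in Metric.ball z (4 * l), ‖perp W (y - p)‖ ^ 2 ∂ν) / l ^ (n + 2))

/-- The quadratic beta number: the best flatness over `n`-planes. -/
def beta [FiniteDimensional ℝ E] (n : ℕ) (ν : Measure E) (z : E) (l : ℝ) : ℝ :=
  sInf {b : ℝ | ∃ (p : E) (W : Submodule ℝ E), Module.finrank ℝ W = n ∧ b = flatness ν n z l p W}

/-- The weighted supremum of beta numbers along a chain of centres from level `j₀` to `k`,
including the weight of the top level. -/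
def bHat [FiniteDimensional ℝ E] (n : ℕ) (ν : Measure E) (R : ℝ) (c : ℕ → E) (j₀ k : ℕ) : ℝ :=
  (1 / 4 : ℝ) ^ (k - j₀) +
    ∑ j ∈ Finset.Icc j₀ k, (1 / 4 : ℝ) ^ (k - j) * beta n ν (c j) (scale R j)

/-- The weighted coefficients along a chain of centres from level `j₀` to `k`. -/
def eHat (n : ℕ) (ν : Measure E) (R : ℝ) (c : ℕ → E) (j₀ k : ℕ) : ℝ :=
  ∑ j ∈ Finset.Icc j₀ k, (1 / 4 : ℝ) ^ (k - j) * coef n ν (c j) (scale R j)

/-- Module B: packing of the coefficients over separated families at every scale. -/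
def CoefPacking (E : Type*) [NormedAddCommGroup E] [InnerProductSpace ℝ E] [MeasurableSpace E]
    [BorelSpace E] (n : ℕ) : Prop :=
  ∀ C A : ℝ, 1 ≤ C → 0 ≤ A → ∃ K : ℝ, ∀ (ν : Measure E) (x₀ : E) (R : ℝ), Nice n C A ν x₀ R →
    ∀ (N : ℕ) (Z : ℕ → Finset E),
      (∀ k, ∀ z ∈ Z k, z ∈ ν.support ∧ dist z x₀ ≤ R / 4) →
      (∀ k, (↑(Z k) : Set E).Pairwise fun u v => scale R k ≤ dist u v) →
      ∑ k ∈ Finset.range N, ∑ z ∈ Z k, coef n ν z (scale R k) ^ 2 * scale R k ^ n ≤ K * R ^ n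

/-- Module D: excess decay. -/
def Decay (E : Type*) [NormedAddCommGroup E] [InnerProductSpace ℝ E] [MeasurableSpace E]
    [BorelSpace E] [FiniteDimensional ℝ E] (n : ℕ) : Prop :=
  ∀ C A δ : ℝ, 1 ≤ C → 0 ≤ A → 0 < δ → ∃ ε₀ K : ℝ, 0 < ε₀ ∧
    ∀ (ν : Measure E) (x₀ : E) (R : ℝ), Nice n C A ν x₀ R →
      ∀ (c : ℕ → E) (j₀ k : ℕ), j₀ ≤ k →
        (∀ j, j₀ ≤ j → j ≤ k + 1 → c j ∈ ν.support ∧ dist (c j) x₀ ≤ R / 8) →
        (∀ j, j₀ ≤ j → j ≤ k → dist (c (j + 1)) (c j) ≤ 2 * scale R j) →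
        bHat n ν R c j₀ k ≤ ε₀ →
        beta n ν (c (k + 1)) (scale R (k + 1)) ≤
          δ * bHat n ν R c j₀ k + K * eHat n ν R c j₀ k

/-- Module C: the Liouville theorem for the quadratic form of order one. -/
def Liouville (n : ℕ) : Prop :=
  ∀ (u : EuclideanSpace ℝ (Fin n) → ℝ) (M : ℝ), Measurable u →
    (∀ T : ℝ, 1 ≤ T → ∫⁻ x in Metric.ball 0 T, ENNReal.ofReal (|u x|) ≤
      ENNReal.ofReal (M * T ^ ((n : ℝ) + 7 / 4))) →
    (∀ φ : EuclideanSpace ℝ (Fin n) → ℝ, ContDiff ℝ 2 φ → HasCompactSupport φ →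
      ∫ x, φ x = 0 →
      ∫ x, u x * ∫ h, (2 * φ x - φ (x + h) - φ (x - h)) / ‖h‖ ^ (n + 1) = 0) →
    ∃ (a : EuclideanSpace ℝ (Fin n)) (b : ℝ), ∀ᵐ x, u x = ⟪a, x⟫ + b

/-- Module C: a bounded density whose Riesz transform is constant is constant. -/
def DensityRigidity (n : ℕ) : Prop :=
  ∀ (f : EuclideanSpace ℝ (Fin n) → ℝ) (M : ℝ), Measurable f → (∀ x, |f x| ≤ M) →
    (∀ (i : Fin n) (φ : EuclideanSpace ℝ (Fin n) → ℝ), ContDiff ℝ 2 φ → HasCompactSupport φ →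
      ∫ x, φ x = 0 →
      ∫ x, f x * ∫ h, (φ (x + h) - φ (x - h)) * (h i / ‖h‖ ^ (n + 1)) = 0) →
    ∃ b : ℝ, ∀ᵐ x, f x = b

end

end Vale.Agent.P120.Full
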