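import Mathlib
import Vale.Agent.P120.Full.Defs
import Vale.Agent.P120.Full.DecayRep

/-!
# P120, full answer: statements about the blow-up limit in `ℝ^n`
-/

namespace Vale.Agent.P120.Full

open MeasureTheory Set Filter
open scoped Topology RealInnerProductSpace

noncomputable section

/-- `1` up to `T`, `0` from `2 T` on. -/
def ramp (T r : ℝ) : ℝ := max 0 (min 1 (2 - r / T))

/-- `1` between `2 δ` and `T`, `0` below `δ` and above `2 T`. -/
def cut (δ T r : ℝ) : ℝ := ramp T r * (1 - ramp δ r)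

/-- The truncated pairing of the Riesz transform of `f dx` with a scalar test function. -/
def rieszForm (n : ℕ) (δ T : ℝ) (f φ : EuclideanSpace ℝ (Fin n) → ℝ) (i : Fin n) : ℝ :=
  ∫ x, f x * ∫ y, f y *
    ((φ x - φ y) * ((x i - y i) / ‖x - y‖ ^ (n + 1)) * cut δ T ‖x - y‖)

/-- The Riesz transform of `f dx` is orthogonal to all test fields of mean zero. -/
def RieszNull (n : ℕ) (f : EuclideanSpace ℝ (Fin n) → ℝ) : Prop :=
  ∀ (i : Fin n) (φ : EuclideanSpace ℝ (Fin n) → ℝ) (L : NNReal), LipschitzWith L φ →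
    HasCompactSupport φ → ∫ x, φ x * f x = 0 →
      Tendsto (fun k : ℕ => rieszForm n (1 / ((k : ℝ) + 1)) ((k : ℝ) + 1) f φ i) atTop (𝓝 0)

/-- A regular set carrying a null density has no holes. -/
def NoHoles (n : ℕ) : Prop :=
  ∀ (f : EuclideanSpace ℝ (Fin n) → ℝ) (c M : ℝ) (S : Set (EuclideanSpace ℝ (Fin n))),
    Measurable f → 0 < c → (∀ x, 0 ≤ f x ∧ f x ≤ M) → IsClosed S → S.Nonempty →
    (∀ x, x ∉ S → f x = 0) →
    (∀ z ∈ S, ∀ t : ℝ, 0 < t → c * t ^ n ≤ ∫ x in Metric.ball z t, f x) →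
    RieszNull n f → S = univ

/-- A null density bounded above and below is constant. -/
def NullRigidity (n : ℕ) : Prop :=
  ∀ (f : EuclideanSpace ℝ (Fin n) → ℝ) (c M : ℝ), Measurable f → 0 < c →
    (∀ x, c ≤ f x ∧ f x ≤ M) → RieszNull n f → ∃ b : ℝ, ∀ᵐ x, f x = b

end

end Vale.Agent.P120.Full
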