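import Mathlib
import Vale.Agent.P120.Windows
import Vale.Agent.P120.Full.DecayDefs

/-!
# P120, full answer, module D2: a null density on a regular set has no holes

Test functions made of two bumps bound the smooth windows of the Riesz transform at every point
of the set. At a point touching a hole the kernel is almost one-sided, so the windows would grow
like a logarithm.
-/

namespace Vale.Agent.P120.Full.Holes

open MeasureTheory Set Filter
open scoped Topology RealInnerProductSpace

noncomputable section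

set_option linter.unusedSectionVars false

variable {n : ℕ}

/-- The euclidean space of dimension `n`. -/
abbrev Rn (n : ℕ) := EuclideanSpace ℝ (Fin n)

/-- The constant of the radial integrals. -/
def radConst (n : ℕ) : ℝ :=
  n * (volume : Measure (EuclideanSpace ℝ (Fin n))).real (Metric.ball 0 1)

lemma radConst_nonneg (n : ℕ) : 0 ≤ radConst n := mul_nonneg n.cast_nonneg measureReal_nonneg

lemma radial_near (hn : 1 ≤ n) {R : ℝ} (hR : 0 < R) :
    Integrable (fun z : Rn n => (Metric.ball (0 : Rn n) R).indicator (fun z => (‖z‖ ^ (n - 1))⁻¹) z) ∧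
      ∫ z in Metric.ball (0 : Rn n) R, (‖z‖ ^ (n - 1))⁻¹ = radConst n * R := by
  have : NeZero n := ⟨by omega⟩
  set g : ℝ → ℝ := (Iio R).indicator fun r => (r ^ (n - 1))⁻¹ with hg
  have e : (fun z : Rn n => (Metric.ball (0 : Rn n) R).indicator (fun z => (‖z‖ ^ (n - 1))⁻¹) z) =
      fun z => g ‖z‖ := by
    funext z
    by_cases h : ‖z‖ < R
    · simp [hg, h]
    · simp [hg, h]
  have hgi : EqOn (fun r => r ^ (n - 1) • g r) ((Iio R).indicator fun _ => (1 : ℝ)) (Ioi 0) := by
    intro r hr
    by_cases h : r < R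
    · simp [hg, h, mul_inv_cancel₀ (pow_pos (show (0:ℝ) < r from hr) (n - 1)).ne']
    · simp [hg, h]
  refine ⟨?_, ?_⟩
  · rw [e, integrable_fun_norm_addHaar (μ := (volume : Measure (Rn n))) (f := g),
      finrank_euclideanSpace_fin, integrableOn_congr_fun hgi measurableSet_Ioi]
    rw [IntegrableOn, integrable_indicator_iff measurableSet_Iio, IntegrableOn,
      Measure.restrict_restrict measurableSet_Iio, Iio_inter_Ioi]
    exact integrable_const _
  · rw [← integral_indicator measurableSet_ball, e,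
      integral_fun_norm_addHaar (volume : Measure (Rn n)) g, finrank_euclideanSpace_fin,
      setIntegral_congr_fun measurableSet_Ioi hgi, setIntegral_indicator measurableSet_Iio,
      Ioi_inter_Iio, setIntegral_const]
    simp [radConst, Real.volume_real_Ioo, max_eq_left hR.le, mul_assoc]

lemma radial_far (hn : 1 ≤ n) {R : ℝ} (hR : 0 < R) :
    Integrable (fun z : Rn n => (Metric.ball (0 : Rn n) R)ᶜ.indicator (fun z => (‖z‖ ^ (n + 1))⁻¹) z) ∧
      ∫ z in (Metric.ball (0 : Rn n) R)ᶜ, (‖z‖ ^ (n + 1))⁻¹ = radConst n / R := by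
  have : NeZero n := ⟨by omega⟩
  set g : ℝ → ℝ := (Ici R).indicator fun r => (r ^ (n + 1))⁻¹ with hg
  have e : (fun z : Rn n => (Metric.ball (0 : Rn n) R)ᶜ.indicator (fun z => (‖z‖ ^ (n + 1))⁻¹) z) =
      fun z => g ‖z‖ := by
    funext z
    by_cases h : R ≤ ‖z‖
    · simp [hg, h]
    · simp [hg, h]
  have hgi : EqOn (fun r => r ^ (n - 1) • g r) ((Ici R).indicator fun r : ℝ => r ^ (-2 : ℝ))
      (Ioi 0) := by
    intro r hr
    by_cases h : R ≤ r
    · have hr0 : (0 : ℝ) < r := hr
      have : r ^ (n + 1) = r ^ (n - 1) * r ^ 2 := by rw [← pow_add]; congr 1; omega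
      simp [hg, h, this]
      field_simp
    · simp [hg, h]
  have hint : IntegrableOn (fun r : ℝ => r ^ (-2 : ℝ)) (Ioi R) :=
    integrableOn_Ioi_rpow_of_lt (by norm_num) hR
  refine ⟨?_, ?_⟩
  · rw [e, integrable_fun_norm_addHaar (μ := (volume : Measure (Rn n))) (f := g),
      finrank_euclideanSpace_fin, integrableOn_congr_fun hgi measurableSet_Ioi]
    refine IntegrableOn.mono_set ?_ (Subset.rfl : Ioi (0:ℝ) ⊆ _)
    rw [IntegrableOn, integrable_indicator_iff measurableSet_Ici, IntegrableOn,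
      Measure.restrict_restrict measurableSet_Ici,
      inter_eq_left.2 (Ici_subset_Ioi.2 hR)]
    exact (integrableOn_Ici_iff_integrableOn_Ioi (μ := volume)).2 hint
  · rw [← integral_indicator measurableSet_ball.compl, e,
      integral_fun_norm_addHaar (volume : Measure (Rn n)) g, finrank_euclideanSpace_fin,
      setIntegral_congr_fun measurableSet_Ioi hgi, setIntegral_indicator measurableSet_Ici,
      inter_eq_right.2 (Ici_subset_Ioi.2 hR),
      integral_Ici_eq_integral_Ioi, integral_Ioi_rpow_of_lt (by norm_num) hR,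
      nsmul_eq_mul, smul_eq_mul, radConst]
    norm_num [Real.rpow_neg hR.le]
    ring

lemma ramp_mem (T r : ℝ) : 0 ≤ ramp T r ∧ ramp T r ≤ 1 :=
  ⟨le_max_left _ _, max_le zero_le_one (min_le_left _ _)⟩

lemma ramp_one {T r : ℝ} (hT : 0 < T) (h : r ≤ T) : ramp T r = 1 := by
  have : r / T ≤ 1 := (div_le_one hT).2 h
  rw [ramp, min_eq_left (by linarith), max_eq_right zero_le_one]

lemma ramp_zero {T r : ℝ} (hT : 0 < T) (h : 2 * T ≤ r) : ramp T r = 0 := by
  have : 2 ≤ r / T := (le_div_iff₀ hT).2 h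
  exact max_eq_left ((min_le_right _ _).trans (by linarith))

lemma ramp_mono {a b r : ℝ} (ha : 0 < a) (hab : a ≤ b) (hr : 0 ≤ r) : ramp a r ≤ ramp b r :=
  max_le_max le_rfl (min_le_min le_rfl (by
    linarith [div_le_div_of_nonneg_left hr ha hab]))

lemma abs_ramp_sub_le {T : ℝ} (hT : 0 < T) (r r' : ℝ) : |ramp T r - ramp T r'| ≤ |r - r'| / T := by
  unfold ramp
  rw [max_comm (0 : ℝ), max_comm (0 : ℝ)]
  refine (abs_max_sub_max_le_abs _ _ _).trans ?_
  rw [min_comm (1 : ℝ), min_comm (1 : ℝ)]
  refine (abs_min_sub_min_le_max _ _ _ _).trans ?_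
  rw [sub_self (1 : ℝ), abs_zero, max_eq_left (abs_nonneg _), sub_sub_sub_cancel_left, ← sub_div,
    abs_div, abs_of_pos hT, abs_sub_comm]

lemma abs_ramp_sub_mul_le {T : ℝ} (hT : 0 < T) {r r' : ℝ} (hr : 0 ≤ r) (h : |r - r'| ≤ r / 2) :
    |ramp T r - ramp T r'| * r ≤ 4 * |r - r'| := by
  rcases le_or_gt r (4 * T) with h4 | h4
  · refine (mul_le_mul_of_nonneg_right (abs_ramp_sub_le hT r r') hr).trans ?_
    rw [div_mul_eq_mul_div, div_le_iff₀ hT]
    nlinarith [abs_nonneg (r - r')]
  · have := le_abs_self (r - r')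
    rw [ramp_zero hT (by linarith), ramp_zero hT (by linarith), sub_self, abs_zero, zero_mul]
    positivity

lemma cut_mem (δ T r : ℝ) : 0 ≤ cut δ T r ∧ cut δ T r ≤ 1 := by
  have := ramp_mem T r
  have := ramp_mem δ r
  exact ⟨mul_nonneg (by linarith) (by linarith), mul_le_one₀ (by linarith) (by linarith) (by linarith)⟩

lemma cut_small {δ r : ℝ} (hδ : 0 < δ) (T : ℝ) (h : r ≤ δ) : cut δ T r = 0 := by
  rw [cut, ramp_one hδ h, sub_self, mul_zero]

lemma cut_large {T r : ℝ} (hT : 0 < T) (δ : ℝ) (h : 2 * T ≤ r) : cut δ T r = 0 := by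
  rw [cut, ramp_zero hT h, zero_mul]

lemma cut_split {δ a : ℝ} (hδ : 0 < δ) (ha : 2 * δ ≤ a) (T r : ℝ) :
    cut δ T r - cut δ T r * ramp a r = cut a T r := by
  rcases le_or_gt r (2 * δ) with h | h
  · rw [ramp_one (by linarith) (h.trans ha), cut_small (by linarith : 0 < a) T (h.trans ha)]
    ring
  · simp only [cut, ramp_zero hδ h.le]
    ring

/-- The smoothly truncated component of the Riesz kernel. -/
def cutKer (e : Rn n) (δ T : ℝ) (z : Rn n) : ℝ := ⟪e, z⟫ / ‖z‖ ^ (n + 1) * cut δ T ‖z‖

@[fun_prop]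
lemma measurable_cutKer (e : Rn n) (δ T : ℝ) : Measurable (cutKer e δ T) := by
  unfold cutKer cut ramp
  fun_prop

lemma abs_inner_div_le {e : Rn n} (he : ‖e‖ = 1) (z : Rn n) :
    |⟪e, z⟫ / ‖z‖ ^ (n + 1)| ≤ (‖z‖ ^ n)⁻¹ := by
  rcases eq_or_ne z 0 with rfl | hz
  · simp only [inner_zero_right, zero_div, abs_zero]
    positivity
  · have h : 0 < ‖z‖ := norm_pos_iff.2 hz
    rw [abs_div, abs_of_pos (pow_pos h _), div_le_iff₀ (pow_pos h _)]
    refine (abs_real_inner_le_norm e z).trans (le_of_eq ?_)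
    rw [he, one_mul, pow_succ, inv_mul_cancel_left₀ (pow_pos h _).ne']

lemma abs_cutKer_le {e : Rn n} (he : ‖e‖ = 1) {δ : ℝ} (hδ : 0 < δ) (T : ℝ) (z : Rn n) :
    |cutKer e δ T z| ≤ (δ ^ n)⁻¹ := by
  rcases le_or_gt ‖z‖ δ with h | h
  · rw [cutKer, cut_small hδ T h, mul_zero, abs_zero]; positivity
  · rw [cutKer, abs_mul, abs_of_nonneg (cut_mem δ T ‖z‖).1]
    refine (mul_le_of_le_one_right (abs_nonneg _) (cut_mem δ T ‖z‖).2).trans ?_
    exact (abs_inner_div_le he z).trans (inv_anti₀ (pow_pos hδ n)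
      (pow_le_pow_left₀ hδ.le h.le n))

lemma cutKer_large (e : Rn n) (δ : ℝ) {T : ℝ} (hT : 0 < T) {z : Rn n} (h : 2 * T ≤ ‖z‖) :
    cutKer e δ T z = 0 := by rw [cutKer, cut_large hT δ h, mul_zero]

lemma cutKer_neg (e : Rn n) (δ T : ℝ) (z : Rn n) : cutKer e δ T (-z) = -cutKer e δ T z := by
  rw [cutKer, cutKer, inner_neg_right, norm_neg, neg_div, neg_mul]

/-- Away from the origin the truncated kernel varies like `‖w‖ ^ (-(n + 1))`. -/
lemma abs_cutKer_sub_le {e : Rn n} (he : ‖e‖ = 1) {a T : ℝ} (ha : 0 < a) (hT : 0 < T) {w h : Rn n}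
    (hw : 0 < ‖w‖) (hh : ‖h‖ ≤ ‖w‖ / 2) :
    |cutKer e a T (w + h) - cutKer e a T w| ≤
      (kerConst n + 8) * ‖h‖ * (‖w‖ ^ (n + 1))⁻¹ := by
  have hw0 : 0 < ‖w‖ := by linarith
  have hKC : 0 ≤ kerConst n := by rw [kerConst]; positivity
  have hhw : ‖(w + h) - w‖ ≤ ‖w‖ / 2 := by rw [add_sub_cancel_left]; linarith
  set r := ‖w‖
  set r' := ‖w + h‖
  have hrr : |r - r'| ≤ ‖h‖ := by
    refine (abs_norm_sub_norm_le w (w + h)).trans (le_of_eq ?_)
    rw [sub_add_cancel_left, norm_neg]
  have hk1 : |⟪e, w + h⟫ / r' ^ (n + 1) - ⟪e, w⟫ / r ^ (n + 1)| ≤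
      kerConst n * ‖h‖ / r ^ (n + 1) := by
    have h1 := norm_kernel_sub_le n (norm_pos_iff.1 hw0) hhw
    rw [add_sub_cancel_left] at h1
    have h2 : ⟪e, kernel n (w + h) - kernel n w⟫ =
        ⟪e, w + h⟫ / r' ^ (n + 1) - ⟪e, w⟫ / r ^ (n + 1) := by
      rw [inner_sub_right, kernel, kernel, real_inner_smul_right, real_inner_smul_right,
        inv_mul_eq_div, inv_mul_eq_div]
    rw [← h2]
    refine (abs_real_inner_le_norm _ _).trans ?_
    rw [he, one_mul]
    exact h1
  have hcut : |cut a T r' - cut a T r| ≤ 8 * ‖h‖ / r := by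
    rw [le_div_iff₀ hw0]
    have hb : |r - r'| ≤ r / 2 := hrr.trans (by linarith)
    have h1 := abs_ramp_sub_mul_le hT hw0.le hb
    have h2 := abs_ramp_sub_mul_le ha hw0.le hb
    have h3 : |cut a T r' - cut a T r| ≤
        |ramp T r - ramp T r'| + |ramp a r - ramp a r'| := by
      have e4 : cut a T r' - cut a T r = (ramp T r' - ramp T r) * (1 - ramp a r') +
          ramp T r * (ramp a r - ramp a r') := by rw [cut, cut]; ring
      rw [e4]
      refine (abs_add_le _ _).trans (add_le_add ?_ ?_)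
      · rw [abs_mul, abs_sub_comm (ramp T r')]
        exact mul_le_of_le_one_right (abs_nonneg _)
          (abs_le.2 ⟨by linarith [(ramp_mem a r').2], by linarith [(ramp_mem a r').1]⟩)
      · rw [abs_mul, abs_of_nonneg (ramp_mem T r).1]
        exact mul_le_of_le_one_left (abs_nonneg _) (ramp_mem T r).2
    refine (mul_le_mul_of_nonneg_right h3 hw0.le).trans ?_
    rw [add_mul]
    linarith
  have e5 : cutKer e a T (w + h) - cutKer e a T w =
      (⟪e, w + h⟫ / r' ^ (n + 1) - ⟪e, w⟫ / r ^ (n + 1)) * cut a T r' +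
        ⟪e, w⟫ / r ^ (n + 1) * (cut a T r' - cut a T r) := by
    simp only [cutKer]; ring
  rw [e5]
  refine (abs_add_le _ _).trans ?_
  simp only [abs_mul, abs_of_nonneg (cut_mem a T r').1]
  calc |⟪e, w + h⟫ / r' ^ (n + 1) - ⟪e, w⟫ / r ^ (n + 1)| * cut a T r' +
        |⟪e, w⟫ / r ^ (n + 1)| * |cut a T r' - cut a T r|
      ≤ kerConst n * ‖h‖ / r ^ (n + 1) * 1 + (r ^ n)⁻¹ * (8 * ‖h‖ / r) :=
        add_le_add (mul_le_mul hk1 (cut_mem a T r').2 (cut_mem a T r').1 (by positivity))
          (mul_le_mul (abs_inner_div_le he w) hcut (abs_nonneg _) (by positivity))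
    _ = (kerConst n + 8) * ‖h‖ * (r ^ (n + 1))⁻¹ := by rw [pow_succ]; field_simp

/-- Bounded measurable functions with bounded support are integrable. -/
lemma integrable_bdd {α : Type*} [PseudoMetricSpace α] [ProperSpace α] [MeasurableSpace α]
    [OpensMeasurableSpace α] {μ : Measure α} [IsFiniteMeasureOnCompacts μ] {g : α → ℝ}
    (hg : Measurable g) {B : ℝ} (hB : ∀ x, |g x| ≤ B) (c : α) (T : ℝ)
    (hs : ∀ x, T < dist x c → g x = 0) : Integrable g μ := by
  have h : IntegrableOn g (Metric.closedBall c T) μ :=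
    IntegrableOn.of_bound (isCompact_closedBall c T).measure_lt_top hg.aestronglyMeasurable B
      (Eventually.of_forall fun x => by rw [Real.norm_eq_abs]; exact hB x)
  exact h.integrable_of_forall_notMem_eq_zero fun x hx => hs x (by simpa using hx)

/-- The truncated pairing of the component along `e`. -/
def form (f φ : Rn n → ℝ) (e : Rn n) (δ T : ℝ) : ℝ :=
  ∫ x, f x * ∫ y, f y * ((φ x - φ y) * cutKer e δ T (x - y))

/-- The truncated transform of `f dx` at a point. -/
def farTr (f : Rn n → ℝ) (e : Rn n) (δ T : ℝ) (x : Rn n) : ℝ := ∫ y, f y * cutKer e δ T (x - y)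

variable {f : EuclideanSpace ℝ (Fin n) → ℝ} {M : ℝ}

section Bounded

variable (hf : Measurable f) (hfb : ∀ x, |f x| ≤ M) {e : EuclideanSpace ℝ (Fin n)}
include hf hfb

lemma farTr_integrable (he : ‖e‖ = 1) {δ T : ℝ} (hδ : 0 < δ) (hT : 0 < T) (x : Rn n) :
    Integrable fun y => f y * cutKer e δ T (x - y) := by
  have hM : 0 ≤ M := (abs_nonneg _).trans (hfb 0)
  refine integrable_bdd (g := fun y => f y * cutKer e δ T (x - y)) (hf.mul ((measurable_cutKer e δ T).comp (measurable_const.sub measurable_id))) (B := M * (δ ^ n)⁻¹) (fun y => ?_) x (2 * T)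
    fun y hy => ?_
  · rw [abs_mul]
    exact mul_le_mul (hfb y) (abs_cutKer_le he hδ T _) (abs_nonneg _) hM
  · rw [cutKer_large e δ hT (by rw [← dist_eq_norm, dist_comm]; exact hy.le),
      mul_zero]

lemma form_integrable (he : ‖e‖ = 1) {δ T : ℝ} (hδ : 0 < δ) (hT : 0 < T) {φ : Rn n → ℝ}
    (hφ : Measurable φ) {B : ℝ} (hB : ∀ x, |φ x| ≤ B) {z : Rn n} {S : ℝ}
    (hs : ∀ x, S < dist x z → φ x = 0) :
    Integrable (fun q : Rn n × Rn n => f q.1 * φ q.1 * (f q.2 * cutKer e δ T (q.1 - q.2)))
      ((volume : Measure (Rn n)).prod volume) := by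
  have hM : 0 ≤ M := (abs_nonneg _).trans (hfb 0)
  have hB0 : 0 ≤ B := (abs_nonneg _).trans (hB 0)
  refine integrable_bdd ((((hf.comp measurable_fst).mul (hφ.comp measurable_fst))).mul
    ((hf.comp measurable_snd).mul ((measurable_cutKer e δ T).comp
      (measurable_fst.sub measurable_snd)))) (B := M * B * (M * (δ ^ n)⁻¹)) (fun q => ?_) (z, z)
    (max S (S + 2 * T)) fun q hq => ?_
  · simp only [abs_mul]
    exact mul_le_mul (mul_le_mul (hfb _) (hB _) (abs_nonneg _) hM)
      (mul_le_mul (hfb _) (abs_cutKer_le he hδ T _) (abs_nonneg _) hM) (by positivity)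
      (by positivity)
  · by_contra h0
    simp only [mul_eq_zero, not_or] at h0
    obtain ⟨⟨-, h1⟩, -, h2⟩ := h0
    have h1' : dist q.1 z ≤ S := not_lt.1 fun h => h1 (hs _ h)
    have h2' : dist q.1 q.2 < 2 * T := not_le.1 fun h => h2 (cutKer_large e δ hT
      (by rw [← dist_eq_norm]; exact h))
    have h3 := dist_triangle q.2 q.1 z
    rw [dist_comm q.2 q.1] at h3
    rw [Prod.dist_eq] at hq
    have h4 : max (dist q.1 z) (dist q.2 z) ≤ max S (S + 2 * T) :=
      max_le (h1'.trans (le_max_left _ _)) (le_trans (by linarith) (le_max_right _ _))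
    exact absurd hq (not_lt.2 h4)

/-- Splitting the pairing at scale `a`: a short range part and twice the truncated transform. -/
lemma abs_form_sub_le (hn : 1 ≤ n) (he : ‖e‖ = 1) {δ T a : ℝ} (hδ : 0 < δ) (hδa : 2 * δ ≤ a)
    (hT : 0 < T) {φ : Rn n → ℝ} (hφ : Measurable φ) (hB : ∀ x, |φ x| ≤ 1) {z : Rn n} {t : ℝ}
    (ht : 0 < t) (hs : ∀ x, 2 * t < dist x z → φ x = 0)
    (hL : ∀ x y, |φ x - φ y| ≤ dist x y / t) :
    |form f φ e δ T - 2 * ∫ x, f x * φ x * farTr f e a T x| ≤
      M ^ 2 * (radConst n * (2 * a) / t) *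
        (volume : Measure (Rn n)).real (Metric.closedBall z (2 * t + 2 * a)) := by
  have ha : 0 < a := by linarith
  have hM : 0 ≤ M := (abs_nonneg _).trans (hfb 0)
  set H : ℝ → Rn n × Rn n → ℝ := fun d q => f q.1 * φ q.1 * (f q.2 * cutKer e d T (q.1 - q.2)) with hH
  have hHi : ∀ d, 0 < d → Integrable (H d) ((volume : Measure (Rn n)).prod volume) := fun d hd =>
    form_integrable hf hfb he hd hT hφ hB hs
  set G : Rn n × Rn n → ℝ := fun q => f q.1 * (f q.2 * ((φ q.1 - φ q.2) * cutKer e δ T (q.1 - q.2)))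
    with hG
  have hGeq : ∀ q : Rn n × Rn n, G q = H δ q + H δ q.swap := fun q => by
    have : cutKer e δ T (q.2 - q.1) = -cutKer e δ T (q.1 - q.2) := by
      rw [← cutKer_neg, neg_sub]
    simp only [hG, hH, Prod.fst_swap, Prod.snd_swap, this]
    ring
  have hGi : Integrable G ((volume : Measure (Rn n)).prod volume) :=
    ((hHi δ hδ).add (hHi δ hδ).swap).congr (Eventually.of_forall fun q => (hGeq q).symm)
  have hform : form f φ e δ T = ∫ q, G q ∂((volume : Measure (Rn n)).prod volume) := by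
    rw [integral_prod _ hGi, form]
    exact integral_congr_ae (Eventually.of_forall fun x => by
      simp only [hG]
      rw [← integral_const_mul])
  have hfar : ∫ x, f x * φ x * farTr f e a T x =
      ∫ q, H a q ∂((volume : Measure (Rn n)).prod volume) := by
    rw [integral_prod _ (hHi a ha)]
    exact integral_congr_ae (Eventually.of_forall fun x => by
      simp only [hH]
      rw [integral_const_mul]
      rfl)
  have hsw : ∫ q, (H a q + H a q.swap) ∂((volume : Measure (Rn n)).prod volume) =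
      2 * ∫ q, H a q ∂((volume : Measure (Rn n)).prod volume) := by
    rw [integral_add (hHi a ha) (show Integrable (fun q : Rn n × Rn n => H a q.swap) _ from
      (hHi a ha).swap), integral_prod_swap, two_mul]
  rw [hform, hfar, ← hsw, ← integral_sub hGi (show Integrable (fun q : Rn n × Rn n => H a q + H a q.swap) _
    from (hHi a ha).add (hHi a ha).swap)]
  set g : Rn n → ℝ := (Metric.closedBall z (2 * t + 2 * a)).indicator fun _ => (1 : ℝ)
  set k : Rn n → ℝ := (Metric.ball (0 : Rn n) (2 * a)).indicator fun w => (‖w‖ ^ (n - 1))⁻¹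
  have hgi : Integrable g :=
    (integrableOn_const measure_closedBall_lt_top.ne).integrable_indicator measurableSet_closedBall
  obtain ⟨hki, hkint⟩ := radial_near (n := n) hn (show 0 < 2 * a by linarith)
  have hgk : Integrable (fun q : Rn n × Rn n => g q.1 * k (q.1 - q.2))
      ((volume : Measure (Rn n)).prod volume) := by
    refine (hgi.convolution_integrand (ContinuousLinearMap.mul ℝ ℝ) hki.comp_neg).swap.congr
      (Eventually.of_forall fun q => ?_)
    simp [k]
  have hbnd : Integrable (fun q : Rn n × Rn n => M ^ 2 / t * (g q.1 * k (q.1 - q.2)))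
      ((volume : Measure (Rn n)).prod volume) := hgk.const_mul _
  rw [← Real.norm_eq_abs]
  refine (norm_integral_le_of_norm_le hbnd (Eventually.of_forall fun q => ?_)).trans (le_of_eq ?_)
  · obtain ⟨x, y⟩ := q
    have hk0 : ∀ w, 0 ≤ k w := fun w => indicator_nonneg (fun u _ => by positivity) w
    have hg0 : ∀ w, 0 ≤ g w := fun w => indicator_nonneg (fun u _ => zero_le_one) w
    set r := ‖x - y‖ with hr
    have e1 : G (x, y) - (H a (x, y) + H a (x, y).swap) = f x * f y * ((φ x - φ y) *
        (⟪e, x - y⟫ / r ^ (n + 1) * (cut δ T r * ramp a r))) := by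
      have e2 := cut_split hδ hδa T r
      have e3 : ⟪e, y - x⟫ = -⟪e, x - y⟫ := by rw [← inner_neg_right, neg_sub]
      simp only [hG, hH, cutKer, Prod.swap_prod_mk, norm_sub_rev y x, e3, ← hr]
      rw [← e2]
      ring
    rw [Real.norm_eq_abs, e1]
    by_cases hr2 : 2 * a ≤ r
    · rw [ramp_zero ha hr2]
      simp only [mul_zero, abs_zero]
      have := hk0 (x - y); have := hg0 x
      positivity
    by_cases hz : φ x - φ y = 0
    · rw [hz]
      simp only [zero_mul, mul_zero, abs_zero]
      have := hk0 (x - y); have := hg0 x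
      positivity
    rw [not_le] at hr2
    have hxz : dist x z ≤ 2 * t + 2 * a := by
      by_contra h
      rw [not_le] at h
      have h3 := dist_triangle x y z
      rw [dist_eq_norm x y, ← hr] at h3
      exact hz (by rw [hs x (by linarith), hs y (by linarith), sub_self])
    rw [show g x = 1 from indicator_of_mem (Metric.mem_closedBall.2 hxz) _,
      show k (x - y) = (r ^ (n - 1))⁻¹ from
        indicator_of_mem (by rw [Metric.mem_ball, dist_zero_right]; exact hr2) _, one_mul]
    have hr0 : 0 < r := by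
      rw [hr, norm_pos_iff, sub_ne_zero]
      intro h
      exact hz (by rw [h, sub_self])
    simp only [abs_mul]
    calc |f x| * |f y| * (|φ x - φ y| * (|⟪e, x - y⟫ / r ^ (n + 1)| *
          (|cut δ T r| * |ramp a r|)))
        ≤ M * M * (r / t * ((r ^ n)⁻¹ * (1 * 1))) := by
          have h2 := abs_inner_div_le he (x - y)
          have h4 : |φ x - φ y| ≤ r / t := by rw [hr, ← dist_eq_norm]; exact hL x y
          gcongr
          · exact hfb x
          · exact hfb y
          · exact (abs_of_nonneg (cut_mem δ T r).1).le.trans (cut_mem δ T r).2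
          · exact (abs_of_nonneg (ramp_mem a r).1).le.trans (ramp_mem a r).2
      _ = M ^ 2 / t * (r ^ (n - 1))⁻¹ := by
          have : r ^ n = r ^ (n - 1) * r := by rw [← pow_succ]; congr 1; omega
          rw [this]
          field_simp
  · rw [integral_const_mul, integral_prod _ hgk]
    simp only [integral_const_mul, integral_sub_left_eq_self k volume, integral_mul_const]
    have h1 : ∫ x, g x = (volume : Measure (Rn n)).real (Metric.closedBall z (2 * t + 2 * a)) :=
      integral_indicator_one measurableSet_closedBall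
    have h2 : ∫ x, k x = radConst n * (2 * a) := by
      rw [← hkint]; exact integral_indicator measurableSet_ball
    rw [h1, h2]
    ring

/-- The truncated transform varies little at distances below the truncation. -/
lemma abs_farTr_sub_le (hn : 1 ≤ n) (he : ‖e‖ = 1) {a T : ℝ} (ha : 0 < a) (hT : 0 < T) {x x' : Rn n}
    (hx : dist x x' ≤ a / 2) :
    |farTr f e a T x - farTr f e a T x'| ≤
      M * (2 * (volume : Measure (Rn n)).real (Metric.ball 0 1) + (kerConst n + 8) * radConst n / 2) := by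
  have hM : 0 ≤ M := (abs_nonneg _).trans (hfb 0)
  set h := x - x' with hhdef
  have hh : ‖h‖ ≤ a / 2 := by rw [hhdef, ← dist_eq_norm]; exact hx
  set C2 := (kerConst n + 8) * (a / 2) with hC2
  set g : Rn n → ℝ := fun w => (Metric.ball (0 : Rn n) a).indicator (fun _ => 2 * (a ^ n)⁻¹) w +
    C2 * (Metric.ball (0 : Rn n) a)ᶜ.indicator (fun w => (‖w‖ ^ (n + 1))⁻¹) w with hg
  obtain ⟨hfi, hfint⟩ := radial_far (n := n) hn ha
  have hi1 : Integrable ((Metric.ball (0 : Rn n) a).indicator fun _ => 2 * (a ^ n)⁻¹) :=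
    (integrableOn_const measure_ball_lt_top.ne).integrable_indicator measurableSet_ball
  have hgi : Integrable g := hi1.add (hfi.const_mul C2)
  have hKC : 0 ≤ kerConst n := by rw [kerConst]; positivity
  have hdiff : ∀ w : Rn n, |cutKer e a T (w + h) - cutKer e a T w| ≤ g w := by
    intro w
    by_cases hw : w ∈ Metric.ball (0 : Rn n) a
    · rw [hg]
      simp only [indicator_of_mem hw, indicator_of_notMem (show w ∉ (Metric.ball (0:Rn n) a)ᶜ from not_not.2 hw),
        mul_zero, add_zero]
      refine (abs_sub _ _).trans ?_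
      linarith [abs_cutKer_le he ha T (w + h), abs_cutKer_le he ha T w]
    · rw [hg]
      simp only [indicator_of_notMem hw, indicator_of_mem (show w ∈ (Metric.ball (0:Rn n) a)ᶜ from hw),
        zero_add]
      rw [Metric.mem_ball, dist_zero_right, not_lt] at hw
      refine (abs_cutKer_sub_le he ha hT (by linarith) (by linarith)).trans ?_
      rw [hC2]
      gcongr
  have hgy : Integrable (fun y => M * g (x' - y)) := (hgi.comp_sub_left x').const_mul M
  rw [farTr, farTr, ← integral_sub (farTr_integrable hf hfb he ha hT x)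
    (farTr_integrable hf hfb he ha hT x'), ← Real.norm_eq_abs]
  refine (norm_integral_le_of_norm_le hgy (Eventually.of_forall fun y => ?_)).trans ?_
  · rw [← mul_sub, norm_mul, Real.norm_eq_abs, Real.norm_eq_abs,
      show x - y = (x' - y) + h by rw [hhdef]; abel]
    exact mul_le_mul (hfb y) (hdiff _) (abs_nonneg _) hM
  · rw [integral_const_mul, integral_sub_left_eq_self g volume]
    refine mul_le_mul_of_nonneg_left (le_of_eq ?_) hM
    rw [hg, integral_add hi1 (hfi.const_mul C2), integral_const_mul,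
      integral_indicator_const _ measurableSet_ball, integral_indicator measurableSet_ball.compl,
      hfint, smul_eq_mul, measureReal_def, Measure.addHaar_ball_of_pos _ _ ha,
      finrank_euclideanSpace_fin, ENNReal.toReal_mul, ENNReal.toReal_ofReal (by positivity),
      measureReal_def, hC2]
    field_simp

lemma rieszForm_eq_prod {δ T : ℝ} (hδ : 0 < δ) (hT : 0 < T) {φ : Rn n → ℝ} (hφ : Measurable φ)
    {B : ℝ} (hB : ∀ x, |φ x| ≤ B) {z : Rn n} {S : ℝ} (hs : ∀ x, S < dist x z → φ x = 0) (i : Fin n) :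
    Integrable (fun q : Rn n × Rn n => f q.1 * (f q.2 * ((φ q.1 - φ q.2) *
      cutKer (EuclideanSpace.single i (1 : ℝ)) δ T (q.1 - q.2)))) ((volume : Measure (Rn n)).prod volume) ∧
    rieszForm n δ T f φ i = ∫ q, f q.1 * (f q.2 * ((φ q.1 - φ q.2) *
      cutKer (EuclideanSpace.single i (1 : ℝ)) δ T (q.1 - q.2))) ∂((volume : Measure (Rn n)).prod volume) := by
  set G : Rn n × Rn n → ℝ := fun q => f q.1 * (f q.2 * ((φ q.1 - φ q.2) *
    cutKer (EuclideanSpace.single i (1 : ℝ)) δ T (q.1 - q.2))) with hG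
  have hGi : Integrable G ((volume : Measure (Rn n)).prod volume) := by
    have hH := form_integrable hf hfb (e := EuclideanSpace.single i (1 : ℝ)) (by simp) hδ hT hφ hB hs
    refine (hH.add hH.swap).congr (Eventually.of_forall fun q => ?_)
    simp only [hG, Pi.add_apply, Function.comp_apply, Prod.fst_swap, Prod.snd_swap]
    rw [← neg_sub q.1 q.2, cutKer_neg]
    ring
  refine ⟨hGi, ?_⟩
  rw [integral_prod _ hGi, rieszForm]
  refine integral_congr_ae (Eventually.of_forall fun x => ?_)
  simp only [hG]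
  rw [← integral_const_mul]
  refine integral_congr_ae (Eventually.of_forall fun y => ?_)
  simp only [cutKer, EuclideanSpace.inner_single_left, PiLp.sub_apply, map_one, one_mul]
  ring

lemma form_eq_sum {δ T : ℝ} (hδ : 0 < δ) (hT : 0 < T) {φ : Rn n → ℝ}
    (hφ : Measurable φ) (hB : ∀ x, |φ x| ≤ 1) {z : Rn n} {S : ℝ} (hs : ∀ x, S < dist x z → φ x = 0)
    (e : Rn n) : form f φ e δ T = ∑ i, e i * rieszForm n δ T f φ i := by
  set G : Fin n → Rn n × Rn n → ℝ := fun i q => f q.1 * (f q.2 * ((φ q.1 - φ q.2) *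
    cutKer (EuclideanSpace.single i (1 : ℝ)) δ T (q.1 - q.2))) with hG
  have hGi : ∀ i, Integrable (G i) ((volume : Measure (Rn n)).prod volume) := fun i =>
    (rieszForm_eq_prod hf hfb hδ hT hφ hB hs i).1
  have h1 : ∀ i, rieszForm n δ T f φ i = ∫ q, G i q ∂((volume : Measure (Rn n)).prod volume) := fun i =>
    (rieszForm_eq_prod hf hfb hδ hT hφ hB hs i).2
  have h2 : ∀ q : Rn n × Rn n, f q.1 * (f q.2 * ((φ q.1 - φ q.2) * cutKer e δ T (q.1 - q.2))) =
      ∑ i, e i * G i q := fun q => by
    simp only [hG, cutKer, EuclideanSpace.inner_single_left, map_one, one_mul, PiLp.sub_apply]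
    rw [PiLp.inner_apply]
    simp only [RCLike.inner_apply, conj_trivial, PiLp.sub_apply, Finset.sum_div, Finset.sum_mul,
      Finset.mul_sum]
    refine Finset.sum_congr rfl fun i _ => ?_
    ring
  simp only [h1]
  rw [← Finset.sum_congr rfl (fun i _ => integral_const_mul (e i) (G i)),
    ← integral_finsetSum _ (fun i _ => (hGi i).const_mul _), integral_prod _
      (integrable_finsetSum _ fun i _ => (hGi i).const_mul _), form]
  refine integral_congr_ae (Eventually.of_forall fun x => ?_)
  simp only [← h2 (x, _)]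
  rw [← integral_const_mul]

/-- The bound on smooth windows at a point of the set. -/
lemma abs_window_le (hn : 1 ≤ n) {c : ℝ} (hc : 0 < c) (hf0 : ∀ x, 0 ≤ f x) {z : Rn n}
    (hlow : ∀ t : ℝ, 0 < t → c * t ^ n ≤ ∫ x in Metric.ball z t, f x) (hnull : RieszNull n f)
    (he : ‖e‖ = 1) {a b : ℝ} (ha : 0 < a) (hab : a ≤ b) :
    |∫ y, f y * (⟪e, z - y⟫ / ‖z - y‖ ^ (n + 1) * (ramp b ‖z - y‖ - ramp a ‖z - y‖))| ≤
      2 * (M * (2 * (volume : Measure (Rn n)).real (Metric.ball 0 1) +
          (kerConst n + 8) * radConst n / 2)) +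
        M ^ 2 * (radConst n * 2) * ((volume : Measure (Rn n)).real (Metric.ball 0 1) * 4 ^ n) / c * (4 * 4 ^ n) +
          1 := by
  have hb : 0 < b := lt_of_lt_of_le ha hab
  have hM : 0 ≤ M := (abs_nonneg _).trans (hfb 0)
  set vb := (volume : Measure (Rn n)).real (Metric.ball 0 1) with hvb
  set C1 := M * (2 * vb + (kerConst n + 8) * radConst n / 2) with hC1
  set C2 := M ^ 2 * (radConst n * 2) * (vb * 4 ^ n) / c with hC2
  set bp : ℝ → Rn n → ℝ := fun s => bump z (s / 4) with hbp
  set m : ℝ → ℝ := fun s => ∫ x, f x * bp s x with hm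
  have hbpz : ∀ s : ℝ, 0 < s → ∀ x, 2 * (s / 4) < dist x z → bp s x = 0 := fun s hs x hx =>
    bump_eq_zero (by linarith) hx.le
  have hbp1 : ∀ s x, |bp s x| ≤ 1 := fun s x => by
    rw [abs_of_nonneg (bump_mem_Icc z _ x).1]; exact (bump_mem_Icc z _ x).2
  have hfi : ∀ s, 0 < s → Integrable fun x => f x * bp s x := fun s hs =>
    integrable_bdd (hf.mul (continuous_bump z _).measurable) (B := M * 1)
      (fun x => by simp only [abs_mul]; exact mul_le_mul (hfb x) (hbp1 s x) (abs_nonneg _) hM)
      z (2 * (s / 4)) fun x hx => by simp only [hbpz s hs x hx, mul_zero]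
  have hmlow : ∀ s, 0 < s → c * (s / 4) ^ n ≤ m s := by
    intro s hs
    refine (hlow _ (by linarith)).trans ?_
    rw [← integral_indicator measurableSet_ball]
    refine integral_mono_of_nonneg (Eventually.of_forall fun x =>
      indicator_nonneg (fun y _ => hf0 y) x) (hfi s hs) (Eventually.of_forall fun x => ?_)
    by_cases hx : x ∈ Metric.ball z (s / 4)
    · simp only [hbp, indicator_of_mem hx, bump_eq_one (by linarith) hx, mul_one, le_refl]
    · simp only [indicator_of_notMem hx]
      exact mul_nonneg (hf0 x) (bump_mem_Icc z _ x).1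
  have hm0 : ∀ s, 0 < s → 0 < m s := fun s hs => lt_of_lt_of_le (by positivity) (hmlow s hs)
  have hvol : ∀ s, 0 < s → (volume : Measure (Rn n)).real (Metric.closedBall z (2 * (s / 4) + 2 * s)) ≤
      vb * 4 ^ n * s ^ n := by
    intro s hs
    rw [measureReal_def, Measure.addHaar_closedBall (volume : Measure (Rn n)) z (by linarith),
      finrank_euclideanSpace_fin, ENNReal.toReal_mul, ENNReal.toReal_ofReal (by positivity),
      mul_comm vb, mul_assoc, mul_comm vb, ← mul_assoc, ← mul_pow, hvb, measureReal_def]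
    exact mul_le_mul_of_nonneg_right (pow_le_pow_left₀ (by positivity) (by linarith) _)
      ENNReal.toReal_nonneg
  -- each bump
  have hone : ∀ s, 0 < s → ∀ δ T, 0 < δ → 2 * δ ≤ s → 0 < T →
      |(m s)⁻¹ * form f (bp s) e δ T - 2 * farTr f e s T z| ≤
        M ^ 2 * (radConst n * 8) * (vb * 4 ^ n) * s ^ n / m s + 2 * C1 := by
    intro s hs δ T hδ hδs hT
    have h1 := abs_form_sub_le hf hfb hn he hδ hδs hT (continuous_bump z (s / 4)).measurable
      (hbp1 s) (by linarith : 0 < s / 4) (hbpz s hs) (fun u v => abs_bump_sub_le (by linarith) u v)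
    have h2 : |(∫ x, f x * bp s x * farTr f e s T x) - m s * farTr f e s T z| ≤ C1 * m s := by
      have hint : Integrable fun x => f x * bp s x * farTr f e s T x := by
        have hH := form_integrable hf hfb he hs hT (continuous_bump z (s / 4)).measurable
          (hbp1 s) (hbpz s hs)
        refine hH.integral_prod_left.congr (Eventually.of_forall fun x => ?_)
        simp only [farTr, hbp]
        rw [← integral_const_mul]
      simp only [hm]
      rw [← integral_mul_const, ← integral_sub hint ((hfi s hs).mul_const _),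
        ← integral_const_mul, ← Real.norm_eq_abs]
      refine norm_integral_le_of_norm_le ((hfi s hs).const_mul C1) (Eventually.of_forall fun x => ?_)
      rw [← mul_sub, norm_mul, Real.norm_eq_abs, Real.norm_eq_abs, mul_comm C1,
        abs_of_nonneg (mul_nonneg (hf0 x) (bump_mem_Icc z _ x).1)]
      by_cases hx : bp s x = 0
      · simp only [hbp] at hx ⊢; simp [hx]
      refine mul_le_mul_of_nonneg_left ?_ (mul_nonneg (hf0 x) (bump_mem_Icc z _ x).1)
      refine abs_farTr_sub_le hf hfb hn he hs hT ?_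
      by_contra hcon
      exact hx (hbpz s hs x (by linarith [not_le.1 hcon]))
    have hms := hm0 s hs
    have e1 : (m s)⁻¹ * form f (bp s) e δ T - 2 * farTr f e s T z =
        (m s)⁻¹ * ((form f (bp s) e δ T - 2 * ∫ x, f x * bp s x * farTr f e s T x) +
          2 * ((∫ x, f x * bp s x * farTr f e s T x) - m s * farTr f e s T z)) := by
      field_simp; ring
    rw [e1, abs_mul, abs_of_pos (inv_pos.2 hms), inv_mul_le_iff₀ hms]
    refine (abs_add_le _ _).trans ?_
    rw [abs_mul, abs_two, mul_add, mul_div_cancel₀ _ hms.ne']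
    refine add_le_add (h1.trans ?_) (by nlinarith [h2])
    refine le_trans (mul_le_mul_of_nonneg_left (hvol s hs) (by
      have := radConst_nonneg n; positivity)) (le_of_eq ?_)
    field_simp
    ring
  -- the test function
  set φ : Rn n → ℝ := fun x => (m a)⁻¹ * bp a x - (m b)⁻¹ * bp b x with hφ
  have hLip : ∀ s, 0 < s → LipschitzWith (Real.toNNReal (1 / (s / 4))) (bp s) := fun s hs =>
    LipschitzWith.of_dist_le_mul fun u v => by
      rw [Real.dist_eq, Real.coe_toNNReal _ (by positivity)]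
      exact (abs_bump_sub_le (by linarith) u v).trans (le_of_eq (by ring))
  obtain ⟨L, hφL⟩ : ∃ L, LipschitzWith L φ :=
    ⟨_, ((lipschitzWith_smul (m a)⁻¹).comp (hLip a ha)).sub
      ((lipschitzWith_smul (m b)⁻¹).comp (hLip b hb))⟩
  have hφs : HasCompactSupport φ :=
    HasCompactSupport.intro (isCompact_closedBall z (2 * (b / 4))) fun x hx => by
      rw [Metric.mem_closedBall, not_le] at hx
      simp only [hφ, hbpz a ha x (by linarith), hbpz b hb x hx, mul_zero, sub_zero]
  have hφ0 : ∫ x, φ x * f x = 0 := by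
    have e : (fun x => φ x * f x) = fun x => (m a)⁻¹ * (f x * bp a x) - (m b)⁻¹ * (f x * bp b x) := by
      funext x; simp only [hφ]; ring
    rw [e, integral_sub ((hfi a ha).const_mul _) ((hfi b hb).const_mul _), integral_const_mul,
      integral_const_mul, ← show m a = ∫ x, f x * bp a x from rfl,
      ← show m b = ∫ x, f x * bp b x from rfl, inv_mul_cancel₀ (hm0 a ha).ne',
      inv_mul_cancel₀ (hm0 b hb).ne', sub_self]
  have hlim : Tendsto (fun k : ℕ => ∑ i, e i * rieszForm n (1 / ((k : ℝ) + 1)) ((k : ℝ) + 1) f φ i)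
      atTop (𝓝 0) := by
    simpa using tendsto_finsetSum Finset.univ fun i _ =>
      (hnull i φ L hφL hφs hφ0).const_mul (e i)
  obtain ⟨k, hk, hkb⟩ := ((Metric.tendsto_nhds.1 hlim 1 one_pos).and
    (eventually_ge_atTop ⌈max (2 * b) (2 / a)⌉₊)).exists
  set T : ℝ := (k : ℝ) + 1 with hT
  set δ : ℝ := 1 / ((k : ℝ) + 1) with hδdef
  have hT0 : 0 < T := by positivity
  have hkb' : max (2 * b) (2 / a) ≤ (k : ℝ) := (Nat.le_ceil _).trans (by exact_mod_cast hkb)
  have hTb : 2 * b ≤ T := by linarith [le_max_left (2 * b) (2 / a)]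
  have hδ : 0 < δ := by positivity
  have hδa : 2 * δ ≤ a := by
    have h3 : 2 / a ≤ T := by linarith [le_max_right (2 * b) (2 / a)]
    rw [div_le_iff₀ ha] at h3
    rw [hδdef, mul_one_div, div_le_iff₀ hT0]
    linarith
  have hsplit : ∑ i, e i * rieszForm n δ T f φ i =
      (m a)⁻¹ * form f (bp a) e δ T - (m b)⁻¹ * form f (bp b) e δ T := by
    rw [form_eq_sum hf hfb hδ hT0 (continuous_bump z _).measurable (hbp1 a) (hbpz a ha) e,
      form_eq_sum hf hfb hδ hT0 (continuous_bump z _).measurable (hbp1 b) (hbpz b hb) e,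
      Finset.mul_sum, Finset.mul_sum, ← Finset.sum_sub_distrib]
    refine Finset.sum_congr rfl fun i _ => ?_
    have hr : rieszForm n δ T f φ i =
        (m a)⁻¹ * rieszForm n δ T f (bp a) i - (m b)⁻¹ * rieszForm n δ T f (bp b) i := by
      obtain ⟨hia, hea⟩ := rieszForm_eq_prod hf hfb hδ hT0 (continuous_bump z (a / 4)).measurable
        (hbp1 a) (hbpz a ha) i
      obtain ⟨hib, heb⟩ := rieszForm_eq_prod hf hfb hδ hT0 (continuous_bump z (b / 4)).measurable
        (hbp1 b) (hbpz b hb) i
      obtain ⟨B, hB⟩ := hφL.continuous.bounded_above_of_compact_support hφs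
      obtain ⟨-, hep⟩ := rieszForm_eq_prod hf hfb hδ hT0 hφL.continuous.measurable
        (fun x => by rw [← Real.norm_eq_abs]; exact hB x) (z := z) (S := 2 * (b / 4)) (fun x hx => by
          simp only [hφ, hbpz a ha x (by linarith), hbpz b hb x hx, mul_zero, sub_zero]) i
      rw [hea, heb, hep, ← integral_const_mul, ← integral_const_mul,
        ← integral_sub (hia.const_mul _) (hib.const_mul _)]
      refine integral_congr_ae (Eventually.of_forall fun q => ?_)
      simp only [hφ, hbp]
      ring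
    rw [hr]
    ring
  have hsum := hk
  rw [Real.dist_eq, sub_zero, hsplit] at hsum
  have ha' := hone a ha δ T hδ hδa hT0
  have hb' := hone b hb δ T hδ (by linarith) hT0
  have hbd : ∀ s, 0 < s → M ^ 2 * (radConst n * 8) * (vb * 4 ^ n) * s ^ n / m s ≤
      M ^ 2 * (radConst n * 8) * (vb * 4 ^ n) * 4 ^ n / c := by
    intro s hs
    have := radConst_nonneg n
    have : 0 ≤ vb := measureReal_nonneg
    rw [div_le_div_iff₀ (hm0 s hs) hc]
    refine le_trans (le_of_eq ?_) (mul_le_mul_of_nonneg_left (hmlow s hs) (by positivity))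
    rw [div_pow]
    field_simp
  have hW : farTr f e a T z - farTr f e b T z =
      ∫ y, f y * (⟪e, z - y⟫ / ‖z - y‖ ^ (n + 1) * (ramp b ‖z - y‖ - ramp a ‖z - y‖)) := by
    rw [farTr, farTr, ← integral_sub (farTr_integrable hf hfb he ha hT0 z)
      (farTr_integrable hf hfb he hb hT0 z)]
    refine integral_congr_ae (Eventually.of_forall fun y => ?_)
    simp only [cutKer, cut]
    have h0 := norm_nonneg (z - y)
    rcases le_or_gt ‖z - y‖ T with hr | hr
    · rw [ramp_one hT0 hr]; ring
    · rw [ramp_zero ha (by linarith), ramp_zero hb (by linarith)]; ring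
  rw [← hW]
  have := hbd a ha
  have := hbd b hb
  have hbig : M ^ 2 * (radConst n * 8) * (vb * 4 ^ n) * 4 ^ n / c = C2 * (4 * 4 ^ n) := by
    rw [hC2]; ring
  rw [abs_lt] at hsum
  rw [abs_le] at ha' hb' ⊢
  constructor <;> linarith [ha'.1, ha'.2, hb'.1, hb'.2]

end Bounded

/-- Thin slabs in the unit ball are small. -/
lemma exists_slab {e : Rn n} (he : ‖e‖ = 1) {ε : ℝ} (hε : 0 < ε) :
    ∃ σ : ℝ, 0 < σ ∧
      (volume : Measure (Rn n)).real {w ∈ Metric.ball (0 : Rn n) 1 | |⟪e, w⟫| ≤ σ} < ε := by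
  set s : ℕ → Set (Rn n) := fun j => {w ∈ Metric.ball (0 : Rn n) 1 | |⟪e, w⟫| ≤ 1 / ((j : ℝ) + 1)} with hs
  have hmeas : ∀ j, MeasurableSet (s j) := fun j =>
    measurableSet_ball.inter (measurableSet_le (f := fun w : Rn n => |⟪e, w⟫|) (by fun_prop) measurable_const)
  have hanti : Antitone s := fun i j hij w hw =>
    ⟨hw.1, hw.2.trans (one_div_le_one_div_of_le (by positivity)
      (by exact_mod_cast Nat.add_le_add_right hij 1))⟩
  have hfin : ∀ j, (volume : Measure (Rn n)) (s j) ≠ ⊤ := fun j =>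
    ne_top_of_le_ne_top measure_ball_lt_top.ne (measure_mono fun w hw => hw.1)
  have hnull : (volume : Measure (Rn n)) (⋂ j, s j) = 0 := by
    refine measure_mono_null (t := ((ℝ ∙ e)ᗮ : Submodule ℝ (Rn n))) (fun w hw => ?_)
      (Measure.addHaar_submodule _ _ fun h => ?_)
    · refine Submodule.mem_orthogonal_singleton_iff_inner_right.2 (abs_nonpos_iff.1 ?_)
      exact ge_of_tendsto' tendsto_one_div_add_atTop_nhds_zero_nat fun j => (mem_iInter.1 hw j).2
    · have he' : e ∈ (ℝ ∙ e)ᗮ := h ▸ Submodule.mem_top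
      rw [Submodule.mem_orthogonal_singleton_iff_inner_right, real_inner_self_eq_norm_sq, he] at he'
      norm_num at he'
  have hlim := tendsto_measure_iInter_atTop (μ := (volume : Measure (Rn n)))
    (fun j => (hmeas j).nullMeasurableSet) hanti ⟨0, hfin 0⟩
  rw [hnull] at hlim
  obtain ⟨j, hj⟩ := (hlim.eventually_lt_const (ENNReal.ofReal_pos.2 hε)).exists
  refine ⟨1 / ((j : ℝ) + 1), by positivity, ?_⟩
  have := (ENNReal.toReal_lt_toReal (hfin j) ENNReal.ofReal_ne_top).2 hj
  rwa [ENNReal.toReal_ofReal hε.le] at this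

/-- At a touching point the mass of a thick one-sided piece of an annulus is large. -/
lemma annulus_mass (hf : Measurable f) {c : ℝ} (hc : 0 < c) (hfb : ∀ x, 0 ≤ f x ∧ f x ≤ M)
    {S : Set (Rn n)} (hfS : ∀ x, x ∉ S → f x = 0) {y0 e : Rn n} {ρ σ lam t : ℝ} (hρ : 0 < ρ)
    (ht' : 0 < t) (hlam0 : 0 < lam) (hlow : c * t ^ n ≤ ∫ x in Metric.ball y0 t, f x)
    (hlamn : M * (volume : Measure (Rn n)).real (Metric.ball 0 1) * lam ^ n ≤ c / 4)
    (hslab : (volume : Measure (Rn n)).real {w ∈ Metric.ball (0 : Rn n) 1 | |⟪e, w⟫| ≤ σ} <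
      c / (4 * (M + 1)))
    (htouch : ∀ y ∈ S, 0 ≤ ⟪e, y - y0⟫ + ‖y - y0‖ ^ 2 / (2 * ρ)) (htσ : t ≤ σ * ρ) :
    c / 2 * t ^ n ≤ ∫ y in {y | dist y y0 < t ∧ lam * t ≤ dist y y0 ∧ σ * t < ⟪e, y - y0⟫}, f y := by
  set D := {y | dist y y0 < t ∧ lam * t ≤ dist y y0 ∧ σ * t < ⟪e, y - y0⟫} with hD
  have hDm : MeasurableSet D :=
    (measurableSet_lt (f := fun y : Rn n => dist y y0) (by fun_prop) measurable_const).inter
      ((measurableSet_le (g := fun y : Rn n => dist y y0) measurable_const (by fun_prop)).inter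
        (measurableSet_lt (g := fun y : Rn n => ⟪e, y - y0⟫) measurable_const (by fun_prop)))
  have hM0 : 0 ≤ M := (hfb 0).1.trans (hfb 0).2
  have hfabs : ∀ x, |f x| ≤ M := fun x => by rw [abs_of_nonneg (hfb x).1]; exact (hfb x).2
  set vb := (volume : Measure (Rn n)).real (Metric.ball 0 1) with hvb
  set Sl := (fun v : Rn n => y0 + t • v) '' {v ∈ Metric.ball (0 : Rn n) 1 | |⟪e, v⟫| ≤ σ} with hSl
  have hfi : ∀ {K : Set (Rn n)}, Bornology.IsBounded K → IntegrableOn f K := fun hK =>
    IntegrableOn.of_bound (hK.measure_lt_top) hf.aestronglyMeasurable M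
      (Eventually.of_forall fun y => by rw [Real.norm_eq_abs]; exact hfabs y)
  have hSlb : Bornology.IsBounded Sl := by
    refine (Metric.isBounded_ball (x := y0) (r := t)).subset ?_
    rintro y ⟨v, ⟨hv, -⟩, rfl⟩
    rw [Metric.mem_ball, dist_zero_right] at hv
    rw [Metric.mem_ball, dist_eq_norm, add_sub_cancel_left, norm_smul, Real.norm_eq_abs,
      abs_of_pos ht']
    exact mul_lt_of_lt_one_right ht' hv
  have hslabm : MeasurableSet {v ∈ Metric.ball (0 : Rn n) 1 | |⟪e, v⟫| ≤ σ} :=
    measurableSet_ball.inter (measurableSet_le (f := fun w : Rn n => |⟪e, w⟫|) (by fun_prop) measurable_const)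
  have hSlm : MeasurableSet Sl := by
    have e1 : Sl = (fun y => t⁻¹ • (y - y0)) ⁻¹' {v ∈ Metric.ball (0 : Rn n) 1 | |⟪e, v⟫| ≤ σ} := by
      rw [hSl, image_eq_preimage_of_inverse (f := fun v : Rn n => y0 + t • v)
      (g := fun y : Rn n => t⁻¹ • (y - y0)) (fun v => by simp [inv_smul_smul₀ ht'.ne'])
      (fun y => by simp [smul_inv_smul₀ ht'.ne'])]
    rw [e1]
    exact hslabm.preimage (by fun_prop)
  have hSlvol : (volume : Measure (Rn n)).real Sl ≤ t ^ n * (c / (4 * (M + 1))) := by
    rw [hSl, measureReal_def, show (fun v : Rn n => y0 + t • v) = (fun v => y0 + v) ∘ (fun v => t • v)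
      from rfl, image_comp, image_add_left, measure_preimage_add, image_smul,
      Measure.addHaar_smul_of_nonneg _ ht'.le, finrank_euclideanSpace_fin, ENNReal.toReal_mul,
      ENNReal.toReal_ofReal (by positivity)]
    exact mul_le_mul_of_nonneg_left hslab.le (by positivity)
  -- pointwise
  have hcover : Metric.ball y0 t ∩ S ⊆ (D ∪ Metric.ball y0 (lam * t)) ∪ Sl := by
    rintro y ⟨hy, hyS⟩
    rw [Metric.mem_ball] at hy
    by_cases hsmall : dist y y0 < lam * t
    · exact Or.inl (Or.inr hsmall)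
    by_cases hbig : σ * t < ⟪e, y - y0⟫
    · exact Or.inl (Or.inl ⟨hy, not_lt.1 hsmall, hbig⟩)
    refine Or.inr ⟨t⁻¹ • (y - y0), ⟨?_, ?_⟩, ?_⟩
    · rw [Metric.mem_ball, dist_zero_right, norm_smul, norm_inv, Real.norm_eq_abs,
        abs_of_pos ht', ← dist_eq_norm, inv_mul_lt_iff₀ ht', mul_one]
      exact hy
    · rw [real_inner_smul_right, abs_mul, abs_inv, abs_of_pos ht', inv_mul_le_iff₀ ht', abs_le]
      refine ⟨?_, by linarith [not_lt.1 hbig]⟩
      have h1 := htouch y hyS
      have h2 : ‖y - y0‖ ^ 2 / (2 * ρ) ≤ t * σ := by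
        rw [← dist_eq_norm, div_le_iff₀ (by positivity)]
        nlinarith [pow_le_pow_left₀ dist_nonneg hy.le 2, mul_le_mul_of_nonneg_left htσ ht'.le]
      linarith
    · simp [smul_inv_smul₀ ht'.ne']
  have hDb : Bornology.IsBounded D :=
    (Metric.isBounded_ball (x := y0) (r := t)).subset fun y hy => hy.1
  have h1 : ∫ y in Metric.ball y0 t, f y ≤ (∫ y in D, f y) +
      (∫ y in Metric.ball y0 (lam * t), f y) + ∫ y in Sl, f y := by
    rw [← integral_indicator measurableSet_ball, ← integral_indicator hDm,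
      ← integral_indicator measurableSet_ball, ← integral_indicator hSlm]
    have i1 := (hfi hDb).integrable_indicator hDm
    have i2 := (hfi (Metric.isBounded_ball (x := y0) (r := lam * t))).integrable_indicator
      measurableSet_ball
    have i3 := (hfi hSlb).integrable_indicator hSlm
    rw [← integral_add i1 i2, ← integral_add (show Integrable (fun y => D.indicator f y +
      (Metric.ball y0 (lam * t)).indicator f y) volume from i1.add i2) i3]
    refine integral_mono ((hfi Metric.isBounded_ball).integrable_indicator measurableSet_ball)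
      ((i1.add i2).add i3) fun y => ?_
    have n1 := indicator_nonneg (s := D) (fun u _ => (hfb u).1) y
    have n2 := indicator_nonneg (s := Metric.ball y0 (lam * t)) (fun u _ => (hfb u).1) y
    have n3 := indicator_nonneg (s := Sl) (fun u _ => (hfb u).1) y
    by_cases hy : y ∈ Metric.ball y0 t
    · rw [indicator_of_mem hy]
      by_cases hyS : y ∈ S
      · rcases hcover ⟨hy, hyS⟩ with (h | h) | h
        · rw [indicator_of_mem h]; linarith
        · rw [indicator_of_mem h]; linarith
        · rw [indicator_of_mem h]; linarith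
      · rw [hfS y hyS]; linarith
    · rw [indicator_of_notMem hy]; linarith
  have hub : ∀ {K : Set (Rn n)}, Bornology.IsBounded K → MeasurableSet K →
      ∫ y in K, f y ≤ M * (volume : Measure (Rn n)).real K := by
    intro K hK hKm
    refine (setIntegral_mono_on (hfi hK) (integrableOn_const hK.measure_lt_top.ne) hKm
      fun y _ => (hfb y).2).trans (le_of_eq ?_)
    rw [setIntegral_const, smul_eq_mul, mul_comm]
  have h2 : ∫ y in Metric.ball y0 (lam * t), f y ≤ c / 4 * t ^ n := by
    refine (hub Metric.isBounded_ball measurableSet_ball).trans ?_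
    rw [measureReal_def, Measure.addHaar_ball_of_pos _ _ (by positivity),
      finrank_euclideanSpace_fin, ENNReal.toReal_mul, ENNReal.toReal_ofReal (by positivity),
      mul_pow, ← measureReal_def, ← hvb]
    calc M * (lam ^ n * t ^ n * vb) = M * vb * lam ^ n * t ^ n := by ring
      _ ≤ _ := mul_le_mul_of_nonneg_right hlamn (by positivity)
  have h3 : ∫ y in Sl, f y ≤ c / 4 * t ^ n := by
    refine (hub hSlb hSlm).trans ((mul_le_mul_of_nonneg_left hSlvol hM0).trans ?_)
    have : M * (c / (4 * (M + 1))) ≤ c / 4 := by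
      rw [mul_div_assoc', div_le_div_iff₀ (by positivity) (by norm_num)]
      nlinarith
    calc M * (t ^ n * (c / (4 * (M + 1)))) = M * (c / (4 * (M + 1))) * t ^ n := by ring
      _ ≤ _ := mul_le_mul_of_nonneg_right this (by positivity)
  linarith

/-- A regular set carrying a null density has no holes. -/
theorem _root_.Vale.Agent.P120.Full.noHoles (hn : 1 ≤ n) : NoHoles n := by
  intro f c M S hf hc hfb hS hSne hfS hlow hnull
  by_contra hne
  obtain ⟨p, hp⟩ := (ne_univ_iff_exists_notMem S).1 hne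
  obtain ⟨y0, hy0, hdist⟩ := hS.exists_infDist_eq_dist hSne p
  set ρ := dist p y0 with hρdef
  have hρ : 0 < ρ := dist_pos.2 fun h => hp (h ▸ hy0)
  have hmin : ∀ y ∈ S, ρ ≤ dist p y := fun y hy => by
    rw [← hdist]; exact Metric.infDist_le_dist_of_mem hy
  set e := ρ⁻¹ • (y0 - p) with hedef
  have he : ‖e‖ = 1 := by
    rw [hedef, norm_smul, norm_inv, Real.norm_eq_abs, abs_of_pos hρ, ← dist_eq_norm, dist_comm,
      ← hρdef, inv_mul_cancel₀ hρ.ne']
  have htouch : ∀ y ∈ S, 0 ≤ ⟪e, y - y0⟫ + ‖y - y0‖ ^ 2 / (2 * ρ) := by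
    intro y hy
    have h1 := pow_le_pow_left₀ hρ.le (hmin y hy) 2
    have e1 : p - y = -((y0 - p) + (y - y0)) := by abel
    rw [dist_eq_norm p y, e1, norm_neg, norm_add_sq_real, ← dist_eq_norm y0 p, dist_comm y0 p,
      ← hρdef] at h1
    have e2 : ⟪e, y - y0⟫ + ‖y - y0‖ ^ 2 / (2 * ρ) =
        (2 * ⟪y0 - p, y - y0⟫ + ‖y - y0‖ ^ 2) / (2 * ρ) := by
      rw [hedef, real_inner_smul_left]; field_simp
    rw [e2]
    exact div_nonneg (by linarith) (by linarith)
  have hM0 : 0 ≤ M := (hfb 0).1.trans (hfb 0).2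
  have hfabs : ∀ x, |f x| ≤ M := fun x => by rw [abs_of_nonneg (hfb x).1]; exact (hfb x).2
  set vb := (volume : Measure (Rn n)).real (Metric.ball 0 1) with hvb
  have hvb0 : 0 ≤ vb := measureReal_nonneg
  obtain ⟨B, hB⟩ : ∃ B : ℝ, ∀ a : ℝ, 0 < a → a ≤ ρ →
      |∫ y, f y * (⟪e, y0 - y⟫ / ‖y0 - y‖ ^ (n + 1) * (ramp ρ ‖y0 - y‖ - ramp a ‖y0 - y‖))| ≤ B :=
    ⟨_, fun a ha hab => abs_window_le hf hfabs hn hc (fun x => (hfb x).1) (hlow y0 hy0) hnull he
      ha hab⟩
  -- the parameters of the annuli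
  set lam := min (c / (4 * (M * vb + 1))) (1 / 2) with hlam
  have hlam0 : 0 < lam := lt_min (by positivity) (by norm_num)
  have hlam1 : lam ≤ 1 / 2 := min_le_right _ _
  have hlamn : M * vb * lam ^ n ≤ c / 4 := by
    have h1 : lam ^ n ≤ lam := by
      have := pow_le_pow_of_le_one hlam0.le (by linarith : lam ≤ 1) hn
      rwa [pow_one] at this
    have h2 : lam * (4 * (M * vb + 1)) ≤ c := by
      rw [← le_div_iff₀ (by positivity)]; exact min_le_left _ _
    have h3 : M * vb * lam ^ n ≤ M * vb * lam := mul_le_mul_of_nonneg_left h1 (by positivity)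
    linarith
  obtain ⟨σ, hσ, hslab⟩ := exists_slab he (ε := c / (4 * (M + 1))) (by positivity)
  set t0 := min ρ (σ * ρ) with ht0def
  have ht0 : 0 < t0 := lt_min hρ (by positivity)
  set κ := σ * (c / 2) with hκdef
  have hκ : 0 < κ := by positivity
  obtain ⟨N, hN⟩ := exists_nat_gt ((B + M * (radConst n * (2 * ρ)) / (2 * ρ)) / κ)
  set ts : ℕ → ℝ := fun j => t0 * lam ^ j with hts
  have hts0 : ∀ j, 0 < ts j := fun j => by positivity
  have htst0 : ∀ j, ts j ≤ t0 := fun j =>
    mul_le_of_le_one_right ht0.le (pow_le_one₀ hlam0.le (by linarith))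
  set a := ts N / 2 with hadef
  have ha : 0 < a := half_pos (hts0 N)
  have haρ : a ≤ ρ := by
    have h1 := htst0 N
    have h2 := min_le_left ρ (σ * ρ)
    linarith [hts0 N]
  -- the one-sided density
  set w : ℝ → ℝ := fun r => ramp ρ r - ramp a r with hw
  have hw0 : ∀ r, 0 ≤ r → 0 ≤ w r ∧ w r ≤ 1 := fun r hr =>
    ⟨by simp only [hw]; linarith [ramp_mono ha haρ hr],
      by simp only [hw]; linarith [(ramp_mem ρ r).2, (ramp_mem a r).1]⟩
  set g1 : Rn n → ℝ := fun y => f y * (⟪e, y0 - y⟫ / ‖y0 - y‖ ^ (n + 1) * w ‖y0 - y‖) with hg1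
  set g2 : Rn n → ℝ := fun y => f y * ((‖y - y0‖ ^ (n - 1))⁻¹ * w ‖y - y0‖) with hg2
  set G : Rn n → ℝ := fun y => -g1 y + (2 * ρ)⁻¹ * g2 y with hG
  have hwcut : ∀ r, 0 ≤ r → w r ≤ 1 ∧ (2 * ρ ≤ r → w r = 0) ∧ (r ≤ a → w r = 0) := fun r hr =>
    ⟨(hw0 r hr).2, fun h => by simp only [hw, ramp_zero hρ h, ramp_zero ha (by linarith), sub_self],
      fun h => by simp only [hw, ramp_one hρ (h.trans haρ), ramp_one ha h, sub_self]⟩
  have hg1i : Integrable g1 := by
    have h1 := (farTr_integrable hf hfabs he ha hρ y0).sub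
      (farTr_integrable hf hfabs he hρ hρ y0)
    refine integrable_bdd (g := g1) (by simp only [hg1, hw, ramp]; fun_prop)
      (B := M * (a ^ n)⁻¹) (fun y => ?_) y0 (2 * ρ) fun y hy => ?_
    · simp only [hg1, abs_mul]
      refine mul_le_mul (hfabs y) ?_ (by positivity) hM0
      rcases le_or_gt ‖y0 - y‖ a with h | h
      · rw [(hwcut _ (norm_nonneg _)).2.2 h, abs_zero, mul_zero]; positivity
      · refine (mul_le_of_le_one_right (abs_nonneg _) ?_).trans ((abs_inner_div_le he _).trans
          (inv_anti₀ (pow_pos ha n) (pow_le_pow_left₀ ha.le h.le n)))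
        rw [abs_of_nonneg (hw0 _ (norm_nonneg _)).1]
        exact (hw0 _ (norm_nonneg _)).2
    · simp only [hg1]
      rw [(hwcut _ (norm_nonneg _)).2.1 (by rw [← dist_eq_norm, dist_comm]; exact hy.le)]
      ring
  have hg2le : ∀ y, g2 y ≤ M * (Metric.ball (0 : Rn n) (2 * ρ)).indicator
      (fun v => (‖v‖ ^ (n - 1))⁻¹) (y - y0) ∧ 0 ≤ g2 y := fun y => by
    refine ⟨?_, mul_nonneg (hfb y).1 (mul_nonneg (by positivity) (hw0 _ (norm_nonneg _)).1)⟩
    simp only [hg2]
    rcases le_or_gt (2 * ρ) ‖y - y0‖ with h | h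
    · rw [(hwcut _ (norm_nonneg _)).2.1 h, mul_zero, mul_zero]
      exact mul_nonneg hM0 (indicator_nonneg (fun v _ => by positivity) _)
    · rw [indicator_of_mem (by rwa [Metric.mem_ball, dist_zero_right])]
      exact mul_le_mul (hfb y).2 (mul_le_of_le_one_right (by positivity) (hw0 _ (norm_nonneg _)).2)
        (mul_nonneg (by positivity) (hw0 _ (norm_nonneg _)).1) hM0
  obtain ⟨hki, hkint⟩ := radial_near (n := n) hn (show 0 < 2 * ρ by linarith)
  have hk' : Integrable fun y => M * (Metric.ball (0 : Rn n) (2 * ρ)).indicator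
      (fun v => (‖v‖ ^ (n - 1))⁻¹) (y - y0) := (hki.comp_sub_right y0).const_mul M
  have hg2i : Integrable g2 := hk'.mono' (by simp only [hg2, hw, ramp]; fun_prop)
    (Eventually.of_forall fun y => by rw [Real.norm_eq_abs, abs_of_nonneg (hg2le y).2]; exact (hg2le y).1)
  have hGi : Integrable G := hg1i.neg.add (hg2i.const_mul _)
  have hupper : ∫ y, G y ≤ B + M * (radConst n * (2 * ρ)) / (2 * ρ) := by
    have h1 : Integrable fun y => -g1 y := hg1i.neg
    have h2 : Integrable fun y => (2 * ρ)⁻¹ * g2 y := hg2i.const_mul _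
    have e1 : ∫ y, G y = (∫ y, -g1 y) + ∫ y, (2 * ρ)⁻¹ * g2 y := integral_add h1 h2
    rw [e1, integral_const_mul, integral_neg]
    refine add_le_add ((neg_le_abs _).trans (hB a ha haρ)) ?_
    rw [inv_mul_eq_div]
    refine div_le_div_of_nonneg_right ((integral_mono hg2i hk' fun y => (hg2le y).1).trans
      (le_of_eq ?_)) (by linarith)
    rw [integral_const_mul, integral_sub_right_eq_self
      ((Metric.ball (0 : Rn n) (2 * ρ)).indicator fun v => (‖v‖ ^ (n - 1))⁻¹) y0,
      integral_indicator measurableSet_ball, hkint]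
  have hGeq : ∀ y, y ≠ y0 → G y = f y * w ‖y - y0‖ / ‖y - y0‖ ^ (n + 1) *
      (⟪e, y - y0⟫ + ‖y - y0‖ ^ 2 / (2 * ρ)) := by
    intro y hy
    have hr : 0 < ‖y - y0‖ := norm_pos_iff.2 (sub_ne_zero.2 hy)
    have hp : ‖y - y0‖ ^ (n + 1) = ‖y - y0‖ ^ (n - 1) * ‖y - y0‖ ^ 2 := by
      rw [← pow_add]; congr 1; omega
    simp only [hG, hg1, hg2, norm_sub_rev y0 y, show ⟪e, y0 - y⟫ = -⟪e, y - y0⟫ by
      rw [← inner_neg_right, neg_sub]]
    rw [hp]
    field_simp
  have hG0 : ∀ y, 0 ≤ G y := by
    intro y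
    rcases eq_or_ne y y0 with rfl | hy
    · simp only [hG, hg1, hg2, sub_self, norm_zero]
      rw [(hwcut 0 le_rfl).2.2 ha.le]
      simp
    rw [hGeq y hy]
    by_cases hyS : y ∈ S
    · exact mul_nonneg (div_nonneg (mul_nonneg (hfb y).1 (hw0 _ (norm_nonneg _)).1)
        (by positivity)) (htouch y hyS)
    · rw [hfS y hyS]; simp
  set A : ℕ → Set (Rn n) := fun j =>
    {y | dist y y0 < ts j} ∩ {y | ts (j + 1) ≤ dist y y0} with hA
  have hAm : ∀ j, MeasurableSet (A j) := fun j =>
    (measurableSet_lt (by fun_prop) measurable_const).inter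
      (measurableSet_le measurable_const (by fun_prop))
  have hAd : Pairwise fun i j => Disjoint (A i) (A j) := by
    intro i j hij
    wlog h : i < j generalizing i j
    · exact (this hij.symm (lt_of_le_of_ne (not_lt.1 h) hij.symm)).symm
    refine Set.disjoint_left.2 fun y hyi hyj => ?_
    have h1 : dist y y0 < ts j := hyj.1
    have h2 : ts (i + 1) ≤ dist y y0 := hyi.2
    have h3 : ts j ≤ ts (i + 1) :=
      mul_le_mul_of_nonneg_left (pow_le_pow_of_le_one hlam0.le (by linarith) h) ht0.le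
    linarith
  have hann : ∀ j < N, κ ≤ ∫ y in A j, G y := by
    intro j hj
    set t := ts j with ht
    have ht' : 0 < t := hts0 j
    have htρ : t ≤ ρ := (htst0 j).trans (min_le_left _ _)
    have htσ : t ≤ σ * ρ := (htst0 j).trans (min_le_right _ _)
    have hts' : ts (j + 1) = lam * t := by simp only [hts, ht, pow_succ]; ring
    set D := {y | dist y y0 < t ∧ lam * t ≤ dist y y0 ∧ σ * t < ⟪e, y - y0⟫} with hD
    have hDA : D ⊆ A j := fun y hy => ⟨hy.1, by show ts (j + 1) ≤ dist y y0; rw [hts']; exact hy.2.1⟩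
    have hDm : MeasurableSet D :=
      (measurableSet_lt (f := fun y : Rn n => dist y y0) (by fun_prop) measurable_const).inter
        ((measurableSet_le (g := fun y : Rn n => dist y y0) measurable_const (by fun_prop)).inter
          (measurableSet_lt (g := fun y : Rn n => ⟪e, y - y0⟫) measurable_const (by fun_prop)))
    have hDfi : IntegrableOn f D := IntegrableOn.of_bound
      (((Metric.isBounded_ball (x := y0) (r := t)).subset fun y hy => hy.1).measure_lt_top)
      hf.aestronglyMeasurable M (Eventually.of_forall fun y => by rw [Real.norm_eq_abs]; exact hfabs y)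
    have hmass := annulus_mass hf hc hfb hfS hρ ht' hlam0 (hlow y0 hy0 t ht') hlamn hslab htouch htσ
    calc κ = σ * t / t ^ (n + 1) * (c / 2 * t ^ n) := by rw [hκdef, pow_succ]; field_simp
      _ ≤ σ * t / t ^ (n + 1) * ∫ y in D, f y := mul_le_mul_of_nonneg_left hmass (by positivity)
      _ = ∫ y in D, σ * t / t ^ (n + 1) * f y := (integral_const_mul _ _).symm
      _ ≤ ∫ y in D, G y := by
          refine setIntegral_mono_on (hDfi.const_mul _) hGi.integrableOn hDm fun y hy => ?_
          obtain ⟨hyt, hyt', hbig⟩ := hy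
          rw [← hts'] at hyt'
          have hN' : ts N ≤ ts (j + 1) :=
            mul_le_mul_of_nonneg_left (pow_le_pow_of_le_one hlam0.le (by linarith) hj) ht0.le
          have hr : 0 < ‖y - y0‖ := by
            rw [← dist_eq_norm]; linarith [hts0 N]
          rw [hGeq y (fun h => by rw [h, sub_self, norm_zero] at hr; exact lt_irrefl _ hr)]
          have hw1 : w ‖y - y0‖ = 1 := by
            simp only [hw]
            rw [← dist_eq_norm, ramp_one hρ (by linarith), ramp_zero ha (by linarith), sub_zero]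
          rw [hw1, mul_one, mul_comm (σ * t / t ^ (n + 1)), div_mul_eq_mul_div (f y), mul_div_assoc (f y)]
          refine mul_le_mul_of_nonneg_left ?_ (hfb y).1
          have h5 : 0 ≤ ‖y - y0‖ ^ 2 / (2 * ρ) := by positivity
          have h6 : 0 < σ * t := by positivity
          refine div_le_div₀ (by linarith) (by linarith) (by positivity)
            (pow_le_pow_left₀ hr.le (by rw [← dist_eq_norm]; exact hyt.le) _)
      _ ≤ ∫ y in A j, G y := setIntegral_mono_set hGi.integrableOn
          (Eventually.of_forall hG0) hDA.eventuallyLE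
  have hsum : (N : ℝ) * κ ≤ ∫ y, G y := by
    calc (N : ℝ) * κ = ∑ j ∈ Finset.range N, κ := by simp
      _ ≤ ∑ j ∈ Finset.range N, ∫ y in A j, G y :=
          Finset.sum_le_sum fun j hj => hann j (Finset.mem_range.1 hj)
      _ = ∫ y in ⋃ j ∈ Finset.range N, A j, G y :=
          (integral_biUnion_finset _ (fun j _ => hAm j) (fun i _ j _ hij => hAd hij)
            fun j _ => hGi.integrableOn).symm
      _ ≤ ∫ y, G y := setIntegral_le_integral hGi (Eventually.of_forall hG0)
  rw [div_lt_iff₀ hκ] at hN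
  linarith

end

end Vale.Agent.P120.Full.Holes
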