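import Vale.Agent.P120.Basic
import Vale.Agent.P120.Full.DecayDefs

/-!
# P120, full answer: the cut kernels of the blow-up
-/

namespace Vale.Agent.P120.Full

open MeasureTheory Set Filter
open scoped Topology RealInnerProductSpace ENNReal

noncomputable section

lemma ramp_bounds (T r : ℝ) : 0 ≤ ramp T r ∧ ramp T r ≤ 1 :=
  ⟨le_max_left _ _, max_le zero_le_one (min_le_left _ _)⟩

lemma ramp_eq_one {T r : ℝ} (hT : 0 < T) (h : r ≤ T) : ramp T r = 1 := by
  have : r / T ≤ 1 := (div_le_one hT).2 h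
  rw [ramp, min_eq_left (by linarith), max_eq_right zero_le_one]

lemma ramp_eq_zero {T r : ℝ} (hT : 0 < T) (h : 2 * T ≤ r) : ramp T r = 0 := by
  have : 2 ≤ r / T := by rw [le_div_iff₀ hT]; exact h
  exact max_eq_left ((min_le_right _ _).trans (by linarith))

lemma abs_ramp_diff_le {T : ℝ} (hT : 0 < T) (r s : ℝ) : |ramp T r - ramp T s| ≤ |r - s| / T := by
  refine (abs_max_sub_max_le_max _ _ _ _).trans (max_le (by rw [sub_self, abs_zero]; positivity) ?_)
  refine (abs_min_sub_min_le_max _ _ _ _).trans (max_le (by rw [sub_self, abs_zero]; positivity) ?_)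
  rw [show 2 - r / T - (2 - s / T) = (s - r) / T by ring, abs_div, abs_of_pos hT, abs_sub_comm]

lemma continuous_ramp (T : ℝ) : Continuous (ramp T) := by unfold ramp; fun_prop

lemma cut_bounds (δ T r : ℝ) : 0 ≤ cut δ T r ∧ cut δ T r ≤ 1 := by
  obtain ⟨a0, a1⟩ := ramp_bounds T r
  obtain ⟨b0, b1⟩ := ramp_bounds δ r
  exact ⟨mul_nonneg a0 (by linarith), mul_le_one₀ a1 (by linarith) (by linarith)⟩

lemma ramp_split (δ T r : ℝ) : ramp T r * ramp δ r + cut δ T r + (1 - ramp T r) = 1 := by
  unfold cut; ring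

/-- The cut kernel as a function of the radius. -/
def radCut (n : ℕ) (δ T r : ℝ) : ℝ := cut δ T r / max r δ ^ (n + 1)

lemma radCut_def (n : ℕ) {δ T r : ℝ} (hδ : 0 < δ) :
    radCut n δ T r = cut δ T r / r ^ (n + 1) := by
  rcases le_or_gt r δ with h | h
  · simp [radCut, cut, ramp_eq_one hδ h]
  · rw [radCut, max_eq_left h.le]

lemma continuous_radCut (n : ℕ) {δ : ℝ} (hδ : 0 < δ) (T : ℝ) : Continuous (radCut n δ T) := by
  have h1 : Continuous fun r : ℝ => cut δ T r :=
    (continuous_ramp T).mul (continuous_const.sub (continuous_ramp δ))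
  exact h1.div ((continuous_id.max continuous_const).pow _)
    fun r => (pow_pos (lt_max_of_lt_right hδ) _).ne'

lemma radCut_eq_zero (n : ℕ) {δ T r : ℝ} (hT : 0 < T) (h : 2 * T ≤ r) :
    radCut n δ T r = 0 := by simp [radCut, cut, ramp_eq_zero hT h]

lemma uniformContinuous_radCut (n : ℕ) {δ T : ℝ} (hδ : 0 < δ) (hT : 0 < T) :
    UniformContinuous (radCut n δ T) := by
  refine HasCompactSupport.uniformContinuous_of_continuous ?_ (continuous_radCut n hδ T)
  refine HasCompactSupport.intro (isCompact_Icc (a := 0) (b := 2 * T)) fun r hr => ?_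
  rcases le_or_gt 0 r with h | h
  · exact radCut_eq_zero n hT (le_of_lt (not_le.1 fun h0 => hr ⟨h, h0⟩))
  · simp [radCut, cut, ramp_eq_one hδ (show r ≤ δ by linarith)]

/-- The far part of the kernel as a function of the radius. -/
def farKer (n : ℕ) (T r : ℝ) : ℝ := (1 - ramp T r) / r ^ (n + 1)

lemma farKer_eq_zero (n : ℕ) {T r : ℝ} (hT : 0 < T) (h : r ≤ T) : farKer n T r = 0 := by
  simp [farKer, ramp_eq_one hT h]

lemma farKer_mem (n : ℕ) (T : ℝ) {r : ℝ} (hr : 0 ≤ r) :
    0 ≤ farKer n T r ∧ farKer n T r ≤ (r ^ (n + 1))⁻¹ := by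
  obtain ⟨a0, a1⟩ := ramp_bounds T r
  refine ⟨div_nonneg (by linarith) (by positivity), ?_⟩
  rw [farKer, div_eq_mul_inv]
  exact mul_le_of_le_one_left (by positivity) (by linarith)

lemma abs_farKer_sub_le (n : ℕ) {T r s ρ : ℝ} (hT : 0 < T) (hρ : 0 < ρ) (hr : ρ ≤ r)
    (hs : ρ ≤ s) :
    |farKer n T r - farKer n T s| ≤ (n + 3) * |r - s| / ρ ^ (n + 2) := by
  wlog hrs : r ≤ s generalizing r s
  · rw [abs_sub_comm, abs_sub_comm r s]; exact this hs hr (le_of_not_ge hrs)
  have hr0 : 0 < r := hρ.trans_le hr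
  have hs0 : 0 < s := hρ.trans_le hs
  have hd : |r - s| = s - r := by rw [abs_sub_comm, abs_of_nonneg (by linarith)]
  have e : farKer n T r - farKer n T s = (ramp T s - ramp T r) / r ^ (n + 1) +
      (1 - ramp T s) * ((r ^ (n + 1))⁻¹ - (s ^ (n + 1))⁻¹) := by
    unfold farKer; ring
  have h1 : |(ramp T s - ramp T r) / r ^ (n + 1)| ≤ 2 * (s - r) / ρ ^ (n + 2) := by
    rw [abs_div, abs_of_pos (pow_pos hr0 (n + 1))]
    rcases le_or_gt (2 * T) r with h | h
    · rw [ramp_eq_zero hT h, ramp_eq_zero hT (h.trans hrs), sub_self, abs_zero, zero_div]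
      exact div_nonneg (by linarith) (by positivity)
    · have h2 : |ramp T s - ramp T r| ≤ 2 * (s - r) / ρ := by
        refine (abs_ramp_diff_le hT s r).trans ?_
        rw [abs_of_nonneg (by linarith), div_le_div_iff₀ hT hρ]
        nlinarith
      refine (div_le_div₀ (div_nonneg (by linarith) hρ.le) h2 (pow_pos hρ (n + 1))
        (pow_le_pow_left₀ hρ.le hr _)).trans (le_of_eq ?_)
      rw [div_div, ← pow_succ']
  have h2 : |(1 - ramp T s) * ((r ^ (n + 1))⁻¹ - (s ^ (n + 1))⁻¹)| ≤
      (n + 1) * (s - r) / ρ ^ (n + 2) := by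
    obtain ⟨a0, a1⟩ := ramp_bounds T s
    rw [abs_mul, abs_of_nonneg (by linarith : (0 : ℝ) ≤ 1 - ramp T s)]
    refine (mul_le_of_le_one_left (abs_nonneg _) (by linarith)).trans ?_
    have hpow : r ^ (n + 1) ≤ s ^ (n + 1) := pow_le_pow_left₀ hr0.le hrs _
    rw [abs_of_nonneg (sub_nonneg.2 (inv_anti₀ (pow_pos hr0 _) hpow)),
      inv_sub_inv (pow_pos hr0 _).ne' (pow_pos hs0 _).ne']
    have h3 : s ^ (n + 1) - r ^ (n + 1) ≤ (n + 1) * (s - r) * s ^ n := by
      have := abs_pow_sub_pow_le (a := s) (b := r) (n := n + 1)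
      rw [abs_of_nonneg (sub_nonneg.2 hpow), abs_of_nonneg (by linarith : (0 : ℝ) ≤ s - r),
        abs_of_pos hs0, abs_of_pos hr0, max_eq_left hrs, Nat.add_sub_cancel] at this
      refine this.trans (le_of_eq ?_)
      push_cast; ring
    rw [div_le_div_iff₀ (by positivity) (by positivity)]
    calc (s ^ (n + 1) - r ^ (n + 1)) * ρ ^ (n + 2)
        ≤ (n + 1) * (s - r) * s ^ n * (r ^ (n + 1) * s) := by
          refine mul_le_mul h3 ?_ (by positivity)
            (mul_nonneg (mul_nonneg (by positivity) (by linarith)) (by positivity))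
          rw [pow_succ ρ (n + 1)]
          exact mul_le_mul (pow_le_pow_left₀ hρ.le hr _) hs hρ.le (by positivity)
      _ = _ := by ring
  rw [e, hd]
  refine (abs_add_le _ _).trans ((add_le_add h1 h2).trans (le_of_eq ?_))
  ring

lemma div_add_div_mul {a b q p : ℝ} (hq : q ≠ 0) (hp : p ≠ 0) :
    a / q + b / (p * q) = (a + b / p) / q := by field_simp

variable {E : Type*} [NormedAddCommGroup E] [InnerProductSpace ℝ E] [MeasurableSpace E]
  [BorelSpace E] [FiniteDimensional ℝ E] {n : ℕ} {C : ℝ} {ν : Measure E} [IsFiniteMeasure ν]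

omit [InnerProductSpace ℝ E] [BorelSpace E] [FiniteDimensional ℝ E] in
lemma measure_singleton_of_growth (hn : 1 ≤ n)
    (hν : ∀ z t, 0 < t → ν.real (Metric.ball z t) ≤ C * t ^ n) (z : E) : ν {z} = 0 := by
  have hle : ∀ t : ℝ, 0 < t → ν.real {z} ≤ C * t ^ n := fun t ht =>
    (measureReal_mono (Set.singleton_subset_iff.2 (Metric.mem_ball_self ht))).trans (hν z t ht)
  have hlim : Tendsto (fun t : ℝ => C * t ^ n) (𝓝[>] 0) (𝓝 0) := by
    have hc : Continuous fun t : ℝ => C * t ^ n := by fun_prop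
    simpa [zero_pow (by omega : n ≠ 0)] using (hc.tendsto 0).mono_left nhdsWithin_le_nhds
  have h0 : ν.real {z} ≤ 0 := ge_of_tendsto hlim (eventually_nhdsWithin_of_forall hle)
  exact (measureReal_eq_zero_iff).1 (le_antisymm h0 measureReal_nonneg)

omit [FiniteDimensional ℝ E] in
/-- The potential of order `n - 1` of a small ball. -/
lemma lintegral_inv_pow_ball (hn : 1 ≤ n) (hC : 0 ≤ C)
    (hν : ∀ z t, 0 < t → ν.real (Metric.ball z t) ≤ C * t ^ n) (z : E) {t : ℝ} (ht : 0 < t) :
    ∫⁻ y in Metric.ball z t, ENNReal.ofReal ((dist z y ^ (n - 1))⁻¹) ∂ν ≤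
      ENNReal.ofReal (2 ^ n * C * t) := by
  set S : ℕ → Set E := fun j => annulus z (1 / (j + 1 : ℝ)) t with hS
  have hmono : Monotone S := fun i j hij y hy =>
    ⟨le_trans (one_div_le_one_div_of_le (by positivity) (by exact_mod_cast Nat.add_le_add_right hij 1))
      hy.1, hy.2⟩
  have hsub : Metric.ball z t ⊆ {z} ∪ ⋃ j, S j := by
    intro y hy
    by_cases hyz : y = z
    · exact Or.inl (mem_singleton_iff.2 hyz)
    · obtain ⟨j, hj⟩ := exists_nat_one_div_lt (dist_pos.2 (Ne.symm hyz))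
      exact Or.inr (mem_iUnion.2 ⟨j, hj.le, by rw [dist_comm]; exact Metric.mem_ball.1 hy⟩)
  refine (lintegral_mono_set hsub).trans ((lintegral_union_le _ _ _).trans ?_)
  rw [setLIntegral_measure_zero _ _ (measure_singleton_of_growth hn hν z), zero_add,
    setLIntegral_iUnion_of_directed _ hmono.directed_le]
  refine iSup_le fun j => ?_
  have hint : IntegrableOn (fun y : E => (dist z y ^ (n - 1))⁻¹) (S j) ν :=
    integrableOn_inv_pow z (by positivity : (0 : ℝ) < 1 / (j + 1 : ℝ)) (n - 1)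
      (measurableSet_annulus _ _ _) fun y hy => hy.1
  rw [← ofReal_integral_eq_lintegral_ofReal hint
    (Eventually.of_forall fun y => by simp only [Pi.zero_apply]; positivity)]
  exact ENNReal.ofReal_le_ofReal (inner_integral_le hn hν hC z (by positivity) ht)

/-- Pairs at distance less than `t` near the origin. -/
def nearPairs (T t : ℝ) : Set (E × E) := {q | ‖q.1‖ < T ∧ dist q.1 q.2 < t}

omit [InnerProductSpace ℝ E] [FiniteDimensional ℝ E] in
lemma measurableSet_nearPairs [SecondCountableTopology E] (T t : ℝ) :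
    MeasurableSet (nearPairs T t : Set (E × E)) :=
  (measurableSet_lt measurable_fst.norm measurable_const).inter
    (measurableSet_lt (measurable_fst.dist measurable_snd) measurable_const)

lemma integral_nearPairs_le (hn : 1 ≤ n) (hC : 0 ≤ C)
    (hν : ∀ z t, 0 < t → ν.real (Metric.ball z t) ≤ C * t ^ n) {T t : ℝ} (hT : 0 < T) (ht : 0 < t) :
    ∫ q in nearPairs T t, (dist q.1 q.2 ^ (n - 1))⁻¹ ∂(ν.prod ν) ≤
      C * T ^ n * (2 ^ n * C * t) := by
  have hm := measurableSet_nearPairs (E := E) T t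
  have hg : Measurable fun q : E × E => ENNReal.ofReal ((dist q.1 q.2 ^ (n - 1))⁻¹) := by fun_prop
  rw [integral_eq_lintegral_of_nonneg_ae (Eventually.of_forall fun q => by
    simp only [Pi.zero_apply]; positivity) (Measurable.aestronglyMeasurable (by fun_prop))]
  refine ENNReal.toReal_le_of_le_ofReal (by positivity) ?_
  rw [← lintegral_indicator hm, lintegral_prod _ (hg.indicator hm).aemeasurable]
  calc ∫⁻ x, ∫⁻ y, (nearPairs T t).indicator
          (fun q : E × E => ENNReal.ofReal ((dist q.1 q.2 ^ (n - 1))⁻¹)) (x, y) ∂ν ∂ν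
      ≤ ∫⁻ x, (Metric.ball (0 : E) T).indicator (fun _ => ENNReal.ofReal (2 ^ n * C * t)) x ∂ν := by
        refine lintegral_mono fun x => ?_
        by_cases hx : x ∈ Metric.ball (0 : E) T
        · rw [indicator_of_mem hx]
          refine le_trans (le_of_eq ?_) (lintegral_inv_pow_ball hn hC hν x ht)
          rw [← lintegral_indicator measurableSet_ball]
          refine lintegral_congr fun y => ?_
          have hx' := mem_ball_zero_iff.1 hx
          simp only [indicator, nearPairs, mem_ofPred_eq, Metric.mem_ball, dist_comm y x, hx', true_and]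
        · rw [indicator_of_notMem hx]
          refine le_of_eq ((lintegral_congr fun y => ?_).trans lintegral_zero)
          exact indicator_of_notMem (fun h => hx (mem_ball_zero_iff.2 h.1)) _
    _ = ENNReal.ofReal (2 ^ n * C * t) * ν (Metric.ball 0 T) := by
        rw [lintegral_indicator measurableSet_ball, setLIntegral_const]
    _ ≤ _ := by
        rw [← ofReal_measureReal (measure_ne_top ν _), ← ENNReal.ofReal_mul (by positivity)]
        refine ENNReal.ofReal_le_ofReal ?_
        rw [mul_comm (C * T ^ n)]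
        exact mul_le_mul_of_nonneg_left (hν 0 T hT) (by positivity)

/-- The tail of the potential of order `n + 1/2`. -/
lemma outer_sqrt_le (hC : 0 ≤ C) (hν : ∀ z t, 0 < t → ν.real (Metric.ball z t) ≤ C * t ^ n)
    {t : ℝ} (ht : 0 < t) :
    ∫ y in {y : E | t ≤ ‖y‖}, (‖y‖ ^ n * Real.sqrt ‖y‖)⁻¹ ∂ν ≤
      4 * 2 ^ n * C / Real.sqrt t := by
  set f := fun y : E => (‖y‖ ^ n * Real.sqrt ‖y‖)⁻¹
  have hm : ∀ s : ℝ, MeasurableSet {y : E | s ≤ ‖y‖} := fun s =>
    measurableSet_le measurable_const measurable_norm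
  have hbd : ∀ s, 0 < s → ∀ y : E, s ≤ ‖y‖ → f y ≤ (s ^ n * Real.sqrt s)⁻¹ := fun s hs y hy =>
    inv_anti₀ (mul_pos (pow_pos hs _) (Real.sqrt_pos.2 hs))
      (mul_le_mul (pow_le_pow_left₀ hs.le hy _) (Real.sqrt_le_sqrt hy) (Real.sqrt_nonneg _)
        (by positivity))
  have hint : ∀ s, 0 < s → IntegrableOn f {y : E | s ≤ ‖y‖} ν := fun s hs => by
    refine Integrable.of_bound (Measurable.aestronglyMeasurable (by fun_prop))
      (s ^ n * Real.sqrt s)⁻¹ ((ae_restrict_iff' (hm s)).2 (Eventually.of_forall fun y hy => ?_))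
    rw [Real.norm_eq_abs, abs_of_nonneg (by positivity)]
    exact hbd s hs y hy
  have key : ∀ J : ℕ, ∀ s, 0 < s → ∫ y in {y : E | s ≤ ‖y‖}, f y ∂ν ≤
      4 * 2 ^ n * C / Real.sqrt s + ν.real univ * ((2 ^ J * s) ^ n * Real.sqrt (2 ^ J * s))⁻¹ := by
    intro J
    induction J with
    | zero =>
      intro s hs
      refine (setIntegral_mono_on (hint s hs) (integrable_const _).integrableOn (hm s)
        (fun y hy => hbd s hs y hy)).trans ?_
      rw [setIntegral_const, smul_eq_mul, pow_zero, one_mul]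
      have h1 : ν.real {y : E | s ≤ ‖y‖} * (s ^ n * Real.sqrt s)⁻¹ ≤
          ν.real univ * (s ^ n * Real.sqrt s)⁻¹ :=
        mul_le_mul_of_nonneg_right (measureReal_mono (subset_univ _)) (by positivity)
      linarith [show 0 ≤ 4 * 2 ^ n * C / Real.sqrt s by positivity]
    | succ J ih =>
      intro s hs
      have h2 : (0 : ℝ) < 2 * s := by positivity
      have hu : {y : E | s ≤ ‖y‖} =
          ({y : E | s ≤ ‖y‖} ∩ Metric.ball 0 (2 * s)) ∪ {y : E | 2 * s ≤ ‖y‖} := by
        ext y
        simp only [mem_union, mem_inter_iff, mem_ofPred_eq, mem_ball_zero_iff]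
        constructor
        · intro h; by_cases h' : ‖y‖ < 2 * s
          · exact Or.inl ⟨h, h'⟩
          · exact Or.inr (not_lt.1 h')
        · rintro (h | h)
          · exact h.1
          · linarith
      have hdis : Disjoint ({y : E | s ≤ ‖y‖} ∩ Metric.ball 0 (2 * s)) {y : E | 2 * s ≤ ‖y‖} :=
        Set.disjoint_left.2 fun y h1 h2 => absurd h2 (not_le.2 (mem_ball_zero_iff.1 h1.2))
      rw [hu, setIntegral_union hdis (hm _) ((hint s hs).mono_set inter_subset_left) (hint _ h2)]
      have h3 : ∫ y in {y : E | s ≤ ‖y‖} ∩ Metric.ball 0 (2 * s), f y ∂ν ≤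
          2 ^ n * C / Real.sqrt s := by
        refine (setIntegral_mono_on ((hint s hs).mono_set inter_subset_left)
          (integrable_const _).integrableOn ((hm s).inter measurableSet_ball)
          (fun y hy => hbd s hs y hy.1)).trans ?_
        rw [setIntegral_const, smul_eq_mul]
        refine (mul_le_mul_of_nonneg_right ((measureReal_mono inter_subset_right).trans (hν 0 _ h2))
          (by positivity)).trans (le_of_eq ?_)
        rw [mul_pow]; field_simp
      have h4 : 2 ^ n * C / Real.sqrt s + 4 * 2 ^ n * C / Real.sqrt (2 * s) ≤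
          4 * 2 ^ n * C / Real.sqrt s := by
        rw [Real.sqrt_mul zero_le_two]
        have h5 : (4 : ℝ) / 3 ≤ Real.sqrt 2 := Real.le_sqrt_of_sq_le (by norm_num)
        rw [div_add_div_mul (show Real.sqrt s ≠ 0 from (Real.sqrt_pos.2 hs).ne')
          (show Real.sqrt 2 ≠ 0 by positivity)]
        refine div_le_div_of_nonneg_right ?_ (Real.sqrt_nonneg _)
        have h7 : 4 * 2 ^ n * C / Real.sqrt 2 ≤ 3 * (2 ^ n * C) := by
          rw [div_le_iff₀ (by positivity)]
          nlinarith [show 0 ≤ 2 ^ n * C by positivity]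
        linarith
      refine (add_le_add h3 (ih _ h2)).trans ?_
      rw [show (2 : ℝ) ^ J * (2 * s) = 2 ^ (J + 1) * s by ring]
      linarith
  have hlim : Tendsto (fun J : ℕ => 4 * 2 ^ n * C / Real.sqrt t +
      ν.real univ * ((2 ^ J * t) ^ n * Real.sqrt (2 ^ J * t))⁻¹) atTop
        (𝓝 (4 * 2 ^ n * C / Real.sqrt t)) := by
    have h0 : Tendsto (fun J : ℕ => (2 : ℝ) ^ J * t) atTop atTop :=
      (tendsto_pow_atTop_atTop_of_one_lt one_lt_two).atTop_mul_const ht
    have h1 : Tendsto (fun J : ℕ => ((2 : ℝ) ^ J * t) ^ n * Real.sqrt (2 ^ J * t)) atTop atTop := by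
      refine tendsto_atTop_mono' _ ?_ (Real.tendsto_sqrt_atTop.comp h0)
      filter_upwards [h0.eventually_ge_atTop 1] with J hJ
      exact le_mul_of_one_le_left (Real.sqrt_nonneg _) (one_le_pow₀ hJ)
    simpa using (tendsto_inv_atTop_zero.comp h1).const_mul (ν.real univ) |>.const_add
      (4 * 2 ^ n * C / Real.sqrt t)
  exact ge_of_tendsto' hlim fun J => key J t ht

end

end Vale.Agent.P120.Full
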