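import Vale.Agent.P120.Full.DecayAffine0
import Vale.Agent.P120.Full.DecayHoles
import Vale.Agent.P120.Full.DecayKernel

/-!
# P120, full answer: the limit of the heights is affine

The truncated normal forms converge to the quadratic form of order one by dominated convergence,
so the limit height satisfies the hypotheses of the Liouville theorem.
-/

namespace Vale.Agent.P120.Full

open MeasureTheory Set Filter
open scoped Topology RealInnerProductSpace NNReal

noncomputable section

variable {n : ℕ}

/-- The second difference of a function. -/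
def secDiff (φ : EuclideanSpace ℝ (Fin n) → ℝ) (x h : EuclideanSpace ℝ (Fin n)) : ℝ :=
  2 * φ x - φ (x + h) - φ (x - h)

/-- The truncated operator of order one. -/
def cutHalf (n : ℕ) (δ T : ℝ) (φ : EuclideanSpace ℝ (Fin n) → ℝ)
    (x : EuclideanSpace ℝ (Fin n)) : ℝ :=
  ∫ h, secDiff φ x h * radCut n δ T ‖h‖

lemma radCut_mem (n : ℕ) {δ : ℝ} (hδ : 0 < δ) (T : ℝ) {r : ℝ} (hr : 0 ≤ r) :
    0 ≤ radCut n δ T r ∧ radCut n δ T r ≤ (r ^ (n + 1))⁻¹ := by
  obtain ⟨a, b⟩ := cut_bounds δ T r
  rw [radCut_def n hδ, div_eq_mul_inv]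
  exact ⟨mul_nonneg a (by positivity), mul_le_of_le_one_left (by positivity) b⟩

/-- Both halves of the symmetrisation. -/
lemma cutHalf_eq {φ : EuclideanSpace ℝ (Fin n) → ℝ} (hφ : Continuous φ) {δ T : ℝ} (hδ : 0 < δ)
    (hT : 0 < T) (x : EuclideanSpace ℝ (Fin n)) :
    cutHalf n δ T φ x = 2 * ∫ z, (φ x - φ z) * radCut n δ T ‖x - z‖ := by
  set F := fun z => (φ x - φ z) * radCut n δ T ‖x - z‖ with hF
  have hr := continuous_radCut n hδ T
  have hsupp : ∀ {f : EuclideanSpace ℝ (Fin n) → ℝ}, Continuous f →
      Integrable fun h => f h * radCut n δ T ‖h‖ := fun {f} hf =>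
    (hf.mul (hr.comp continuous_norm)).integrable_of_hasCompactSupport
      (HasCompactSupport.intro (isCompact_closedBall (0 : EuclideanSpace ℝ (Fin n)) (2 * T))
        fun h hh => by
          rw [Metric.mem_closedBall, dist_zero_right, not_le] at hh
          simp only [Pi.mul_apply, Function.comp_apply, radCut_eq_zero n hT hh.le, mul_zero])
  have e1 : ∫ z, F z = ∫ h, (φ x - φ (x + h)) * radCut n δ T ‖h‖ := by
    rw [← integral_add_left_eq_self F x]
    exact integral_congr_ae (Eventually.of_forall fun h => by simp [hF])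
  have e2 : ∫ z, F z = ∫ h, (φ x - φ (x - h)) * radCut n δ T ‖h‖ := by
    rw [← integral_sub_left_eq_self F volume x]
    exact integral_congr_ae (Eventually.of_forall fun h => by simp [hF])
  rw [two_mul]
  nth_rewrite 1 [e1]
  rw [e2, ← integral_add (hsupp (by fun_prop)) (hsupp (by fun_prop)), cutHalf]
  exact integral_congr_ae (Eventually.of_forall fun h => by simp only [secDiff]; ring)

lemma normalForm_eq {φ g : EuclideanSpace ℝ (Fin n) → ℝ} (hφ : Continuous φ) {δ T : ℝ}
    (hδ : 0 < δ) (hT : 0 < T) :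
    normalForm n δ T g (fun _ => 1) φ = ∫ x, g x * cutHalf n δ T φ x := by
  rw [normalForm, ← integral_const_mul]
  refine integral_congr_ae (Eventually.of_forall fun x => ?_)
  simp only [midKer, mul_one, one_mul, cutHalf_eq hφ hδ hT x]
  ring

/-- A Lipschitz derivative bounds the second difference. -/
lemma abs_secDiff_le {φ : EuclideanSpace ℝ (Fin n) → ℝ} (hd : Differentiable ℝ φ) {L : ℝ≥0}
    (hL : LipschitzWith L (fderiv ℝ φ)) (x h : EuclideanSpace ℝ (Fin n)) :
    |secDiff φ x h| ≤ 2 * L * ‖h‖ ^ 2 := by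
  have key : ∀ v : EuclideanSpace ℝ (Fin n),
      ‖φ (x + v) - φ x - fderiv ℝ φ x v‖ ≤ L * ‖v‖ * ‖v‖ := by
    intro v
    have := (convex_closedBall x ‖v‖).norm_image_sub_le_of_norm_fderiv_le' (f := φ)
      (φ := fderiv ℝ φ x) (C := L * ‖v‖) (fun y _ => hd y) (fun y hy => ?_)
      (Metric.mem_closedBall_self (norm_nonneg v))
      (y := x + v) (by rw [Metric.mem_closedBall, dist_eq_norm, add_sub_cancel_left])
    · simpa using this
    · rw [← dist_eq_norm]
      exact (hL.dist_le_mul _ _).trans (mul_le_mul_of_nonneg_left (Metric.mem_closedBall.1 hy) L.2)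
  have h1 := key h
  have h2 := key (-h)
  rw [map_neg, norm_neg, ← sub_eq_add_neg, sub_neg_eq_add] at h2
  rw [Real.norm_eq_abs, abs_le] at h1 h2
  rw [secDiff, abs_le]
  constructor <;> nlinarith [h1.1, h1.2, h2.1, h2.2]

/-- Module D2: the affine step. -/
theorem affineStep (hn : 1 ≤ n) (hLiou : Liouville n) : AffineStep n := by
  intro g hgm hgl hgi hnull
  have hG0 : 0 ≤ ∫ x, g x ^ 2 / pweight n x :=
    integral_nonneg fun x => div_nonneg (sq_nonneg _) (pweight_pos x).le
  have hamgm : ∀ (x : EuclideanSpace ℝ (Fin n)) (l : ℝ), 0 < l →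
      |g x| ≤ l * (g x ^ 2 / pweight n x) + pweight n x / l := by
    intro x l hl
    have hp := pweight_pos x
    have : 0 ≤ (|g x| * l - pweight n x) ^ 2 := sq_nonneg _
    rw [mul_div_assoc', div_add_div _ _ hp.ne' hl.ne', le_div_iff₀ (mul_pos hp hl)]
    rw [sub_sq, mul_pow, sq_abs] at this
    nlinarith [mul_nonneg (abs_nonneg (g x)) (mul_pos hp hl).le]
  refine hLiou g ((∫ x, g x ^ 2 / pweight n x) + 5 ^ (n + 4) * unitVol n) hgm (fun T hT => ?_)
    fun φ hφ hφs hmean => ?_
  · have hT0 : 0 < T := by linarith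
    have hint : IntegrableOn (fun x => |g x|) (Metric.ball 0 T) :=
      ((hgl.integrableOn_isCompact (isCompact_closedBall 0 T)).mono_set
        Metric.ball_subset_closedBall).abs
    rw [← ofReal_integral_eq_lintegral_ofReal hint (Eventually.of_forall fun x => abs_nonneg _)]
    refine ENNReal.ofReal_le_ofReal ?_
    set l := T ^ ((n : ℝ) + 7 / 4) with hl
    have hl0 : 0 < l := Real.rpow_pos_of_pos hT0 _
    have hll : T ^ (n + 3) * Real.sqrt T * T ^ n = l * l := by
      rw [hl, Real.sqrt_eq_rpow, ← Real.rpow_natCast T (n + 3), ← Real.rpow_natCast T n,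
        ← Real.rpow_add hT0, ← Real.rpow_add hT0, ← Real.rpow_add hT0]
      congr 1; push_cast; ring
    have hpw : ∀ x ∈ Metric.ball (0 : EuclideanSpace ℝ (Fin n)) T,
        pweight n x ≤ 5 ^ (n + 4) * (T ^ (n + 3) * Real.sqrt T) := by
      intro x hx
      rw [mem_ball_zero_iff] at hx
      have h5 : 4 + ‖x‖ ≤ 5 * T := by linarith
      calc pweight n x ≤ (5 * T) ^ (n + 3) * (5 * Real.sqrt T) := by
            refine mul_le_mul (pow_le_pow_left₀ (by positivity) h5 _) ?_ (Real.sqrt_nonneg _)
              (by positivity)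
            refine (Real.sqrt_le_sqrt h5).trans ?_
            rw [Real.sqrt_mul (by norm_num)]
            refine mul_le_mul_of_nonneg_right ?_ (Real.sqrt_nonneg _)
            rw [Real.sqrt_le_iff]; norm_num
        _ = _ := by ring
    have hi1 : IntegrableOn (fun x => l * (g x ^ 2 / pweight n x)) (Metric.ball 0 T) :=
      hgi.integrableOn.const_mul l
    have hi2 : IntegrableOn (fun _ : EuclideanSpace ℝ (Fin n) =>
        5 ^ (n + 4) * (T ^ (n + 3) * Real.sqrt T) / l) (Metric.ball 0 T) :=
      integrableOn_const measure_ball_lt_top.ne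
    calc ∫ x in Metric.ball 0 T, |g x|
        ≤ ∫ x in Metric.ball 0 T, (l * (g x ^ 2 / pweight n x) +
            5 ^ (n + 4) * (T ^ (n + 3) * Real.sqrt T) / l) :=
          setIntegral_mono_on hint (hi1.add hi2) measurableSet_ball fun x hx =>
            (hamgm x l hl0).trans
              (add_le_add le_rfl (div_le_div_of_nonneg_right (hpw x hx) hl0.le))
      _ ≤ l * (∫ x, g x ^ 2 / pweight n x) +
          T ^ n * unitVol n * (5 ^ (n + 4) * (T ^ (n + 3) * Real.sqrt T) / l) := by
          rw [integral_add hi1 hi2, integral_const_mul, setIntegral_const, volume_real_ball _ hT0,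
            smul_eq_mul]
          exact add_le_add (mul_le_mul_of_nonneg_left (setIntegral_le_integral hgi
            (Eventually.of_forall fun x => div_nonneg (sq_nonneg _) (pweight_pos x).le)) hl0.le)
            le_rfl
      _ = _ := by
          rw [show T ^ n * unitVol n * (5 ^ (n + 4) * (T ^ (n + 3) * Real.sqrt T) / l) =
            5 ^ (n + 4) * unitVol n * (T ^ (n + 3) * Real.sqrt T * T ^ n) / l by ring, hll]
          field_simp
  · have hd : Differentiable ℝ φ := hφ.differentiable two_ne_zero
    obtain ⟨L1, hL1⟩ := ContDiff.lipschitzWith_of_hasCompactSupport hφs hφ two_ne_zero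
    obtain ⟨L2, hL2⟩ := ContDiff.lipschitzWith_of_hasCompactSupport (hφs.fderiv ℝ)
      (hφ.fderiv_right (m := 1) (by norm_num)) one_ne_zero
    obtain ⟨s, hs⟩ := hφs.exists_bound_of_continuous hφ.continuous
    have hs' : ∀ x, |φ x| ≤ s := hs
    obtain ⟨R0, hR0⟩ := hφs.isCompact.isBounded.subset_closedBall 0
    set T₀ := max R0 1
    have hT₀ : 1 ≤ T₀ := le_max_right _ _
    have hsupp : ∀ x, T₀ < ‖x‖ → φ x = 0 := fun x hx => by
      by_contra h0
      have := mem_closedBall_zero_iff.1 (hR0 (subset_tsupport _ h0))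
      linarith [le_max_left R0 1]
    set δs : ℕ → ℝ := fun k => 1 / ((k : ℝ) + 1)
    set Ts : ℕ → ℝ := fun k => (k : ℝ) + 1
    have hδ : ∀ k, 0 < δs k := fun k => by positivity
    have hT : ∀ k, 0 < Ts k := fun k => by positivity
    -- the dominating function in the step
    set bd : EuclideanSpace ℝ (Fin n) → ℝ := fun h =>
      2 * (L2 : ℝ) * (Metric.ball (0 : EuclideanSpace ℝ (Fin n)) 1).indicator
          (fun z => (‖z‖ ^ (n - 1))⁻¹) h +
        4 * s * (Metric.ball (0 : EuclideanSpace ℝ (Fin n)) 1)ᶜ.indicator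
          (fun z => (‖z‖ ^ (n + 1))⁻¹) h
    have hbdi : Integrable bd :=
      ((Holes.radial_near hn one_pos).1.const_mul _).add ((Holes.radial_far hn one_pos).1.const_mul _)
    have hbd : ∀ k x h, ‖secDiff φ x h * radCut n (δs k) (Ts k) ‖h‖‖ ≤ bd h := by
      intro k x h
      obtain ⟨r0, r1⟩ := radCut_mem n (hδ k) (Ts k) (norm_nonneg h)
      rw [Real.norm_eq_abs, abs_mul, abs_of_nonneg r0]
      refine (mul_le_mul_of_nonneg_left r1 (abs_nonneg _)).trans ?_
      by_cases hh : ‖h‖ < 1
      · have e : bd h = 2 * (L2 : ℝ) * (‖h‖ ^ (n - 1))⁻¹ := by simp [bd, hh, not_le.2 hh]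
        rw [e]
        refine (mul_le_mul_of_nonneg_right (abs_secDiff_le hd hL2 x h) (by positivity)).trans ?_
        rcases eq_or_ne h 0 with rfl | h0
        · simp; positivity
        · have := norm_pos_iff.2 h0
          obtain ⟨p, rfl⟩ : ∃ p, n = p + 1 := ⟨n - 1, by omega⟩
          rw [Nat.add_sub_cancel, pow_add ‖h‖ (p + 1) 1, pow_succ ‖h‖ p]
          exact le_of_eq (by field_simp)
      · have e : bd h = 4 * s * (‖h‖ ^ (n + 1))⁻¹ := by simp [bd, hh, not_lt.1 hh]
        rw [e]
        refine mul_le_mul_of_nonneg_right ?_ (by positivity)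
        obtain ⟨a1, a2⟩ := abs_le.1 (hs' x)
        obtain ⟨b1, b2⟩ := abs_le.1 (hs' (x + h))
        obtain ⟨c1, c2⟩ := abs_le.1 (hs' (x - h))
        rw [secDiff, abs_le]
        constructor <;> linarith
    have hcont : ∀ k, Continuous fun q : EuclideanSpace ℝ (Fin n) × EuclideanSpace ℝ (Fin n) =>
        secDiff φ q.1 q.2 * radCut n (δs k) (Ts k) ‖q.2‖ := fun k => by
      have := hφ.continuous
      refine Continuous.mul ?_ ((continuous_radCut n (hδ k) _).comp continuous_snd.norm)
      unfold secDiff; fun_prop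
    -- pointwise limit
    have hP : ∀ x, Tendsto (fun k => cutHalf n (δs k) (Ts k) φ x) atTop
        (𝓝 (∫ h, secDiff φ x h / ‖h‖ ^ (n + 1))) := by
      intro x
      refine tendsto_integral_of_dominated_convergence bd
        (fun k => ((hcont k).comp (Continuous.prodMk_right x)).aestronglyMeasurable) hbdi
        (fun k => Eventually.of_forall (hbd k x)) (Eventually.of_forall fun h => ?_)
      rcases eq_or_ne h 0 with rfl | h0
      · simp [secDiff, two_mul]
      have hpos := norm_pos_iff.2 h0
      obtain ⟨N, hN⟩ := exists_nat_gt (max ‖h‖ (2 / ‖h‖))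
      refine tendsto_const_nhds.congr' ((eventually_ge_atTop N).mono fun k hk => ?_)
      have hk' : (N : ℝ) ≤ k := Nat.cast_le.2 hk
      have h2 : 2 < ((k : ℝ) + 1) * ‖h‖ := by
        rw [← div_lt_iff₀ hpos]; linarith [le_max_right ‖h‖ (2 / ‖h‖)]
      have hc : cut (δs k) (Ts k) ‖h‖ = 1 := by
        rw [cut, ramp_eq_one (hT k) (by simp only [Ts]; linarith [le_max_left ‖h‖ (2 / ‖h‖)]),
          ramp_eq_zero (hδ k) (by
            simp only [δs]; rw [mul_one_div, div_le_iff₀ (by positivity)]; linarith)]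
        norm_num
      simp only [radCut_def n (hδ k), hc, mul_one_div]
    -- uniform decay
    set B := ∫ h, bd h
    have hB0 : 0 ≤ B := integral_nonneg fun h => (norm_nonneg _).trans (hbd 0 0 h)
    set B' := max (B * (1 + 4 * T₀) ^ (n + 2))
      (2 * (∫ z, |φ z|) * (2 * (n + 3) * T₀) * 4 ^ (n + 2))
    have hdec : ∀ k x, |cutHalf n (δs k) (Ts k) φ x| ≤ B' * ((1 + ‖x‖) ^ (n + 2))⁻¹ := by
      intro k x
      have hw : 0 < (1 + ‖x‖) ^ (n + 2) := by positivity
      rw [← div_eq_mul_inv, le_div_iff₀ hw]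
      rcases lt_or_ge ‖x‖ (4 * T₀) with hx | hx
      · refine le_max_of_le_left (mul_le_mul ?_ (pow_le_pow_left₀ (by positivity) (by linarith) _)
          hw.le hB0)
        rw [← Real.norm_eq_abs, cutHalf]
        exact norm_integral_le_of_norm_le hbdi (Eventually.of_forall (hbd k x))
      · refine le_max_of_le_right ?_
        have hx0 : φ x = 0 := hsupp x (by linarith)
        set ρ := ‖x‖ / 2
        have hρ : 0 < ρ := by simp only [ρ]; linarith
        have hcutS : ∀ r, 2 * δs k ≤ r → ρ ≤ r → radCut n (δs k) (Ts k) r =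
            farKer n (ρ / 2) r - farKer n (Ts k) r := by
          intro r hr hr'
          rw [radCut_def n (hδ k), farKer, farKer, cut, ramp_eq_zero (hδ k) hr,
            ramp_eq_zero (half_pos hρ) (by linarith)]
          ring
        have hδ1 : δs k ≤ 1 := by
          rw [div_le_one (by positivity)]; linarith [Nat.cast_nonneg (α := ℝ) k]
        have hzero : ∫ z, φ z * radCut n (δs k) (Ts k) ‖x‖ = 0 := by
          rw [integral_mul_const, hmean, zero_mul]
        have hi1 : Integrable fun z => φ z * radCut n (δs k) (Ts k) ‖x - z‖ :=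
          (hφ.continuous.mul ((continuous_radCut n (hδ k) _).comp
            (continuous_const.sub continuous_id).norm)).integrable_of_hasCompactSupport hφs.mul_right
        have hi0 : Integrable φ := hφ.continuous.integrable_of_hasCompactSupport hφs
        have hpt : ∀ z, |φ z * radCut n (δs k) (Ts k) ‖x - z‖ -
            φ z * radCut n (δs k) (Ts k) ‖x‖| ≤
            |φ z| * (2 * (n + 3) * T₀ / ρ ^ (n + 2)) := by
          intro z
          rw [← mul_sub, abs_mul]
          by_cases hz : T₀ < ‖z‖
          · rw [hsupp z hz, abs_zero, zero_mul, zero_mul]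
          refine mul_le_mul_of_nonneg_left ?_ (abs_nonneg _)
          have hrx : ρ ≤ ‖x‖ := by simp only [ρ]; linarith
          have hrz : ρ ≤ ‖x - z‖ := by
            simp only [ρ]; linarith [norm_sub_norm_le x z, not_lt.1 hz]
          have hρ2 : 2 * δs k ≤ ρ := by simp only [ρ]; linarith
          rw [hcutS _ (hρ2.trans hrz) hrz, hcutS _ (hρ2.trans hrx) hrx]
          have f1 := abs_farKer_sub_le n (half_pos hρ) hρ hrz hrx
          have f2 := abs_farKer_sub_le n (hT k) hρ hrz hrx
          have hd' : |‖x - z‖ - ‖x‖| ≤ T₀ := by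
            refine (abs_norm_sub_norm_le _ _).trans ?_
            rw [sub_sub_cancel_left, norm_neg]; exact not_lt.1 hz
          have f3 : (n + 3) * |‖x - z‖ - ‖x‖| / ρ ^ (n + 2) ≤ (n + 3) * T₀ / ρ ^ (n + 2) := by
            gcongr
          obtain ⟨p1, p2⟩ := abs_le.1 (f1.trans f3)
          obtain ⟨q1, q2⟩ := abs_le.1 (f2.trans f3)
          have e : 2 * ((n : ℝ) + 3) * T₀ / ρ ^ (n + 2) = 2 * ((n + 3) * T₀ / ρ ^ (n + 2)) := by ring
          rw [e, abs_le]
          constructor <;> linarith
        have key : |cutHalf n (δs k) (Ts k) φ x| ≤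
            2 * ((∫ z, |φ z|) * (2 * (n + 3) * T₀ / ρ ^ (n + 2))) := by
          rw [cutHalf_eq hφ.continuous (hδ k) (hT k) x]
          simp only [hx0, zero_sub, neg_mul, integral_neg]
          rw [mul_neg, abs_neg, abs_mul, abs_two]
          refine mul_le_mul_of_nonneg_left ?_ two_pos.le
          rw [← sub_zero (∫ z, φ z * radCut n (δs k) (Ts k) ‖x - z‖), ← hzero,
            ← integral_sub hi1 (hi0.mul_const _), ← integral_mul_const, ← Real.norm_eq_abs]
          exact norm_integral_le_of_norm_le (hi0.abs.mul_const _) (Eventually.of_forall hpt)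
        refine (mul_le_mul key (pow_le_pow_left₀ (by positivity)
          (show 1 + ‖x‖ ≤ 4 * ρ by simp only [ρ]; linarith) _) hw.le
          (by have : 0 ≤ ∫ z, |φ z| := integral_nonneg fun z => abs_nonneg _
              positivity)).trans (le_of_eq ?_)
        rw [mul_pow]
        field_simp
    -- the dominating function outside
    have hgw : Integrable fun x => B' * (|g x| * ((1 + ‖x‖) ^ (n + 2))⁻¹) := by
      refine Integrable.const_mul ?_ B'
      have hr : Integrable fun x : EuclideanSpace ℝ (Fin n) =>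
          4 ^ (n + 4) * (1 + ‖x‖) ^ (-((n : ℝ) + 1 / 2)) :=
        (integrable_one_add_norm (by rw [finrank_euclideanSpace_fin]; linarith)).const_mul _
      refine (hgi.add hr).mono' (Measurable.aestronglyMeasurable (by fun_prop))
        (Eventually.of_forall fun x => ?_)
      set w := (1 + ‖x‖) ^ (n + 2)
      have hw : 0 < w := by positivity
      rw [Real.norm_eq_abs, abs_of_nonneg (by positivity), Pi.add_apply]
      refine (mul_le_mul_of_nonneg_right (hamgm x w hw) (by positivity)).trans (le_of_eq_of_le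
        (show (w * (g x ^ 2 / pweight n x) + pweight n x / w) * w⁻¹ =
          g x ^ 2 / pweight n x + pweight n x / (w * w) by field_simp) (add_le_add le_rfl ?_))
      have h1 : 0 < 1 + ‖x‖ := by positivity
      have h4 : 4 + ‖x‖ ≤ 4 * (1 + ‖x‖) := by linarith [norm_nonneg x]
      have hp : pweight n x ≤ 4 ^ (n + 4) * ((1 + ‖x‖) ^ (n + 3) * Real.sqrt (1 + ‖x‖)) := by
        calc pweight n x ≤ (4 * (1 + ‖x‖)) ^ (n + 3) * (4 * Real.sqrt (1 + ‖x‖)) := by
              refine mul_le_mul (pow_le_pow_left₀ (by positivity) h4 _) ?_ (Real.sqrt_nonneg _)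
                (by positivity)
              refine (Real.sqrt_le_sqrt h4).trans ?_
              rw [Real.sqrt_mul (by norm_num)]
              refine mul_le_mul_of_nonneg_right ?_ (Real.sqrt_nonneg _)
              rw [Real.sqrt_le_iff]; norm_num
          _ = _ := by rw [mul_pow, pow_succ (4 : ℝ) (n + 3)]; ring
      rw [div_le_iff₀ (mul_pos hw hw)]
      refine hp.trans (le_of_eq ?_)
      rw [mul_assoc]
      congr 1
      simp only [w]
      rw [Real.sqrt_eq_rpow, ← Real.rpow_natCast (1 + ‖x‖) (n + 3),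
        ← Real.rpow_natCast (1 + ‖x‖) (n + 2), ← Real.rpow_add h1, ← Real.rpow_add h1,
        ← Real.rpow_add h1]
      congr 1; push_cast; ring
    have hlim : Tendsto (fun k => ∫ x, g x * cutHalf n (δs k) (Ts k) φ x) atTop
        (𝓝 (∫ x, g x * ∫ h, secDiff φ x h / ‖h‖ ^ (n + 1))) := by
      refine tendsto_integral_of_dominated_convergence
        (fun x => B' * (|g x| * ((1 + ‖x‖) ^ (n + 2))⁻¹)) (fun k => ?_) hgw
        (fun k => Eventually.of_forall fun x => ?_)
        (Eventually.of_forall fun x => (hP x).const_mul (g x))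
      · exact hgm.aestronglyMeasurable.mul
          ((hcont k).stronglyMeasurable.integral_prod_right').aestronglyMeasurable
      · rw [Real.norm_eq_abs, abs_mul, mul_left_comm]
        exact mul_le_mul_of_nonneg_left (hdec k x) (abs_nonneg _)
    have h0 := hnull φ L1 hL1 hφs hmean
    rw [funext fun k : ℕ => normalForm_eq (g := g) hφ.continuous (δ := 1 / ((k : ℝ) + 1))
      (T := (k : ℝ) + 1) (by positivity) (by positivity)] at h0
    exact tendsto_nhds_unique hlim h0

end

end Vale.Agent.P120.Full
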