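import Mathlib
import Vale.Agent.P120.Full.Defs
import Vale.Agent.P120.Full.Pair

/-!
# P120, full answer: the blow-up sequence in adapted coordinates
-/

namespace Vale.Agent.P120.Full

open MeasureTheory Set Filter
open scoped Topology RealInnerProductSpace ENNReal

noncomputable section

variable {E : Type*} [NormedAddCommGroup E] [InnerProductSpace ℝ E] {n m : ℕ}

/-- The coordinates along the plane. -/
def proj (b : OrthonormalBasis (Fin n ⊕ Fin m) ℝ E) (y : E) : EuclideanSpace ℝ (Fin n) :=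
  WithLp.toLp 2 fun a => ⟪b (Sum.inl a), y⟫

/-- The coordinates across the plane. -/
def across (b : OrthonormalBasis (Fin n ⊕ Fin m) ℝ E) (y : E) : EuclideanSpace ℝ (Fin m) :=
  WithLp.toLp 2 fun a => ⟪b (Sum.inr a), y⟫

/-- The height over the plane with offset `o`. -/
def height (b : OrthonormalBasis (Fin n ⊕ Fin m) ℝ E) (o : EuclideanSpace ℝ (Fin m)) (y : E) :
    EuclideanSpace ℝ (Fin m) :=
  across b y - o

lemma proj_sub (b : OrthonormalBasis (Fin n ⊕ Fin m) ℝ E) (x y : E) :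
    proj b (x - y) = proj b x - proj b y := by
  ext a; simp [proj, inner_sub_right]

lemma across_sub (b : OrthonormalBasis (Fin n ⊕ Fin m) ℝ E) (x y : E) :
    across b (x - y) = across b x - across b y := by
  ext a; simp [across, inner_sub_right]

lemma height_sub_height (b : OrthonormalBasis (Fin n ⊕ Fin m) ℝ E) (o : EuclideanSpace ℝ (Fin m))
    (x y : E) : height b o x - height b o y = across b (x - y) := by
  rw [across_sub, height, height]; abel

lemma norm_sq_split (b : OrthonormalBasis (Fin n ⊕ Fin m) ℝ E) (y : E) :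
    ‖y‖ ^ 2 = ‖proj b y‖ ^ 2 + ‖across b y‖ ^ 2 := by
  rw [← b.repr.norm_map y, EuclideanSpace.norm_sq_eq, EuclideanSpace.norm_sq_eq,
    EuclideanSpace.norm_sq_eq, Fintype.sum_sum_type]
  simp [proj, across, b.repr_apply_apply]

lemma norm_proj_le (b : OrthonormalBasis (Fin n ⊕ Fin m) ℝ E) (y : E) : ‖proj b y‖ ≤ ‖y‖ := by
  refine (sq_le_sq₀ (norm_nonneg _) (norm_nonneg _)).1 ?_
  rw [norm_sq_split b y]
  exact le_add_of_nonneg_right (sq_nonneg _)

lemma norm_across_le (b : OrthonormalBasis (Fin n ⊕ Fin m) ℝ E) (y : E) :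
    ‖across b y‖ ≤ ‖y‖ := by
  refine (sq_le_sq₀ (norm_nonneg _) (norm_nonneg _)).1 ?_
  rw [norm_sq_split b y]
  exact le_add_of_nonneg_left (sq_nonneg _)

lemma norm_le_proj_add_across (b : OrthonormalBasis (Fin n ⊕ Fin m) ℝ E) (y : E) :
    ‖y‖ ≤ ‖proj b y‖ + ‖across b y‖ := by
  refine (sq_le_sq₀ (norm_nonneg _) (by positivity)).1 ?_
  rw [norm_sq_split b y, add_sq]
  nlinarith [mul_nonneg (norm_nonneg (proj b y)) (norm_nonneg (across b y))]

lemma dist_proj_le (b : OrthonormalBasis (Fin n ⊕ Fin m) ℝ E) (x y : E) :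
    dist (proj b x) (proj b y) ≤ dist x y := by
  rw [dist_eq_norm, dist_eq_norm, ← proj_sub]; exact norm_proj_le b _

lemma dist_height_le (b : OrthonormalBasis (Fin n ⊕ Fin m) ℝ E) (o : EuclideanSpace ℝ (Fin m))
    (x y : E) : dist (height b o x) (height b o y) ≤ dist x y := by
  rw [dist_eq_norm, dist_eq_norm, height_sub_height]; exact norm_across_le b _

lemma lipschitzWith_proj (b : OrthonormalBasis (Fin n ⊕ Fin m) ℝ E) : LipschitzWith 1 (proj b) :=
  LipschitzWith.of_dist_le_mul fun x y => by rw [NNReal.coe_one, one_mul]; exact dist_proj_le b x y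

lemma lipschitzWith_height (b : OrthonormalBasis (Fin n ⊕ Fin m) ℝ E)
    (o : EuclideanSpace ℝ (Fin m)) : LipschitzWith 1 (height b o) :=
  LipschitzWith.of_dist_le_mul fun x y => by
    rw [NNReal.coe_one, one_mul]; exact dist_height_le b o x y

lemma norm_le_proj_add_height (b : OrthonormalBasis (Fin n ⊕ Fin m) ℝ E)
    (o : EuclideanSpace ℝ (Fin m)) (y : E) : ‖y‖ ≤ ‖proj b y‖ + ‖height b o y‖ + ‖o‖ := by
  have h := norm_add_le (height b o y) o
  rw [height, sub_add_cancel] at h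
  rw [height]
  linarith [norm_le_proj_add_across b y]

/-- The weight controlling the heights at infinity. -/
def weight {X : Type*} [SeminormedAddCommGroup X] (n : ℕ) (x : X) : ℝ :=
  (1 + ‖x‖) ^ (n + 3) * Real.sqrt (1 + ‖x‖)

lemma weight_pos {X : Type*} [SeminormedAddCommGroup X] (n : ℕ) (x : X) : 0 < weight n x := by
  have : (0 : ℝ) < 1 + ‖x‖ := by positivity
  exact mul_pos (pow_pos this _) (Real.sqrt_pos.2 this)

lemma continuous_weight {X : Type*} [SeminormedAddCommGroup X] (n : ℕ) :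
    Continuous (weight n : X → ℝ) := by
  unfold weight; fun_prop

variable [MeasurableSpace E] [BorelSpace E] [FiniteDimensional ℝ E]

/-- A blow-up sequence: planes with frames `b i`, offsets `o i`, size `B i` of the heights. -/
structure Flattening (U : Ultrafilter ℕ) (ν : ℕ → Measure E)
    (b : ℕ → OrthonormalBasis (Fin n ⊕ Fin m) ℝ E) (o : ℕ → EuclideanSpace ℝ (Fin m))
    (B : ℕ → ℝ) (C K : ℝ) : Prop where
  finite : ∀ i, IsFiniteMeasure (ν i)
  one_le : 1 ≤ C
  nonneg : 0 ≤ K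
  growth : ∀ i z t, 0 < t → (ν i).real (Metric.ball z t) ≤ C * t ^ n
  zero_mem : ∀ i, (0 : E) ∈ (ν i).support
  lower : ∀ T : ℝ, ∀ᶠ i in (U : Filter ℕ), ∀ y ∈ (ν i).support, ‖y‖ < T → ∀ t, 0 < t → t ≤ T →
    C⁻¹ * t ^ n ≤ (ν i).real (Metric.ball y t)
  B_pos : ∀ i, 0 < B i
  B_small : Tendsto B U (𝓝 0)
  heightGrowth : ∀ i T, 1 ≤ T →
    ∫ y in Metric.ball 0 T, ‖height (b i) (o i) y‖ ^ 2 ∂ν i ≤ K * B i ^ 2 * T ^ (n + 3)
  energy : ∀ T : ℝ, ∃ K' : ℝ, ∀ᶠ i in (U : Filter ℕ),
    ∫ q in Metric.ball (0 : E) T ×ˢ Metric.ball (0 : E) T,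
      ‖across (b i) (q.1 - q.2)‖ ^ 2 / dist q.1 q.2 ^ (n + 1) ∂((ν i).prod (ν i)) ≤ K' * B i ^ 2
  pairing : ∀ (T : ℝ) (L : NNReal) (ε : ℝ), 0 < ε → ∀ᶠ i in (U : Filter ℕ), ∀ φ : E → E,
    LipschitzWith L φ → (∀ y, T ≤ ‖y‖ → φ y = 0) → ∫ y, φ y ∂ν i = 0 →
      |pair n (ν i) φ| ≤ ε * B i

variable {U : Ultrafilter ℕ} {ν : ℕ → Measure E}
  {b : ℕ → OrthonormalBasis (Fin n ⊕ Fin m) ℝ E} {o : ℕ → EuclideanSpace ℝ (Fin m)}
  {B : ℕ → ℝ} {C K : ℝ}

lemma integrableOn_height_sq (h : Flattening U ν b o B C K) (i : ℕ) (T : ℝ) :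
    IntegrableOn (fun y => ‖height (b i) (o i) y‖ ^ 2) (Metric.ball 0 T) (ν i) := by
  have := h.finite i
  refine (((lipschitzWith_height (b i) (o i)).continuous.norm.pow 2).continuousOn
    |>.integrableOn_compact (isCompact_closedBall (0 : E) T)).mono_set Metric.ball_subset_closedBall

/-- On bounded parts the support flattens. -/
lemma Flattening.sup_height (h : Flattening U ν b o B C K) (T : ℝ) {ε : ℝ} (hε : 0 < ε) :
    ∀ᶠ i in (U : Filter ℕ), ∀ y ∈ (ν i).support, ‖y‖ < T → ‖height (b i) (o i) y‖ ≤ ε := by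
  set T' := max T 0 + ε + 1
  have hT1 : 1 ≤ T' := by linarith [le_max_right T 0]
  have hC : 0 < C := lt_of_lt_of_le one_pos h.one_le
  have hlim : Tendsto (fun i => K * B i ^ 2 * T' ^ (n + 3)) U (𝓝 0) := by
    simpa using ((h.B_small.pow 2).const_mul K).mul_const (T' ^ (n + 3))
  filter_upwards [h.lower T', hlim.eventually_lt_const
    (show 0 < (ε / 2) ^ 2 * (C⁻¹ * (ε / 2) ^ n) by positivity)] with i hlow hsmall y hy hyT
  by_contra hcon
  rw [not_le] at hcon
  have hsub : Metric.ball y (ε / 2) ⊆ Metric.ball 0 T' := fun x hx => by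
    rw [Metric.mem_ball] at hx
    rw [Metric.mem_ball, dist_zero_right]
    have := norm_le_insert' x y
    rw [← dist_eq_norm] at this
    linarith [le_max_left T 0]
  have h1 : ∀ x ∈ Metric.ball y (ε / 2), (ε / 2) ^ 2 ≤ ‖height (b i) (o i) x‖ ^ 2 := fun x hx => by
    refine pow_le_pow_left₀ (by positivity) ?_ 2
    rw [Metric.mem_ball, dist_comm] at hx
    have := norm_le_insert' (height (b i) (o i) y) (height (b i) (o i) x)
    rw [← dist_eq_norm] at this
    linarith [dist_height_le (b i) (o i) y x]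
  have := h.finite i
  have h2 : (ε / 2) ^ 2 * (ν i).real (Metric.ball y (ε / 2)) ≤
      ∫ x in Metric.ball 0 T', ‖height (b i) (o i) x‖ ^ 2 ∂ν i := by
    calc (ε / 2) ^ 2 * (ν i).real (Metric.ball y (ε / 2))
        = ∫ _ in Metric.ball y (ε / 2), (ε / 2) ^ 2 ∂ν i := by
          rw [setIntegral_const, smul_eq_mul, mul_comm]
      _ ≤ ∫ x in Metric.ball y (ε / 2), ‖height (b i) (o i) x‖ ^ 2 ∂ν i :=
          setIntegral_mono_on (integrable_const _).integrableOn
            ((integrableOn_height_sq h i T').mono_set hsub) measurableSet_ball h1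
      _ ≤ _ := setIntegral_mono_set (integrableOn_height_sq h i T')
          (Eventually.of_forall fun x => by simp only [Pi.zero_apply]; positivity)
          hsub.eventuallyLE
  have h3 := mul_le_mul_of_nonneg_left
    (hlow y hy (by linarith [le_max_left T 0]) (ε / 2) (by positivity)
      (by linarith [le_max_right T 0])) (sq_nonneg (ε / 2))
  linarith [h.heightGrowth i T' hT1]

/-- The offsets tend to zero. -/
lemma Flattening.offset_small (h : Flattening U ν b o B C K) {ε : ℝ} (hε : 0 < ε) :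
    ∀ᶠ i in (U : Filter ℕ), ‖o i‖ ≤ ε := by
  filter_upwards [h.sup_height 1 hε] with i hi
  have h0 := hi 0 (h.zero_mem i) (by simp)
  have : across (b i) (0 : E) = 0 := by ext a; simp [across]
  rwa [height, this, zero_sub, norm_neg] at h0

/-- The cutoff in the height. -/
def chi (b : OrthonormalBasis (Fin n ⊕ Fin m) ℝ E) (o : EuclideanSpace ℝ (Fin m)) (y : E) : ℝ :=
  max 0 (min 1 (2 - ‖height b o y‖))

omit [MeasurableSpace E] [BorelSpace E] [FiniteDimensional ℝ E] in
lemma chi_mem (b : OrthonormalBasis (Fin n ⊕ Fin m) ℝ E) (o : EuclideanSpace ℝ (Fin m)) (y : E) :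
    0 ≤ chi b o y ∧ chi b o y ≤ 1 :=
  ⟨le_max_left _ _, max_le zero_le_one (min_le_left _ _)⟩

omit [MeasurableSpace E] [BorelSpace E] [FiniteDimensional ℝ E] in
lemma lipschitzWith_chi (b : OrthonormalBasis (Fin n ⊕ Fin m) ℝ E)
    (o : EuclideanSpace ℝ (Fin m)) : LipschitzWith 1 (chi b o) := by
  refine LipschitzWith.const_max (LipschitzWith.const_min ?_ 1) 0
  refine LipschitzWith.of_dist_le_mul fun x y => ?_
  rw [NNReal.coe_one, one_mul, Real.dist_eq,
    show 2 - ‖height b o x‖ - (2 - ‖height b o y‖) = ‖height b o y‖ - ‖height b o x‖ by ring]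
  refine (abs_norm_sub_norm_le _ _).trans ?_
  rw [← dist_eq_norm, dist_comm x y]
  exact dist_height_le b o y x

omit [MeasurableSpace E] [BorelSpace E] [FiniteDimensional ℝ E] in
lemma norm_le_of_chi_ne {b : OrthonormalBasis (Fin n ⊕ Fin m) ℝ E}
    {o : EuclideanSpace ℝ (Fin m)} {y : E} (h : chi b o y ≠ 0) (ho : ‖o‖ ≤ 1) :
    ‖y‖ ≤ ‖proj b y‖ + 3 := by
  have h1 : ‖height b o y‖ ≤ 2 := by
    by_contra h0
    exact h (max_eq_left ((min_le_right _ _).trans (by linarith [not_le.1 h0])))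
  linarith [norm_le_proj_add_height b o y]

/-- On a bounded cylinder the cutoff is one at the support, which is uniformly near the plane. -/
lemma Flattening.cylinder (h : Flattening U ν b o B C K) (T : ℝ) {ε : ℝ} (hε : 0 < ε) :
    ∀ᶠ i in (U : Filter ℕ), ∀ y ∈ (ν i).support, chi (b i) (o i) y ≠ 0 →
      ‖proj (b i) y‖ < T → ‖y‖ < T + 3 ∧ chi (b i) (o i) y = 1 ∧
        ‖height (b i) (o i) y‖ ≤ ε := by
  filter_upwards [h.sup_height (T + 3) (lt_min hε one_pos), h.offset_small one_pos]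
    with i hi ho y hy hc hT
  have h1 := norm_le_of_chi_ne hc ho
  have h2 := hi y hy (by linarith)
  refine ⟨by linarith, ?_, h2.trans (min_le_left _ _)⟩
  have := h2.trans (min_le_right _ _)
  rw [chi, min_eq_left (by linarith), max_eq_right zero_le_one]

/-- The sum of the weights over the dyadic balls. -/
def weightConst (n : ℕ) : ℝ := 2 ^ (n + 3) * Real.sqrt 2 * (1 - 1 / Real.sqrt 2)⁻¹

/-- The weighted height bound. -/
lemma Flattening.weighted_height (h : Flattening U ν b o B C K) (i : ℕ) :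
    Integrable (fun y => ‖height (b i) (o i) y‖ ^ 2 / weight n y) (ν i) ∧
      ∫ y, ‖height (b i) (o i) y‖ ^ 2 / weight n y ∂ν i ≤ weightConst n * K * B i ^ 2 := by
  have := h.finite i
  set H := fun y => ‖height (b i) (o i) y‖
  have hHc : Continuous H := (lipschitzWith_height (b i) (o i)).continuous.norm
  have hint : Integrable (fun y => H y ^ 2 / weight n y) (ν i) := by
    refine Integrable.of_bound ((hHc.pow 2).div (continuous_weight n)
      fun y => (weight_pos n y).ne').aestronglyMeasurable ((1 + ‖o i‖) ^ 2)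
      (Eventually.of_forall fun y => ?_)
    rw [Real.norm_eq_abs, abs_of_nonneg (div_nonneg (sq_nonneg _) (weight_pos n y).le),
      div_le_iff₀ (weight_pos n y), weight]
    have h0 : (1 : ℝ) ≤ 1 + ‖y‖ := by linarith [norm_nonneg y]
    have h1 : H y ≤ (1 + ‖o i‖) * (1 + ‖y‖) := by
      refine (norm_sub_le _ _).trans ?_
      nlinarith [norm_across_le (b i) y, norm_nonneg y, norm_nonneg (o i)]
    calc H y ^ 2 ≤ ((1 + ‖o i‖) * (1 + ‖y‖)) ^ 2 := pow_le_pow_left₀ (norm_nonneg _) h1 2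
      _ = (1 + ‖o i‖) ^ 2 * ((1 + ‖y‖) ^ 2 * 1) := by ring
      _ ≤ _ := by
          refine mul_le_mul_of_nonneg_left (mul_le_mul (pow_le_pow_right₀ h0 (by omega))
            (Real.one_le_sqrt.2 h0) zero_le_one (by positivity)) (by positivity)
  refine ⟨hint, ?_⟩
  set q := 1 / Real.sqrt 2 with hq
  have hs2 : (1 : ℝ) < Real.sqrt 2 := Real.lt_sqrt_of_sq_lt (by norm_num)
  have hq0 : 0 ≤ q := by positivity
  have hq1 : q < 1 := by rw [hq, div_lt_one (by positivity)]; exact hs2
  set c : ℕ → ℝ := fun j => (((2 : ℝ) ^ j / 2) ^ (n + 3) * Real.sqrt (2 ^ j / 2))⁻¹ with hc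
  have hcj : ∀ j, c j * ((2 : ℝ) ^ j) ^ (n + 3) = 2 ^ (n + 3) * Real.sqrt 2 * q ^ j := by
    intro j
    simp only [hc, hq]
    rw [Real.sqrt_div' _ zero_le_two, div_pow (2 ^ j : ℝ) 2,
      show Real.sqrt ((2 : ℝ) ^ j) = Real.sqrt 2 ^ j by
        rw [← Real.sqrt_sq (show 0 ≤ Real.sqrt 2 ^ j by positivity), ← pow_mul, mul_comm, pow_mul,
          Real.sq_sqrt zero_le_two]]
    rw [one_div, inv_pow]
    field_simp
  have hpt : ∀ N : ℕ, ∀ y, (Metric.ball (0 : E) (2 ^ N)).indicator
      (fun y => H y ^ 2 / weight n y) y ≤ ∑ j ∈ Finset.range (N + 1),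
        c j * (Metric.ball (0 : E) (2 ^ j)).indicator (fun y => H y ^ 2) y := by
    intro N y
    have hpos : ∀ j, 0 ≤ c j * (Metric.ball (0 : E) (2 ^ j)).indicator (fun y => H y ^ 2) y :=
      fun j => mul_nonneg (by simp only [hc]; positivity)
        (indicator_nonneg (fun y _ => sq_nonneg _) y)
    by_cases hy : y ∈ Metric.ball (0 : E) (2 ^ N)
    swap
    · rw [indicator_of_notMem hy]; exact Finset.sum_nonneg fun j _ => hpos j
    rw [indicator_of_mem hy]
    have hex : ∃ j : ℕ, ‖y‖ < 2 ^ j := ⟨N, mem_ball_zero_iff.1 hy⟩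
    set j := Nat.find hex
    have hj : ‖y‖ < 2 ^ j := Nat.find_spec hex
    have hjN : j ≤ N := Nat.find_min' hex (mem_ball_zero_iff.1 hy)
    refine le_trans ?_ (Finset.single_le_sum (fun j _ => hpos j)
      (Finset.mem_range.2 (Nat.lt_succ_of_le hjN)))
    rw [indicator_of_mem (mem_ball_zero_iff.2 hj), hc, inv_mul_eq_div]
    refine div_le_div_of_nonneg_left (sq_nonneg _) (by positivity) ?_
    have hlow : (2 : ℝ) ^ j / 2 ≤ 1 + ‖y‖ := by
      rcases Nat.eq_zero_or_pos j with h0 | h0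
      · rw [h0, pow_zero]; linarith [norm_nonneg y]
      · have h1 := not_lt.1 (Nat.find_min hex (show j - 1 < j by omega))
        rw [show (2 : ℝ) ^ j / 2 = 2 ^ (j - 1) by
          rw [div_eq_iff two_ne_zero, ← pow_succ, Nat.sub_add_cancel h0]]
        linarith
    exact mul_le_mul (pow_le_pow_left₀ (by positivity) hlow _) (Real.sqrt_le_sqrt hlow)
      (Real.sqrt_nonneg _) (by positivity)
  have hN : ∀ N : ℕ, ∫ y in Metric.ball (0 : E) (2 ^ N), H y ^ 2 / weight n y ∂ν i ≤
      weightConst n * K * B i ^ 2 := by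
    intro N
    rw [← integral_indicator measurableSet_ball]
    have hi : ∀ j : ℕ, Integrable (fun y => c j * (Metric.ball (0 : E) (2 ^ j)).indicator
        (fun y => H y ^ 2) y) (ν i) := fun j =>
      ((integrableOn_height_sq h i _).integrable_indicator measurableSet_ball).const_mul _
    refine (integral_mono (hint.indicator measurableSet_ball) (integrable_finsetSum _ fun j _ => hi j)
      (hpt N)).trans ?_
    rw [integral_finsetSum _ fun j _ => hi j]
    have hg : ∑ j ∈ Finset.range (N + 1), q ^ j ≤ (1 - q)⁻¹ := by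
      rw [← tsum_geometric_of_lt_one hq0 hq1]
      exact (summable_geometric_of_lt_one hq0 hq1).sum_le_tsum _ fun _ _ => pow_nonneg hq0 _
    refine (Finset.sum_le_sum fun j _ => ?_).trans (show ∑ j ∈ Finset.range (N + 1),
      2 ^ (n + 3) * Real.sqrt 2 * q ^ j * (K * B i ^ 2) ≤ _ from ?_)
    · rw [integral_const_mul, integral_indicator measurableSet_ball]
      refine (mul_le_mul_of_nonneg_left (h.heightGrowth i _ (one_le_pow₀ one_le_two))
        (by simp only [hc]; positivity)).trans (le_of_eq ?_)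
      rw [← hcj]; ring
    · have hK := h.nonneg
      rw [← Finset.sum_mul, ← Finset.mul_sum, weightConst, ← hq]
      calc _ ≤ 2 ^ (n + 3) * Real.sqrt 2 * (1 - q)⁻¹ * (K * B i ^ 2) :=
            mul_le_mul_of_nonneg_right (mul_le_mul_of_nonneg_left hg (by positivity)) (by positivity)
        _ = _ := by ring
  have hu : ⋃ N : ℕ, Metric.ball (0 : E) (2 ^ N) = univ := eq_univ_of_forall fun y => by
    obtain ⟨N, hN⟩ := pow_unbounded_of_one_lt ‖y‖ (one_lt_two (α := ℝ))
    exact mem_iUnion.2 ⟨N, mem_ball_zero_iff.2 hN⟩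
  have hlim := tendsto_setIntegral_of_monotone (μ := ν i) (f := fun y => H y ^ 2 / weight n y)
    (fun N : ℕ => measurableSet_ball)
    (fun N N' h => Metric.ball_subset_ball (pow_le_pow_right₀ one_le_two h))
    (by rw [hu]; exact hint.integrableOn)
  rw [hu, setIntegral_univ] at hlim
  exact le_of_tendsto' hlim hN

end

end Vale.Agent.P120.Full
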