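import Vale.Agent.P120.Full.Defs
import Vale.Agent.P120.Full.Interfaces
import Vale.Agent.P120.Full.DecayFlat

/-!
# P120, full answer: statements of the reduction of `Decay` to a blow-up sequence
-/

namespace Vale.Agent.P120.Full

open MeasureTheory Set Filter
open scoped Topology

noncomputable section

variable (E : Type*) [NormedAddCommGroup E] [InnerProductSpace ℝ E] [MeasurableSpace E]
  [BorelSpace E] [FiniteDimensional ℝ E]

/-- A chain of centres as in `Decay`, normalised to centre zero and scale one at the last level. -/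
def NormalChain (n : ℕ) (C A : ℝ) (ν : Measure E) (x₀ : E) (R : ℝ) (c : ℕ → E) (j₀ k : ℕ) : Prop :=
  Nice n C A ν x₀ R ∧ j₀ ≤ k ∧
    (∀ j, j₀ ≤ j → j ≤ k + 1 → c j ∈ ν.support ∧ dist (c j) x₀ ≤ R / 8) ∧
    (∀ j, j₀ ≤ j → j ≤ k → dist (c (j + 1)) (c j) ≤ 2 * scale R j) ∧
    c k = 0 ∧ scale R k = 1

/-- `Decay` for normalised chains. -/
def DecayNormal (n : ℕ) : Prop :=
  ∀ C A δ : ℝ, 1 ≤ C → 0 ≤ A → 0 < δ → ∃ ε₀ K : ℝ, 0 < ε₀ ∧
    ∀ (ν : Measure E) (x₀ : E) (R : ℝ) (c : ℕ → E) (j₀ k : ℕ),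
      NormalChain E n C A ν x₀ R c j₀ k → bHat n ν R c j₀ k ≤ ε₀ →
        beta n ν (c (k + 1)) (scale R (k + 1)) ≤
          δ * bHat n ν R c j₀ k + K * eHat n ν R c j₀ k

/-- Scale invariance reduces `Decay` to normalised chains. -/
def RescaleStatement (n : ℕ) : Prop := DecayNormal E n → Decay E n

/-- A normalised sequence with small flatness and negligible coefficients is a flattening. -/
def BuildStatement (n : ℕ) : Prop :=
  ∀ (C A : ℝ), 1 ≤ C → 0 ≤ A →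
    ∀ (U : Ultrafilter ℕ) (ν : ℕ → Measure E) (x₀ : ℕ → E) (R : ℕ → ℝ) (c : ℕ → ℕ → E)
      (j₀ k : ℕ → ℕ),
      (∀ i, NormalChain E n C A (ν i) (x₀ i) (R i) (c i) (j₀ i) (k i)) →
      Tendsto (fun i => bHat n (ν i) (R i) (c i) (j₀ i) (k i)) U (𝓝 0) →
      (∀ ε : ℝ, 0 < ε → ∀ᶠ i in (U : Filter ℕ), eHat n (ν i) (R i) (c i) (j₀ i) (k i) ≤
        ε * bHat n (ν i) (R i) (c i) (j₀ i) (k i)) →
      ∃ (m : ℕ) (b : ℕ → OrthonormalBasis (Fin n ⊕ Fin m) ℝ E)
        (o : ℕ → EuclideanSpace ℝ (Fin m)) (C' K : ℝ),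
        Flattening U ν b o (fun i => bHat n (ν i) (R i) (c i) (j₀ i) (k i)) C' K

end

end Vale.Agent.P120.Full
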