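import Mathlib
import Vale.Agent.P120.Full.DecayBuild0
import Vale.Agent.P120.Full.Pair

/-!
# P120, full answer: scale invariance of the hypotheses of `Decay`
-/

namespace Vale.Agent.P120.Full

open MeasureTheory Set Filter
open scoped Topology RealInnerProductSpace ENNReal

noncomputable section

variable {E : Type*} [NormedAddCommGroup E] [InnerProductSpace ℝ E] [MeasurableSpace E]
  [BorelSpace E] {n : ℕ}

/-- The change of variables `y ↦ (y - a) / l`. -/
def blowMap (a : E) (l : ℝ) (y : E) : E := l⁻¹ • (y - a)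

/-- The inverse change of variables. -/
def blowInv (a : E) (l : ℝ) (y : E) : E := a + l • y

/-- The measure seen at position `a` and scale `l`. -/
def blowUp (n : ℕ) (a : E) (l : ℝ) (ν : Measure E) : Measure E :=
  ENNReal.ofReal (l ^ n)⁻¹ • ν.map (blowMap a l)

variable {a : E} {l : ℝ}

omit [MeasurableSpace E] [BorelSpace E] in
lemma blowMap_inv (hl : l ≠ 0) (y : E) : blowMap a l (blowInv a l y) = y := by
  rw [blowMap, blowInv, add_sub_cancel_left, inv_smul_smul₀ hl]

omit [MeasurableSpace E] [BorelSpace E] in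
lemma blowInv_map (hl : l ≠ 0) (y : E) : blowInv a l (blowMap a l y) = y := by
  rw [blowMap, blowInv, smul_inv_smul₀ hl, add_sub_cancel]

omit [MeasurableSpace E] [BorelSpace E] in
lemma blowMap_sub (x y : E) : blowMap a l x - blowMap a l y = l⁻¹ • (x - y) := by
  rw [blowMap, blowMap, ← smul_sub, sub_sub_sub_cancel_right]

omit [MeasurableSpace E] [BorelSpace E] in
lemma dist_blowMap (hl : 0 < l) (x y : E) : dist (blowMap a l x) (blowMap a l y) = dist x y / l := by
  rw [dist_eq_norm, blowMap_sub, norm_smul, Real.norm_eq_abs, abs_of_pos (inv_pos.2 hl),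
    ← dist_eq_norm, inv_mul_eq_div]

lemma blowMap_preimage_ball (hl : 0 < l) (z : E) (t : ℝ) :
    blowMap a l ⁻¹' Metric.ball (blowMap a l z) (t / l) = Metric.ball z t := by
  ext y
  rw [mem_preimage, Metric.mem_ball, Metric.mem_ball, dist_blowMap hl, div_lt_div_iff_of_pos_right hl]

omit [MeasurableSpace E] [BorelSpace E] in
lemma kernel_inv_smul (hl : 0 < l) (v : E) :
    kernel n (l⁻¹ • v) = l ^ n • kernel n v := by
  rw [kernel, kernel, norm_smul, Real.norm_eq_abs, abs_of_pos (inv_pos.2 hl), smul_smul, smul_smul,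
    mul_pow, mul_inv, inv_pow, inv_inv]
  congr 1
  rw [pow_succ]
  field_simp

lemma lipschitzWith_blowMap (hl : 0 < l) : LipschitzWith (Real.toNNReal l⁻¹) (blowMap a l) :=
  LipschitzWith.of_dist_le_mul fun x y => by
    rw [dist_blowMap hl, Real.coe_toNNReal _ (inv_pos.2 hl).le, inv_mul_eq_div]

omit [MeasurableSpace E] [BorelSpace E] in
lemma lipschitzWith_blowInv (hl : 0 < l) : LipschitzWith (Real.toNNReal l) (blowInv a l) :=
  LipschitzWith.of_dist_le_mul fun x y => by
    rw [Real.coe_toNNReal _ hl.le, blowInv, blowInv, dist_add_left, dist_smul₀, Real.norm_eq_abs,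
      abs_of_pos hl]

variable (ν : Measure E)

lemma measurableEmbedding_blowMap (hl : 0 < l) : MeasurableEmbedding (blowMap a l) :=
  (Homeomorph.subRight a).trans (Homeomorph.smulOfNeZero l⁻¹ (inv_ne_zero hl.ne'))
    |>.measurableEmbedding

lemma blowUp_real (hl : 0 < l) (s : Set E) :
    (blowUp n a l ν).real s = ν.real (blowMap a l ⁻¹' s) / l ^ n := by
  rw [blowUp, measureReal_ennreal_smul_apply, measureReal_def,
    (measurableEmbedding_blowMap hl).map_apply, ENNReal.toReal_ofReal (by positivity),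
    ← measureReal_def, inv_mul_eq_div]

lemma integral_blowUp {G : Type*} [NormedAddCommGroup G] [NormedSpace ℝ G] (hl : 0 < l)
    (f : E → G) : ∫ y, f y ∂blowUp n a l ν = (l ^ n)⁻¹ • ∫ y, f (blowMap a l y) ∂ν := by
  rw [blowUp, integral_smul_measure, ENNReal.toReal_ofReal (by positivity),
    (measurableEmbedding_blowMap hl).integral_map]

lemma setIntegral_blowUp {G : Type*} [NormedAddCommGroup G] [NormedSpace ℝ G] (hl : 0 < l)
    (f : E → G) {s : Set E} (hs : MeasurableSet s) :
    ∫ y in s, f y ∂blowUp n a l ν = (l ^ n)⁻¹ • ∫ y in blowMap a l ⁻¹' s, f (blowMap a l y) ∂ν := by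
  have hT := (measurableEmbedding_blowMap (a := a) hl).measurable
  rw [← integral_indicator hs, integral_blowUp ν hl, ← integral_indicator (hT hs)]
  rfl

lemma support_blowUp (hl : 0 < l) (z : E) :
    blowMap a l z ∈ (blowUp n a l ν).support ↔ z ∈ ν.support := by
  have e1 : ∀ U : Set E, blowUp n a l ν U =
      ENNReal.ofReal (l ^ n)⁻¹ * ν (blowMap a l ⁻¹' U) := fun U => by
    rw [blowUp, Measure.smul_apply, (measurableEmbedding_blowMap hl).map_apply, smul_eq_mul]
  have hpos : ENNReal.ofReal (l ^ n)⁻¹ ≠ 0 := by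
    rw [Ne, ENNReal.ofReal_eq_zero, not_le]; positivity
  rw [Measure.mem_support_iff_forall, Measure.mem_support_iff_forall]
  constructor
  · intro h U hU
    have hS : blowInv a l ⁻¹' U ∈ 𝓝 (blowMap a l z) :=
      (lipschitzWith_blowInv hl).continuous.continuousAt.preimage_mem_nhds
        (by rwa [blowInv_map hl.ne'])
    have := h _ hS
    rw [e1] at this
    refine pos_iff_ne_zero.2 fun h0 => ?_
    rw [← preimage_comp, show blowInv a l ∘ blowMap a l = id from funext (blowInv_map hl.ne'),
      preimage_id, h0, mul_zero] at this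
    exact lt_irrefl _ this
  · intro h U hU
    rw [e1]
    exact ENNReal.mul_pos hpos (h _
      ((lipschitzWith_blowMap hl).continuous.continuousAt.preimage_mem_nhds hU)).ne'

variable [FiniteDimensional ℝ E]

lemma Nice.blowUp {C A R : ℝ} {x₀ : E} (h : Nice n C A ν x₀ R) (hl : 0 < l) :
    Nice n C A (blowUp n a l ν) (blowMap a l x₀) (R / l) := by
  have := h.finite
  obtain ⟨hC, hA, hR, hu, hgr, hlow, hT⟩ := id h
  have hball : ∀ (z : E) (t : ℝ), (Full.blowUp n a l ν).real (Metric.ball z t) =
      ν.real (Metric.ball (blowInv a l z) (l * t)) / l ^ n := fun z t => by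
    rw [blowUp_real ν hl]
    nth_rw 1 [← blowMap_inv (a := a) hl.ne' z, show t = l * t / l by field_simp,
      blowMap_preimage_ball hl]
  refine ⟨hC, hA, div_pos hR hl, ?_, fun z t ht => ?_, fun y hy hyd t ht htR => ?_, fun ε hε => ?_⟩
  · rw [Full.blowUp, Measure.smul_apply, (measurableEmbedding_blowMap hl).map_apply, preimage_univ,
      smul_eq_mul, div_pow]
    refine (mul_le_mul_of_nonneg_left hu zero_le).trans_eq ?_
    rw [← ENNReal.ofReal_mul (by positivity)]
    congr 1; ring
  · rw [hball, div_le_iff₀ (pow_pos hl n), mul_assoc, ← mul_pow, mul_comm t l]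
    exact hgr _ _ (by positivity)
  · have hy' : blowInv a l y ∈ ν.support := by
      rw [← support_blowUp ν hl (n := n) (a := a), blowMap_inv hl.ne']; exact hy
    rw [hball, le_div_iff₀ (pow_pos hl n), mul_assoc, ← mul_pow, mul_comm t l]
    refine hlow _ hy' ?_ _ (by positivity) ?_
    · rw [← blowMap_inv (a := a) hl.ne' y, dist_blowMap hl, div_le_iff₀ hl] at hyd
      calc dist (blowInv a l y) x₀ ≤ R / l / 2 * l := hyd
        _ = R / 2 := by field_simp
    · calc l * t ≤ l * (R / l / 4) := mul_le_mul_of_nonneg_left htR hl.le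
        _ = R / 4 := by field_simp
  · have htr : ∀ x, trunc n (Full.blowUp n a l ν) ε univ (blowMap a l x) =
        trunc n ν (l * ε) univ x := fun x => by
      rw [trunc, trunc, univ_inter, univ_inter, setIntegral_blowUp ν hl _ (measurableSet_far _ _)]
      have hs : blowMap a l ⁻¹' {y | ε < dist (blowMap a l x) y} = {y | l * ε < dist x y} := by
        ext y
        simp only [mem_preimage, mem_ofPred_eq, dist_blowMap hl, lt_div_iff₀ hl, mul_comm ε]
      simp only [hs, blowMap_sub, kernel_inv_smul hl]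
      rw [integral_smul, smul_smul, inv_mul_cancel₀ (by positivity), one_smul]
    rw [integral_blowUp ν hl, blowUp_real ν hl, preimage_univ, smul_eq_mul]
    simp only [htr]
    rw [← mul_div_assoc, inv_mul_eq_div]
    exact div_le_div_of_nonneg_right (hT _ (by positivity)) (by positivity)

lemma flatness_blowUp (hl : 0 < l) (z : E) {t : ℝ} (p : E) (W : Submodule ℝ E) :
    flatness (blowUp n a l ν) n (blowMap a l z) (t / l) (blowMap a l p) W =
      flatness ν n z t p W := by
  have hp : ∀ y, ‖perp W (blowMap a l y - blowMap a l p)‖ ^ 2 = (l⁻¹) ^ 2 * ‖perp W (y - p)‖ ^ 2 := by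
    intro y
    rw [blowMap_sub, perp, perp, map_smul, ← smul_sub, norm_smul, mul_pow, Real.norm_eq_abs, sq_abs]
  rw [flatness, flatness, ← mul_div_assoc, setIntegral_blowUp ν hl _ measurableSet_ball,
    blowMap_preimage_ball hl]
  simp only [hp]
  rw [integral_const_mul, smul_eq_mul, div_pow]
  congr 1
  field_simp
  ring

lemma beta_blowUp (hl : 0 < l) (z : E) (t : ℝ) :
    beta n (blowUp n a l ν) (blowMap a l z) (t / l) = beta n ν z t := by
  rw [beta, beta]
  congr 1
  ext b
  constructor
  · rintro ⟨p, W, hW, rfl⟩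
    exact ⟨blowInv a l p, W, hW, by rw [← flatness_blowUp ν hl (a := a) z, blowMap_inv hl.ne']⟩
  · rintro ⟨p, W, hW, rfl⟩
    exact ⟨blowMap a l p, W, hW, (flatness_blowUp ν hl z p W).symm⟩

variable [IsFiniteMeasure ν]

lemma integral_prod_blowUp {G : Type*} [NormedAddCommGroup G] [NormedSpace ℝ G] (hl : 0 < l)
    (f : E × E → G) : ∫ q, f q ∂(blowUp n a l ν).prod (blowUp n a l ν) =
      ((l ^ n)⁻¹ * (l ^ n)⁻¹) • ∫ q, f (blowMap a l q.1, blowMap a l q.2) ∂ν.prod ν := by
  have hT := measurableEmbedding_blowMap (a := a) hl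
  rw [blowUp, Measure.prod_smul_left, Measure.prod_smul_right, smul_smul,
    Measure.map_prod_map ν ν hT.measurable hT.measurable, integral_smul_measure,
    ENNReal.toReal_mul, ENNReal.toReal_ofReal (by positivity), (hT.prodMap hT).integral_map]
  rfl

lemma energy_blowUp (hl : 0 < l) (φ : E → E) :
    energy n (blowUp n a l ν) φ = l * (l ^ n)⁻¹ * energy n ν (fun y => φ (blowMap a l y)) := by
  rw [energy, energy, integral_prod_blowUp ν hl, smul_eq_mul, ← integral_const_mul,
    ← integral_const_mul]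
  refine integral_congr_ae (Eventually.of_forall fun q => ?_)
  simp only [dist_blowMap hl, div_pow]
  rw [pow_succ]
  field_simp
  ring

lemma pair_blowUp (hl : 0 < l) (φ : E → E) :
    pair n (blowUp n a l ν) φ = (l ^ n)⁻¹ * pair n ν (fun y => φ (blowMap a l y)) := by
  rw [pair, pair, integral_prod_blowUp ν hl, smul_eq_mul, mul_left_comm ((l ^ n)⁻¹)]
  congr 1
  rw [← integral_const_mul, ← integral_const_mul]
  refine integral_congr_ae (Eventually.of_forall fun q => ?_)
  simp only [blowMap_sub, kernel_inv_smul hl, real_inner_smul_right]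
  field_simp

lemma Mol_blowUp (hl : 0 < l) (z : E) {t : ℝ} (φ : E → E) :
    Mol n (blowUp n a l ν) (blowMap a l z) (t / l) φ ↔
      Mol n ν z t (fun y => φ (blowMap a l y)) := by
  have h1 : ∀ {f : E → E}, ((∀ y, 8 * (t / l) ≤ dist y (blowMap a l z) → f y = 0) ↔
      ∀ y, 8 * t ≤ dist y z → f (blowMap a l y) = 0) := fun {f} => by
    have key : ∀ y, (8 * (t / l) ≤ dist (blowMap a l y) (blowMap a l z) ↔ 8 * t ≤ dist y z) :=
      fun y => by rw [dist_blowMap hl, ← mul_div_assoc, div_le_div_iff_of_pos_right hl]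
    constructor
    · exact fun h y hy => h _ ((key y).2 hy)
    · intro h y hy
      have := h (blowInv a l y) ((key _).1 (by rwa [blowMap_inv hl.ne']))
      rwa [blowMap_inv hl.ne'] at this
  have h2 : (∃ L : NNReal, LipschitzWith L φ) ↔
      ∃ L : NNReal, LipschitzWith L (fun y => φ (blowMap a l y)) := by
    constructor
    · rintro ⟨L, hL⟩
      exact ⟨_, hL.comp (lipschitzWith_blowMap hl)⟩
    · rintro ⟨L, hL⟩
      refine ⟨L * Real.toNNReal l, ?_⟩
      have := hL.comp (lipschitzWith_blowInv (a := a) hl)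
      simpa [Function.comp_def, blowMap_inv hl.ne'] using this
  rw [Mol, Mol, h1, h2, integral_blowUp ν hl, smul_eq_zero_iff_right (by positivity),
    integral_blowUp ν hl, energy_blowUp ν hl, smul_eq_mul, div_pow,
    le_div_iff₀ (pow_pos hl n)]
  refine and_congr_right fun _ => and_congr_right fun _ => and_congr_right fun _ => ?_
  rw [add_mul]
  field_simp

lemma coef_blowUp (hl : 0 < l) (z : E) (t : ℝ) :
    coef n (blowUp n a l ν) (blowMap a l z) (t / l) = coef n ν z t := by
  have hval : ∀ φ : E → E, |pair n (blowUp n a l ν) φ| / (t / l) ^ n =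
      |pair n ν (fun y => φ (blowMap a l y))| / t ^ n := fun φ => by
    rw [pair_blowUp ν hl, abs_mul, abs_of_pos (show 0 < (l ^ n)⁻¹ by positivity), div_pow]
    field_simp
  rw [coef, coef]
  congr 1
  ext r
  constructor
  · rintro ⟨φ, hφ, rfl⟩
    exact ⟨_, (Mol_blowUp ν hl z φ).1 hφ, hval φ⟩
  · rintro ⟨φ, hφ, rfl⟩
    have e : (fun y => (φ ∘ blowInv a l) (blowMap a l y)) = φ := by
      funext y; simp [Function.comp, blowInv_map hl.ne']
    exact ⟨φ ∘ blowInv a l, (Mol_blowUp ν hl z _).2 (by rwa [e]), by rw [hval, e]⟩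

omit [IsFiniteMeasure ν] in
/-- Scale invariance reduces `Decay` to normalised chains. -/
theorem rescaleStatement : RescaleStatement E n := by
  intro H C A δ hC hA hδ
  obtain ⟨ε₀, K, hε, hK⟩ := H C A δ hC hA hδ
  refine ⟨ε₀, K, hε, fun ν x₀ R hN c j₀ k hjk hc hd hb => ?_⟩
  have := hN.finite
  have hR := hN.2.2.1
  have hl : 0 < scale R k := scale_pos hR k
  set l := scale R k with hldef
  set ν' := blowUp n (c k) l ν
  have hs : ∀ j, scale (R / l) j = scale R j / l := fun j => by rw [scale, scale, div_mul_eq_mul_div]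
  have hb' : bHat n ν' (R / l) (fun j => blowMap (c k) l (c j)) j₀ k = bHat n ν R c j₀ k := by
    simp only [bHat, hs, ν', beta_blowUp ν hl]
  have he' : eHat n ν' (R / l) (fun j => blowMap (c k) l (c j)) j₀ k = eHat n ν R c j₀ k := by
    simp only [eHat, hs, ν', coef_blowUp ν hl]
  have hch : NormalChain E n C A ν' (blowMap (c k) l x₀) (R / l) (fun j => blowMap (c k) l (c j))
      j₀ k := by
    refine ⟨hN.blowUp ν hl, hjk, fun j h1 h2 => ⟨(support_blowUp ν hl _).2 (hc j h1 h2).1, ?_⟩,
      fun j h1 h2 => ?_, by simp [blowMap], by rw [hs, ← hldef, div_self hl.ne']⟩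
    · rw [dist_blowMap hl, div_div, mul_comm l, ← div_div]
      exact div_le_div_of_nonneg_right (hc j h1 h2).2 hl.le
    · rw [dist_blowMap hl, hs, ← mul_div_assoc]
      exact div_le_div_of_nonneg_right (hd j h1 h2) hl.le
  have := hK ν' _ (R / l) _ j₀ k hch (hb'.trans_le hb)
  rwa [hb', he', hs, beta_blowUp ν hl] at this

end

end Vale.Agent.P120.Full
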