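import Mathlib
import Vale.Agent.P120.Full.DecayHoles

/-!
# P120, full answer, module D2: a null density bounded above and below is constant

The truncated kernels have a bounded Fourier transform (oddness near, half a period shift far), so
Plancherel bounds the truncated transforms on `L²`. This carries the nullity from test functions
times the density over to smooth test functions.
-/

namespace Vale.Agent.P120.Full.Holes

open MeasureTheory Set Filter
open scoped Topology RealInnerProductSpace FourierTransform Convolution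

noncomputable section

set_option linter.unusedSectionVars false

variable {n : ℕ}


/-- The bound for a shift of the truncated kernel, in `L¹`. -/
def shiftConst (n : ℕ) : ℝ :=
  2 * (volume : Measure (EuclideanSpace ℝ (Fin n))).real (Metric.ball 0 1) +
    (kerConst n + 8) * radConst n / 2

lemma shiftConst_nonneg (n : ℕ) : 0 ≤ shiftConst n := by
  have := radConst_nonneg n
  have : 0 ≤ kerConst n := by rw [kerConst]; positivity
  unfold shiftConst
  positivity

lemma integrable_cutKer {e : Rn n} (he : ‖e‖ = 1) {δ T : ℝ} (hδ : 0 < δ) (hT : 0 < T) :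
    Integrable (cutKer e δ T) :=
  integrable_bdd (measurable_cutKer e δ T) (abs_cutKer_le he hδ T) 0 (2 * T) fun z hz =>
    cutKer_large e δ hT (by rw [dist_zero_right] at hz; exact hz.le)

lemma integral_shift_le (hn : 1 ≤ n) {e : Rn n} (he : ‖e‖ = 1) {a T : ℝ} (ha : 0 < a) (hT : 0 < T)
    {h : Rn n} (hh : ‖h‖ ≤ a / 2) :
    ∫ w, |cutKer e a T (w + h) - cutKer e a T w| ≤ shiftConst n := by
  obtain ⟨hfi, hfint⟩ := radial_far (n := n) hn ha
  have hK0 : 0 ≤ kerConst n := by rw [kerConst]; positivity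
  set C2 := (kerConst n + 8) * (a / 2) with hC2
  have hi1 : Integrable ((Metric.ball (0 : Rn n) a).indicator fun _ => 2 * (a ^ n)⁻¹) :=
    (integrableOn_const measure_ball_lt_top.ne).integrable_indicator measurableSet_ball
  refine (integral_mono_of_nonneg (Eventually.of_forall fun w => abs_nonneg _)
    (hi1.add (hfi.const_mul C2)) (Eventually.of_forall fun w => ?_)).trans (le_of_eq ?_)
  · simp only [Pi.add_apply]
    by_cases hw : w ∈ Metric.ball (0 : Rn n) a
    · simp only [indicator_of_mem hw,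
        indicator_of_notMem (show w ∉ (Metric.ball (0 : Rn n) a)ᶜ from not_not.2 hw), mul_zero, add_zero]
      refine (abs_sub _ _).trans ?_
      linarith [abs_cutKer_le he ha T (w + h), abs_cutKer_le he ha T w]
    · simp only [indicator_of_notMem hw,
        indicator_of_mem (show w ∈ (Metric.ball (0 : Rn n) a)ᶜ from hw), zero_add]
      rw [Metric.mem_ball, dist_zero_right, not_lt] at hw
      refine (abs_cutKer_sub_le he ha hT (by linarith) (by linarith)).trans ?_
      rw [hC2]
      gcongr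
  · simp only [Pi.add_apply]
    rw [integral_add hi1 (hfi.const_mul C2), integral_const_mul,
      integral_indicator_const _ measurableSet_ball, integral_indicator measurableSet_ball.compl,
      hfint, smul_eq_mul, measureReal_def, Measure.addHaar_ball_of_pos _ _ ha,
      finrank_euclideanSpace_fin, ENNReal.toReal_mul, ENNReal.toReal_ofReal (by positivity),
      hC2, shiftConst, measureReal_def]
    field_simp

/-- The complex valued truncated kernel. -/
def kerC (e : Rn n) (δ T : ℝ) (z : Rn n) : ℂ := (cutKer e δ T z : ℂ)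

lemma integrable_kerC {e : Rn n} (he : ‖e‖ = 1) {δ T : ℝ} (hδ : 0 < δ) (hT : 0 < T) :
    Integrable (kerC e δ T) := (integrable_cutKer he hδ hT).ofReal

/-- The half period shift. -/
lemma norm_fourier_le_half {k : Rn n → ℂ} (hk : Integrable k) {ξ : Rn n} (hξ : ξ ≠ 0) :
    ‖𝓕 k ξ‖ ≤ 1 / 2 * ∫ w, ‖k (w + (1 / (2 * ‖ξ‖ ^ 2) : ℝ) • ξ) - k w‖ := by
  rw [Real.fourier_eq, fourierIntegral_eq_half_sub_half_period_translate hξ hk, norm_smul]
  refine mul_le_mul (by norm_num) ((norm_integral_le_integral_norm _).trans (le_of_eq ?_))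
    (norm_nonneg _) (by norm_num)
  refine integral_congr_ae (Eventually.of_forall fun w => ?_)
  simp only [Circle.norm_smul]
  exact norm_sub_rev _ _

/-- The bound for the Fourier transform of the truncated kernels. -/
def symConst (n : ℕ) : ℝ := shiftConst n + 8 * Real.pi * radConst n

lemma norm_fourier_kerC_le (hn : 1 ≤ n) {e : Rn n} (he : ‖e‖ = 1) {δ T : ℝ} (hδ : 0 < δ)
    (hT : 0 < T) (ξ : Rn n) : ‖𝓕 (kerC e δ T) ξ‖ ≤ symConst n := by
  have hS := shiftConst_nonneg n
  have hR := radConst_nonneg n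
  have hpi := Real.pi_pos
  have hB : 0 ≤ symConst n := by unfold symConst; positivity
  rcases eq_or_ne ξ 0 with rfl | hξ
  · have h0 : ∫ z : Rn n, cutKer e δ T z = 0 := by
      have h1 := integral_neg_eq_self (fun z : Rn n => cutKer e δ T z) volume
      simp only [cutKer_neg, integral_neg] at h1
      linarith
    have e0 : 𝓕 (kerC e δ T) (0 : Rn n) = 0 := by
      rw [Real.fourier_eq]
      simp only [inner_zero_right, neg_zero, AddChar.map_zero_eq_one, one_smul, kerC]
      rw [integral_complex_ofReal, h0, Complex.ofReal_zero]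
    rw [e0, norm_zero]
    exact hB
  set h : Rn n := (1 / (2 * ‖ξ‖ ^ 2) : ℝ) • ξ with hh
  set a := 1 / ‖ξ‖ with hadef
  have hξ0 : 0 < ‖ξ‖ := norm_pos_iff.2 hξ
  have ha : 0 < a := by positivity
  have hnh : ‖h‖ = a / 2 := by
    rw [hh, norm_smul, Real.norm_eq_abs, abs_of_pos (by positivity), hadef]
    field_simp
  have hfar : ∀ d, 0 < d → ‖h‖ ≤ d / 2 → ‖𝓕 (kerC e d T) ξ‖ ≤ shiftConst n / 2 := by
    intro d hd hhd
    refine (norm_fourier_le_half (integrable_kerC he hd hT) hξ).trans ?_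
    rw [← hh, one_div_mul_eq_div]
    refine div_le_div_of_nonneg_right ((le_of_eq ?_).trans (integral_shift_le hn he hd hT hhd))
      zero_le_two
    refine integral_congr_ae (Eventually.of_forall fun w => ?_)
    simp only [kerC, ← Complex.ofReal_sub, Complex.norm_real, Real.norm_eq_abs]
  rcases le_or_gt a δ with had | had
  · refine (hfar δ hδ (by linarith)).trans ?_
    unfold symConst
    nlinarith
  set nr : Rn n → ℝ := fun z => cutKer e δ T z * ramp (2 * a) ‖z‖ with hnr
  have hnri : Integrable nr := by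
    refine integrable_bdd (by simp only [hnr, ramp]; fun_prop) (B := (δ ^ n)⁻¹) (fun z => ?_) 0
      (2 * T) fun z hz => ?_
    · simp only [hnr, abs_mul]
      refine (mul_le_of_le_one_right (abs_nonneg _) ?_).trans (abs_cutKer_le he hδ T z)
      rw [abs_of_nonneg (ramp_mem _ _).1]; exact (ramp_mem _ _).2
    · simp only [hnr]
      rw [cutKer_large e δ hT (by rw [dist_zero_right] at hz; exact hz.le), zero_mul]
  have hsplit : kerC e δ T = fun z => (nr z : ℂ) + kerC e (2 * a) T z := by
    funext z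
    simp only [kerC, hnr, ← Complex.ofReal_add]
    congr 1
    have h2 := cut_split hδ (show 2 * δ ≤ 2 * a by linarith) T ‖z‖
    simp only [cutKer, ← h2]
    ring
  have hadd : 𝓕 (kerC e δ T) ξ = 𝓕 (fun z => (nr z : ℂ)) ξ + 𝓕 (kerC e (2 * a) T) ξ := by
    have i1 : Integrable fun z : Rn n => Real.fourierChar (-⟪z, ξ⟫) • (nr z : ℂ) :=
      (Real.fourierIntegral_convergent_iff ξ).2 hnri.ofReal
    have i2 : Integrable fun z : Rn n => Real.fourierChar (-⟪z, ξ⟫) • kerC e (2 * a) T z :=
      (Real.fourierIntegral_convergent_iff ξ).2 (integrable_kerC he (by linarith) hT)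
    rw [hsplit, Real.fourier_eq, Real.fourier_eq, Real.fourier_eq, ← integral_add i1 i2]
    simp only [smul_add]
  have hnear : ‖𝓕 (fun z => (nr z : ℂ)) ξ‖ ≤ 8 * Real.pi * radConst n := by
    have h0 : ∫ z : Rn n, (nr z : ℂ) = 0 := by
      have h1 := integral_neg_eq_self nr volume
      simp only [hnr, cutKer_neg, norm_neg, neg_mul, integral_neg] at h1
      rw [integral_complex_ofReal, show ∫ z, nr z = 0 by simp only [hnr]; linarith, Complex.ofReal_zero]
    rw [Real.fourier_eq, ← sub_zero (∫ z : Rn n, Real.fourierChar (-⟪z, ξ⟫) • (nr z : ℂ)), ← h0,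
      ← integral_sub ((Real.fourierIntegral_convergent_iff ξ).2 hnri.ofReal) hnri.ofReal]
    obtain ⟨hki, hkint⟩ := radial_near (n := n) hn (show 0 < 4 * a by linarith)
    refine (norm_integral_le_of_norm_le (hki.const_mul (2 * Real.pi * ‖ξ‖))
      (Eventually.of_forall fun z => ?_)).trans (le_of_eq ?_)
    · have hexp : ‖(Real.fourierChar (-⟪z, ξ⟫) : ℂ) - 1‖ ≤ 2 * Real.pi * ‖ξ‖ * ‖z‖ := by
        rw [Real.fourierChar_apply, mul_comm _ Complex.I]
        refine Real.norm_exp_I_mul_ofReal_sub_one_le.trans ?_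
        rw [Real.norm_eq_abs, abs_mul, abs_neg, abs_of_pos (by positivity : 0 < 2 * Real.pi)]
        calc 2 * Real.pi * |⟪z, ξ⟫| ≤ 2 * Real.pi * (‖z‖ * ‖ξ‖) :=
              mul_le_mul_of_nonneg_left (abs_real_inner_le_norm z ξ) (by positivity)
          _ = _ := by ring
      have e1 : Real.fourierChar (-⟪z, ξ⟫) • (nr z : ℂ) - (nr z : ℂ) =
          ((Real.fourierChar (-⟪z, ξ⟫) : ℂ) - 1) * (nr z : ℂ) := by
        rw [Circle.smul_def, smul_eq_mul]; ring
      rw [e1, norm_mul, Complex.norm_real, Real.norm_eq_abs]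
      by_cases hz : z ∈ Metric.ball (0 : Rn n) (4 * a)
      · rw [indicator_of_mem hz]
        rcases eq_or_ne z 0 with rfl | hz0
        · simp [hnr, cutKer]
          positivity
        have hzp : 0 < ‖z‖ := norm_pos_iff.2 hz0
        have hn1 : |nr z| ≤ (‖z‖ ^ n)⁻¹ := by
          simp only [hnr, cutKer, abs_mul]
          rw [abs_of_nonneg (cut_mem δ T ‖z‖).1, abs_of_nonneg (ramp_mem (2 * a) ‖z‖).1, mul_assoc]
          refine (mul_le_of_le_one_right (abs_nonneg _) ?_).trans (abs_inner_div_le he z)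
          exact mul_le_one₀ (cut_mem δ T ‖z‖).2 (ramp_mem _ _).1 (ramp_mem _ _).2
        refine (mul_le_mul hexp hn1 (abs_nonneg _) (by positivity)).trans (le_of_eq ?_)
        have : ‖z‖ ^ n = ‖z‖ ^ (n - 1) * ‖z‖ := by rw [← pow_succ]; congr 1; omega
        rw [this]
        field_simp
      · rw [indicator_of_notMem hz, mul_zero]
        rw [Metric.mem_ball, dist_zero_right, not_lt] at hz
        simp only [hnr, ramp_zero (by linarith : 0 < 2 * a) (by linarith : 2 * (2 * a) ≤ ‖z‖)]
        simp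
    · rw [integral_const_mul, integral_indicator measurableSet_ball, hkint, hadef]
      field_simp
      ring
  rw [hadd]
  refine (norm_add_le _ _).trans ((add_le_add hnear (hfar (2 * a) (by linarith) (by linarith))).trans ?_)
  unfold symConst
  nlinarith

/-- The bilinear form of the convolution with `k`. -/
def bil (k u v : Rn n → ℂ) : ℂ :=
  ∫ q : Rn n × Rn n, k (q.1 - q.2) * u q.2 * v q.1 ∂((volume : Measure (Rn n)).prod volume)

lemma bil_young {k u v : Rn n → ℂ} (hk : Integrable k) (hum : AEStronglyMeasurable u)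
    (hvm : AEStronglyMeasurable v) (hu : Integrable fun x => ‖u x‖ ^ 2)
    (hv : Integrable fun x => ‖v x‖ ^ 2) :
    Integrable (fun q : Rn n × Rn n => k (q.1 - q.2) * u q.2 * v q.1)
        ((volume : Measure (Rn n)).prod volume) ∧
      ∀ a : ℝ, 0 < a → ‖bil k u v‖ ≤
        (∫ x, ‖k x‖) / 2 * (a * (∫ x, ‖u x‖ ^ 2) + a⁻¹ * ∫ x, ‖v x‖ ^ 2) := by
  have h1 : Integrable (fun q : Rn n × Rn n => ‖k (q.1 - q.2)‖ * ‖u q.2‖ ^ 2)
      ((volume : Measure (Rn n)).prod volume) :=
    (hu.convolution_integrand (ContinuousLinearMap.mul ℝ ℝ) hk.norm).congr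
      (Eventually.of_forall fun q => by simp [mul_comm])
  have h2 : Integrable (fun q : Rn n × Rn n => ‖k (q.1 - q.2)‖ * ‖v q.1‖ ^ 2)
      ((volume : Measure (Rn n)).prod volume) :=
    (hv.convolution_integrand (ContinuousLinearMap.mul ℝ ℝ) hk.norm.comp_neg).swap.congr
      (Eventually.of_forall fun q => by simp [mul_comm])
  have hmeas : AEStronglyMeasurable (fun q : Rn n × Rn n => k (q.1 - q.2) * u q.2 * v q.1)
      ((volume : Measure (Rn n)).prod volume) :=
    ((hk.aestronglyMeasurable.comp_quasiMeasurePreserving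
      (quasiMeasurePreserving_sub_of_right_invariant volume volume)).mul hum.comp_snd).mul hvm.comp_fst
  have hbnd : ∀ a : ℝ, 0 < a → ∀ q : Rn n × Rn n, ‖k (q.1 - q.2) * u q.2 * v q.1‖ ≤
      a / 2 * (‖k (q.1 - q.2)‖ * ‖u q.2‖ ^ 2) + a⁻¹ / 2 * (‖k (q.1 - q.2)‖ * ‖v q.1‖ ^ 2) := by
    intro a ha q
    rw [norm_mul, norm_mul]
    have h3 : ‖u q.2‖ * ‖v q.1‖ ≤ a / 2 * ‖u q.2‖ ^ 2 + a⁻¹ / 2 * ‖v q.1‖ ^ 2 := by
      have e1 : a / 2 * ‖u q.2‖ ^ 2 + a⁻¹ / 2 * ‖v q.1‖ ^ 2 - ‖u q.2‖ * ‖v q.1‖ =
          (a * ‖u q.2‖ - ‖v q.1‖) ^ 2 / (2 * a) := by field_simp; ring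
      linarith [show 0 ≤ (a * ‖u q.2‖ - ‖v q.1‖) ^ 2 / (2 * a) by positivity]
    calc ‖k (q.1 - q.2)‖ * ‖u q.2‖ * ‖v q.1‖
        = ‖k (q.1 - q.2)‖ * (‖u q.2‖ * ‖v q.1‖) := by ring
      _ ≤ ‖k (q.1 - q.2)‖ * (a / 2 * ‖u q.2‖ ^ 2 + a⁻¹ / 2 * ‖v q.1‖ ^ 2) :=
          mul_le_mul_of_nonneg_left h3 (norm_nonneg _)
      _ = _ := by ring
  refine ⟨((h1.const_mul (1 / 2)).add (h2.const_mul (1⁻¹ / 2))).mono' hmeas
    (Eventually.of_forall (hbnd 1 one_pos)), fun a ha => ?_⟩
  refine (norm_integral_le_of_norm_le ((h1.const_mul (a / 2)).add (h2.const_mul (a⁻¹ / 2)))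
    (Eventually.of_forall (hbnd a ha))).trans (le_of_eq ?_)
  simp only [Pi.add_apply]
  rw [integral_add (h1.const_mul _) (h2.const_mul _), integral_const_mul, integral_const_mul,
    integral_prod_symm _ h1, integral_prod _ h2]
  simp only [integral_mul_const, integral_sub_right_eq_self (fun x => ‖k x‖),
    integral_sub_left_eq_self (fun x => ‖k x‖) volume, integral_const_mul]
  ring

/-- A bounded symbol bounds the form on Schwartz functions. -/
lemma bil_schwartz {k : Rn n → ℂ} (hk : Integrable k) {B : ℝ} (hB : ∀ ξ, ‖𝓕 k ξ‖ ≤ B)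
    (Φ Ψ : SchwartzMap (Rn n) ℂ) {a : ℝ} (ha : 0 < a) :
    ‖bil k Φ Ψ‖ ≤ B / 2 * (a * (∫ x, ‖Φ x‖ ^ 2) + a⁻¹ * ∫ x, ‖Ψ x‖ ^ 2) := by
  set v : SchwartzMap (Rn n) ℂ := 𝓕⁻ Ψ with hv
  have hΨ : Ψ = 𝓕 v := (FourierTransform.fourier_fourierInv_eq Ψ).symm
  set U : Rn n → ℂ := k ⋆[ContinuousLinearMap.mul ℂ ℂ] (Φ : Rn n → ℂ) with hU
  have hUi : Integrable U := hk.integrable_convolution _ Φ.integrable
  obtain ⟨hint, -⟩ := bil_young hk Φ.continuous.aestronglyMeasurable Ψ.continuous.aestronglyMeasurable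
    ((memLp_two_iff_integrable_sq_norm Φ.continuous.aestronglyMeasurable).1 (Φ.memLp 2))
    ((memLp_two_iff_integrable_sq_norm Ψ.continuous.aestronglyMeasurable).1 (Ψ.memLp 2))
  have h1 : bil k Φ Ψ = ∫ x, U x * Ψ x := by
    rw [bil, integral_prod _ hint]
    refine integral_congr_ae (Eventually.of_forall fun x => ?_)
    simp only [hU, convolution_def, ContinuousLinearMap.mul_apply']
    rw [← integral_sub_left_eq_self (fun t => k t * Φ (x - t)) volume x, ← integral_mul_const]
    simp only [sub_sub_cancel]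
  have h2 : ∫ x, U x * Ψ x = ∫ ξ, 𝓕 U ξ * v ξ := by
    have h := VectorFourier.integral_bilin_fourierIntegral_eq_flip
      (ContinuousLinearMap.mul ℂ ℂ) (e := Real.fourierChar) (L := innerₗ (Rn n)) (μ := volume)
      (ν := volume) Real.continuous_fourierChar continuous_inner hUi v.integrable
    rw [hΨ]
    simpa [SchwartzMap.fourier_coe] using! h.symm
  have h3 : ∀ ξ, 𝓕 U ξ = 𝓕 k ξ * 𝓕 (Φ : Rn n → ℂ) ξ := fun ξ =>
    Real.fourier_mul_convolution_eq hk Φ.integrable ξ
  have hF : ∫ ξ, ‖𝓕 (Φ : Rn n → ℂ) ξ‖ ^ 2 = ∫ x, ‖Φ x‖ ^ 2 := by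
    rw [← SchwartzMap.integral_norm_sq_fourier Φ, SchwartzMap.fourier_coe]
  have hV : ∫ ξ, ‖v ξ‖ ^ 2 = ∫ x, ‖Ψ x‖ ^ 2 := by
    rw [hΨ, SchwartzMap.integral_norm_sq_fourier]
  rw [h1, h2]
  have hi1 : Integrable fun ξ => ‖𝓕 (Φ : Rn n → ℂ) ξ‖ ^ 2 := by
    rw [← SchwartzMap.fourier_coe]
    exact (memLp_two_iff_integrable_sq_norm (𝓕 Φ).continuous.aestronglyMeasurable).1
      ((𝓕 Φ).memLp 2 (volume : Measure (Rn n)))
  have hi2 : Integrable fun ξ => ‖v ξ‖ ^ 2 :=
    (memLp_two_iff_integrable_sq_norm v.continuous.aestronglyMeasurable).1 (v.memLp 2)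
  have hB0 : 0 ≤ B := (norm_nonneg _).trans (hB 0)
  refine (norm_integral_le_of_norm_le (((hi1.const_mul (a / 2)).add (hi2.const_mul (a⁻¹ / 2))).const_mul B)
    (Eventually.of_forall fun ξ => ?_)).trans (le_of_eq ?_)
  · rw [h3, norm_mul, norm_mul, mul_assoc]
    refine mul_le_mul (hB ξ) ?_ (by positivity) hB0
    simp only [Pi.add_apply]
    have e1 : a / 2 * ‖𝓕 (Φ : Rn n → ℂ) ξ‖ ^ 2 + a⁻¹ / 2 * ‖v ξ‖ ^ 2 -
        ‖𝓕 (Φ : Rn n → ℂ) ξ‖ * ‖v ξ‖ = (a * ‖𝓕 (Φ : Rn n → ℂ) ξ‖ - ‖v ξ‖) ^ 2 / (2 * a) := by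
      field_simp; ring
    linarith [show 0 ≤ (a * ‖𝓕 (Φ : Rn n → ℂ) ξ‖ - ‖v ξ‖) ^ 2 / (2 * a) by positivity]
  · simp only [Pi.add_apply]
    rw [integral_const_mul, integral_add (hi1.const_mul _) (hi2.const_mul _), integral_const_mul,
      integral_const_mul, hF, hV]
    ring

/-- Approximation in `L²` by Schwartz functions. -/
lemma exists_schwartz_near {u : Rn n → ℂ} (hu : MemLp u 2 volume) {ε : ℝ} (hε : 0 < ε) :
    ∃ Φ : SchwartzMap (Rn n) ℂ, Integrable (fun x => ‖u x - Φ x‖ ^ 2) ∧
      ∫ x, ‖u x - Φ x‖ ^ 2 ≤ ε ^ 2 ∧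
      ∫ x, ‖Φ x‖ ^ 2 ≤ (1 + ε) * (∫ x, ‖u x‖ ^ 2) + (1 + ε⁻¹) * ε ^ 2 := by
  obtain ⟨g, hg1, hg2, hg3⟩ := hu.exist_eLpNorm_sub_le (by norm_num) (by norm_num) hε
  set Φ := hg1.toSchwartzMap hg2
  have hΦ : ∀ x, Φ x = g x := fun x => rfl
  have hgm : MemLp g 2 volume := hg2.continuous.memLp_of_hasCompactSupport hg1
  have hd : MemLp (fun x => u x - g x) 2 volume := hu.sub hgm
  have hdi : Integrable fun x => ‖u x - g x‖ ^ 2 :=
    (memLp_two_iff_integrable_sq_norm hd.1).1 hd
  have hui : Integrable fun x => ‖u x‖ ^ 2 := (memLp_two_iff_integrable_sq_norm hu.1).1 hu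
  have hsq : ∫ x, ‖u x - g x‖ ^ 2 ≤ ε ^ 2 := by
    have h1 := hd.eLpNorm_eq_integral_rpow_norm (by norm_num) (by norm_num)
    rw [show (2 : ENNReal).toReal = 2 by norm_num] at h1
    have h2 : (∫ x, ‖u x - g x‖ ^ (2 : ℝ)) ^ (2 : ℝ)⁻¹ ≤ ε := by
      rw [← ENNReal.ofReal_le_ofReal_iff hε.le, ← h1]; exact hg3
    rw [show (fun x => ‖u x - g x‖ ^ (2 : ℝ)) = fun x => ‖u x - g x‖ ^ 2 from
      funext fun x => Real.rpow_two _] at h2
    have h3 := pow_le_pow_left₀ (Real.rpow_nonneg (integral_nonneg fun x => by positivity) _) h2 2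
    rwa [show (2 : ℝ)⁻¹ = ((2 : ℕ) : ℝ)⁻¹ by norm_num,
      Real.rpow_inv_natCast_pow (integral_nonneg fun x => by positivity) two_ne_zero] at h3
  refine ⟨Φ, by simpa only [hΦ] using hdi, by simpa only [hΦ] using hsq, ?_⟩
  simp only [hΦ]
  calc ∫ x, ‖g x‖ ^ 2 ≤ ∫ x, ((1 + ε) * ‖u x‖ ^ 2 + (1 + ε⁻¹) * ‖u x - g x‖ ^ 2) := by
        refine integral_mono ((memLp_two_iff_integrable_sq_norm hgm.1).1 hgm)
          ((hui.const_mul _).add (hdi.const_mul _)) fun x => ?_
        have h1 : ‖g x‖ ≤ ‖u x‖ + ‖u x - g x‖ := norm_le_insert _ _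
        have h2 := pow_le_pow_left₀ (norm_nonneg _) h1 2
        have e1 : (1 + ε) * ‖u x‖ ^ 2 + (1 + ε⁻¹) * ‖u x - g x‖ ^ 2 -
            (‖u x‖ + ‖u x - g x‖) ^ 2 = (ε * ‖u x‖ - ‖u x - g x‖) ^ 2 / ε := by
          field_simp; ring
        linarith [show 0 ≤ (ε * ‖u x‖ - ‖u x - g x‖) ^ 2 / ε by positivity]
    _ ≤ _ := by
        rw [integral_add (hui.const_mul _) (hdi.const_mul _), integral_const_mul, integral_const_mul]
        gcongr

/-- A bounded symbol bounds the form on square integrable functions. -/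
lemma bil_le {k u v : Rn n → ℂ} (hk : Integrable k) {B : ℝ} (hB : ∀ ξ, ‖𝓕 k ξ‖ ≤ B)
    (hu : MemLp u 2 volume) (hv : MemLp v 2 volume) {a : ℝ} (ha : 0 < a) :
    ‖bil k u v‖ ≤ B / 2 * (a * (∫ x, ‖u x‖ ^ 2) + a⁻¹ * ∫ x, ‖v x‖ ^ 2) := by
  set U := ∫ x, ‖u x‖ ^ 2
  set W := ∫ x, ‖v x‖ ^ 2
  have hB0 : 0 ≤ B := (norm_nonneg _).trans (hB 0)
  set K1 := ∫ x, ‖k x‖
  have hK1 : 0 ≤ K1 := integral_nonneg fun x => norm_nonneg _
  set E : ℝ → ℝ := fun ε => K1 / 2 * (ε + ε * W) +
    K1 / 2 * (ε * ((1 + ε) * U + (ε ^ 2 + ε)) + ε) +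
      B / 2 * (a * ((1 + ε) * U + (ε ^ 2 + ε)) + a⁻¹ * ((1 + ε) * W + (ε ^ 2 + ε)))
  have key : ∀ ε : ℝ, 0 < ε → ‖bil k u v‖ ≤ E ε := by
    intro ε hε
    obtain ⟨Φ, hΦ1, hΦ2, hΦ3⟩ := exists_schwartz_near hu hε
    obtain ⟨Ψ, hΨ1, hΨ2, hΨ3⟩ := exists_schwartz_near hv hε
    have eε : (1 + ε⁻¹) * ε ^ 2 = ε ^ 2 + ε := by field_simp
    rw [eε] at hΦ3 hΨ3
    have hΦm := (memLp_two_iff_integrable_sq_norm Φ.continuous.aestronglyMeasurable).1 (Φ.memLp 2)
    have hΨm := (memLp_two_iff_integrable_sq_norm Ψ.continuous.aestronglyMeasurable).1 (Ψ.memLp 2)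
    have hvi := (memLp_two_iff_integrable_sq_norm hv.1).1 hv
    have dΦ : AEStronglyMeasurable (fun x => u x - Φ x) volume :=
      hu.1.sub Φ.continuous.aestronglyMeasurable
    have dΨ : AEStronglyMeasurable (fun x => v x - Ψ x) volume :=
      hv.1.sub Ψ.continuous.aestronglyMeasurable
    obtain ⟨i1, b1⟩ := bil_young hk dΦ hv.1 hΦ1 hvi
    obtain ⟨i2, b2⟩ := bil_young hk Φ.continuous.aestronglyMeasurable dΨ hΦm hΨ1
    obtain ⟨i3, -⟩ := bil_young hk Φ.continuous.aestronglyMeasurable
      Ψ.continuous.aestronglyMeasurable hΦm hΨm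
    have hdec : bil k u v = bil k (fun x => u x - Φ x) v + bil k Φ (fun x => v x - Ψ x) + bil k Φ Ψ := by
      rw [bil, bil, bil, bil, ← integral_add i1 i2, ← integral_add (i1.fun_add i2) i3]
      refine integral_congr_ae (Eventually.of_forall fun q => ?_)
      simp only
      ring
    rw [hdec]
    refine (norm_add₃_le).trans (add_le_add (add_le_add ?_ ?_) ?_)
    · refine (b1 ε⁻¹ (inv_pos.2 hε)).trans (mul_le_mul_of_nonneg_left (add_le_add ?_ ?_) (by positivity))
      · calc ε⁻¹ * ∫ x, ‖u x - Φ x‖ ^ 2 ≤ ε⁻¹ * ε ^ 2 :=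
              mul_le_mul_of_nonneg_left hΦ2 (by positivity)
          _ = ε := by field_simp
      · rw [inv_inv]
    · refine (b2 ε hε).trans (mul_le_mul_of_nonneg_left (add_le_add ?_ ?_) (by positivity))
      · exact mul_le_mul_of_nonneg_left hΦ3 hε.le
      · calc ε⁻¹ * ∫ x, ‖v x - Ψ x‖ ^ 2 ≤ ε⁻¹ * ε ^ 2 :=
              mul_le_mul_of_nonneg_left hΨ2 (by positivity)
          _ = ε := by field_simp
    · refine (bil_schwartz hk hB Φ Ψ ha).trans ?_
      gcongr
  have hE : Tendsto E (𝓝[>] 0) (𝓝 (B / 2 * (a * U + a⁻¹ * W))) := by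
    have hc : Continuous E := by simp only [E]; fun_prop
    simpa [E] using (hc.tendsto 0).mono_left nhdsWithin_le_nhds
  exact ge_of_tendsto hE (eventually_nhdsWithin_of_forall key)

/-- The uniform bound of the truncated transforms in `L²`, as a bilinear bound. -/
lemma pair_cutKer_le (hn : 1 ≤ n) {e : Rn n} (he : ‖e‖ = 1) {δ T : ℝ} (hδ : 0 < δ) (hT : 0 < T)
    {g w : Rn n → ℝ} (hg : MemLp g 2 volume) (hw : MemLp w 2 volume) {a : ℝ} (ha : 0 < a) :
    |∫ q : Rn n × Rn n, cutKer e δ T (q.1 - q.2) * w q.2 * g q.1 ∂((volume : Measure (Rn n)).prod volume)| ≤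
      symConst n / 2 * (a * (∫ x, w x ^ 2) + a⁻¹ * ∫ x, g x ^ 2) := by
  have h := bil_le (integrable_kerC he hδ hT) (norm_fourier_kerC_le hn he hδ hT)
    (u := fun x => (w x : ℂ)) (v := fun x => (g x : ℂ)) hw.ofReal hg.ofReal ha
  rw [bil] at h
  simp only [kerC, ← Complex.ofReal_mul, integral_complex_ofReal, Complex.norm_real,
    Real.norm_eq_abs, sq_abs] at h
  exact h

/-- The truncated transform of a mean-zero function, far from its support. -/
lemma abs_conv_far_le {e : Rn n} (he : ‖e‖ = 1) {δ T L : ℝ} (hδ : 0 < δ) (hT : 0 < T)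
    {w : Rn n → ℝ} (hw : Integrable w) (hs : ∀ y, L < ‖y‖ → w y = 0) (hw0 : ∫ y, w y = 0)
    {x : Rn n} (hx : 2 * L ≤ ‖x‖) (hx0 : 0 < ‖x‖) :
    |∫ y, w y * cutKer e δ T (x - y)| ≤
      (kerConst n + 8) * L * (‖x‖ ^ (n + 1))⁻¹ * ∫ y, |w y| := by
  have hi : Integrable fun y => w y * cutKer e δ T (x - y) :=
    hw.mul_bdd ((measurable_cutKer e δ T).comp (measurable_const.sub measurable_id)).aestronglyMeasurable
      (c := (δ ^ n)⁻¹) (Eventually.of_forall fun y => by
        simpa [Real.norm_eq_abs] using abs_cutKer_le he hδ T (x - y))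
  have e1 : ∫ y, w y * cutKer e δ T (x - y) =
      ∫ y, w y * (cutKer e δ T (x - y) - cutKer e δ T x) := by
    simp only [mul_sub]
    rw [integral_sub hi (hw.mul_const _), integral_mul_const, hw0, zero_mul, sub_zero]
  have hK : 0 ≤ kerConst n := by rw [kerConst]; positivity
  rw [e1, ← Real.norm_eq_abs, ← integral_const_mul]
  refine norm_integral_le_of_norm_le (hw.abs.const_mul _) (Eventually.of_forall fun y => ?_)
  rw [norm_mul, Real.norm_eq_abs, Real.norm_eq_abs]
  rcases le_or_gt ‖y‖ L with hy | hy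
  · rw [mul_comm (|w y|)]
    refine mul_le_mul_of_nonneg_right ?_ (abs_nonneg _)
    have h := abs_cutKer_sub_le he hδ hT hx0 (h := -y) (by rw [norm_neg]; linarith)
    rw [← sub_eq_add_neg, norm_neg] at h
    refine h.trans ?_
    gcongr
  · rw [hs y hy, abs_zero, zero_mul, mul_zero]

variable {f : EuclideanSpace ℝ (Fin n) → ℝ} {c M : ℝ}

/-- The pairing of a bounded function of compact support with the truncated transform. -/
def wPair (f w : Rn n → ℝ) (e : Rn n) (δ T : ℝ) : ℝ :=
  ∫ q : Rn n × Rn n, w q.1 * (f q.2 * cutKer e δ T (q.1 - q.2))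
    ∂((volume : Measure (Rn n)).prod volume)

section Bounded

variable (hf : Measurable f) (hc : 0 < c) (hfb : ∀ x, c ≤ f x ∧ f x ≤ M)
include hf hc hfb

lemma abs_f_le (x : EuclideanSpace ℝ (Fin n)) : |f x| ≤ M := by
  rw [abs_of_nonneg (hc.le.trans (hfb x).1)]; exact (hfb x).2

lemma wPair_integrable {e : EuclideanSpace ℝ (Fin n)} (he : ‖e‖ = 1) {δ T : ℝ} (hδ : 0 < δ)
    (hT : 0 < T) {w : Rn n → ℝ} (hw : Measurable w) {B : ℝ} (hB : ∀ x, |w x| ≤ B) {L : ℝ}
    (hs : ∀ x, L < ‖x‖ → w x = 0) :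
    Integrable (fun q : Rn n × Rn n => w q.1 * (f q.2 * cutKer e δ T (q.1 - q.2)))
      ((volume : Measure (Rn n)).prod volume) := by
  have hfne : ∀ x, f x ≠ 0 := fun x => (lt_of_lt_of_le hc (hfb x).1).ne'
  refine (form_integrable hf (abs_f_le hf hc hfb) he hδ hT (φ := fun x => w x / f x) (hw.div hf)
    (B := B / c) (fun x => ?_) (z := 0) (S := L) fun x hx => ?_).congr
      (Eventually.of_forall fun q => ?_)
  · rw [abs_div, abs_of_pos (lt_of_lt_of_le hc (hfb x).1)]
    exact div_le_div₀ ((abs_nonneg _).trans (hB x)) (hB x) hc (hfb x).1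
  · rw [hs x (by rwa [dist_zero_right] at hx), zero_div]
  · simp only
    rw [← mul_div_assoc, mul_comm (f q.1), mul_div_assoc, div_self (hfne q.1), mul_one]

/-- The pairing with a mean-zero function is bounded by its `L²` norm, uniformly in the cuts. -/
lemma exists_wPair_bound (hn : 1 ≤ n) (i : Fin n) {L : ℝ} (hL : 0 < L) :
    ∃ C : ℝ, 0 ≤ C ∧ ∀ (δ T : ℝ), 0 < δ → 0 < T → ∀ (w : Rn n → ℝ), Measurable w →
      (∃ B, ∀ x, |w x| ≤ B) → (∀ x, L < ‖x‖ → w x = 0) → ∫ x, w x = 0 → ∀ a : ℝ, 0 < a →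
        |wPair f w (EuclideanSpace.single i (1 : ℝ)) δ T| ≤ C * (a * (∫ x, w x ^ 2) + a⁻¹) := by
  set e : Rn n := EuclideanSpace.single i (1 : ℝ)
  have he : ‖e‖ = 1 := by simp [e]
  have hM : 0 ≤ M := (abs_nonneg _).trans (abs_f_le hf hc hfb 0)
  set g : Rn n → ℝ := (Metric.ball (0 : Rn n) (4 * L)).indicator f
  set G := ∫ x, g x ^ 2
  set vL := (volume : Measure (Rn n)).real (Metric.closedBall 0 L)
  set F := M * (kerConst n + 8) * L * (radConst n / (4 * L))
  have hS : 0 ≤ symConst n := by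
    have := shiftConst_nonneg n
    have := radConst_nonneg n
    unfold symConst; positivity
  have hK : 0 ≤ kerConst n := by rw [kerConst]; positivity
  have hF : 0 ≤ F := by have := radConst_nonneg n; positivity
  have hG : 0 ≤ G := integral_nonneg fun x => sq_nonneg _
  refine ⟨symConst n / 2 * (1 + G) + F / 2 * (1 + vL), by positivity,
    fun δ T hδ hT w hw hB hs hw0 a ha => ?_⟩
  obtain ⟨B, hB⟩ := hB
  have hwi : Integrable w := integrable_bdd hw hB 0 L fun x hx => hs x (by rwa [dist_zero_right] at hx)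
  have hw2 : Integrable fun x => w x ^ 2 :=
    integrable_bdd (g := fun x => w x ^ 2) (hw.pow_const 2) (B := B ^ 2) (fun x => by
      rw [abs_pow]; exact pow_le_pow_left₀ (abs_nonneg _) (hB x) 2) 0 L fun x hx => by
        rw [hs x (by rwa [dist_zero_right] at hx)]; ring
  have hgm : MemLp g 2 volume := by
    rw [memLp_indicator_iff_restrict measurableSet_ball]
    have : IsFiniteMeasure ((volume : Measure (Rn n)).restrict (Metric.ball 0 (4 * L))) :=
      isFiniteMeasure_restrict.2 measure_ball_lt_top.ne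
    exact MemLp.of_bound hf.aestronglyMeasurable M
      (Eventually.of_forall fun x => by rw [Real.norm_eq_abs]; exact abs_f_le hf hc hfb x)
  have hwm : MemLp w 2 volume := by
    refine (memLp_two_iff_integrable_sq_norm hw.aestronglyMeasurable).2 (hw2.congr ?_)
    exact Eventually.of_forall fun x => by simp
  have hint := wPair_integrable hf hc hfb he hδ hT hw hB hs
  -- the transform at `x`
  set U : Rn n → ℝ := fun x => ∫ y, w y * cutKer e δ T (x - y) with hU
  have hP : wPair f w e δ T = -∫ x, f x * U x := by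
    rw [wPair, integral_prod_symm _ hint, ← integral_neg]
    refine integral_congr_ae (Eventually.of_forall fun x => ?_)
    simp only [hU]
    rw [← neg_mul, ← integral_const_mul]
    refine integral_congr_ae (Eventually.of_forall fun y => ?_)
    simp only
    rw [← neg_sub x y, cutKer_neg]
    ring
  have hUint : Integrable fun x => f x * U x := by
    refine hint.integral_prod_right.neg.congr (Eventually.of_forall fun x => ?_)
    simp only [Pi.neg_apply, hU]
    rw [← integral_neg, ← integral_const_mul]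
    refine integral_congr_ae (Eventually.of_forall fun y => ?_)
    simp only
    rw [← neg_sub x y, cutKer_neg]
    ring
  have hgU : (fun x => g x * U x) = (Metric.ball (0 : Rn n) (4 * L)).indicator fun x => f x * U x := by
    funext x
    simp only [g, ← Set.indicator_mul_left]
  have hnear : |∫ x, g x * U x| ≤ symConst n / 2 * (a * (∫ x, w x ^ 2) + a⁻¹ * G) := by
    refine le_trans (le_of_eq ?_) (pair_cutKer_le hn he hδ hT hgm hwm ha)
    have hker : Integrable (fun z => ((cutKer e δ T z : ℝ) : ℂ)) :=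
      (integrable_cutKer he hδ hT).ofReal
    obtain ⟨hb, -⟩ := bil_young hker hwm.ofReal.1 hgm.ofReal.1
      (((memLp_two_iff_integrable_sq_norm hwm.1).1 hwm).congr
        (Eventually.of_forall fun x => by simp))
      (((memLp_two_iff_integrable_sq_norm hgm.1).1 hgm).congr
        (Eventually.of_forall fun x => by simp))
    have hb' : Integrable (fun q : Rn n × Rn n => cutKer e δ T (q.1 - q.2) * w q.2 * g q.1)
        ((volume : Measure (Rn n)).prod volume) := hb.re.congr (Eventually.of_forall fun q => by simp)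
    rw [integral_prod _ hb']
    congr 1
    refine integral_congr_ae (Eventually.of_forall fun x => ?_)
    simp only [hU]
    rw [← integral_const_mul]
    refine integral_congr_ae (Eventually.of_forall fun y => ?_)
    simp only
    ring
  obtain ⟨hfi, hfint⟩ := radial_far (n := n) hn (show 0 < 4 * L by linarith)
  have hW1 : ∫ y, |w y| ≤ a / 2 * (∫ y, w y ^ 2) + a⁻¹ / 2 * vL := by
    calc ∫ y, |w y| ≤ ∫ y, (a / 2 * w y ^ 2 +
          a⁻¹ / 2 * (Metric.closedBall (0 : Rn n) L).indicator (fun _ => (1 : ℝ)) y) := by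
          refine integral_mono hwi.abs ((hw2.const_mul _).add (((integrableOn_const
            measure_closedBall_lt_top.ne).integrable_indicator measurableSet_closedBall).const_mul _))
            fun y => ?_
          by_cases hy : y ∈ Metric.closedBall (0 : Rn n) L
          · rw [indicator_of_mem hy]
            have e1 : a / 2 * w y ^ 2 + a⁻¹ / 2 * 1 - |w y| = (a * |w y| - 1) ^ 2 / (2 * a) := by
              rw [← sq_abs (w y)]; field_simp; ring
            linarith [show 0 ≤ (a * |w y| - 1) ^ 2 / (2 * a) by positivity]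
          · rw [hs y (by simpa using hy)]
            simp only [abs_zero, indicator_of_notMem hy]
            positivity
      _ = _ := by
          rw [integral_add (hw2.const_mul _) (((integrableOn_const
            measure_closedBall_lt_top.ne).integrable_indicator measurableSet_closedBall).const_mul _),
            integral_const_mul, integral_const_mul, integral_indicator_const _ measurableSet_closedBall,
            smul_eq_mul, mul_one]
  have hfar : |∫ x in (Metric.ball (0 : Rn n) (4 * L))ᶜ, f x * U x| ≤ F * ∫ y, |w y| := by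
    rw [← Real.norm_eq_abs]
    have hi' : IntegrableOn (fun x : Rn n => (‖x‖ ^ (n + 1))⁻¹) (Metric.ball (0 : Rn n) (4 * L))ᶜ :=
      (integrable_indicator_iff measurableSet_ball.compl).1 hfi
    refine (norm_integral_le_of_norm_le (hi'.const_mul (M * (kerConst n + 8) * L * ∫ y, |w y|))
      ?_).trans (le_of_eq ?_)
    · filter_upwards [ae_restrict_mem measurableSet_ball.compl] with x hx
      rw [mem_compl_iff, Metric.mem_ball, dist_zero_right, not_lt] at hx
      rw [norm_mul, Real.norm_eq_abs, Real.norm_eq_abs]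
      refine (mul_le_mul (abs_f_le hf hc hfb x) (abs_conv_far_le he hδ hT hwi hs hw0
        (by linarith) (by linarith)) (abs_nonneg _) hM).trans (le_of_eq ?_)
      ring
    · rw [integral_const_mul, hfint]
      simp only [F]
      ring
  rw [hP, abs_neg, ← integral_add_compl (measurableSet_ball (x := (0 : Rn n)) (ε := 4 * L)) hUint]
  refine (abs_add_le _ _).trans ?_
  rw [← integral_indicator measurableSet_ball, ← hgU]
  refine (add_le_add hnear (hfar.trans (mul_le_mul_of_nonneg_left hW1 hF))).trans ?_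
  have hW : 0 ≤ ∫ x, w x ^ 2 := integral_nonneg fun x => sq_nonneg _
  have hvL : 0 ≤ vL := measureReal_nonneg
  have ha' : 0 ≤ a⁻¹ := (inv_pos.2 ha).le
  nlinarith [mul_nonneg (mul_nonneg hS hG) (mul_nonneg ha.le hW), mul_nonneg hS ha',
    mul_nonneg (mul_nonneg hF hvL) (mul_nonneg ha.le hW), mul_nonneg hF ha']

/-- Approximation of a test function by test functions times the density. -/
lemma exists_test_near {φ : Rn n → ℝ} (hφ : Continuous φ) (hφs : HasCompactSupport φ)
    (hφ0 : ∫ x, φ x = 0) :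
    ∃ L C : ℝ, 0 < L ∧ 0 ≤ C ∧ (∀ x, L < ‖x‖ → φ x = 0) ∧ ∀ η : ℝ, 0 < η → η ≤ 1 →
      ∃ ψ : Rn n → ℝ, (∃ K : NNReal, LipschitzWith K ψ) ∧ HasCompactSupport ψ ∧
        (∀ x, L < ‖x‖ → ψ x = 0) ∧ ∫ x, ψ x * f x = 0 ∧
        ∫ x, (ψ x * f x - φ x) ^ 2 ≤ C * η ^ 2 := by
  have hM : 0 ≤ M := (abs_nonneg _).trans (abs_f_le hf hc hfb 0)
  obtain ⟨R, hR⟩ := hφs.isBounded.subset_closedBall 0
  set L0 := max R 1
  have hL0 : 0 < L0 := lt_max_of_lt_right one_pos
  have hφz : ∀ x, L0 < ‖x‖ → φ x = 0 := fun x hx => image_eq_zero_of_notMem_tsupport fun h => by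
    have := hR h
    rw [Metric.mem_closedBall, dist_zero_right] at this
    linarith [le_max_left R 1]
  let χ : ContDiffBump (0 : Rn n) := ⟨L0, L0 + 1, hL0, by linarith⟩
  set L := L0 + 1
  have hL : 0 < L := by positivity
  have hχz : ∀ x, L < ‖x‖ → χ x = 0 := fun x hx =>
    χ.zero_of_le_dist (by rw [dist_zero_right]; exact hx.le)
  have hχc : HasCompactSupport (χ : Rn n → ℝ) := χ.hasCompactSupport
  obtain ⟨Bφ, hBφ⟩ := hφ.bounded_above_of_compact_support hφs
  set q : Rn n → ℝ := fun x => φ x / f x with hq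
  have hfne : ∀ x, f x ≠ 0 := fun x => (lt_of_lt_of_le hc (hfb x).1).ne'
  have hqb : ∀ x, |q x| ≤ Bφ / c := fun x => by
    rw [hq, abs_div, abs_of_pos (lt_of_lt_of_le hc (hfb x).1)]
    exact div_le_div₀ ((norm_nonneg _).trans (hBφ x)) (hBφ x) hc (hfb x).1
  have hqz : ∀ x, L0 < dist x (0 : Rn n) → q x = 0 := fun x hx => by
    rw [hq]; simp [hφz x (by rwa [dist_zero_right] at hx)]
  have hqmeas : Measurable q := hφ.measurable.div hf
  have hqm : MemLp q 2 volume := by
    refine (memLp_two_iff_integrable_sq_norm hqmeas.aestronglyMeasurable).2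
      (integrable_bdd (g := fun x => ‖q x‖ ^ 2) (hqmeas.norm.pow_const 2) (B := (Bφ / c) ^ 2)
        (fun x => ?_) 0 L0 fun x hx => by rw [hqz x hx]; simp)
    rw [abs_pow, abs_norm, Real.norm_eq_abs]
    exact pow_le_pow_left₀ (abs_nonneg _) (hqb x) 2
  have hχi : Integrable fun x => χ x * f x :=
    (χ.continuous.integrable_of_hasCompactSupport hχc).mul_bdd hf.aestronglyMeasurable
      (c := M) (Eventually.of_forall fun x => by rw [Real.norm_eq_abs]; exact abs_f_le hf hc hfb x)
  set β := ∫ x, χ x * f x with hβ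
  have hβ0 : 0 < β := by
    refine lt_of_lt_of_le (mul_pos (χ.integral_pos (μ := (volume : Measure (Rn n)))) hc) ?_
    rw [hβ, ← integral_mul_const]
    exact integral_mono ((χ.continuous.integrable_of_hasCompactSupport hχc).mul_const c) hχi
      fun x => mul_le_mul_of_nonneg_left (hfb x).1 χ.nonneg
  set vol' := (volume : Measure (Rn n)).real (Metric.closedBall 0 L)
  set r0 := M * (1 + vol') / (2 * β) with hr0
  have hv0 : 0 ≤ vol' := measureReal_nonneg
  refine ⟨L, M ^ 2 * (2 + 2 * r0 ^ 2 * vol'), hL, by positivity,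
    fun x hx => hφz x (by simp only [L] at hx; linarith), fun η hη _ => ?_⟩
  obtain ⟨g, hgc, hgs, hg⟩ := hqm.exist_eLpNorm_sub_le (by norm_num) (by norm_num) hη
  have hgm : MemLp g 2 volume := hgs.continuous.memLp_of_hasCompactSupport hgc
  have hd : MemLp (fun x => q x - g x) 2 volume := hqm.sub hgm
  have hdi : Integrable fun x => (q x - g x) ^ 2 :=
    ((memLp_two_iff_integrable_sq_norm hd.1).1 hd).congr (Eventually.of_forall fun x => by simp)
  have hsq : ∫ x, (q x - g x) ^ 2 ≤ η ^ 2 := by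
    have h1 := hd.eLpNorm_eq_integral_rpow_norm (by norm_num) (by norm_num)
    rw [show (2 : ENNReal).toReal = 2 by norm_num] at h1
    have h2 : (∫ x, ‖q x - g x‖ ^ (2 : ℝ)) ^ (2 : ℝ)⁻¹ ≤ η := by
      rw [← ENNReal.ofReal_le_ofReal_iff hη.le, ← h1]; exact hg
    rw [show (fun x => ‖q x - g x‖ ^ (2 : ℝ)) = fun x => (q x - g x) ^ 2 from
      funext fun x => by rw [Real.rpow_two, Real.norm_eq_abs, sq_abs]] at h2
    have h3 := pow_le_pow_left₀ (Real.rpow_nonneg (integral_nonneg fun x => sq_nonneg _) _) h2 2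
    rwa [show (2 : ℝ)⁻¹ = ((2 : ℕ) : ℝ)⁻¹ by norm_num,
      Real.rpow_inv_natCast_pow (integral_nonneg fun x => sq_nonneg _) two_ne_zero] at h3
  set ψ0 : Rn n → ℝ := fun x => χ x * g x with hψ0
  have hψ0c : ContDiff ℝ 1 ψ0 := χ.contDiff.mul (hgs.of_le (by exact_mod_cast le_top))
  set r := (∫ x, ψ0 x * f x) / β with hr
  set ψ : Rn n → ℝ := fun x => ψ0 x - r * χ x with hψ
  have hψc : ContDiff ℝ 1 ψ := hψ0c.sub (contDiff_const.mul χ.contDiff)
  have hψz : ∀ x, L < ‖x‖ → ψ x = 0 := fun x hx => by simp [hψ, hψ0, hχz x hx]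
  have hψs : HasCompactSupport ψ := HasCompactSupport.intro (isCompact_closedBall 0 L) fun x hx =>
    hψz x (by simpa using hx)
  obtain ⟨K, hK⟩ : ∃ K : NNReal, LipschitzWith K ψ :=
    hψc.lipschitzWith_of_hasCompactSupport hψs one_ne_zero
  have hχq : ∀ x, χ x * q x = q x := fun x => by
    rcases le_or_gt ‖x‖ L0 with h | h
    · rw [χ.one_of_mem_closedBall (show x ∈ Metric.closedBall (0 : Rn n) χ.rIn by
        rw [Metric.mem_closedBall, dist_zero_right]; exact h), one_mul]
    · rw [hqz x (by rwa [dist_zero_right]), mul_zero]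
  have hd0 : ∀ x, |ψ0 x - q x| ≤ |q x - g x| := fun x => by
    conv_lhs => rw [← hχq x]
    simp only [hψ0]
    rw [← mul_sub, abs_mul, abs_of_nonneg χ.nonneg, abs_sub_comm]
    exact mul_le_of_le_one_left (abs_nonneg _) χ.le_one
  have hψ0i : Integrable fun x => ψ0 x * f x := by
    refine (Continuous.integrable_of_hasCompactSupport hψ0c.continuous ?_).mul_bdd
      hf.aestronglyMeasurable (c := M)
      (Eventually.of_forall fun x => by rw [Real.norm_eq_abs]; exact abs_f_le hf hc hfb x)
    exact hχc.mul_right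
  have hψf : ∫ x, ψ x * f x = 0 := by
    simp only [hψ, sub_mul, mul_assoc]
    rw [integral_sub hψ0i (hχi.const_mul r), integral_const_mul, ← hβ, hr,
      div_mul_cancel₀ _ hβ0.ne', sub_self]
  have hball : Integrable ((Metric.closedBall (0 : Rn n) L).indicator fun _ => (1 : ℝ)) :=
    (integrableOn_const measure_closedBall_lt_top.ne).integrable_indicator measurableSet_closedBall
  have hballval : ∫ x, (Metric.closedBall (0 : Rn n) L).indicator (fun _ => (1 : ℝ)) x = vol' := by
    rw [integral_indicator_const _ measurableSet_closedBall, smul_eq_mul, mul_one]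
  have hqfi : ∫ x, q x * f x = 0 := by
    simp only [hq, div_mul_cancel₀ _ (hfne _)]
    exact hφ0
  have hrb : |r| ≤ r0 * η := by
    have hqi : Integrable fun x => q x * f x := by
      refine (hφ.integrable_of_hasCompactSupport hφs).congr (Eventually.of_forall fun x => ?_)
      simp only [hq, div_mul_cancel₀ _ (hfne x)]
    have h1 : |∫ x, ψ0 x * f x| ≤ M * (η * (1 + vol') / 2) := by
      rw [← sub_zero (∫ x, ψ0 x * f x), ← hqfi, ← integral_sub hψ0i hqi, ← Real.norm_eq_abs]
      refine (norm_integral_le_of_norm_le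
        (((hdi.const_mul (η⁻¹ / 2)).add (hball.const_mul (η / 2))).const_mul M)
        (Eventually.of_forall fun x => ?_)).trans ?_
      · rw [← sub_mul, norm_mul, Real.norm_eq_abs, Real.norm_eq_abs, mul_comm]
        refine mul_le_mul (abs_f_le hf hc hfb x) ?_ (abs_nonneg _) hM
        simp only [Pi.add_apply]
        by_cases hx : x ∈ Metric.closedBall (0 : Rn n) L
        · rw [indicator_of_mem hx]
          refine (hd0 x).trans ?_
          have e1 : η⁻¹ / 2 * (q x - g x) ^ 2 + η / 2 * 1 - |q x - g x| =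
              (|q x - g x| - η) ^ 2 / (2 * η) := by
            rw [← sq_abs (q x - g x)]; field_simp; ring
          linarith [show 0 ≤ (|q x - g x| - η) ^ 2 / (2 * η) by positivity]
        · rw [Metric.mem_closedBall, dist_zero_right, not_le] at hx
          have h0 : ψ0 x - q x = 0 := by
            simp only [hψ0, hχz x hx, zero_mul]
            rw [hqz x (by rw [dist_zero_right]; simp only [L] at hx; linarith), sub_self]
          rw [indicator_of_notMem (by simpa using hx), mul_zero, add_zero, h0, abs_zero]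
          positivity
      · rw [integral_const_mul]
        refine mul_le_mul_of_nonneg_left ?_ hM
        simp only [Pi.add_apply]
        rw [integral_add (hdi.const_mul _) (hball.const_mul _), integral_const_mul, integral_const_mul,
          hballval]
        have h4 : η⁻¹ / 2 * ∫ x, (q x - g x) ^ 2 ≤ η⁻¹ / 2 * η ^ 2 :=
          mul_le_mul_of_nonneg_left hsq (by positivity)
        have h5 : η⁻¹ / 2 * η ^ 2 = η / 2 := by field_simp
        linarith
    rw [hr, hr0, abs_div, abs_of_pos hβ0, div_le_iff₀ hβ0]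
    refine h1.trans (le_of_eq ?_)
    field_simp
  refine ⟨ψ, ⟨K, hK⟩, hψs, hψz, hψf, ?_⟩
  calc ∫ x, (ψ x * f x - φ x) ^ 2 ≤ ∫ x, M ^ 2 * (2 * (q x - g x) ^ 2 +
        2 * r ^ 2 * (Metric.closedBall (0 : Rn n) L).indicator (fun _ => (1 : ℝ)) x) := by
        refine integral_mono_of_nonneg (Eventually.of_forall fun x => sq_nonneg _)
          (((hdi.const_mul 2).add (hball.const_mul (2 * r ^ 2))).const_mul (M ^ 2))
          (Eventually.of_forall fun x => ?_)
        simp only
        have e1 : ψ x * f x - φ x = f x * ((ψ0 x - q x) - r * χ x) := by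
          simp only [hψ, hq]; field_simp [hfne x]; ring
        rw [e1, mul_pow]
        refine mul_le_mul (pow_le_pow_left₀ (hc.le.trans (hfb x).1) (hfb x).2 2) ?_
          (sq_nonneg _) (sq_nonneg _)
        have h2 : (ψ0 x - q x) ^ 2 ≤ (q x - g x) ^ 2 := sq_le_sq.2 (hd0 x)
        have h3 : (r * χ x) ^ 2 ≤ r ^ 2 * (Metric.closedBall (0 : Rn n) L).indicator (fun _ => (1 : ℝ)) x := by
          rw [mul_pow]
          refine mul_le_mul_of_nonneg_left ?_ (sq_nonneg r)
          by_cases hx : x ∈ Metric.closedBall (0 : Rn n) L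
          · rw [indicator_of_mem hx]; exact pow_le_one₀ χ.nonneg χ.le_one
          · rw [Metric.mem_closedBall, dist_zero_right, not_le] at hx
            rw [hχz x hx, indicator_of_notMem (by simpa using hx)]
            norm_num
        have h4 : ((ψ0 x - q x) - r * χ x) ^ 2 ≤ 2 * (ψ0 x - q x) ^ 2 + 2 * (r * χ x) ^ 2 := by
          nlinarith [sq_nonneg ((ψ0 x - q x) + r * χ x)]
        linarith
    _ ≤ _ := by
        rw [integral_const_mul, integral_add (hdi.const_mul 2) (hball.const_mul (2 * r ^ 2)),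
          integral_const_mul, integral_const_mul, hballval]
        have hr2 : r ^ 2 ≤ r0 ^ 2 * η ^ 2 := by
          rw [← mul_pow, ← sq_abs r]; exact pow_le_pow_left₀ (abs_nonneg _) hrb 2
        calc M ^ 2 * (2 * (∫ x, (q x - g x) ^ 2) + 2 * r ^ 2 * vol')
            ≤ M ^ 2 * (2 * η ^ 2 + 2 * (r0 ^ 2 * η ^ 2) * vol') := by gcongr
          _ = _ := by ring

/-- The nullity passes to smooth test functions. -/
lemma tendsto_wPair (hn : 1 ≤ n) (hnull : RieszNull n f) (i : Fin n) {φ : Rn n → ℝ}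
    (hφ : Continuous φ) (hφs : HasCompactSupport φ) (hφ0 : ∫ x, φ x = 0) :
    Tendsto (fun k : ℕ => wPair f φ (EuclideanSpace.single i (1 : ℝ)) (1 / ((k : ℝ) + 1))
      ((k : ℝ) + 1)) atTop (𝓝 0) := by
  set e : Rn n := EuclideanSpace.single i (1 : ℝ)
  have he : ‖e‖ = 1 := by simp [e]
  obtain ⟨L, C, hL, hC, hφz, hnear⟩ := exists_test_near hf hc hfb hφ hφs hφ0
  obtain ⟨Cw, hCw, hbound⟩ := exists_wPair_bound hf hc hfb hn i hL
  obtain ⟨Bφ, hBφ⟩ := hφ.bounded_above_of_compact_support hφs
  rw [Metric.tendsto_atTop]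
  intro ε hε
  set η := min 1 (ε / (2 * (Cw * (C + 1) + 1))) with hηdef
  have hη : 0 < η := lt_min one_pos (by positivity)
  obtain ⟨ψ, ⟨K, hK⟩, hψs, hψz, hψf, hψφ⟩ := hnear η hη (min_le_left _ _)
  obtain ⟨Bψ, hBψ⟩ := hK.continuous.bounded_above_of_compact_support hψs
  obtain ⟨N, hN⟩ := Metric.tendsto_atTop.1 (hnull i ψ K hK hψs hψf) ε hε
  refine ⟨N, fun k hk => ?_⟩
  have hk' := hN k hk
  rw [Real.dist_eq, sub_zero] at hk' ⊢
  set δ : ℝ := 1 / ((k : ℝ) + 1)
  set T : ℝ := (k : ℝ) + 1
  have hδ : 0 < δ := by positivity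
  have hT : 0 < T := by positivity
  have hfabs := abs_f_le hf hc hfb
  set w : Rn n → ℝ := fun x => φ x - ψ x * f x with hw
  have hwm : Measurable w := hφ.measurable.sub (hK.continuous.measurable.mul hf)
  have hψfb : ∀ x, |ψ x * f x| ≤ Bψ * M := fun x => by
    rw [abs_mul]
    exact mul_le_mul (hBψ x) (hfabs x) (abs_nonneg _) ((norm_nonneg _).trans (hBψ x))
  have hwb : ∀ x, |w x| ≤ Bφ + Bψ * M := fun x =>
    (abs_sub _ _).trans (add_le_add (hBφ x) (hψfb x))
  have hwz : ∀ x, L < ‖x‖ → w x = 0 := fun x hx => by simp [hw, hφz x hx, hψz x hx]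
  have hψfz : ∀ x, L < ‖x‖ → ψ x * f x = 0 := fun x hx => by simp [hψz x hx]
  have hw0 : ∫ x, w x = 0 := by
    simp only [hw]
    rw [integral_sub (hφ.integrable_of_hasCompactSupport hφs) (integrable_bdd
      (g := fun x => ψ x * f x) (hK.continuous.measurable.mul hf) hψfb 0 L
      fun x hx => hψfz x (by rwa [dist_zero_right] at hx)), hφ0, hψf, sub_zero]
  have i1 := wPair_integrable hf hc hfb he hδ hT hwm hwb hwz
  have i2 := wPair_integrable hf hc hfb he hδ hT (w := fun x => ψ x * f x)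
    (hK.continuous.measurable.mul hf) hψfb hψfz
  have hdec : wPair f φ e δ T = wPair f w e δ T + wPair f (fun x => ψ x * f x) e δ T := by
    rw [wPair, wPair, wPair, ← integral_add i1 i2]
    refine integral_congr_ae (Eventually.of_forall fun q => ?_)
    simp only [hw]
    ring
  have hform : rieszForm n δ T f ψ i = 2 * wPair f (fun x => ψ x * f x) e δ T := by
    rw [(rieszForm_eq_prod hf hfabs hδ hT hK.continuous.measurable hBψ (z := 0) (S := L)
      (fun x hx => hψz x (by rwa [dist_zero_right] at hx)) i).2, wPair, two_mul]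
    conv_rhs => arg 2; rw [← integral_prod_swap]
    rw [← integral_add i2 (show Integrable (fun q : Rn n × Rn n => ψ q.swap.1 * f q.swap.1 *
      (f q.swap.2 * cutKer e δ T (q.swap.1 - q.swap.2))) _ from i2.swap)]
    refine integral_congr_ae (Eventually.of_forall fun q => ?_)
    simp only [Prod.fst_swap, Prod.snd_swap, e]
    rw [← neg_sub q.1 q.2, cutKer_neg]
    ring
  have hb := hbound δ T hδ hT w hwm ⟨_, hwb⟩ hwz hw0 η⁻¹ (inv_pos.2 hη)
  rw [inv_inv] at hb
  have hsq : ∫ x, w x ^ 2 ≤ C * η ^ 2 := by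
    refine le_of_eq_of_le (integral_congr_ae (Eventually.of_forall fun x => ?_)) hψφ
    simp only [hw]; ring
  have hb' : |wPair f w e δ T| ≤ Cw * (C + 1) * η := by
    refine hb.trans ?_
    calc Cw * (η⁻¹ * (∫ x, w x ^ 2) + η) ≤ Cw * (η⁻¹ * (C * η ^ 2) + η) := by gcongr
      _ = Cw * (C + 1) * η := by field_simp
  have hsmall : Cw * (C + 1) * η < ε / 2 := by
    have h1 : η ≤ ε / (2 * (Cw * (C + 1) + 1)) := min_le_right _ _
    rw [le_div_iff₀ (by positivity)] at h1
    nlinarith
  rw [hform, abs_mul, abs_two] at hk'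
  rw [hdec]
  exact (abs_add_le _ _).trans_lt (by linarith)

/-- The limit of the pairing with a smooth test function is the absolutely convergent pairing. -/
lemma tendsto_wPair_limit (hn : 1 ≤ n) (i : Fin n) {φ : Rn n → ℝ} {K : NNReal}
    (hφ : LipschitzWith K φ) (hφs : HasCompactSupport φ) (hφ0 : ∫ x, φ x = 0) :
    Tendsto (fun k : ℕ => 2 * wPair f φ (EuclideanSpace.single i (1 : ℝ)) (1 / ((k : ℝ) + 1))
      ((k : ℝ) + 1)) atTop
      (𝓝 (∫ x, f x * ∫ h, (φ (x + h) - φ (x - h)) * (h i / ‖h‖ ^ (n + 1)))) := by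
  set e : Rn n := EuclideanSpace.single i (1 : ℝ)
  have he : ‖e‖ = 1 := by simp [e]
  have hM : 0 ≤ M := (abs_nonneg _).trans (abs_f_le hf hc hfb 0)
  have hKC : 0 ≤ kerConst n := by rw [kerConst]; positivity
  obtain ⟨R, hR⟩ := hφs.isBounded.subset_closedBall 0
  set L := max R 1
  have hL : 0 < L := lt_max_of_lt_right one_pos
  have hφz : ∀ x, L < ‖x‖ → φ x = 0 := fun x hx => image_eq_zero_of_notMem_tsupport fun h => by
    have := hR h
    rw [Metric.mem_closedBall, dist_zero_right] at this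
    linarith [le_max_left R 1]
  obtain ⟨B, hB⟩ := hφ.continuous.bounded_above_of_compact_support hφs
  have hφi : Integrable φ := hφ.continuous.integrable_of_hasCompactSupport hφs
  set δ : ℕ → ℝ := fun k => 1 / ((k : ℝ) + 1)
  set T : ℕ → ℝ := fun k => (k : ℝ) + 1
  have hδ : ∀ k, 0 < δ k := fun k => by positivity
  have hT : ∀ k, 0 < T k := fun k => by positivity
  set J : ℕ → Rn n → ℝ := fun k x => ∫ h, (φ (x + h) - φ (x - h)) * cutKer e (δ k) (T k) h
  have hJ : ∀ k x, J k x = -2 * ∫ y, φ y * cutKer e (δ k) (T k) (x - y) := by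
    intro k x
    have i1 : Integrable fun h => φ (x + h) * cutKer e (δ k) (T k) h :=
      (hφi.comp_add_left x).mul_bdd (measurable_cutKer _ _ _).aestronglyMeasurable
        (c := (δ k ^ n)⁻¹) (Eventually.of_forall fun y => by
          rw [Real.norm_eq_abs]; exact abs_cutKer_le he (hδ k) _ y)
    have i2 : Integrable fun h => φ (x - h) * cutKer e (δ k) (T k) h :=
      (hφi.comp_sub_left x).mul_bdd (measurable_cutKer _ _ _).aestronglyMeasurable
        (c := (δ k ^ n)⁻¹) (Eventually.of_forall fun y => by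
          rw [Real.norm_eq_abs]; exact abs_cutKer_le he (hδ k) _ y)
    have e2 : ∫ h, φ (x - h) * cutKer e (δ k) (T k) h = ∫ y, φ y * cutKer e (δ k) (T k) (x - y) := by
      rw [← integral_sub_left_eq_self (fun h => φ (x - h) * cutKer e (δ k) (T k) h) volume x]
      simp only [sub_sub_cancel]
    have e3 : ∫ h, φ (x + h) * cutKer e (δ k) (T k) h = -∫ h, φ (x - h) * cutKer e (δ k) (T k) h := by
      rw [← integral_neg_eq_self (fun h => φ (x + h) * cutKer e (δ k) (T k) h) volume, ← integral_neg]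
      simp only [cutKer_neg, ← sub_eq_add_neg, mul_neg]
    simp only [J, sub_mul]
    rw [integral_sub i1 i2, e3, e2]
    ring
  have hP : ∀ k, 2 * wPair f φ e (δ k) (T k) = ∫ x, f x * J k x := by
    intro k
    rw [wPair, integral_prod_symm _ (wPair_integrable hf hc hfb he (hδ k) (hT k)
      hφ.continuous.measurable (fun x => hB x) hφz), ← integral_const_mul]
    refine integral_congr_ae (Eventually.of_forall fun x => ?_)
    simp only [hJ, ← integral_const_mul]
    refine integral_congr_ae (Eventually.of_forall fun y => ?_)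
    simp only
    rw [← neg_sub x y, cutKer_neg]
    ring
  simp only [δ, T] at hP
  simp only [hP]
  obtain ⟨hni, hnint⟩ := radial_near (n := n) hn (show 0 < 6 * L by linarith)
  obtain ⟨hfi, hfint⟩ := radial_far (n := n) hn (show 0 < 4 * L by linarith)
  set A := 2 * (K : ℝ) * (radConst n * (6 * L))
  set D := 2 * ((kerConst n + 8) * L * ∫ y, |φ y|)
  have hlimJ : ∀ x, Tendsto (fun k => J k x) atTop
      (𝓝 (∫ h, (φ (x + h) - φ (x - h)) * (h i / ‖h‖ ^ (n + 1)))) := by
    intro x
    obtain ⟨hxi, -⟩ := radial_near (n := n) hn (show 0 < ‖x‖ + L + 1 by positivity)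
    refine tendsto_integral_of_dominated_convergence
      (fun h => 2 * (K : ℝ) * (Metric.ball (0 : Rn n) (‖x‖ + L + 1)).indicator
        (fun z => (‖z‖ ^ (n - 1))⁻¹) h)
      (fun k => (((hφ.continuous.measurable.comp (measurable_const.add measurable_id)).sub
        (hφ.continuous.measurable.comp (measurable_const.sub measurable_id))).mul
          (measurable_cutKer _ _ _)).aestronglyMeasurable)
      (hxi.const_mul _) (fun k => Eventually.of_forall fun h => ?_)
      (Eventually.of_forall fun h => ?_)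
    · rw [norm_mul, Real.norm_eq_abs, Real.norm_eq_abs]
      rcases eq_or_ne h 0 with rfl | hh
      · simp only [add_zero, sub_zero, sub_self, abs_zero, zero_mul]
        exact mul_nonneg (by positivity) (indicator_nonneg (fun z _ => by positivity) _)
      by_cases hbig : ‖x‖ + L + 1 ≤ ‖h‖
      · have h1 : L < ‖x + h‖ := by
          have h3 := norm_le_norm_add_norm_sub' h (x + h)
          rw [show h - (x + h) = -x by abel, norm_neg] at h3
          linarith
        have h2 : L < ‖x - h‖ := by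
          linarith [norm_sub_norm_le h x, norm_sub_rev h x]
        rw [hφz _ h1, hφz _ h2, sub_zero, abs_zero, zero_mul]
        exact mul_nonneg (by positivity) (indicator_nonneg (fun z _ => by positivity) _)
      rw [indicator_of_mem (by rw [Metric.mem_ball, dist_zero_right]; exact not_le.1 hbig)]
      have hh0 : 0 < ‖h‖ := norm_pos_iff.2 hh
      have h1 : |φ (x + h) - φ (x - h)| ≤ (K : ℝ) * (2 * ‖h‖) := by
        have := hφ.dist_le_mul (x + h) (x - h)
        rw [Real.dist_eq, dist_eq_norm, show x + h - (x - h) = (2 : ℝ) • h by rw [two_smul]; abel,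
          norm_smul, Real.norm_eq_abs, abs_two] at this
        exact this
      have h2 : |cutKer e (δ k) (T k) h| ≤ (‖h‖ ^ n)⁻¹ := by
        rw [cutKer, abs_mul, abs_of_nonneg (cut_mem _ _ _).1]
        exact (mul_le_of_le_one_right (abs_nonneg _) (cut_mem _ _ _).2).trans (abs_inner_div_le he h)
      refine (mul_le_mul h1 h2 (abs_nonneg _) (by positivity)).trans (le_of_eq ?_)
      have : ‖h‖ ^ n = ‖h‖ ^ (n - 1) * ‖h‖ := by rw [← pow_succ]; congr 1; omega
      rw [this]
      field_simp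
    · rcases eq_or_ne h 0 with rfl | hh
      · simp [cutKer]
      have hh0 : 0 < ‖h‖ := norm_pos_iff.2 hh
      refine tendsto_const_nhds.congr' ?_
      obtain ⟨N1, hN1⟩ := exists_nat_ge ‖h‖
      obtain ⟨N2, hN2⟩ := exists_nat_ge (2 / ‖h‖)
      filter_upwards [eventually_ge_atTop N1, eventually_ge_atTop N2] with k hk1 hk2
      have a1 : ‖h‖ ≤ T k := by
        have : (N1 : ℝ) ≤ k := by exact_mod_cast hk1
        simp only [T]; linarith
      have a2 : 2 * δ k ≤ ‖h‖ := by
        have : (N2 : ℝ) ≤ k := by exact_mod_cast hk2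
        simp only [δ]
        rw [mul_one_div, div_le_iff₀ (by positivity)]
        have h3 : 2 / ‖h‖ ≤ (k : ℝ) + 1 := by linarith
        rw [div_le_iff₀ hh0] at h3
        linarith
      rw [cutKer, cut, ramp_one (hT k) a1, ramp_zero (hδ k) a2, sub_zero, one_mul, mul_one,
        EuclideanSpace.inner_single_left]
      simp
  refine tendsto_integral_of_dominated_convergence
    (fun x => M * (A * (Metric.ball (0 : Rn n) (4 * L)).indicator (fun _ => (1 : ℝ)) x +
      D * (Metric.ball (0 : Rn n) (4 * L))ᶜ.indicator (fun z => (‖z‖ ^ (n + 1))⁻¹) x))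
    (fun k => ?_) ?_ (fun k => Eventually.of_forall fun x => ?_)
    (Eventually.of_forall fun x => (hlimJ x).const_mul (f x))
  · refine hf.aestronglyMeasurable.mul ?_
    simp only [funext (hJ k)]
    refine (StronglyMeasurable.integral_prod_right' (f := fun q : Rn n × Rn n =>
      φ q.2 * cutKer e (δ k) (T k) (q.1 - q.2)) ?_).aestronglyMeasurable.const_mul _
    exact ((hφ.continuous.measurable.comp measurable_snd).mul
      ((measurable_cutKer _ _ _).comp (measurable_fst.sub measurable_snd))).stronglyMeasurable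
  · exact ((((integrableOn_const measure_ball_lt_top.ne).integrable_indicator
      measurableSet_ball).const_mul A).add (hfi.const_mul D)).const_mul M
  · rw [norm_mul, Real.norm_eq_abs, Real.norm_eq_abs]
    refine mul_le_mul (abs_f_le hf hc hfb x) ?_ (abs_nonneg _) hM
    by_cases hx : x ∈ Metric.ball (0 : Rn n) (4 * L)
    · rw [indicator_of_mem hx, indicator_of_notMem (show x ∉ (Metric.ball (0 : Rn n) (4 * L))ᶜ from
        not_not.2 hx), mul_one, mul_zero, add_zero]
      rw [Metric.mem_ball, dist_zero_right] at hx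
      simp only [J, A]
      rw [← hnint, ← integral_const_mul, ← integral_indicator measurableSet_ball, ← Real.norm_eq_abs]
      refine norm_integral_le_of_norm_le
        ((hni.const_mul (2 * (K : ℝ))).congr (Eventually.of_forall fun z => by
          by_cases hz : z ∈ Metric.ball (0 : Rn n) (6 * L)
          · simp only [indicator_of_mem hz]
          · simp only [indicator_of_notMem hz, mul_zero]))
        (Eventually.of_forall fun h => ?_)
      rw [norm_mul, Real.norm_eq_abs, Real.norm_eq_abs]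
      rcases eq_or_ne h 0 with rfl | hh
      · simp only [add_zero, sub_zero, sub_self, abs_zero, zero_mul]
        exact indicator_nonneg (fun z _ => by positivity) _
      by_cases hbig : 6 * L ≤ ‖h‖
      · have h1 : L < ‖x + h‖ := by
          have h3 := norm_le_norm_add_norm_sub' h (x + h)
          rw [show h - (x + h) = -x by abel, norm_neg] at h3
          linarith
        have h2 : L < ‖x - h‖ := by linarith [norm_sub_norm_le h x, norm_sub_rev h x]
        rw [hφz _ h1, hφz _ h2, sub_zero, abs_zero, zero_mul]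
        exact indicator_nonneg (fun z _ => by positivity) _
      rw [indicator_of_mem (by rw [Metric.mem_ball, dist_zero_right]; exact not_le.1 hbig)]
      have hh0 : 0 < ‖h‖ := norm_pos_iff.2 hh
      have h1 : |φ (x + h) - φ (x - h)| ≤ (K : ℝ) * (2 * ‖h‖) := by
        have := hφ.dist_le_mul (x + h) (x - h)
        rw [Real.dist_eq, dist_eq_norm, show x + h - (x - h) = (2 : ℝ) • h by rw [two_smul]; abel,
          norm_smul, Real.norm_eq_abs, abs_two] at this
        exact this
      have h2 : |cutKer e (δ k) (T k) h| ≤ (‖h‖ ^ n)⁻¹ := by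
        rw [cutKer, abs_mul, abs_of_nonneg (cut_mem _ _ _).1]
        exact (mul_le_of_le_one_right (abs_nonneg _) (cut_mem _ _ _).2).trans (abs_inner_div_le he h)
      refine (mul_le_mul h1 h2 (abs_nonneg _) (by positivity)).trans (le_of_eq ?_)
      have : ‖h‖ ^ n = ‖h‖ ^ (n - 1) * ‖h‖ := by rw [← pow_succ]; congr 1; omega
      rw [this]
      field_simp
    · rw [indicator_of_notMem hx, indicator_of_mem (show x ∈ (Metric.ball (0 : Rn n) (4 * L))ᶜ from hx),
        mul_zero, zero_add]
      rw [Metric.mem_ball, dist_zero_right, not_lt] at hx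
      rw [hJ, abs_mul, abs_neg, abs_two]
      refine (mul_le_mul_of_nonneg_left (abs_conv_far_le he (hδ k) (hT k) hφi hφz hφ0
        (by linarith) (by linarith)) zero_le_two).trans (le_of_eq ?_)
      simp only [D]
      ring

end Bounded

/-- A null density bounded above and below is constant, given the rigidity of bounded densities. -/
theorem _root_.Vale.Agent.P120.Full.nullRigidity (hn : 1 ≤ n) (h : DensityRigidity n) :
    NullRigidity n := by
  intro f c M hf hc hfb hnull
  refine h f M hf (abs_f_le hf hc hfb) fun i φ hφ hφs hφ0 => ?_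
  obtain ⟨K, hK⟩ : ∃ K : NNReal, LipschitzWith K φ :=
    (hφ.of_le one_le_two).lipschitzWith_of_hasCompactSupport hφs one_ne_zero
  have h1 := tendsto_wPair_limit hf hc hfb hn i hK hφs hφ0
  have h2 := (tendsto_wPair hf hc hfb hn hnull i hK.continuous hφs hφ0).const_mul (2 : ℝ)
  rw [mul_zero] at h2
  exact tendsto_nhds_unique h1 h2

end

end Vale.Agent.P120.Full.Holes
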