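import Vale.Agent.P120.Full.DecayStrong0

/-!
# P120, full answer: strong compactness of the normalised heights

A bounded energy makes the averages over small balls of radius `t` close to the function in `L²`,
linearly in `t`, and the averages tend to zero with the weak limit.
-/

namespace Vale.Agent.P120.Full

open MeasureTheory Set Filter
open scoped Topology

noncomputable section

variable {E : Type*} [NormedAddCommGroup E] [InnerProductSpace ℝ E] [MeasurableSpace E]
  [BorelSpace E] [FiniteDimensional ℝ E] {n m : ℕ}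

/-- A value against the weighted oscillation around it and the weighted mean. -/
lemma sq_le_oscillation {X : Type*} [MeasurableSpace X] {μ : Measure X} {w v : X → ℝ} {a : ℝ}
    (hw0 : ∀ y, 0 ≤ w y) (hw : Integrable w μ) (hwv : Integrable (fun y => w y * v y) μ)
    (hwv2 : Integrable (fun y => w y * v y ^ 2) μ) (hm : 0 < ∫ y, w y ∂μ) :
    a ^ 2 ≤ 2 * (∫ y, w y * (a - v y) ^ 2 ∂μ) / (∫ y, w y ∂μ) +
      2 * (∫ y, w y * v y ∂μ) ^ 2 / (∫ y, w y ∂μ) ^ 2 := by
  set M := ∫ y, w y ∂μ
  set N := ∫ y, w y * v y ∂μ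
  set Q := ∫ y, w y * v y ^ 2 ∂μ
  have hexp : ∀ s : ℝ, ∫ y, w y * (s - v y) ^ 2 ∂μ = s ^ 2 * M - 2 * s * N + Q := fun s => by
    have e : (fun y => w y * (s - v y) ^ 2) =
        fun y => (s ^ 2 * w y - 2 * s * (w y * v y)) + w y * v y ^ 2 := by funext y; ring
    have i1 : Integrable (fun y => s ^ 2 * w y - 2 * s * (w y * v y)) μ :=
      (hw.const_mul _).sub (hwv.const_mul _)
    rw [e, integral_add i1 hwv2, integral_sub (hw.const_mul _) (hwv.const_mul _),
      integral_const_mul, integral_const_mul]
  have h0 : 0 ≤ ∫ y, w y * (N / M - v y) ^ 2 ∂μ :=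
    integral_nonneg fun y => mul_nonneg (hw0 y) (sq_nonneg _)
  rw [hexp] at h0 ⊢
  have hQ : N ^ 2 ≤ M * Q := by
    have := mul_nonneg hm.le h0
    have e : M * ((N / M) ^ 2 * M - 2 * (N / M) * N + Q) = M * Q - N ^ 2 := by field_simp; ring
    linarith
  rw [div_add_div _ _ hm.ne' (by positivity), le_div_iff₀ (by positivity)]
  nlinarith [sq_nonneg (a * M - 2 * N), mul_le_mul_of_nonneg_left hQ hm.le]

/-- Weights of bounded Dirichlet energy tending weakly to zero tend to zero in `L²` locally. -/
theorem strongStatement (hn : 1 ≤ n) : StrongStatement E n m := by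
  intro U ν b o B C K h v hv hen hweak T₀
  set T := max T₀ 1
  have hT1 : 1 ≤ T := le_max_right _ _
  have hT0 : 0 < T := by linarith
  have hC : 0 < C := lt_of_lt_of_le one_pos h.one_le
  rw [Metric.tendsto_nhds]
  intro ε hε
  obtain ⟨M, hM⟩ := hen (T + 5)
  set t := min 1 (ε / (4 * (8 * 4 ^ n * C * (|M| + 1))))
  have ht : 0 < t := lt_min one_pos (by positivity)
  have ht1 : t ≤ 1 := min_le_left _ _
  have htε : 8 * 4 ^ n * C * t * (|M| + 1) ≤ ε / 4 := by
    have := (le_div_iff₀ (show (0 : ℝ) < 4 * (8 * 4 ^ n * C * (|M| + 1)) by positivity)).1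
      (min_le_right 1 (ε / (4 * (8 * 4 ^ n * C * (|M| + 1)))))
    linarith
  set m0 := 1 / 2 * (C⁻¹ * (t / 2) ^ n)
  have hm0 : 0 < m0 := by positivity
  set η := Real.sqrt (ε * m0 ^ 2 / (8 * (C * T ^ n)))
  have hη : 0 < η := Real.sqrt_pos.2 (by positivity)
  have hηε : 2 * η ^ 2 / m0 ^ 2 * (C * T ^ n) ≤ ε / 4 := by
    rw [Real.sq_sqrt (by positivity)]
    exact le_of_eq (by field_simp; ring)
  set θ : EuclideanSpace ℝ (Fin n) → ℝ := fun z => max 0 (min 1 (2 - ‖z‖ / T)) with hθ
  set G : EuclideanSpace ℝ (Fin n) × EuclideanSpace ℝ (Fin n) → ℝ :=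
    fun q => θ q.1 * tent t (q.2 - q.1) with hGd
  have hG : Continuous G := by
    simp only [hGd, hθ]
    exact ((by fun_prop : Continuous fun q : EuclideanSpace ℝ (Fin n) × EuclideanSpace ℝ (Fin n) =>
      max 0 (min 1 (2 - ‖q.1‖ / T)))).mul
      ((isTest_tent ht).1.comp (continuous_snd.sub continuous_fst))
  have hGs : HasCompactSupport G := by
    refine HasCompactSupport.intro ((isCompact_closedBall (0 : EuclideanSpace ℝ (Fin n)) (2 * T)).prod
      (isCompact_closedBall (0 : EuclideanSpace ℝ (Fin n)) (2 * T + t))) fun q hq => ?_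
    by_contra hne
    have h1 : ‖q.1‖ ≤ 2 * T := by
      by_contra h0
      refine left_ne_zero_of_mul hne (max_eq_left ((min_le_right _ _).trans ?_))
      have : 2 ≤ ‖q.1‖ / T := (le_div_iff₀ hT0).2 (le_of_lt (not_le.1 h0))
      linarith
    have h2 : ‖q.2 - q.1‖ < t :=
      not_le.1 fun h0 => right_ne_zero_of_mul hne (tent_eq_zero ht h0)
    refine hq ⟨mem_closedBall_zero_iff.2 h1, mem_closedBall_zero_iff.2 ?_⟩
    linarith [norm_le_insert' q.2 q.1]
  filter_upwards [h.uniform_inner hv (locallyIntegrable_const 0) hweak hG hGs hη,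
    h.cylinder (T + 2) (show 0 < t / 4 by positivity),
    h.sup_height (T + 1) (show 0 < t / 4 by positivity), h.lower (T + 1), hM]
    with i hu hcyl hsup hlow ⟨hint, hMi⟩
  have := h.finite i
  set q := fun p : E × E => (v i p.1 - v i p.2) ^ 2 / dist p.1 p.2 ^ (n + 1)
  set S := Metric.ball (0 : E) (T + 5)
  set Bl := Metric.ball (0 : E) T
  have hBS : Bl ⊆ S := Metric.ball_subset_ball (by linarith)
  have hq0 : ∀ p, 0 ≤ q p := fun p => by positivity
  have hsub : Bl ×ˢ S ⊆ S ×ˢ S := Set.prod_mono hBS Subset.rfl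
  have hBi : Integrable q (((ν i).restrict Bl).prod ((ν i).restrict S)) := by
    rw [Measure.prod_restrict]; exact hint.mono_set hsub
  have hDir : ∫ x in Bl, ∫ y in S, q (x, y) ∂ν i ∂ν i ≤ M := by
    refine le_trans ?_ hMi
    rw [← integral_prod _ hBi, Measure.prod_restrict]
    exact setIntegral_mono_set hint (Eventually.of_forall hq0) hsub.eventuallyLE
  have hpt : ∀ᵐ x ∂(ν i).restrict Bl,
      v i x ^ 2 ≤ 2 * (2 * t) ^ (n + 1) / m0 * (∫ y in S, q (x, y) ∂ν i) + 2 * η ^ 2 / m0 ^ 2 := by
    filter_upwards [hBi.prod_right_ae, ae_restrict_mem measurableSet_ball,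
      ae_restrict_of_ae (Measure.support_mem_ae (μ := ν i))] with x hxi hxB hxs
    rw [mem_ball_zero_iff] at hxB
    set π := proj (b i)
    set c := chi (b i) (o i)
    set φ : EuclideanSpace ℝ (Fin n) → ℝ := fun z => tent t (z - π x) with hφd
    have hφ : IsTest φ := ⟨(isTest_tent ht).1.comp (continuous_id.sub continuous_const),
      HasCompactSupport.intro (isCompact_closedBall (π x) t) fun z hz => tent_eq_zero ht
        (le_of_lt (not_le.1 fun h0 => hz (by rw [Metric.mem_closedBall, dist_eq_norm]; exact h0)))⟩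
    have hxh := hsup x hxs (by linarith)
    have hπx : ‖π x‖ < T := lt_of_le_of_lt (norm_proj_le _ x) hxB
    have hcone : ∀ y ∈ (ν i).support, ‖y‖ < T + 1 → c y = 1 := fun y hy hyT => by
      have := hsup y hy hyT
      show max 0 (min 1 (2 - ‖height (b i) (o i) y‖)) = 1
      rw [min_eq_left (by linarith), max_eq_right zero_le_one]
    set w := fun y => φ (π y) * c y with hw
    have hw0 : ∀ y, 0 ≤ w y := fun y => mul_nonneg (tent_mem ht _).1 (chi_mem _ _ y).1
    have hwi : Integrable w (ν i) := by
      simpa using integrable_cyl (ν := ν i) (b i) (o i) hφ (continuous_const (y := (1 : ℝ)))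
    have hwv : Integrable (fun y => w y * v i y) (ν i) :=
      integrable_cyl (b i) (o i) hφ (hv.1 i)
    have hwv2 : Integrable (fun y => w y * v i y ^ 2) (ν i) :=
      integrable_cyl (b i) (o i) hφ ((hv.1 i).pow 2)
    have hmass : m0 ≤ ∫ y, w y ∂ν i := by
      have h1 := hlow x hxs (by linarith) (t / 2) (by positivity) (by linarith)
      refine le_trans (mul_le_mul_of_nonneg_left h1 (by norm_num)) ?_
      calc 1 / 2 * (ν i).real (Metric.ball x (t / 2))
          = ∫ y, (Metric.ball x (t / 2)).indicator (fun _ => (1 / 2 : ℝ)) y ∂ν i := by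
            rw [integral_indicator_const _ measurableSet_ball, smul_eq_mul, mul_comm]
        _ ≤ _ := by
            refine integral_mono_ae ((integrable_const _).indicator measurableSet_ball) hwi ?_
            filter_upwards [Measure.support_mem_ae (μ := ν i)] with y hy
            by_cases hyb : y ∈ Metric.ball x (t / 2)
            · rw [indicator_of_mem hyb]
              rw [Metric.mem_ball, dist_eq_norm] at hyb
              simp only [hw, hcone y hy (by linarith [norm_le_insert' y x]), mul_one, hφd]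
              refine le_max_of_le_right ?_
              have h2 : ‖π y - π x‖ / t ≤ 1 / 2 := by
                rw [div_le_iff₀ ht, ← proj_sub]
                linarith [norm_proj_le (b i) (y - x)]
              linarith
            · rw [indicator_of_notMem hyb]; exact hw0 y
    have hN : |∫ y, w y * v i y ∂ν i| ≤ η := by
      have h1 := hu (π x)
      have hθ1 : θ (π x) = 1 := by
        have : ‖π x‖ / T ≤ 1 := (div_le_one hT0).2 hπx.le
        simp only [hθ]
        rw [min_eq_left (by linarith), max_eq_right zero_le_one]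
      simp only [hGd, hθ1, one_mul, mul_zero, integral_zero, sub_zero] at h1
      exact h1
    have hI : ∫ y, w y * (v i x - v i y) ^ 2 ∂ν i ≤ (2 * t) ^ (n + 1) * ∫ y in S, q (x, y) ∂ν i := by
      rw [← integral_indicator measurableSet_ball, ← integral_const_mul]
      refine integral_mono_of_nonneg (Eventually.of_forall fun y => mul_nonneg (hw0 y) (sq_nonneg _))
        (((show IntegrableOn (fun y => q (x, y)) S (ν i) from hxi).integrable_indicator measurableSet_ball).const_mul _) ?_
      filter_upwards [Measure.support_mem_ae (μ := ν i)] with y hy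
      by_cases hne : w y = 0
      · rw [hne, zero_mul]
        exact mul_nonneg (by positivity) (indicator_nonneg (fun y _ => hq0 _) y)
      have h2 : ‖π y - π x‖ < t :=
        not_le.1 fun h0 => left_ne_zero_of_mul hne (tent_eq_zero ht h0)
      obtain ⟨hy1, -, hy3⟩ := hcyl y hy (right_ne_zero_of_mul hne)
        (show ‖π y‖ < T + 2 by linarith [norm_le_insert' (π y) (π x)])
      rw [indicator_of_mem (mem_ball_zero_iff.2 (by linarith))]
      have hd : dist x y ≤ 2 * t := by
        rw [dist_eq_norm']
        have h3 : ‖across (b i) (y - x)‖ ≤ t / 2 := by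
          rw [← height_sub_height (b i) (o i)]
          linarith [norm_sub_le (height (b i) (o i) y) (height (b i) (o i) x)]
        have h4 : ‖proj (b i) (y - x)‖ < t := by rw [proj_sub]; exact h2
        linarith [norm_le_proj_add_across (b i) (y - x)]
      rcases eq_or_ne x y with rfl | hxy
      · simp [q]
      have hdp : 0 < dist x y ^ (n + 1) := pow_pos (dist_pos.2 hxy) _
      calc w y * (v i x - v i y) ^ 2 ≤ 1 * (v i x - v i y) ^ 2 :=
            mul_le_mul_of_nonneg_right (mul_le_one₀ (tent_mem ht _).2 (chi_mem _ _ y).1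
              (chi_mem _ _ y).2) (sq_nonneg _)
        _ = dist x y ^ (n + 1) * ((v i x - v i y) ^ 2 / dist x y ^ (n + 1)) := by
            rw [one_mul, mul_div_cancel₀ _ hdp.ne']
        _ ≤ _ := mul_le_mul_of_nonneg_right (pow_le_pow_left₀ dist_nonneg hd _) (hq0 (x, y))
    have hmpos := lt_of_lt_of_le hm0 hmass
    refine (sq_le_oscillation hw0 hwi hwv hwv2 hmpos (a := v i x)).trans (add_le_add ?_ ?_)
    · have hJ : 0 ≤ ∫ y in S, q (x, y) ∂ν i := integral_nonneg fun y => hq0 _
      calc 2 * (∫ y, w y * (v i x - v i y) ^ 2 ∂ν i) / (∫ y, w y ∂ν i)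
          ≤ 2 * ((2 * t) ^ (n + 1) * ∫ y in S, q (x, y) ∂ν i) / m0 :=
            div_le_div₀ (by positivity) (mul_le_mul_of_nonneg_left hI two_pos.le) hm0 hmass
        _ = _ := by ring
    · refine div_le_div₀ (by positivity) (mul_le_mul_of_nonneg_left ?_ two_pos.le) (by positivity)
        (pow_le_pow_left₀ hm0.le hmass 2)
      rw [← sq_abs]
      exact pow_le_pow_left₀ (abs_nonneg _) hN 2
  have hv2 : IntegrableOn (fun y => v i y ^ 2) Bl (ν i) :=
    (((hv.1 i).pow 2).continuousOn.integrableOn_compact (isCompact_closedBall _ _)).mono_set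
      Metric.ball_subset_closedBall
  have hmain : ∫ y in Bl, v i y ^ 2 ∂ν i ≤ ε / 2 := by
    refine (integral_mono_ae hv2 ((hBi.integral_prod_left.const_mul _).add (integrable_const _))
      hpt).trans ?_
    simp only [Pi.add_apply]
    rw [integral_add (hBi.integral_prod_left.const_mul _) (integrable_const _), integral_const_mul,
      setIntegral_const, smul_eq_mul]
    have e : 2 * (2 * t) ^ (n + 1) / m0 = 8 * 4 ^ n * C * t := by
      simp only [m0, mul_pow, div_pow, pow_succ]
      field_simp
      rw [show (4 : ℝ) ^ n = 2 ^ n * 2 ^ n by rw [← mul_pow]; norm_num]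
      ring
    have h1 : 2 * (2 * t) ^ (n + 1) / m0 * (∫ x in Bl, ∫ y in S, q (x, y) ∂ν i ∂ν i) ≤ ε / 4 := by
      rw [e]
      refine le_trans (mul_le_mul_of_nonneg_left (hDir.trans ((le_abs_self M).trans ?_))
        (by positivity)) htε
      linarith
    have h2 : (ν i).real Bl * (2 * η ^ 2 / m0 ^ 2) ≤ ε / 4 := by
      refine le_trans ?_ hηε
      rw [mul_comm]
      exact mul_le_mul_of_nonneg_left (h.mass_ball hT0 i) (by positivity)
    linarith
  have hle : ∫ y in Metric.ball (0 : E) T₀, v i y ^ 2 ∂ν i ≤ ε / 2 :=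
    le_trans (setIntegral_mono_set hv2 (Eventually.of_forall fun y => sq_nonneg _)
      (Metric.ball_subset_ball (le_max_left _ _)).eventuallyLE) hmain
  rw [Real.dist_eq, sub_zero, abs_of_nonneg (integral_nonneg fun y => sq_nonneg _)]
  linarith

end

end Vale.Agent.P120.Full
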