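import Vale.Agent.P120.Full.LiouvilleGauss
import Vale.Agent.P120.Full.Defs

/-!
# P120, module C: the Liouville theorem and the rigidity of bounded densities

A function of controlled growth annihilated by the operator of order one is affine. A bounded
density with constant Riesz transform is annihilated by that operator, so it is constant.
-/

namespace Vale.Agent.P120.Full.Liou

open MeasureTheory Set Filter Metric
open scoped Topology RealInnerProductSpace ContDiff ENNReal

noncomputable section

variable {n : ℕ}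

theorem decay_shift {F : X n → ℝ} {A : ℝ} (hA : 0 ≤ A)
    (h : ∀ x, |F x| ≤ A / (1 + ‖x‖) ^ (n + 2)) (x z : X n) :
    |F (x + z)| ≤ A * (1 + ‖z‖) ^ (n + 2) / (1 + ‖x‖) ^ (n + 2) := by
  refine (h _).trans ?_
  rw [div_le_div_iff₀ (by positivity) (by positivity), mul_assoc, ← mul_pow]
  refine mul_le_mul_of_nonneg_left (pow_le_pow_left₀ (by positivity) ?_ _) hA
  nlinarith [norm_le_add_norm_add x z, norm_nonneg z, norm_nonneg (x + z),
    mul_nonneg (norm_nonneg z) (norm_nonneg (x + z))]

/-- Integration of the annihilation along a segment. -/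
theorem step {u : X n → ℝ} (hu : Growth u) {G : X n → ℝ} (hG : ContDiff ℝ 1 G) (w : X n) {A : ℝ}
    (hA : 0 ≤ A) (hdec : ∀ x, |fderiv ℝ G x w| ≤ A / (1 + ‖x‖) ^ (n + 2))
    (h : ∀ y, ∫ x, u x * fderiv ℝ G (x + y) w = 0) (y : X n) :
    ∫ x, u x * (G (x + y + w) - G (x + y)) = 0 := by
  have hc : Continuous fun z => fderiv ℝ G z w :=
    (hG.continuous_fderiv one_ne_zero).clm_apply continuous_const
  have hd : Differentiable ℝ G := hG.differentiable one_ne_zero
  have e : ∀ x, G (x + y + w) - G (x + y) = ∫ t in (0 : ℝ)..1, fderiv ℝ G (x + y + t • w) w := fun x => by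
    rw [intervalIntegral.integral_eq_sub_of_hasDerivAt (f := fun t : ℝ => G (x + y + t • w))]
    · simp
    · intro t _
      have := (hd (x + y + t • w)).hasFDerivAt.comp_hasDerivAt t
        (((hasDerivAt_id t).smul_const w).const_add (x + y))
      simpa [Function.comp_def] using this
    · exact (hc.comp (by fun_prop)).intervalIntegrable _ _
  simp only [e, intervalIntegral.integral_of_le (zero_le_one (α := ℝ)), ← integral_const_mul]
  have hint : Integrable (Function.uncurry fun (x : X n) (t : ℝ) => u x * fderiv ℝ G (x + y + t • w) w)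
      (volume.prod (volume.restrict (Ioc (0 : ℝ) 1))) := by
    obtain ⟨C, -, hC⟩ := hu.weight
    have hb := ((hC 1 le_rfl).1.norm.const_mul (A * (1 + ‖y‖ + ‖w‖) ^ (n + 2))).mul_prod
      (integrable_const (1 : ℝ) (μ := volume.restrict (Ioc (0 : ℝ) 1)))
    refine hb.mono' ((hu.1.comp measurable_fst).mul
      (hc.comp (by fun_prop : Continuous fun p : X n × ℝ => p.1 + y + p.2 • w)).measurable).aestronglyMeasurable ?_
    have hm : ∀ᵐ p : X n × ℝ ∂(volume.prod (volume.restrict (Ioc (0 : ℝ) 1))), p.2 ∈ Ioc (0 : ℝ) 1 :=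
      Measure.quasiMeasurePreserving_snd.ae (ae_restrict_mem measurableSet_Ioc)
    filter_upwards [hm] with p hp
    simp only [Function.uncurry_def, Real.norm_eq_abs, abs_mul, mul_one]
    rw [abs_of_nonneg (wt_nonneg zero_le_one p.1), wt, div_one]
    have h1 : ‖y + p.2 • w‖ ≤ ‖y‖ + ‖w‖ := (norm_add_le _ _).trans (add_le_add le_rfl (by
      rw [norm_smul, Real.norm_of_nonneg hp.1.le]
      exact mul_le_of_le_one_left (norm_nonneg _) hp.2))
    calc |u p.1| * |fderiv ℝ G (p.1 + y + p.2 • w) w|
        ≤ |u p.1| * (A * (1 + ‖y‖ + ‖w‖) ^ (n + 2) / (1 + ‖p.1‖) ^ (n + 2)) := by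
          refine mul_le_mul_of_nonneg_left ?_ (abs_nonneg _)
          rw [add_assoc p.1]
          refine (decay_shift hA hdec p.1 (y + p.2 • w)).trans ?_
          exact div_le_div_of_nonneg_right (mul_le_mul_of_nonneg_left
            (pow_le_pow_left₀ (by positivity) (by linarith) _) hA) (by positivity)
      _ = _ := by ring
  rw [integral_integral_swap hint]
  refine setIntegral_eq_zero_of_forall_eq_zero fun t _ => ?_
  simpa only [add_assoc] using h (y + t • w)

/-- The second difference. -/
def D2 (u : X n → ℝ) (v w x : X n) : ℝ := u (x + v + w) - u (x + w) - u (x + v) + u x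

theorem Cls.diff_gauss (hn : 0 < n) {u : X n → ℝ} (hu : Cls u) (v w : X n) :
    ∫ x, D2 u v w x * gauss x = 0 := by
  have hz : ∀ v w y : X n, ∫ x, u x * g2 v w (x + y) = 0 := fun v w y => by
    have h := Cls.g2_zero hn (hu.affine one_pos (-y)) v w
    simp only [one_smul] at h
    rw [← h, ← integral_add_right_eq_self (fun z => u (z + -y) * g2 v w z) y]
    simp
  obtain ⟨A, hA0, hA⟩ := (g2_rapid (-v) (-w)).decay
  have h1 : ∀ y, ∫ x, u x * (fderiv ℝ gauss (x + y + -v) (-w) - fderiv ℝ gauss (x + y) (-w)) = 0 :=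
    fun y => step hu.1 ((gauss_rapid.dd (-w)).1.of_le (WithTop.coe_le_coe.2 le_top)) (-v) hA0 hA
      (hz (-v) (-w)) y
  set u' : X n → ℝ := fun x => u (x + v) - u x
  have hu' : Growth u' := (hu.1.translate v).sub hu.1
  obtain ⟨B, hB0, hB⟩ := (gauss_rapid.dd (-w) (n := n)).decay
  have hGc : Continuous fun z : X n => fderiv ℝ gauss z (-w) := (gauss_rapid.dd (-w)).1.continuous
  have hi : ∀ (a : X n) (y : X n), Integrable fun x => u (x + a) * fderiv ℝ gauss (x + y) (-w) :=
    fun a y => (hu.1.translate a).mul_decay (hGc.comp (by fun_prop)).aestronglyMeasurable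
      fun x => decay_shift hB0 hB x y
  have h2 : ∀ y, ∫ x, u' x * fderiv ℝ gauss (x + y) (-w) = 0 := fun y => by
    simp only [u', sub_mul]
    have i0 : Integrable fun x => u x * fderiv ℝ gauss (x + y) (-w) := by simpa using hi 0 y
    have i1 : Integrable fun x => u x * fderiv ℝ gauss (x + (y + -v)) (-w) := by simpa using hi 0 (y + -v)
    rw [integral_sub (hi v y) i0]
    have e : ∫ x, u (x + v) * fderiv ℝ gauss (x + y) (-w)
        = ∫ x, u x * fderiv ℝ gauss (x + (y + -v)) (-w) := by
      rw [← integral_add_right_eq_self (fun x => u x * fderiv ℝ gauss (x + (y + -v)) (-w)) v]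
      refine integral_congr_ae (.of_forall fun x => ?_)
      simp only
      rw [show x + v + (y + -v) = x + y by abel]
    rw [e, ← integral_sub i1 i0, ← h1 y]
    refine integral_congr_ae (.of_forall fun x => ?_)
    simp only [add_assoc, mul_sub]
  have h3 := step hu' (gauss_rapid.1.of_le (WithTop.coe_le_coe.2 le_top)) (-w) hB0 hB h2 0
  obtain ⟨C, hC0, hC⟩ := (gauss_rapid (n := n)).decay
  have hgc : Continuous (gauss (n := n)) := gauss_rapid.1.continuous
  have j0 : Integrable fun x => u' x * gauss x := hu'.mul_decay hgc.aestronglyMeasurable hC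
  have j1 : Integrable fun x => u' (x + w) * gauss x :=
    (hu'.translate w).mul_decay hgc.aestronglyMeasurable hC
  have j2 : Integrable fun x => u' x * gauss (x + -w) :=
    hu'.mul_decay (hgc.comp (by fun_prop)).aestronglyMeasurable fun x => decay_shift hC0 hC x (-w)
  simp only [add_zero, mul_sub] at h3
  rw [integral_sub j2 j0] at h3
  have e : ∫ x, u' x * gauss (x + -w) = ∫ x, u' (x + w) * gauss x := by
    rw [← integral_add_right_eq_self (fun x => u' x * gauss (x + -w)) w]
    simp
  rw [e, ← integral_sub j1 j0] at h3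
  rw [← h3]
  refine integral_congr_ae (.of_forall fun x => ?_)
  simp only [D2, u']
  rw [show x + v + w = x + w + v by abel]
  ring

/-- Smearing a function by a continuous compactly supported weight gives a continuous function. -/
theorem smear_continuous {u χ : X n → ℝ} (hu : LocallyIntegrable u) (hum : Measurable u)
    (hχ : Continuous χ) (hχc : HasCompactSupport χ) :
    Continuous fun p : X n => ∫ y, u (p + y) * χ y := by
  have e : ∀ p : X n, ∫ y, u (p + y) * χ y = ∫ z, u z * χ (z - p) := fun p => by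
    rw [← integral_sub_right_eq_self (fun y => u (p + y) * χ y) p]
    simp
  simp only [e]
  obtain ⟨K, hK⟩ := hχ.bounded_above_of_compact_support hχc
  obtain ⟨R, hR⟩ := hχc.isBounded.subset_closedBall 0
  refine continuous_iff_continuousAt.2 fun p₀ => ?_
  refine continuousAt_of_dominated (bound := fun z => K * (closedBall (0 : X n) (‖p₀‖ + 1 + R)).indicator
    (fun z => |u z|) z) (.of_forall fun p => ?_) ?_ ?_ (.of_forall fun z => ?_)
  · exact (hum.mul (hχ.comp (by fun_prop : Continuous fun z : X n => z - p)).measurable).aestronglyMeasurable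
  · filter_upwards [closedBall_mem_nhds p₀ one_pos] with p hp
    refine .of_forall fun z => ?_
    by_cases hz : χ (z - p) = 0
    · rw [hz, mul_zero, norm_zero]
      exact mul_nonneg ((norm_nonneg _).trans (hK 0)) (indicator_nonneg (fun _ _ => abs_nonneg _) _)
    · have := hR (subset_tsupport χ hz)
      rw [mem_closedBall_zero_iff] at this
      rw [mem_closedBall, dist_eq_norm] at hp
      rw [indicator_of_mem (mem_closedBall_zero_iff.2 (by
        linarith [norm_le_norm_add_norm_sub' z p, norm_le_norm_add_norm_sub' p p₀]))]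
      rw [norm_mul, mul_comm, Real.norm_eq_abs (u z)]
      exact mul_le_mul_of_nonneg_right (hK _) (abs_nonneg _)
  · exact (IntegrableOn.integrable_indicator (Integrable.abs (hu.integrableOn_isCompact
      (isCompact_closedBall _ _))) measurableSet_closedBall).const_mul K
  · exact (continuous_const.mul (hχ.comp (by fun_prop))).continuousAt

theorem Growth.D2 {u : X n → ℝ} (hu : Growth u) (v w : X n) : Growth (D2 u v w) := by
  have e : Liou.D2 u v w = fun x => (u (x + (v + w)) - u (x + w)) - (u (x + v) - u x) := by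
    funext x
    rw [Liou.D2, add_assoc]
    ring
  rw [e]
  exact ((hu.translate _).sub (hu.translate _)).sub ((hu.translate _).sub hu)

/-- The second differences of a function of the class vanish. -/
theorem Cls.D2_zero (hn : 0 < n) {u : X n → ℝ} (hu : Cls u) (v w : X n) :
    ∀ᵐ x, Liou.D2 u v w x = 0 := by
  set D := Liou.D2 u v w
  have hD : Growth D := hu.1.D2 v w
  refine ae_eq_zero_of_integral_contDiff_smul_eq_zero hD.locallyIntegrable fun χ hχ hχc => ?_
  simp only [smul_eq_mul]
  obtain ⟨K, hK⟩ := hχ.continuous.bounded_above_of_compact_support hχc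
  obtain ⟨R₀, hR₀⟩ := hχc.isBounded.subset_closedBall 0
  set R := max R₀ 0
  have hK0 : 0 ≤ K := (norm_nonneg _).trans (hK 0)
  obtain ⟨hDm, M, hM, hD'⟩ := id hD
  obtain ⟨B, hB⟩ := (gauss_rapid (n := n)).2 0 (n + 2 + (n + 1))
  have hgB : ∀ x : X n, (1 + ‖x‖) ^ (n + 2) * gauss x ≤ B * ((1 + ‖x‖) ^ (n + 1))⁻¹ := fun x => by
    have h := hB x
    rw [norm_iteratedFDeriv_zero, Real.norm_eq_abs, gauss, Real.abs_exp, pow_add] at h
    rw [gauss, ← div_eq_mul_inv, le_div_iff₀ (by positivity)]
    linarith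
  set Φ : X n → ℝ := fun p => ∫ y, D (p + y) * χ y
  have hball : ∀ (L : ℝ), 0 ≤ L → L ≤ 1 → ∀ x : X n,
      ∫ y, |D (L • x + y) * χ y| ≤ K * (M * (R + 2) ^ (n + 2) * (1 + ‖x‖) ^ (n + 2)) := fun L h0 h1 x => by
    set T := ‖x‖ + R + 2
    have hT : 1 ≤ T := by linarith [norm_nonneg x, le_max_right R₀ 0]
    have hsub : ∀ y, |D (L • x + y) * χ y| ≤ K * (ball (0 : X n) T).indicator (fun z => |D z|) (L • x + y) := fun y => by
      by_cases hy : χ y = 0
      · rw [hy, mul_zero, abs_zero]
        exact mul_nonneg hK0 (indicator_nonneg (fun _ _ => abs_nonneg _) _)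
      · have := hR₀ (subset_tsupport χ hy)
        rw [mem_closedBall_zero_iff] at this
        rw [indicator_of_mem (mem_ball_zero_iff.2 ((norm_add_le _ _).trans_lt (by
          rw [norm_smul, Real.norm_of_nonneg h0]
          nlinarith [mul_le_of_le_one_left (norm_nonneg x) h1, le_max_left R₀ 0])))]
        rw [abs_mul, mul_comm, ← Real.norm_eq_abs (χ y)]
        exact mul_le_mul_of_nonneg_right (hK y) (abs_nonneg _)
    have hi : Integrable ((ball (0 : X n) T).indicator fun z => |D z|) :=
      IntegrableOn.integrable_indicator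
        (Integrable.abs ((hD.integrableOn T).mono_set ball_subset_closedBall)) measurableSet_ball
    refine (integral_mono_of_nonneg (.of_forall fun y => abs_nonneg _) ((hi.comp_add_left (L • x)).const_mul K)
      (.of_forall hsub)).trans ?_
    rw [integral_const_mul, integral_add_left_eq_self (fun z => (ball (0 : X n) T).indicator (fun z => |D z|) z),
      integral_indicator measurableSet_ball]
    refine mul_le_mul_of_nonneg_left ?_ hK0
    rw [integral_eq_lintegral_of_nonneg_ae (.of_forall fun z => abs_nonneg _) hDm.abs.aestronglyMeasurable]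
    refine (ENNReal.toReal_le_of_le_ofReal (by positivity) (hD' T hT)).trans ?_
    rw [mul_assoc M, ← mul_pow]
    refine mul_le_mul_of_nonneg_left ?_ hM
    refine (Real.rpow_le_rpow_of_exponent_le hT (show (n : ℝ) + 7 / 4 ≤ ((n + 2 : ℕ) : ℝ) by
      push_cast; linarith)).trans ?_
    rw [Real.rpow_natCast]
    refine pow_le_pow_left₀ (by positivity) ?_ _
    have : 0 ≤ R := le_max_right _ _
    nlinarith [norm_nonneg x]
  set ε : ℕ → ℝ := fun k => 1 / ((k : ℝ) + 1) with hε
  have hε0 : ∀ k, 0 < ε k := fun k => by positivity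
  have hε1 : ∀ k, ε k ≤ 1 := fun k => by
    rw [hε, div_le_one (by positivity)]; simp
  set b : X n → ℝ := fun x => K * (M * (R + 2) ^ (n + 2)) * (B * ((1 + ‖x‖) ^ (n + 1))⁻¹)
  have hbi : Integrable b := ((integrable_decay (Nat.lt_succ_self n)).const_mul B).const_mul _
  have hzero : ∀ k, ∫ x, gauss x * Φ (ε k • x) = 0 := fun k => by
    have hm : Measurable (Function.uncurry fun x y : X n => gauss x * (D (ε k • x + y) * χ y)) :=
      ((gauss_rapid.1.continuous.measurable).comp measurable_fst).mul
        ((hDm.comp (by fun_prop : Continuous fun p : X n × X n => ε k • p.1 + p.2).measurable).mul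
          (hχ.continuous.measurable.comp measurable_snd))
    have hint : Integrable (Function.uncurry fun x y : X n => gauss x * (D (ε k • x + y) * χ y))
        (volume.prod volume) := by
      refine (integrable_prod_iff hm.aestronglyMeasurable).2 ⟨.of_forall fun x => ?_, ?_⟩
      · exact ((hD.translate (ε k • x)).mul_integrable hχ.continuous hχc).const_mul (gauss x) |>.congr
          (.of_forall fun y => by simp [add_comm])
      · refine hbi.mono' hm.aestronglyMeasurable.norm.integral_prod_right' (.of_forall fun x => ?_)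
        rw [Real.norm_of_nonneg (integral_nonneg fun _ => norm_nonneg _)]
        simp only [Function.uncurry_apply_pair, norm_mul (gauss x), integral_const_mul, Real.norm_eq_abs]
        rw [gauss, Real.abs_exp]
        refine (mul_le_mul_of_nonneg_left (hball _ (hε0 k).le (hε1 k) x) (Real.exp_nonneg _)).trans ?_
        calc Real.exp (-‖x‖ ^ 2) * (K * (M * (R + 2) ^ (n + 2) * (1 + ‖x‖) ^ (n + 2)))
            = K * (M * (R + 2) ^ (n + 2)) * ((1 + ‖x‖) ^ (n + 2) * gauss x) := by rw [gauss]; ring
          _ ≤ _ := mul_le_mul_of_nonneg_left (hgB x) (mul_nonneg hK0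
              (mul_nonneg hM (pow_nonneg (by linarith [le_max_right R₀ 0]) _)))
    calc ∫ x, gauss x * Φ (ε k • x) = ∫ x, ∫ y, gauss x * (D (ε k • x + y) * χ y) := by
          simp only [Φ, integral_const_mul]
      _ = ∫ y, ∫ x, gauss x * (D (ε k • x + y) * χ y) := integral_integral_swap hint
      _ = 0 := by
        refine integral_eq_zero_of_ae (.of_forall fun y => ?_)
        have h := (hu.affine (hε0 k) y).diff_gauss hn ((ε k)⁻¹ • v) ((ε k)⁻¹ • w)
        have e : ∀ x, Liou.D2 (fun x => u (ε k • x + y)) ((ε k)⁻¹ • v) ((ε k)⁻¹ • w) x = D (ε k • x + y) :=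
          fun x => by
            simp only [D, Liou.D2, smul_add, smul_smul, mul_inv_cancel₀ (hε0 k).ne', one_smul]
            abel_nf
        simp only [e] at h
        simp only [Pi.zero_apply]
        rw [show (fun x => gauss x * (D (ε k • x + y) * χ y))
          = fun x => χ y * (D (ε k • x + y) * gauss x) by funext x; ring, integral_const_mul, h, mul_zero]
  have hΦ : Continuous Φ := smear_continuous hD.locallyIntegrable hDm hχ.continuous hχc
  have hlim := tendsto_integral_of_dominated_convergence (F := fun k x => gauss x * Φ (ε k • x))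
    (f := fun x => gauss x * Φ 0) b
    (fun k => (gauss_rapid.1.continuous.mul (hΦ.comp (by fun_prop))).aestronglyMeasurable) hbi
    (fun k => .of_forall fun x => by
      rw [norm_mul, Real.norm_eq_abs, Real.norm_eq_abs, gauss, Real.abs_exp]
      refine (mul_le_mul_of_nonneg_left ((abs_integral_le_integral_abs).trans
        (hball _ (hε0 k).le (hε1 k) x)) (Real.exp_nonneg _)).trans ?_
      calc Real.exp (-‖x‖ ^ 2) * (K * (M * (R + 2) ^ (n + 2) * (1 + ‖x‖) ^ (n + 2)))
          = K * (M * (R + 2) ^ (n + 2)) * ((1 + ‖x‖) ^ (n + 2) * gauss x) := by rw [gauss]; ring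
        _ ≤ _ := mul_le_mul_of_nonneg_left (hgB x) (mul_nonneg hK0
              (mul_nonneg hM (pow_nonneg (by linarith [le_max_right R₀ 0]) _))))
    (.of_forall fun x => by
      have ht : Tendsto (fun k => ε k • x) atTop (𝓝 ((0 : ℝ) • x)) :=
        tendsto_one_div_add_atTop_nhds_zero_nat.smul_const x
      rw [zero_smul] at ht
      exact ((hΦ.tendsto 0).comp ht).const_mul _)
  simp only [hzero] at hlim
  have h0 : (∫ x, gauss (n := n) x) * Φ 0 = 0 := by
    rw [← integral_mul_const]
    exact tendsto_nhds_unique hlim tendsto_const_nhds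
  have hg : (0 : ℝ) < ∫ x, gauss (n := n) x := by
    refine (integral_pos_iff_support_of_nonneg (fun x => (Real.exp_pos _).le) gauss_rapid.bd.choose_spec.integ).2 ?_
    exact lt_of_lt_of_le (isOpen_univ.measure_pos volume univ_nonempty)
      (measure_mono fun x _ => (Real.exp_pos _).ne')
  have := (mul_eq_zero.1 h0).resolve_left hg.ne'
  simp only [Φ, zero_add] at this
  rw [← this]
  simp only [mul_comm]

/-- A function of the class is affine. -/
theorem Cls.affine_ae (hn : 0 < n) {u : X n → ℝ} (hu : Cls u) :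
    ∃ (a : X n) (b : ℝ), ∀ᵐ x, u x = ⟪a, x⟫ + b := by
  let χ : ContDiffBump (0 : X n) := ⟨1, 2, one_pos, one_lt_two⟩
  set ρ : X n → ℝ := χ.normed volume
  have hρc : Continuous ρ := χ.continuous_normed
  have hρs : HasCompactSupport ρ := χ.hasCompactSupport_normed
  have hρ1 : ∫ y, ρ y = 1 := χ.integral_normed
  set U : X n → ℝ := fun z => ∫ y, u (z + y) * ρ y
  have hUc : Continuous U := smear_continuous hu.1.locallyIntegrable hu.1.1 hρc hρs
  have hi : ∀ z : X n, Integrable fun y => u (z + y) * ρ y := fun z =>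
    ((hu.1.translate z).mul_integrable hρc hρs).congr (.of_forall fun y => by simp [add_comm])
  have hd : ∀ v z : X n, U (z + v) - U z = ∫ y, (u (z + v + y) - u (z + y)) * ρ y := fun v z => by
    simp only [sub_mul]
    rw [integral_sub (hi _) (hi _)]
  have hadd : ∀ v z : X n, U (z + v) - U z = U v - U 0 := fun v z => by
    have h0 : ∀ᵐ y, Liou.D2 u v z y = 0 := hu.D2_zero hn v z
    rw [hd, show U v - U 0 = ∫ y, (u (v + y) - u y) * ρ y by simpa using hd v 0]
    refine integral_congr_ae ?_
    filter_upwards [h0] with y hy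
    rw [Liou.D2] at hy
    rw [show z + v + y = y + v + z by abel, show z + y = y + z by abel, show v + y = y + v by abel]
    rw [show u (y + v + z) - u (y + z) = u (y + v) - u y by linarith]
  set Lf : X n →+ ℝ := AddMonoidHom.mk' (fun v => U v - U 0) fun v w => by
    have := hadd w v
    linarith
  set L : X n →L[ℝ] ℝ := Lf.toRealLinearMap (hUc.sub continuous_const)
  set a : X n := (InnerProductSpace.toDual ℝ (X n)).symm L
  have ha : ∀ v, ⟪a, v⟫ = U v - U 0 := fun v => by
    rw [show ⟪a, v⟫ = L v from InnerProductSpace.toDual_symm_apply]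
    rfl
  set e : X n → ℝ := fun x => u x - ⟪a, x⟫
  have hem : Measurable e := hu.1.1.sub (by fun_prop : Continuous fun x : X n => ⟪a, x⟫).measurable
  have hDm : ∀ v : X n, MeasurableSet {p : X n × X n | Liou.D2 u v p.1 p.2 = 0} := fun v => by
    have := hu.1.1
    refine measurableSet_eq_fun ?_ measurable_const
    unfold Liou.D2
    fun_prop
  have he : ∀ v : X n, ∀ᵐ x, e (x + v) = e x := fun v => by
    have h := (Measure.ae_ae_comm (μ := (volume : Measure (X n))) (ν := (volume : Measure (X n))) (hDm v)).1 (.of_forall fun w => hu.D2_zero hn v w)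
    filter_upwards [h] with x hx
    have h1 : U (x + v) - U x = u (x + v) - u x := by
      rw [hd, show u (x + v) - u x = ∫ y, (u (x + v) - u x) * ρ y by rw [integral_const_mul, hρ1, mul_one]]
      refine integral_congr_ae ?_
      filter_upwards [hx] with y hy
      rw [Liou.D2] at hy
      rw [show u (x + v + y) - u (x + y) = u (x + v) - u x by linarith]
    simp only [e, inner_add_right]
    linarith [hadd v x, ha v]
  have hem2 : MeasurableSet {p : X n × X n | e (p.2 + p.1) = e p.2} :=
    measurableSet_eq_fun (hem.comp (measurable_snd.add measurable_fst)) (hem.comp measurable_snd)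
  obtain ⟨x₀, hx₀⟩ :=
    ((Measure.ae_ae_comm (μ := (volume : Measure (X n))) (ν := (volume : Measure (X n))) hem2).1 (.of_forall he)).exists
  refine ⟨a, e x₀, ?_⟩
  have h := (measurePreserving_add_left (volume : Measure (X n)) (-x₀)).quasiMeasurePreserving.ae hx₀
  filter_upwards [h] with x hx
  rw [add_neg_cancel_left] at hx
  simp only [e] at hx ⊢
  linarith

/-- The Riesz transform in the direction `i`, in symmetric form. -/
def Tri (i : Fin n) (ψ : X n → ℝ) (x : X n) : ℝ :=
  ∫ h, (ψ (x + h) - ψ (x - h)) * (h i / ‖h‖ ^ (n + 1))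

theorem abs_coord_le (h : X n) (i : Fin n) : |h i| ≤ ‖h‖ := by
  simpa [Real.norm_eq_abs] using PiLp.norm_apply_le h i

/-- The transform of a compactly supported function with mean zero. -/
theorem Tri_props (hn : 0 < n) {ψ : X n → ℝ} {R L : ℝ} (hR : 0 ≤ R) (hψc : Continuous ψ)
    (hL : ∀ a b, |ψ a - ψ b| ≤ L * ‖a - b‖) (hsupp : ∀ z, R < ‖z‖ → ψ z = 0)
    (h0 : ∫ z, ψ z = 0) (i : Fin n) :
    (∀ x, Integrable fun h => (ψ (x + h) - ψ (x - h)) * (h i / ‖h‖ ^ (n + 1))) ∧
      Integrable ψ ∧ ∃ C, ∀ x, |Tri i ψ x| ≤ C / (1 + ‖x‖) ^ (n + 1) := by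
  have hψi : Integrable ψ := hψc.integrable_of_hasCompactSupport
    (HasCompactSupport.of_support_subset_isCompact (isCompact_closedBall 0 R) fun z hz => by
      rw [mem_closedBall_zero_iff]; by_contra hh; exact hz (hsupp z (lt_of_not_ge hh)))
  have hco : ∀ i : Fin n, Continuous fun h : X n => h i := fun i => PiLp.continuous_apply 2 _ i
  have hm : ∀ x, AEStronglyMeasurable fun h => (ψ (x + h) - ψ (x - h)) * (h i / ‖h‖ ^ (n + 1)) :=
    fun x => (((hψc.comp (by fun_prop)).sub (hψc.comp (by fun_prop))).measurable.mul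
      ((hco i).measurable.div (measurable_norm.pow_const _))).aestronglyMeasurable
  have hL0 : 0 ≤ L := by
    obtain ⟨z, hz⟩ : ∃ z : X n, ‖z‖ = 1 := ⟨EuclideanSpace.single ⟨0, hn⟩ 1, by simp⟩
    have := (abs_nonneg _).trans (hL z 0)
    rwa [sub_zero, hz, mul_one] at this
  have hbd : ∀ x (S : ℝ), R + ‖x‖ ≤ S → ∀ h,
      |(ψ (x + h) - ψ (x - h)) * (h i / ‖h‖ ^ (n + 1))| ≤ 2 * L * knear S h := fun x S hS h => by
    rcases le_or_gt ‖h‖ S with hle | hlt
    · rw [knear, indicator_of_mem (mem_closedBall_zero_iff.2 hle), abs_mul, abs_div, abs_pow, abs_norm]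
      calc |ψ (x + h) - ψ (x - h)| * (|h i| / ‖h‖ ^ (n + 1))
          ≤ L * (2 * ‖h‖) * (‖h‖ / ‖h‖ ^ (n + 1)) := by
            refine mul_le_mul ((hL _ _).trans (mul_le_mul_of_nonneg_left ?_ hL0))
              (div_le_div_of_nonneg_right (abs_coord_le h i) (by positivity)) (by positivity) (by positivity)
            rw [show x + h - (x - h) = (2 : ℝ) • h by rw [two_smul]; abel, norm_smul]
            simp
        _ = _ := by ring
    · have a1 : R < ‖x + h‖ := by
        have := norm_le_add_norm_add h x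
        rw [add_comm h x] at this
        linarith
      have a2 : R < ‖x - h‖ := by linarith [norm_le_norm_add_norm_sub' h x, norm_sub_rev h x]
      rw [hsupp _ a1, hsupp _ a2, sub_self, zero_mul, abs_zero]
      exact mul_nonneg (by positivity) (knear_nonneg _ _)
  have hint : ∀ x, Integrable fun h => (ψ (x + h) - ψ (x - h)) * (h i / ‖h‖ ^ (n + 1)) := fun x =>
    ((knear_integrable hn (R + ‖x‖)).const_mul (2 * L)).mono' (hm x) (.of_forall (hbd x _ le_rfl))
  refine ⟨hint, hψi, ?_⟩
  set C₁ := 2 * L * ∫ h : X n, knear (3 * R + 1) h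
  have hC₁ : 0 ≤ C₁ := mul_nonneg (by positivity) (integral_nonneg (knear_nonneg _))
  set N := ∫ z, ‖ψ z‖
  have hN : 0 ≤ N := integral_nonneg fun _ => norm_nonneg _
  refine ⟨C₁ * (2 * R + 2) ^ (n + 1) + 2 * (2 * n + 3) * R * N * 4 ^ (n + 1), fun x => ?_⟩
  rcases le_or_gt ‖x‖ (2 * R + 1) with hx | hx
  · have h1 : |Tri i ψ x| ≤ C₁ := by
      rw [Tri, ← Real.norm_eq_abs]
      simp only [C₁, ← integral_const_mul]
      exact norm_integral_le_of_norm_le ((knear_integrable hn _).const_mul _)
        (.of_forall (hbd x (3 * R + 1) (by linarith)))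
    refine h1.trans ?_
    rw [le_div_iff₀ (by positivity)]
    refine le_trans ?_ (le_add_of_nonneg_right (by positivity))
    exact mul_le_mul_of_nonneg_left (pow_le_pow_left₀ (by positivity) (by linarith) _) hC₁
  set ρ := ‖x‖ / 2 with hρd
  have hρ : 0 < ρ := by rw [hρd]; linarith
  set k : X n → ℝ := fun h => h i * kfar ρ h with hk
  have hkc : Continuous k := (hco i).mul (kfar_continuous hρ)
  have hkψ : ∀ h, (ψ (x + h) - ψ (x - h)) * (h i / ‖h‖ ^ (n + 1)) = (ψ (x + h) - ψ (x - h)) * k h := fun h => by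
    rcases le_or_gt ρ ‖h‖ with hle | hlt
    · rw [hk]; simp only [kfar, max_eq_left hle, inv_pow, div_eq_mul_inv]
    · have a1 : R < ‖x + h‖ := by linarith [norm_le_add_norm_add x h]
      have a2 : R < ‖x - h‖ := by linarith [norm_le_norm_add_norm_sub' x h]
      simp [hsupp _ a1, hsupp _ a2]
  obtain ⟨Ck, hCk⟩ : ∃ Ck, ∀ h, ‖k h‖ ≤ Ck := by
    refine ⟨ρ⁻¹ ^ n, fun h => ?_⟩
    have hm0 : 0 < max ‖h‖ ρ := lt_max_of_lt_right hρ
    rw [hk]
    simp only [norm_mul, Real.norm_eq_abs]
    rw [abs_of_nonneg (kfar_nonneg hρ.le h), kfar]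
    calc |h i| * (max ‖h‖ ρ)⁻¹ ^ (n + 1) ≤ max ‖h‖ ρ * (max ‖h‖ ρ)⁻¹ ^ (n + 1) :=
          mul_le_mul_of_nonneg_right ((abs_coord_le h i).trans (le_max_left _ _)) (by positivity)
      _ = (max ‖h‖ ρ)⁻¹ ^ n := by rw [pow_succ]; field_simp
      _ ≤ _ := pow_le_pow_left₀ (by positivity) (inv_anti₀ hρ (le_max_right _ _)) _
  have hki : ∀ c : X n, Integrable fun z => ψ z * k (z - c) := fun c => by
    refine (hψi.norm.mul_const Ck).mono' (hψc.mul (hkc.comp (by fun_prop))).aestronglyMeasurable
      (.of_forall fun z => ?_)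
    rw [norm_mul]
    exact mul_le_mul_of_nonneg_left (hCk _) (norm_nonneg _)
  set Q := ∫ z, ψ z * k (z - x)
  have hk' : ∀ a b : X n, k (a - b) = -k (b - a) := fun a b => by
    simp only [hk, kfar_comm ρ a b, PiLp.sub_apply]
    ring
  have hT : Tri i ψ x = 2 * Q := by
    have e1 : ∫ h, ψ (x + h) * k h = Q := by
      simpa [Q] using (integral_add_left_eq_self (μ := volume) (fun z => ψ z * k (z - x)) x)
    have e2 : ∫ h, ψ (x - h) * k h = -Q := by
      rw [show -Q = ∫ z, ψ z * k (x - z) by simp only [Q, ← integral_neg, hk' x, mul_neg],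
        ← integral_sub_left_eq_self (fun z => ψ z * k (x - z)) volume x]
      simp
    have i1 : Integrable fun h => ψ (x + h) * k h := by simpa using (hki x).comp_add_left x
    have i2 : Integrable fun h => ψ (x - h) * k h := by
      have := ((hki x).neg).comp_sub_left x
      simpa [hk, kfar_neg] using this
    rw [Tri]
    simp only [hkψ, sub_mul]
    rw [integral_sub i1 i2, e1, e2]
    ring
  have hQ : |Q| ≤ (2 * n + 3) * R * (ρ⁻¹ ^ (n + 1)) * N := by
    have e : Q = ∫ z, ψ z * (k (z - x) - k (0 - x)) := by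
      simp only [mul_sub]
      rw [integral_sub (hki x) (hψi.mul_const _), integral_mul_const, h0, zero_mul, sub_zero]
    rw [e, ← Real.norm_eq_abs, ← integral_const_mul]
    refine norm_integral_le_of_norm_le (hψi.norm.const_mul _) (.of_forall fun z => ?_)
    rw [norm_mul, mul_comm]
    rcases lt_or_ge R ‖z‖ with hz | hz
    · simp [hsupp z hz]
    refine mul_le_mul_of_nonneg_right ?_ (norm_nonneg _)
    set p := z - x
    set q := (0 : X n) - x
    have hpq : ‖p - q‖ = ‖z‖ := by simp [p, q]
    have hk1 : |p i - q i| ≤ ‖z‖ := by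
      rw [← hpq, ← PiLp.sub_apply]; exact abs_coord_le _ _
    have hk2 : kfar ρ p ≤ ρ⁻¹ ^ (n + 1) :=
      pow_le_pow_left₀ (by positivity) (inv_anti₀ hρ (le_max_right _ _)) _
    have hq : |q i| ≤ 2 * ρ := (abs_coord_le q i).trans (le_of_eq (by simp [q, hρd]; ring))
    have hk3 := kfar_lipschitz hρ p q
    rw [Real.norm_eq_abs]
    calc |k p - k q| = |(p i - q i) * kfar ρ p + q i * (kfar ρ p - kfar ρ q)| := by
          simp only [hk]; ring_nf
      _ ≤ |p i - q i| * kfar ρ p + |q i| * |kfar ρ p - kfar ρ q| := by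
          refine (abs_add_le _ _).trans_eq ?_
          rw [abs_mul, abs_mul, abs_of_nonneg (kfar_nonneg hρ.le p)]
      _ ≤ ‖z‖ * ρ⁻¹ ^ (n + 1) + 2 * ρ * ((n + 1) * ρ⁻¹ ^ (n + 2) * ‖z‖) := by
          rw [← hpq] at *
          exact add_le_add (mul_le_mul hk1 hk2 (kfar_nonneg hρ.le p) (norm_nonneg _))
            (mul_le_mul hq hk3 (abs_nonneg _) (by positivity))
      _ = (2 * n + 3) * ‖z‖ * ρ⁻¹ ^ (n + 1) := by
          rw [show n + 2 = n + 1 + 1 by rfl, pow_succ _ (n + 1)]
          field_simp
          ring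
      _ ≤ _ := by gcongr
  rw [hT, abs_mul, abs_of_pos (two_pos (α := ℝ))]
  have h4 : ρ⁻¹ ^ (n + 1) ≤ 4 ^ (n + 1) / (1 + ‖x‖) ^ (n + 1) := by
    rw [← div_pow]
    refine pow_le_pow_left₀ (by positivity) ?_ _
    rw [inv_eq_one_div, div_le_div_iff₀ hρ (by positivity)]
    linarith
  calc 2 * |Q| ≤ 2 * ((2 * n + 3) * R * (4 ^ (n + 1) / (1 + ‖x‖) ^ (n + 1)) * N) := by
        refine mul_le_mul_of_nonneg_left (hQ.trans ?_) zero_le_two
        gcongr
    _ = 2 * (2 * n + 3) * R * N * 4 ^ (n + 1) / (1 + ‖x‖) ^ (n + 1) := by ring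
    _ ≤ _ := div_le_div_of_nonneg_right (le_add_of_nonneg_left (by positivity)) (by positivity)

theorem Tri_measurable {ψ : X n → ℝ} (hψ : Continuous ψ) (i : Fin n) : StronglyMeasurable (Tri i ψ) := by
  refine StronglyMeasurable.integral_prod_right
    (f := fun x h => (ψ (x + h) - ψ (x - h)) * (h i / ‖h‖ ^ (n + 1))) (Measurable.stronglyMeasurable ?_)
  have hc : Continuous fun p : X n × X n => p.2 i := (PiLp.continuous_apply 2 _ i).comp continuous_snd
  exact ((hψ.comp (by fun_prop)).sub (hψ.comp (by fun_prop))).measurable.mul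
    (hc.measurable.div (measurable_snd.norm.pow_const _))

/-- The dilation identity. -/
theorem lap_eq_first (hn : 0 < n) {φ : X n → ℝ} (hφ : ContDiff ℝ 2 φ) (hc : HasCompactSupport φ)
    (x : X n) : lap φ x = -∫ h, (fderiv ℝ φ (x + h) h - fderiv ℝ φ (x - h) h) / ‖h‖ ^ (n + 1) := by
  have hd : Differentiable ℝ φ := hφ.differentiable two_ne_zero
  have hd' : Differentiable ℝ (fderiv ℝ φ) := (hφ.fderiv_right le_rfl).differentiable one_ne_zero
  have hcd : Continuous (fderiv ℝ φ) := hφ.continuous_fderiv two_ne_zero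
  obtain ⟨R₀, hR₀⟩ := hc.isBounded.subset_closedBall 0
  obtain ⟨L, hL⟩ := ((hφ.fderiv_right (m := 1) le_rfl).continuous_fderiv one_ne_zero)
    |>.bounded_above_of_compact_support ((hc.fderiv ℝ).fderiv ℝ)
  have hlip : ∀ a b, ‖fderiv ℝ φ a - fderiv ℝ φ b‖ ≤ L * ‖a - b‖ := fun a b =>
    convex_univ.norm_image_sub_le_of_norm_fderiv_le (fun z _ => hd' z) (fun z _ => hL z) (mem_univ b) (mem_univ a)
  set R := max R₀ 0
  have hout : ∀ z : X n, R < ‖z‖ → fderiv ℝ φ z = 0 := fun z hz => by
    refine fderiv_of_notMem_tsupport ℝ fun hh => ?_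
    have := hR₀ hh
    rw [mem_closedBall_zero_iff] at this
    linarith [le_max_left R₀ 0]
  set J : ℝ → ℝ := fun t => ∫ h, d2 φ x (t • h) / ‖h‖ ^ (n + 1) with hJ
  have hJt : ∀ t : ℝ, 0 < t → J t = t * lap φ x := fun t ht => by
    have h := Measure.integral_comp_smul volume (fun h : X n => d2 φ x h / ‖h‖ ^ (n + 1)) t
    simp only [finrank_euclideanSpace_fin, smul_eq_mul] at h
    rw [abs_of_pos (by positivity)] at h
    have e : ∀ k : X n, d2 φ x (t • k) / ‖k‖ ^ (n + 1) = t ^ (n + 1) * (d2 φ x (t • k) / ‖t • k‖ ^ (n + 1)) :=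
      fun k => by
      rw [norm_smul, Real.norm_of_nonneg ht.le, mul_pow]
      field_simp
    simp only [hJ, lap, e, integral_const_mul, h]
    field_simp
    ring
  have h1 : HasDerivAt J (lap φ x) 1 := by
    refine ((hasDerivAt_id (1 : ℝ)).mul_const (lap φ x)).congr_of_eventuallyEq ?_ |>.congr_deriv (one_mul _)
    filter_upwards [Ioi_mem_nhds one_pos] with t ht
    simpa using hJt t ht
  have hint : Integrable fun h => d2 φ x h / ‖h‖ ^ (n + 1) := by
    obtain ⟨K, hK⟩ := hφ.continuous.bounded_above_of_compact_support hc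
    have hK0 : 0 ≤ K := (norm_nonneg _).trans (hK 0)
    have hL0 : 0 ≤ L := le_trans (norm_nonneg (fderiv ℝ (fderiv ℝ φ) 0)) (hL 0)
    have hnot : ∀ z : X n, R < ‖z‖ → z ∉ tsupport φ := fun z hz hh => by
      have := hR₀ hh
      rw [mem_closedBall_zero_iff] at this
      linarith [le_max_left R₀ 0]
    refine Bd.integrable hn (A := max K L * (1 + R) ^ (n + 4)) ⟨hφ, fun z => ?_, fun z => ?_⟩ x
    · rcases lt_or_ge R ‖z‖ with hz | hz
      · rw [image_eq_zero_of_notMem_tsupport (hnot z hz), abs_zero, zero_mul]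
        have : 0 ≤ R := le_max_right _ _
        exact mul_nonneg (hK0.trans (le_max_left _ _)) (by positivity)
      · exact mul_le_mul ((hK z).trans (le_max_left _ _))
          (pow_le_pow_left₀ (by positivity) (by linarith) _) (by positivity) (hK0.trans (le_max_left _ _))
    · rcases lt_or_ge R ‖z‖ with hz | hz
      · rw [fderiv_of_notMem_tsupport ℝ (fun hh => hnot z hz (tsupport_fderiv_subset ℝ hh)),
          ContinuousLinearMap.opNorm_zero, zero_mul]
        have : 0 ≤ R := le_max_right _ _
        exact mul_nonneg (hK0.trans (le_max_left _ _)) (by positivity)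
      · exact mul_le_mul ((hL z).trans (le_max_right _ _))
          (pow_le_pow_left₀ (by positivity) (by linarith) _) (by positivity) (hK0.trans (le_max_left _ _))
  set F : ℝ → X n → ℝ := fun t h => d2 φ x (t • h) / ‖h‖ ^ (n + 1) with hF
  set F' : ℝ → X n → ℝ := fun t h =>
    -(fderiv ℝ φ (x + t • h) h - fderiv ℝ φ (x - t • h) h) / ‖h‖ ^ (n + 1) with hF'
  have hφc : Continuous φ := hφ.continuous
  have m1 : ∀ t : ℝ, AEStronglyMeasurable (F t) := fun t => by
    have h : Continuous fun h : X n => d2 φ x (t • h) := by unfold d2; fun_prop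
    exact (h.measurable.div (measurable_norm.pow_const _)).aestronglyMeasurable
  have m2 : AEStronglyMeasurable (F' 1) := by
    have c1 : Continuous fun h : X n => fderiv ℝ φ (x + (1 : ℝ) • h) :=
      hcd.comp (continuous_const.add (continuous_id.const_smul (1 : ℝ)))
    have c2 : Continuous fun h : X n => fderiv ℝ φ (x - (1 : ℝ) • h) :=
      hcd.comp (continuous_const.sub (continuous_id.const_smul (1 : ℝ)))
    exact ((((c1.clm_apply continuous_id).sub (c2.clm_apply continuous_id)).neg).measurable.div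
      (measurable_norm.pow_const _)).aestronglyMeasurable
  have m3 : Integrable (F 1) := by simpa [hF] using hint
  have hbound : ∀ h : X n, ∀ t ∈ Ioo (1 / 2 : ℝ) 2, ‖F' t h‖ ≤ 4 * L * knear (2 * (R + ‖x‖)) h := by
    intro h t ht
    simp only [hF']
    rw [norm_div, norm_neg, norm_pow, norm_norm]
    have ht0 : 0 < t := by linarith [ht.1]
    have hL0 : 0 ≤ L := le_trans (norm_nonneg (fderiv ℝ (fderiv ℝ φ) 0)) (hL 0)
    rcases le_or_gt ‖h‖ (2 * (R + ‖x‖)) with hle | hlt
    · rw [knear, indicator_of_mem (mem_closedBall_zero_iff.2 hle), mul_div_assoc']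
      refine div_le_div_of_nonneg_right ?_ (by positivity)
      rw [← ContinuousLinearMap.sub_apply]
      refine (ContinuousLinearMap.le_opNorm _ _).trans ?_
      refine (mul_le_mul_of_nonneg_right (hlip _ _) (norm_nonneg _)).trans ?_
      rw [show x + t • h - (x - t • h) = (2 * t) • h by rw [two_mul, add_smul]; abel, norm_smul,
        Real.norm_of_nonneg (by positivity : (0 : ℝ) ≤ 2 * t)]
      nlinarith [mul_nonneg (mul_nonneg hL0 (sq_nonneg ‖h‖)) (sub_nonneg.2 ht.2.le)]
    · have hth : R + ‖x‖ < ‖t • h‖ := by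
        rw [norm_smul, Real.norm_of_nonneg ht0.le]
        nlinarith [ht.1, norm_nonneg h]
      have a1 : R < ‖x + t • h‖ := by
        have := norm_le_add_norm_add (t • h) x
        rw [add_comm (t • h) x] at this
        linarith
      have a2 : R < ‖x - t • h‖ := by
        linarith [norm_le_norm_add_norm_sub' (t • h) x, norm_sub_rev (t • h) x]
      rw [hout _ a1, hout _ a2]
      simp only [ContinuousLinearMap.zero_apply, sub_self, norm_zero, zero_div]
      exact mul_nonneg (by positivity) (knear_nonneg _ _)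
  have hderiv : ∀ (h : X n) (t : ℝ), HasDerivAt (fun s => F s h) (F' t h) t := by
    intro h t
    have a := (hd (x + t • h)).hasFDerivAt.comp_hasDerivAt t (((hasDerivAt_id t).smul_const h).const_add x)
    have b := (hd (x - t • h)).hasFDerivAt.comp_hasDerivAt t (((hasDerivAt_id t).smul_const h).const_sub x)
    refine ((((a.add b).const_sub (2 * φ x))).congr_of_eventuallyEq (.of_forall fun s => ?_)
      |>.div_const (‖h‖ ^ (n + 1))).congr_deriv ?_
    · simp only [d2, Pi.add_apply, Function.comp_apply, id_eq]; ring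
    · simp only [hF', one_smul, map_neg]; ring
  have h2 : HasDerivAt J (∫ h, F' 1 h) 1 :=
    (hasDerivAt_integral_of_dominated_loc_of_deriv_le (𝕜 := ℝ) (μ := volume) (F := F) (F' := F')
      (bound := fun h => 4 * L * knear (2 * (R + ‖x‖)) h)
      (Ioo_mem_nhds (show (1 / 2 : ℝ) < 1 by norm_num) (show (1 : ℝ) < 2 by norm_num))
      (.of_forall m1) m3 m2 (.of_forall hbound) ((knear_integrable hn _).const_mul _)
      (.of_forall fun h t _ => hderiv h t)).2
  rw [h1.unique h2, ← integral_neg]
  simp only [hF', one_smul, neg_div]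

theorem coord_expand (L : X n →L[ℝ] ℝ) (h : X n) :
    L h = ∑ i, h i * L (EuclideanSpace.single i 1) := by
  conv_lhs => rw [← (EuclideanSpace.basisFun (Fin n) ℝ).sum_repr h]
  simp [map_sum, map_smul]

/-- A bounded density with constant Riesz transform belongs to the class. -/
theorem bounded_cls (hn : 0 < n) {f : X n → ℝ} {M : ℝ} (hf : Measurable f) (hM : ∀ x, |f x| ≤ M)
    (hT : ∀ (i : Fin n) (φ : X n → ℝ), ContDiff ℝ 2 φ → HasCompactSupport φ → ∫ x, φ x = 0 →
      ∫ x, f x * Tri i φ x = 0) : Cls f := by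
  refine ⟨Growth.mono hf (M := M * volume.real (ball (0 : X n) 1)) fun T hT1 => ?_, fun φ hφ hc _ => ?_⟩
  · have hM0 : 0 ≤ M := (abs_nonneg _).trans (hM 0)
    refine (lintegral_mono fun x => ENNReal.ofReal_le_ofReal (hM x)).trans ?_
    rw [setLIntegral_const, Measure.addHaar_ball_of_pos _ _ (by linarith : (0 : ℝ) < T), finrank_euclideanSpace_fin,
      ← ofReal_measureReal measure_ball_lt_top.ne, ← ENNReal.ofReal_mul (by positivity),
      ← ENNReal.ofReal_mul hM0, mul_comm (T ^ n), ← mul_assoc]
    refine ENNReal.ofReal_le_ofReal (mul_le_mul_of_nonneg_left ?_ (by positivity))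
    rw [← Real.rpow_natCast]
    exact Real.rpow_le_rpow_of_exponent_le hT1 (by linarith)
  set ψ : Fin n → X n → ℝ := fun i z => fderiv ℝ φ z (EuclideanSpace.single i 1)
  have hψs : ∀ i, ContDiff ℝ ∞ (ψ i) := fun i => contDiff_dd hφ _
  have hψc : ∀ i, HasCompactSupport (ψ i) := fun i => hc.fderiv_apply (𝕜 := ℝ) _
  have hψ0 : ∀ i, ∫ z, ψ i z = 0 := fun i => integral_dd (hφ.differentiable (by simp)) _
    (hφ.continuous.integrable_of_hasCompactSupport hc)
    ((hψs i).continuous.integrable_of_hasCompactSupport (hψc i))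
  have hprops : ∀ i, (∀ x, Integrable fun h => (ψ i (x + h) - ψ i (x - h)) * (h i / ‖h‖ ^ (n + 1))) ∧
      Integrable (ψ i) ∧ ∃ C, ∀ x, |Tri i (ψ i) x| ≤ C / (1 + ‖x‖) ^ (n + 1) := fun i => by
    obtain ⟨R₀, hR₀⟩ := (hψc i).isBounded.subset_closedBall 0
    obtain ⟨L, hL⟩ := ((hψs i).continuous_fderiv (by simp)).bounded_above_of_compact_support
      ((hψc i).fderiv ℝ)
    refine Tri_props hn (le_max_right R₀ 0) (hψs i).continuous (L := L) (fun a b => ?_) (fun z hz => ?_) (hψ0 i) i
    · exact convex_univ.norm_image_sub_le_of_norm_fderiv_le (fun z _ => (hψs i).differentiable (by simp) z)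
        (fun z _ => hL z) (mem_univ b) (mem_univ a)
    · by_contra hne
      have := hR₀ (subset_tsupport _ hne)
      rw [mem_closedBall_zero_iff] at this
      linarith [le_max_left R₀ 0]
  have hlap : ∀ x, lap φ x = -∑ i, Tri i (ψ i) x := fun x => by
    rw [lap_eq_first hn (hφ.of_le (WithTop.coe_le_coe.2 le_top)) hc]
    simp only [Tri, ← integral_finsetSum _ fun i _ => (hprops i).1 x]
    congr 1
    refine integral_congr_ae (.of_forall fun h => ?_)
    simp only [ψ]
    rw [coord_expand (fderiv ℝ φ (x + h)) h, coord_expand (fderiv ℝ φ (x - h)) h, ← Finset.sum_sub_distrib,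
      Finset.sum_div]
    exact Finset.sum_congr rfl fun i _ => by ring
  have hi : ∀ i, Integrable fun x => f x * Tri i (ψ i) x := fun i => by
    obtain ⟨C, hC⟩ := (hprops i).2.2
    refine (((integrable_decay (Nat.lt_succ_self n)).const_mul C).const_mul M).mono'
      (hf.aestronglyMeasurable.mul (Tri_measurable (hψs i).continuous i).aestronglyMeasurable)
      (.of_forall fun x => ?_)
    rw [norm_mul, ← div_eq_mul_inv]
    exact mul_le_mul (hM x) (hC x) (abs_nonneg _) ((abs_nonneg _).trans (hM x))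
  simp only [hlap, mul_neg, Finset.mul_sum, integral_neg]
  rw [integral_finsetSum _ fun i _ => hi i, Finset.sum_eq_zero fun i _ =>
    hT i _ ((hψs i).of_le (WithTop.coe_le_coe.2 le_top)) (hψc i) (hψ0 i), neg_zero]

end

end Vale.Agent.P120.Full.Liou

namespace Vale.Agent.P120.Full

open MeasureTheory Set Filter Liou
open scoped Topology RealInnerProductSpace ContDiff

theorem liouville (n : ℕ) : Liouville n := by
  intro u M hum hgrow hann
  rcases Nat.eq_zero_or_pos n with rfl | hn
  · exact ⟨0, u 0, .of_forall fun x => by rw [Subsingleton.elim x 0]; simp⟩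
  exact Cls.affine_ae hn ⟨Growth.mono hum hgrow, fun φ hφ hc h0 =>
    hann φ (hφ.of_le (WithTop.coe_le_coe.2 le_top)) hc h0⟩

theorem densityRigidity (n : ℕ) : DensityRigidity n := by
  intro f M hfm hM hT
  rcases Nat.eq_zero_or_pos n with rfl | hn
  · exact ⟨f 0, .of_forall fun x => by rw [Subsingleton.elim x 0]⟩
  obtain ⟨a, b, hab⟩ := Cls.affine_ae hn (bounded_cls hn hfm hM hT)
  refine ⟨b, ?_⟩
  suffices ha : a = 0 by
    filter_upwards [hab] with x hx
    rw [hx, ha, inner_zero_left, zero_add]
  by_contra ha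
  have hopen : IsOpen {x : X n | M + |b| < ⟪a, x⟫} := isOpen_lt continuous_const (by fun_prop)
  have hne : {x : X n | M + |b| < ⟪a, x⟫}.Nonempty := by
    refine ⟨((M + |b| + 1) / ‖a‖ ^ 2) • a, ?_⟩
    have h0 : ‖a‖ ^ 2 ≠ 0 := pow_ne_zero _ (norm_ne_zero_iff.2 ha)
    simp only [mem_ofPred_eq, real_inner_smul_right, real_inner_self_eq_norm_sq, div_mul_cancel₀ _ h0]
    linarith
  refine (hopen.measure_pos (volume : Measure (X n)) hne).ne' ?_
  refine measure_mono_null ?_ (ae_iff.1 hab)
  intro x (hx : M + |b| < ⟪a, x⟫) (hxe : f x = ⟪a, x⟫ + b)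
  have := _root_.abs_le.1 (hM x)
  rw [hxe] at this
  linarith [this.2, neg_abs_le b]

end Vale.Agent.P120.Full
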