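import Vale.Agent.P120.Full.DecayMain
import Vale.Agent.P120.Full.DecayHoles
import Vale.Agent.P120.Full.DecayRigid
import Vale.Agent.P120.Full.DecayAffine
import Vale.Agent.P120.Full.DecayStrong
import Vale.Agent.P120.Full.DecayRescale
import Vale.Agent.P120.Full.Liouville

/-!
# P120, full answer: excess decay, assembled
-/

namespace Vale.Agent.P120.Full

open MeasureTheory

variable {E : Type*} [NormedAddCommGroup E] [InnerProductSpace ℝ E] [MeasurableSpace E]
  [BorelSpace E] [FiniteDimensional ℝ E] {n : ℕ}

/-- Excess decay, from the construction of the blow-up sequence. -/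
theorem decay_of_build (hn : 1 ≤ n) (hnd : n ≤ Module.finrank ℝ E) (hB : BuildStatement E n) :
    Decay E n :=
  decay_of_parts hn hnd rescaleStatement hB (noHoles hn)
    (nullRigidity hn (densityRigidity n)) (affineStep hn (liouville n))
    fun _ => strongStatement hn

end Vale.Agent.P120.Full
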