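import Vale.Agent.P120.Full.DecayMiddle

/-!
# P120, full answer: statement of the affine step
-/

namespace Vale.Agent.P120.Full

open MeasureTheory Set Filter
open scoped Topology RealInnerProductSpace

noncomputable section

/-- A height limit of controlled growth solving the normal equation is affine. -/
def AffineStep (n : ℕ) : Prop :=
  ∀ g : EuclideanSpace ℝ (Fin n) → ℝ, Measurable g → LocallyIntegrable g →
    Integrable (fun x => g x ^ 2 / pweight n x) →
    (∀ (φ : EuclideanSpace ℝ (Fin n) → ℝ) (L : NNReal), LipschitzWith L φ → HasCompactSupport φ →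
      ∫ x, φ x = 0 →
      Tendsto (fun k : ℕ => normalForm n (1 / ((k : ℝ) + 1)) ((k : ℝ) + 1) g (fun _ => 1) φ) atTop
        (𝓝 0)) →
    ∃ (α : EuclideanSpace ℝ (Fin n)) (β : ℝ), ∀ᵐ x, g x = ⟪α, x⟫ + β

end

end Vale.Agent.P120.Full
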