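import Vale.Agent.P120.Full.Cutoff

/-!
# P120, full answer: distant points seen through the flatness of the ancestors
-/

namespace Vale.Agent.P120.Full

open MeasureTheory Set Filter
open scoped Topology RealInnerProductSpace ENNReal

noncomputable section

variable {E : Type*} [NormedAddCommGroup E] [InnerProductSpace ℝ E] [MeasurableSpace E]
  [BorelSpace E] [FiniteDimensional ℝ E] {n : ℕ} {C A R : ℝ} {ν : Measure E} {x₀ : E}
  {cs : ℕ → E} {p : E} {W : Submodule ℝ E}

lemma scale_succ (R : ℝ) (i : ℕ) : scale R (i + 1) = scale R i / 16 := by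
  simp only [scale]; ring

lemma scale_eq (R : ℝ) {i j : ℕ} (h : i ≤ j) :
    scale R j = (1 / 16 : ℝ) ^ (j - i) * scale R i := by
  simp only [scale]
  rw [show j + 4 = (j - i) + (i + 4) by omega, pow_add]
  ring

lemma chain_dist (hR : 0 < R) {i j : ℕ} (hij : i ≤ j)
    (hch : ∀ k, i ≤ k → k < j → dist (cs (k + 1)) (cs k) ≤ 2 * scale R k) :
    dist (cs j) (cs i) ≤ 32 / 15 * (scale R i - scale R j) := by
  induction j, hij using Nat.le_induction with
  | base => simp
  | succ m hm ih =>
    have h1 := ih fun k hk hkm => hch k hk (by omega)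
    have h2 := hch m hm (by omega)
    rw [scale_succ]
    linarith [dist_triangle (cs (m + 1)) (cs m) (cs i), scale_pos hR m]

lemma flatness_sq_mul (n : ℕ) (ν : Measure E) (z : E) {l : ℝ} (hl : 0 < l) (p : E)
    (W : Submodule ℝ E) :
    ∫ y in Metric.ball z (4 * l), ‖perp W (y - p)‖ ^ 2 ∂ν = flatness ν n z l p W ^ 2 * l ^ (n + 2) := by
  rw [flatness, Real.sq_sqrt (div_nonneg (integral_nonneg fun y => sq_nonneg _) (by positivity)),
    div_mul_cancel₀ _ (by positivity)]

lemma integrableOn_ball_cont {f : E → ℝ} (hf : Continuous f) [IsFiniteMeasure ν] (z : E)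
    (t : ℝ) : IntegrableOn f (Metric.ball z t) ν :=
  (hf.continuousOn.integrableOn_compact (isCompact_closedBall z t)).mono_set
    Metric.ball_subset_closedBall

lemma integral_norm_perp_le (h : Nice n C A ν x₀ R) (z : E) {l : ℝ} (hl : 0 < l) (p : E)
    (W : Submodule ℝ E) :
    ∫ y in Metric.ball z (4 * l), ‖perp W (y - p)‖ ∂ν ≤
      Real.sqrt (C * 4 ^ n) * (flatness ν n z l p W * l ^ (n + 1)) := by
  have := h.finite
  set S := Metric.ball z (4 * l)
  have hC0 : 0 ≤ C := zero_le_one.trans h.1
  have hu : Continuous fun y : E => ‖perp W (y - p)‖ :=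
    ((continuous_perp_map W).comp (continuous_id.sub continuous_const)).norm
  obtain ⟨B, hB⟩ := (isCompact_closedBall z (4 * l)).exists_bound_of_continuousOn hu.continuousOn
  have hf : MemLp (fun y : E => ‖perp W (y - p)‖) 2 (ν.restrict S) :=
    MemLp.of_bound hu.aestronglyMeasurable B ((ae_restrict_iff' measurableSet_ball).2
      (Eventually.of_forall fun y hy => hB y (Metric.ball_subset_closedBall hy)))
  have h1 := integral_mul_le_Lp_mul_Lq_of_nonneg Real.HolderConjugate.two_two
    (μ := ν.restrict S) (Eventually.of_forall fun x => norm_nonneg (perp W (x - p)))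
    (Eventually.of_forall fun _ => zero_le_one) (by simpa using hf)
    (by simpa using memLp_const (1 : ℝ))
  simp only [mul_one, Real.one_rpow, integral_const, smul_eq_mul, measureReal_restrict_apply,
    MeasurableSet.univ, univ_inter, Real.rpow_two, one_pow, ← Real.sqrt_eq_rpow] at h1
  refine h1.trans ?_
  rw [flatness_sq_mul n ν z hl]
  have hm : ν.real S ≤ C * 4 ^ n * l ^ n := by
    rw [mul_assoc, ← mul_pow]; exact h.2.2.2.2.1 z _ (by positivity)
  refine (mul_le_mul_of_nonneg_left (Real.sqrt_le_sqrt hm) (Real.sqrt_nonneg _)).trans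
    (le_of_eq ?_)
  rw [Real.sqrt_mul (by positivity) (l ^ n), Real.sqrt_mul (sq_nonneg _), Real.sqrt_sq (show 0 ≤ flatness ν n z l p W from Real.sqrt_nonneg _),
    show Real.sqrt (l ^ (n + 2)) = Real.sqrt (l ^ n) * l by
      rw [pow_add, Real.sqrt_mul (by positivity), Real.sqrt_sq hl.le]]
  have hs : Real.sqrt (l ^ n) * Real.sqrt (l ^ n) = l ^ n := Real.mul_self_sqrt (by positivity)
  rw [pow_succ]
  calc flatness ν n z l p W * (Real.sqrt (l ^ n) * l) *
        (Real.sqrt (C * 4 ^ n) * Real.sqrt (l ^ n))
      = Real.sqrt (C * 4 ^ n) * (flatness ν n z l p W *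
          (Real.sqrt (l ^ n) * Real.sqrt (l ^ n) * l)) := by ring
    _ = _ := by rw [hs]

lemma integral_inv_far_le (h : Nice n C A ν x₀ R) (z : E) {t : ℝ} (ht : 0 < t) :
    ∫ y in {y | t ≤ dist z y}, (dist z y ^ (n + 1))⁻¹ ∂ν ≤ 2 ^ (n + 1) * C / t :=
  have := h.finite
  outer_integral_le h.2.2.2.2.1 (zero_le_one.trans h.1) z ht

lemma integral_inv_far_succ_le (h : Nice n C A ν x₀ R) (z : E) {t : ℝ} (ht : 0 < t) :
    ∫ y in {y | t ≤ dist z y}, (dist z y ^ (n + 2))⁻¹ ∂ν ≤ 2 ^ (n + 1) * C / t ^ 2 := by
  have := h.finite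
  have hm : MeasurableSet {y | t ≤ dist z y} := measurableSet_le measurable_const (by fun_prop)
  calc ∫ y in {y | t ≤ dist z y}, (dist z y ^ (n + 2))⁻¹ ∂ν
      ≤ ∫ y in {y | t ≤ dist z y}, t⁻¹ * (dist z y ^ (n + 1))⁻¹ ∂ν := by
        refine setIntegral_mono_on (integrableOn_inv_pow z ht _ hm fun y hy => hy)
          ((integrableOn_inv_pow z ht _ hm fun y hy => hy).const_mul _) hm fun y hy => ?_
        have hy0 : 0 < dist z y := ht.trans_le hy
        rw [pow_succ, mul_inv, mul_comm]
        exact mul_le_mul_of_nonneg_right (inv_anti₀ ht hy) (by positivity)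
    _ ≤ t⁻¹ * (2 ^ (n + 1) * C / t) := by
        rw [integral_const_mul]
        exact mul_le_mul_of_nonneg_left (integral_inv_far_le h z ht) (by positivity)
    _ = _ := by ring

/-- The sum that controls distant points. -/
def flatSum (ν : Measure E) (n : ℕ) (R : ℝ) (cs : ℕ → E) (j₀ j : ℕ) (p : E) (W : Submodule ℝ E) :
    ℝ :=
  (1 / 16 : ℝ) ^ (j - j₀) +
    ∑ i ∈ Finset.Icc j₀ j, (1 / 16 : ℝ) ^ (j - i) * flatness ν n (cs i) (scale R i) p W

lemma flatness_le_flatSum (ν : Measure E) (n : ℕ) (R : ℝ) (cs : ℕ → E) {j₀ j : ℕ} (p : E)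
    (W : Submodule ℝ E) {i : ℕ} (h1 : j₀ ≤ i) (h2 : i ≤ j) :
    flatness ν n (cs i) (scale R i) p W ≤ 16 ^ (j - i) * flatSum ν n R cs j₀ j p W := by
  have h := Finset.single_le_sum (f := fun i =>
    (1 / 16 : ℝ) ^ (j - i) * flatness ν n (cs i) (scale R i) p W)
    (fun i _ => mul_nonneg (by positivity) (Real.sqrt_nonneg _)) (Finset.mem_Icc.2 ⟨h1, h2⟩)
  have h3 : flatness ν n (cs i) (scale R i) p W * (1 / 16 : ℝ) ^ (j - i) ≤
      flatSum ν n R cs j₀ j p W := by
    rw [flatSum, mul_comm]
    exact h.trans (le_add_of_nonneg_left (by positivity))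
  rw [one_div, inv_pow, ← div_eq_mul_inv, div_le_iff₀ (by positivity)] at h3
  linarith

/-- Points at distance at least `16 * scale R j` from the centre contribute `flatSum / scale`. -/
theorem far_integral_le (h : Nice n C A ν x₀ R) {j₀ j : ℕ} {D : ℝ} (hj : j₀ < j)
    (hch : ∀ i, j₀ ≤ i → i < j → dist (cs (i + 1)) (cs i) ≤ 2 * scale R i)
    (hc : ‖perp W (cs j - p)‖ ≤ 4 * scale R j + D * flatSum ν n R cs j₀ j p W * scale R j)
    (hD : 0 ≤ D) :
    ∫ y in {y | 16 * scale R j ≤ dist (cs j) y},
        ‖perp W (y - p)‖ * (dist (cs j) y ^ (n + 2))⁻¹ ∂ν ≤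
      (16 ^ (n + 2) * Real.sqrt (C * 4 ^ n) + 2 ^ (n + 1) * C * (6 + D)) *
        flatSum ν n R cs j₀ j p W / scale R j := by
  have := h.finite
  have hR := h.2.2.1
  have hC0 : 0 ≤ C := zero_le_one.trans h.1
  set c := cs j with hcdef
  set l := scale R j with hl
  have hl0 : 0 < l := scale_pos hR j
  set S := flatSum ν n R cs j₀ j p W with hS
  have hS0 : 0 ≤ S := add_nonneg (by positivity)
    (Finset.sum_nonneg fun i _ => mul_nonneg (by positivity) (Real.sqrt_nonneg _))
  have hS16 : (1 / 16 : ℝ) ^ (j - j₀) ≤ S :=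
    le_add_of_nonneg_right (Finset.sum_nonneg fun i _ => mul_nonneg (by positivity) (Real.sqrt_nonneg _))
  set f := fun y => ‖perp W (y - p)‖ * (dist c y ^ (n + 2))⁻¹ with hf
  have hf0 : ∀ y, 0 ≤ f y := fun y => by positivity
  have hcont : Continuous fun y : E => ‖perp W (y - p)‖ :=
    ((continuous_perp_map W).comp (continuous_id.sub continuous_const)).norm
  -- the linear bound
  have hlin : ∀ y, ‖perp W (y - p)‖ ≤ dist c y + ‖perp W (c - p)‖ := fun y => by
    have e : perp W (y - p) = perp W (y - c) + perp W (c - p) := by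
      simp only [perp_map_sub]; abel
    rw [e]
    refine (norm_add_le _ _).trans (add_le_add ((norm_perp_apply_le W _).trans ?_) le_rfl)
    rw [dist_comm, dist_eq_norm]
  have hint : ∀ t, 0 < t → IntegrableOn f {y | t ≤ dist c y} ν := by
    intro t ht
    have hm : MeasurableSet {y | t ≤ dist c y} := measurableSet_le measurable_const (by fun_prop)
    refine ((integrableOn_inv_pow c ht (n + 1) hm fun y hy => hy).add
      ((integrableOn_inv_pow c ht (n + 2) hm fun y hy => hy).const_mul ‖perp W (c - p)‖)).mono'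
      (hcont.measurable.mul (by fun_prop)).aestronglyMeasurable
      ((ae_restrict_iff' hm).2 (Eventually.of_forall fun y hy => ?_))
    have hy0 : 0 < dist c y := ht.trans_le hy
    rw [Real.norm_eq_abs, abs_of_nonneg (hf0 y)]
    refine (mul_le_mul_of_nonneg_right (hlin y) (by positivity)).trans (le_of_eq ?_)
    simp only [Pi.add_apply]
    rw [pow_succ (dist c y) (n + 1)]
    field_simp
  set r := fun i => 3 / 2 * scale R i with hr
  set T := fun i => {y : E | r (i + 1) ≤ dist c y ∧ dist c y < r i} with hT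
  have hr0 : ∀ i, 0 < r i := fun i => by have := scale_pos hR i; positivity
  have hdm : Measurable fun y : E => dist c y :=
    (continuous_const.dist continuous_id).measurable
  have hTm : ∀ i, MeasurableSet (T i) := fun i =>
    MeasurableSet.inter (measurableSet_le measurable_const hdm)
      (measurableSet_lt hdm measurable_const)
  have hFm : MeasurableSet {y | r j₀ ≤ dist c y} := measurableSet_le measurable_const (by fun_prop)
  -- each shell
  have hshell : ∀ i ∈ Finset.Ico j₀ j, ∫ y in T i, f y ∂ν ≤
      16 ^ (n + 2) * Real.sqrt (C * 4 ^ n) *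
        ((1 / 16 : ℝ) ^ (j - i) * flatness ν n (cs i) (scale R i) p W) / l := by
    intro i hi
    rw [Finset.mem_Ico] at hi
    have hli : 0 < scale R i := scale_pos hR i
    have hsub : T i ⊆ Metric.ball (cs i) (4 * scale R i) := fun y hy => by
      have h1 := chain_dist hR hi.2.le fun k hk hkj => hch k (by omega) hkj
      have h2 : dist c y < 3 / 2 * scale R i := hy.2
      rw [Metric.mem_ball]
      linarith [dist_triangle_left y (cs i) c, scale_pos hR j]
    calc ∫ y in T i, f y ∂ν
        ≤ ∫ y in T i, (16 / scale R i) ^ (n + 2) * ‖perp W (y - p)‖ ∂ν := by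
          refine setIntegral_mono_on ((hint _ (hr0 (i + 1))).mono_set fun y hy => hy.1)
            (((integrableOn_ball_cont hcont _ _).mono_set hsub).const_mul _) (hTm i)
            fun y hy => ?_
          simp only [hf]
          rw [mul_comm]
          refine mul_le_mul_of_nonneg_right ?_ (norm_nonneg _)
          rw [← inv_pow]
          refine pow_le_pow_left₀ (by positivity) ?_ _
          have h1 : scale R i / 16 ≤ dist c y := by
            refine le_trans ?_ hy.1
            simp only [hr, scale_succ]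
            linarith
          rw [show 16 / scale R i = (scale R i / 16)⁻¹ by rw [inv_div]]
          exact inv_anti₀ (by positivity) h1
      _ = (16 / scale R i) ^ (n + 2) * ∫ y in T i, ‖perp W (y - p)‖ ∂ν := integral_const_mul _ _
      _ ≤ (16 / scale R i) ^ (n + 2) *
          (Real.sqrt (C * 4 ^ n) * (flatness ν n (cs i) (scale R i) p W * scale R i ^ (n + 1))) := by
          refine mul_le_mul_of_nonneg_left (le_trans ?_ (integral_norm_perp_le h _ hli p W))
            (by positivity)
          exact setIntegral_mono_set (integrableOn_ball_cont hcont _ _)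
            (Eventually.of_forall fun y => norm_nonneg _) hsub.eventuallyLE
      _ = _ := by
          rw [hl, scale_eq R hi.2.le, div_pow, pow_succ (scale R i) (n + 1)]
          field_simp
  -- the tail
  have htail : ∫ y in {y | r j₀ ≤ dist c y}, f y ∂ν ≤ 2 ^ (n + 1) * C * (6 + D) * S / l := by
    have hrl : l / S ≤ r j₀ := by
      rw [div_le_iff₀ (lt_of_lt_of_le (by positivity) hS16), hl, scale_eq R hj.le, mul_comm]
      exact mul_le_mul ((le_mul_of_one_le_left (scale_pos hR j₀).le (by norm_num)).trans_eq rfl)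
        hS16 (by positivity) (hr0 j₀).le
    have hlr : l ≤ r j₀ := by
      rw [hl, scale_eq R hj.le]
      refine le_trans (mul_le_of_le_one_left (scale_pos hR j₀).le
        (pow_le_one₀ (by norm_num) (by norm_num))) ?_
      exact le_mul_of_one_le_left (scale_pos hR j₀).le (by norm_num)
    have hS' : 0 < S := lt_of_lt_of_le (by positivity) hS16
    calc ∫ y in {y | r j₀ ≤ dist c y}, f y ∂ν
        ≤ ∫ y in {y | r j₀ ≤ dist c y},
            ((dist c y ^ (n + 1))⁻¹ + ‖perp W (c - p)‖ * (dist c y ^ (n + 2))⁻¹) ∂ν := by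
          refine setIntegral_mono_on (hint _ (hr0 _))
            ((integrableOn_inv_pow c (hr0 _) _ hFm fun y hy => hy).add
              ((integrableOn_inv_pow c (hr0 _) _ hFm fun y hy => hy).const_mul _)) hFm fun y hy => ?_
          have hy0 : 0 < dist c y := (hr0 j₀).trans_le hy
          refine (mul_le_mul_of_nonneg_right (hlin y) (by positivity)).trans (le_of_eq ?_)
          rw [pow_succ (dist c y) (n + 1)]
          field_simp
      _ ≤ 2 ^ (n + 1) * C / r j₀ + (4 * l + D * S * l) * (2 ^ (n + 1) * C / r j₀ ^ 2) := by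
          rw [integral_add (integrableOn_inv_pow c (hr0 _) _ hFm fun y hy => hy)
            ((integrableOn_inv_pow c (hr0 _) _ hFm fun y hy => hy).const_mul _), integral_const_mul]
          exact add_le_add (integral_inv_far_le h c (hr0 _))
            (mul_le_mul hc (integral_inv_far_succ_le h c (hr0 _))
              (integral_nonneg fun y => by positivity)
              (add_nonneg (by positivity) (mul_nonneg (mul_nonneg hD hS0) hl0.le)))
      _ ≤ _ := by
          have e1 : 1 / r j₀ ≤ S / l := by
            have := one_div_le_one_div_of_le (by positivity) hrl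
            rwa [one_div_div] at this
          have e2 : l / r j₀ ≤ 1 := (div_le_one (hr0 _)).2 hlr
          have hK : 0 ≤ 2 ^ (n + 1) * C := by positivity
          have e3 : l / r j₀ ^ 2 ≤ S / l := by
            rw [pow_two, ← div_div, div_eq_mul_one_div (l / r j₀)]
            calc l / r j₀ * (1 / r j₀) ≤ 1 * (S / l) := mul_le_mul e2 e1 (div_nonneg zero_le_one (hr0 _).le) zero_le_one
              _ = _ := one_mul _
          have e4 : S * l / r j₀ ^ 2 ≤ S / l := by
            rw [pow_two, ← div_div, div_le_iff₀ (hr0 _)]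
            calc S * l / r j₀ = S * (l / r j₀) := by ring
              _ ≤ S * 1 := mul_le_mul_of_nonneg_left e2 hS0
              _ ≤ S / l * r j₀ := by
                  rw [mul_one, div_mul_eq_mul_div, le_div_iff₀ hl0]
                  exact mul_le_mul_of_nonneg_left hlr hS0
          calc 2 ^ (n + 1) * C / r j₀ + (4 * l + D * S * l) * (2 ^ (n + 1) * C / r j₀ ^ 2)
              = 2 ^ (n + 1) * C * (1 / r j₀ + 4 * (l / r j₀ ^ 2) + D * (S * l / r j₀ ^ 2)) := by ring
            _ ≤ 2 ^ (n + 1) * C * (S / l + 4 * (S / l) + D * (S / l)) := by gcongr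
            _ ≤ 2 ^ (n + 1) * C * (6 + D) * S / l := by
                rw [show 2 ^ (n + 1) * C * (6 + D) * S / l =
                  2 ^ (n + 1) * C * (S / l + 4 * (S / l) + D * (S / l)) +
                    2 ^ (n + 1) * C * (S / l) by ring]
                exact le_add_of_nonneg_right (by positivity)
  have hcover : {y | 16 * l ≤ dist c y} ⊆ (⋃ i ∈ Finset.Ico j₀ j, T i) ∪ {y | r j₀ ≤ dist c y} := by
    intro y (hy : 16 * l ≤ dist c y)
    by_cases hfar : r j₀ ≤ dist c y
    · exact Or.inr hfar
    · refine Or.inl ?_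
      have hex : ∃ i, j₀ ≤ i ∧ r (i + 1) ≤ dist c y := by
        refine ⟨j - 1, by omega, le_trans ?_ hy⟩
        rw [show j - 1 + 1 = j by omega]
        show 3 / 2 * scale R j ≤ 16 * l
        linarith
      classical
      obtain ⟨h1, h2⟩ := Nat.find_spec hex
      refine mem_iUnion₂.2 ⟨Nat.find hex, Finset.mem_Ico.2 ⟨h1, ?_⟩, h2, ?_⟩
      · have : Nat.find hex ≤ j - 1 := Nat.find_min' hex ⟨by omega, by
          rw [show j - 1 + 1 = j by omega]
          show 3 / 2 * scale R j ≤ dist c y
          linarith⟩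
        omega
      · rcases h1.eq_or_lt with heq | hlt
        · rw [← heq]; exact not_le.1 hfar
        · by_contra hh
          refine Nat.find_min hex (show Nat.find hex - 1 < Nat.find hex by omega)
            ⟨by omega, ?_⟩
          rw [show Nat.find hex - 1 + 1 = Nat.find hex by omega]
          exact not_lt.1 hh
  have hUint : IntegrableOn f (⋃ i ∈ Finset.Ico j₀ j, T i) ν :=
    integrableOn_finset_iUnion.2 fun i _ => (hint _ (hr0 (i + 1))).mono_set fun y hy => hy.1
  calc ∫ y in {y | 16 * l ≤ dist c y}, f y ∂ν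
      ≤ ∫ y in (⋃ i ∈ Finset.Ico j₀ j, T i) ∪ {y | r j₀ ≤ dist c y}, f y ∂ν :=
        setIntegral_mono_set (hUint.union (hint _ (hr0 _))) (Eventually.of_forall hf0)
          hcover.eventuallyLE
    _ ≤ (∫ y in ⋃ i ∈ Finset.Ico j₀ j, T i, f y ∂ν) + ∫ y in {y | r j₀ ≤ dist c y}, f y ∂ν := by
        rw [← integral_add_measure hUint (hint _ (hr0 _))]
        exact integral_mono_measure (Measure.restrict_union_le _ _) (Eventually.of_forall hf0)
          (Integrable.add_measure hUint (hint _ (hr0 _)))
    _ ≤ (∑ i ∈ Finset.Ico j₀ j, ∫ y in T i, f y ∂ν) + 2 ^ (n + 1) * C * (6 + D) * S / l := by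
        refine add_le_add (le_of_eq ?_) htail
        refine integral_biUnion_finset _ (fun i _ => hTm i) ?_
          fun i _ => (hint _ (hr0 (i + 1))).mono_set fun y hy => hy.1
        intro a _ b _ hab
        refine Set.disjoint_left.2 fun y hy hy' => ?_
        rcases Nat.lt_or_gt_of_ne hab with hlt | hlt
        · have : r b ≤ r (a + 1) := by
            simp only [hr]; rw [scale_eq R hlt]
            exact mul_le_mul_of_nonneg_left (mul_le_of_le_one_left (scale_pos hR _).le
              (pow_le_one₀ (by norm_num) (by norm_num))) (by norm_num)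
          linarith [hy.1, hy'.2]
        · have : r a ≤ r (b + 1) := by
            simp only [hr]; rw [scale_eq R hlt]
            exact mul_le_mul_of_nonneg_left (mul_le_of_le_one_left (scale_pos hR _).le
              (pow_le_one₀ (by norm_num) (by norm_num))) (by norm_num)
          linarith [hy'.1, hy.2]
    _ ≤ 16 ^ (n + 2) * Real.sqrt (C * 4 ^ n) * S / l + 2 ^ (n + 1) * C * (6 + D) * S / l := by
        refine add_le_add ((Finset.sum_le_sum hshell).trans ?_) le_rfl
        rw [← Finset.sum_div, ← Finset.mul_sum]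
        refine div_le_div_of_nonneg_right (mul_le_mul_of_nonneg_left ?_ (by positivity)) hl0.le
        refine le_trans (Finset.sum_le_sum_of_subset_of_nonneg (Finset.Ico_subset_Icc_self)
          fun i _ _ => mul_nonneg (by positivity) (Real.sqrt_nonneg _)) ?_
        exact le_add_of_nonneg_left (by positivity)
    _ = _ := by ring

end

end Vale.Agent.P120.Full
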