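import Vale.Agent.P120.Full.Interfaces
import Vale.Agent.P120.Full.Pair
import Vale.Agent.P120.Descent

/-!
# P120, full answer: comparison of two planes close to the measure in one ball

The measure cannot concentrate near an `(n - 1)`-plane, so the coordinates along a nearby
`n`-plane have a nondegenerate second moment, and this bounds the angle between the planes.
-/

namespace Vale.Agent.P120.Full

open MeasureTheory Set Filter
open scoped Topology RealInnerProductSpace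

noncomputable section

variable {E : Type*} [NormedAddCommGroup E] [InnerProductSpace ℝ E] [MeasurableSpace E]
  [BorelSpace E] [FiniteDimensional ℝ E] {n : ℕ} {ν : Measure E}

omit [MeasurableSpace E] [BorelSpace E] in
lemma perp_add (W : Submodule ℝ E) (u v : E) : perp W (u + v) = perp W u + perp W v := by
  simp only [perp, map_add]; abel

omit [MeasurableSpace E] [BorelSpace E] in
lemma perp_sub (W : Submodule ℝ E) (u v : E) : perp W (u - v) = perp W u - perp W v := by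
  simp only [perp, map_sub]; abel

omit [MeasurableSpace E] [BorelSpace E] in
lemma perp_eq (W : Submodule ℝ E) (v : E) : perp W v = Wᗮ.starProjection v := by
  rw [perp, Submodule.starProjection_orthogonal']
  rfl

omit [MeasurableSpace E] [BorelSpace E] in
lemma norm_perp_le (W : Submodule ℝ E) (v : E) : ‖perp W v‖ ≤ ‖v‖ := by
  rw [perp_eq]; exact Submodule.norm_starProjection_apply_le _ _

omit [MeasurableSpace E] [BorelSpace E] in
lemma continuous_perp (W : Submodule ℝ E) (p : E) : Continuous fun y => perp W (y - p) := by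
  simp only [perp]; fun_prop

omit [InnerProductSpace ℝ E] [FiniteDimensional ℝ E] in
/-- A continuous function is integrable on a ball. -/
lemma integrableOn_ball_of_continuous [ProperSpace E] [IsFiniteMeasure ν] {F : Type*}
    [NormedAddCommGroup F] {f : E → F} (hf : Continuous f) (z : E) (t : ℝ) :
    IntegrableOn f (Metric.ball z t) ν :=
  (hf.continuousOn.integrableOn_compact (isCompact_closedBall z t)).mono_set
    Metric.ball_subset_closedBall

/-- The part of a ball near a codimension one slice of an `n`-plane has small mass. -/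
lemma slab_le {C : ℝ} (hC : 1 ≤ C) [IsFiniteMeasure ν]
    (hgr : ∀ z : E, ∀ t : ℝ, 0 < t → ν.real (Metric.ball z t) ≤ C * t ^ n)
    (k : ℕ) (hkn : k + 1 = n) {δ : ℝ} (hδ : 0 < δ) (hδ1 : δ ≤ 1) (z p' : E) {t : ℝ} (ht : 0 < t)
    (W' : Submodule ℝ E) (hW' : Module.finrank ℝ W' = n) {e : E} (he : e ∈ W') (he1 : ‖e‖ = 1)
    (b : ℝ) :
    ν.real {y | dist y z < t ∧ |b + ⟪e, y - p'⟫| ≤ δ * t ∧ ‖perp W' (y - p')‖ ≤ δ * t} ≤
      7 ^ k * (C * ((k : ℝ) + 5) ^ n) * δ * t ^ n := by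
  classical
  have hC0 : 0 < C := lt_of_lt_of_le one_pos hC
  set W : Submodule ℝ E := (ℝ ∙ e)ᗮ ⊓ W'
  have he0 : e ≠ 0 := fun h => by rw [h, norm_zero] at he1; exact one_ne_zero he1.symm
  have hW : Module.finrank ℝ W = k := finrank_inf_orth (hW'.trans hkn.symm) he he0
  set o := (stdOrthonormalBasis ℝ W).reindex (finCongr hW)
  set h := δ * t with hh'
  have hh : 0 < h := by positivity
  set L := ⌈1 / δ⌉₊
  set J := Fintype.piFinset fun _ : Fin k => Finset.Icc (-(L : ℤ) - 1) L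
  set S := {y | dist y z < t ∧ |b + ⟪e, y - p'⟫| ≤ δ * t ∧ ‖perp W' (y - p')‖ ≤ δ * t} with hS
  set idx : E → Fin k → ℤ := fun y i => ⌊⟪(o i : E), y - z⟫ / h⌋ with hidx
  have hJ : ∀ y ∈ S, idx y ∈ J := fun y hy => Fintype.mem_piFinset.2 fun i => by
    have h1 : |⟪(o i : E), y - z⟫ / h| ≤ 1 / δ := by
      rw [abs_div, abs_of_pos hh, div_le_div_iff₀ hh hδ]
      have h2 := abs_real_inner_le_norm (o i : E) (y - z)
      rw [show ‖(o i : E)‖ = 1 from o.orthonormal.1 i, one_mul, ← dist_eq_norm] at h2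
      calc |⟪(o i : E), y - z⟫| * δ ≤ t * δ :=
            mul_le_mul_of_nonneg_right (h2.trans hy.1.le) hδ.le
        _ = 1 * h := by rw [hh']; ring
    have h3 := abs_le.1 h1
    have hL : 1 / δ ≤ L := Nat.le_ceil _
    refine Finset.mem_Icc.2 ⟨Int.le_floor.2 (by push_cast; linarith [h3.1]), ?_⟩
    have h4 := Int.floor_le (⟪(o i : E), y - z⟫ / h)
    have : ((idx y i : ℤ) : ℝ) ≤ ((L : ℤ) : ℝ) := by
      push_cast; simp only [hidx]; linarith [h3.2]
    exact_mod_cast this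
  have hfib : ∀ j ∈ J, ν.real {y | y ∈ S ∧ idx y = j} ≤ C * (((k : ℝ) + 5) * h) ^ n := by
    intro j _
    rcases Set.eq_empty_or_nonempty {y | y ∈ S ∧ idx y = j} with hne | ⟨y₀, hy₀, hj₀⟩
    · rw [hne, measureReal_empty]; positivity
    refine (measureReal_mono fun y hy => ?_).trans (hgr y₀ _ (by positivity))
    obtain ⟨hy, hj⟩ := hy
    rw [Metric.mem_ball, dist_eq_norm]
    set d := y - y₀ with hd
    set w := W'.starProjection d - ⟪e, d⟫ • e with hw'
    have hwW : w ∈ W := by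
      refine ⟨Submodule.mem_orthogonal_singleton_iff_inner_right.2 ?_,
        sub_mem (W'.starProjection_apply_mem d) (W'.smul_mem _ he)⟩
      rw [hw', inner_sub_right, real_inner_smul_right, ← W'.inner_starProjection_left_eq_right,
        Submodule.starProjection_eq_self_iff.2 he, real_inner_self_eq_norm_sq, he1]
      ring
    have hoi : ∀ i, ⟪(o i : E), w⟫ = ⟪(o i : E), d⟫ := fun i => by
      have hi := (o i).2
      rw [hw', inner_sub_right, real_inner_smul_right, ← W'.inner_starProjection_left_eq_right,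
        Submodule.starProjection_eq_self_iff.2 hi.2, real_inner_comm e,
        Submodule.mem_orthogonal_singleton_iff_inner_right.1 hi.1]
      ring
    have hwn : ‖w‖ ≤ k * h := by
      have hsum := o.sum_repr' ⟨w, hwW⟩
      have hsum' : ∑ i, ⟪(o i : E), w⟫ • (o i : E) = w := by
        have h' := congrArg Subtype.val hsum
        simpa using h'
      rw [← hsum']
      refine (norm_sum_le _ _).trans ((Finset.sum_le_sum fun i _ => ?_).trans
        (le_of_eq (by simp : ∑ _i : Fin k, h = k * h)))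
      rw [norm_smul, show ‖(o i : E)‖ = 1 from o.orthonormal.1 i, mul_one, hoi, Real.norm_eq_abs]
      have e1 : ⟪(o i : E), d⟫ = ⟪(o i : E), y - z⟫ - ⟪(o i : E), y₀ - z⟫ := by
        rw [← inner_sub_right, hd]; congr 1; abel
      have a1 := Int.floor_le (⟪(o i : E), y - z⟫ / h)
      have a2 := Int.lt_floor_add_one (⟪(o i : E), y - z⟫ / h)
      have b1 := Int.floor_le (⟪(o i : E), y₀ - z⟫ / h)
      have b2 := Int.lt_floor_add_one (⟪(o i : E), y₀ - z⟫ / h)
      have e2 : ⌊⟪(o i : E), y - z⟫ / h⌋ = ⌊⟪(o i : E), y₀ - z⟫ / h⌋ :=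
        congrFun (hj.trans hj₀.symm) i
      rw [e2] at a1 a2
      rw [le_div_iff₀ hh] at a1 b1
      rw [div_lt_iff₀ hh] at a2 b2
      rw [e1, abs_le]
      constructor <;> linarith
    have he2 : |⟪e, d⟫| ≤ 2 * h := by
      have : ⟪e, d⟫ = (b + ⟪e, y - p'⟫) - (b + ⟪e, y₀ - p'⟫) := by
        rw [add_sub_add_left_eq_sub, ← inner_sub_right, hd]; congr 1; abel
      rw [this]
      exact (abs_sub _ _).trans (by linarith [hy.2.1, hy₀.2.1])
    have hp : ‖perp W' d‖ ≤ 2 * h := by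
      rw [show d = (y - p') - (y₀ - p') by rw [hd]; abel, perp_sub]
      exact (norm_sub_le _ _).trans (by linarith [hy.2.2, hy₀.2.2])
    have e3 : d = perp W' d + w + ⟪e, d⟫ • e := by rw [hw', perp]; abel
    rw [e3]
    refine (norm_add₃_le).trans_lt ?_
    rw [norm_smul, he1, mul_one, Real.norm_eq_abs]
    linarith
  have hsub : S ⊆ ⋃ j ∈ J, {y | y ∈ S ∧ idx y = j} := fun y hy =>
    mem_iUnion₂.2 ⟨idx y, hJ y hy, hy, rfl⟩
  have hcard : (J.card : ℝ) ≤ (7 / δ) ^ k := by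
    have e : J.card = (2 * L + 2) ^ k := by
      simp only [J, Fintype.card_piFinset, Int.card_Icc, Finset.prod_const, Finset.card_univ,
        Fintype.card_fin]
      congr 1
      omega
    rw [e, Nat.cast_pow]
    refine pow_le_pow_left₀ (by positivity) ?_ k
    push_cast
    have hL : (L : ℝ) ≤ 1 / δ + 1 := (Nat.ceil_lt_add_one (by positivity)).le
    have h1 : 1 ≤ 1 / δ := (one_le_div hδ).2 hδ1
    calc 2 * (L : ℝ) + 2 ≤ 7 * (1 / δ) := by linarith
      _ = 7 / δ := by ring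
  calc ν.real S ≤ ν.real (⋃ j ∈ J, {y | y ∈ S ∧ idx y = j}) := measureReal_mono hsub (measure_ne_top _ _)
    _ ≤ ∑ j ∈ J, ν.real {y | y ∈ S ∧ idx y = j} := measureReal_biUnion_finset_le _ _
    _ ≤ J.card * (C * (((k : ℝ) + 5) * h) ^ n) := by
        refine (Finset.sum_le_sum hfib).trans (le_of_eq ?_); simp
    _ ≤ (7 / δ) ^ k * (C * (((k : ℝ) + 5) * h) ^ n) :=
        mul_le_mul_of_nonneg_right hcard (by positivity)
    _ = _ := by
        rw [hh', ← hkn, div_pow, mul_pow _ (δ * t), mul_pow δ t, pow_succ δ k]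
        field_simp

/-- Coordinates along a plane near the measure have a nondegenerate second moment. -/
lemma exists_moment (hn : 1 ≤ n) {C : ℝ} (hC : 1 ≤ C) :
    ∃ κ : ℝ, 0 < κ ∧ ∀ (ν : Measure E), IsFiniteMeasure ν →
      (∀ z : E, ∀ t : ℝ, 0 < t → ν.real (Metric.ball z t) ≤ C * t ^ n) →
      ∀ (z p' : E) (t : ℝ), 0 < t → C⁻¹ * t ^ n ≤ ν.real (Metric.ball z t) →
      ∀ W' : Submodule ℝ E, Module.finrank ℝ W' = n → ∀ (u : E), u ∈ W' → ∀ b : ℝ,
        κ * ‖u‖ ^ 2 * t ^ (n + 2) ≤ (∫ y in Metric.ball z t, (b + ⟪u, y - p'⟫) ^ 2 ∂ν) +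
          ‖u‖ ^ 2 * ∫ y in Metric.ball z t, ‖perp W' (y - p')‖ ^ 2 ∂ν := by
  have hC0 : 0 < C := lt_of_lt_of_le one_pos hC
  obtain ⟨k, hkn⟩ : ∃ k, k + 1 = n := ⟨n - 1, by omega⟩
  set D := 7 ^ k * (C * ((k : ℝ) + 5) ^ n) with hD
  have hD0 : 0 < D := by positivity
  set δ := min 1 (1 / (2 * C * D)) with hδ'
  have hδ : 0 < δ := lt_min one_pos (by positivity)
  refine ⟨δ ^ 2 / (2 * C), by positivity, fun ν hfin hgr z p' t ht hlow W' hW' u hu b => ?_⟩
  have := hfin
  by_cases hu0 : u = 0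
  · subst hu0
    have : 0 ≤ ∫ y in Metric.ball z t, (b + ⟪(0 : E), y - p'⟫) ^ 2 ∂ν :=
      integral_nonneg fun y => sq_nonneg _
    simpa using this
  have hun : 0 < ‖u‖ := norm_pos_iff.2 hu0
  set e := ‖u‖⁻¹ • u with he'
  have he1 : ‖e‖ = 1 := by rw [he', norm_smul, norm_inv, norm_norm, inv_mul_cancel₀ hun.ne']
  set S := {y | dist y z < t ∧ |b / ‖u‖ + ⟪e, y - p'⟫| ≤ δ * t ∧ ‖perp W' (y - p')‖ ≤ δ * t}
  have hSle : ν.real S ≤ 1 / 2 * (C⁻¹ * t ^ n) := by
    refine (slab_le hC hgr k hkn hδ (min_le_left _ _) z p' ht W' hW' (W'.smul_mem _ hu) he1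
      _).trans ?_
    rw [← hD, ← mul_assoc (1 / 2 : ℝ)]
    refine mul_le_mul_of_nonneg_right ?_ (pow_nonneg ht.le n)
    calc D * δ ≤ D * (1 / (2 * C * D)) := mul_le_mul_of_nonneg_left (min_le_right _ _) hD0.le
      _ = 1 / 2 * C⁻¹ := by field_simp
  set f := fun y => (b + ⟪u, y - p'⟫) ^ 2 + ‖u‖ ^ 2 * ‖perp W' (y - p')‖ ^ 2 with hf
  set c := ‖u‖ ^ 2 * (δ * t) ^ 2 with hc
  have hi1 : IntegrableOn (fun y => (b + ⟪u, y - p'⟫) ^ 2) (Metric.ball z t) ν :=
    integrableOn_ball_of_continuous (by fun_prop) z t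
  have hi2 : IntegrableOn (fun y => ‖u‖ ^ 2 * ‖perp W' (y - p')‖ ^ 2) (Metric.ball z t) ν :=
    integrableOn_ball_of_continuous (((continuous_perp W' p').norm.pow 2).const_mul _) z t
  have hS : MeasurableSet S := by
    refine MeasurableSet.inter (measurableSet_ball (x := z) (ε := t)) (MeasurableSet.inter
      (measurableSet_le (f := fun y : E => |b / ‖u‖ + ⟪e, y - p'⟫|) ?_ measurable_const)
      (measurableSet_le (f := fun y : E => ‖perp W' (y - p')‖)
        (continuous_perp W' p').norm.measurable measurable_const))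
    exact (Continuous.measurable (by fun_prop))
  have hpt : ∀ y ∈ Metric.ball z t \ S, c ≤ f y := by
    rintro y ⟨hy, hyS⟩
    have e1 : b + ⟪u, y - p'⟫ = ‖u‖ * (b / ‖u‖ + ⟪e, y - p'⟫) := by
      rw [he', real_inner_smul_left]; field_simp
    rw [hf, hc]
    simp only [e1, mul_pow ‖u‖]
    rw [← mul_add]
    refine mul_le_mul_of_nonneg_left ?_ (by positivity)
    have hδt : 0 ≤ δ * t := by positivity
    by_cases h1 : |b / ‖u‖ + ⟪e, y - p'⟫| ≤ δ * t
    · have h2 : δ * t < ‖perp W' (y - p')‖ := lt_of_not_ge fun h => hyS ⟨hy, h1, h⟩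
      have h3 := pow_le_pow_left₀ hδt h2.le 2
      linarith [sq_nonneg (b / ‖u‖ + ⟪e, y - p'⟫)]
    · have h3 := pow_le_pow_left₀ hδt (not_le.1 h1).le 2
      rw [sq_abs] at h3
      linarith [sq_nonneg ‖perp W' (y - p')‖]
  have hmass : 1 / 2 * (C⁻¹ * t ^ n) ≤ ν.real (Metric.ball z t \ S) := by
    rw [measureReal_sdiff (s₁ := Metric.ball z t) (fun y hy => hy.1) hS (measure_ne_top _ _)]
    linarith
  have key : c * ν.real (Metric.ball z t \ S) ≤ ∫ y in Metric.ball z t, f y ∂ν := by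
    have hi := hi1.add hi2
    calc c * ν.real (Metric.ball z t \ S) = ∫ _ in Metric.ball z t \ S, c ∂ν := by
          rw [setIntegral_const, smul_eq_mul, mul_comm]
      _ ≤ ∫ y in Metric.ball z t \ S, f y ∂ν :=
          setIntegral_mono_on (integrable_const _).integrableOn (hi.mono_set sdiff_subset)
            (measurableSet_ball.diff hS) hpt
      _ ≤ _ := setIntegral_mono_set hi
          (Eventually.of_forall fun y => by simp only [hf, Pi.zero_apply]; positivity)
          (Eventually.of_forall sdiff_subset)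
  rw [hf, integral_add hi1 hi2, integral_const_mul] at key
  refine le_trans ?_ key
  calc δ ^ 2 / (2 * C) * ‖u‖ ^ 2 * t ^ (n + 2) = c * (1 / 2 * (C⁻¹ * t ^ n)) := by
        rw [hc, pow_add]; field_simp
    _ ≤ _ := mul_le_mul_of_nonneg_left hmass (by positivity)

/-- The angle between the two planes. -/
lemma angle_le {κ a a' t Λ : ℝ} [IsFiniteMeasure ν] (hκ : 0 < κ) (ha : 0 ≤ a) (ha' : 0 ≤ a')
    (ht : 0 < t) (hΛ0 : 0 ≤ Λ) (hΛ2 : Λ ^ 2 = 4 / κ) (hgood : a' ^ 2 ≤ κ / 2) (z p p' : E)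
    (W W' : Submodule ℝ E)
    (hM0 : ∀ u ∈ W', ∀ b : ℝ, κ * ‖u‖ ^ 2 * t ^ (n + 2) ≤
      (∫ y in Metric.ball z t, (b + ⟪u, y - p'⟫) ^ 2 ∂ν) +
        ‖u‖ ^ 2 * ∫ y in Metric.ball z t, ‖perp W' (y - p')‖ ^ 2 ∂ν)
    (hI : ∫ y in Metric.ball z t, ‖perp W (y - p)‖ ^ 2 ∂ν ≤ a ^ 2 * t ^ (n + 2))
    (hI' : ∫ y in Metric.ball z t, ‖perp W' (y - p')‖ ^ 2 ∂ν ≤ a' ^ 2 * t ^ (n + 2)) :
    ∀ w ∈ W', ‖perp W w‖ ≤ Λ * (a + a') * ‖w‖ := by
  set g := fun y => perp W (y - p) with hg
  set g' := fun y => perp W' (y - p') with hg'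
  have hi : IntegrableOn (fun y => ‖g y‖ ^ 2) (Metric.ball z t) ν :=
    integrableOn_ball_of_continuous ((continuous_perp W p).norm.pow 2) z t
  have hi' : IntegrableOn (fun y => ‖g' y‖ ^ 2) (Metric.ball z t) ν :=
    integrableOn_ball_of_continuous ((continuous_perp W' p').norm.pow 2) z t
  intro w hw
  set v := perp W w with hv
  set u := W'.starProjection (perp W v) with hu
  have hb : ∀ x, ⟪v, perp W (p' - p)⟫ + ⟪u, x - p'⟫ = ⟪v, g x - perp W (g' x)⟫ := fun x => by
    have : g x - perp W (g' x) = perp W (p' - p) + perp W (W'.starProjection (x - p')) := by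
      simp only [hg, hg', ← perp_sub, ← perp_add]; congr 1; simp only [perp]; abel
    rw [this, inner_add_right, hu, W'.inner_starProjection_left_eq_right, perp_eq W v,
      perp_eq W (W'.starProjection (x - p')), Wᗮ.inner_starProjection_left_eq_right]
  have hb2 : ∀ x, (⟪v, perp W (p' - p)⟫ + ⟪u, x - p'⟫) ^ 2 ≤
      2 * ‖v‖ ^ 2 * (‖g x‖ ^ 2 + ‖g' x‖ ^ 2) := fun x => by
    rw [hb]
    have h1 := abs_real_inner_le_norm v (g x - perp W (g' x))
    have h2 : ‖g x - perp W (g' x)‖ ≤ ‖g x‖ + ‖g' x‖ :=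
      (norm_sub_le _ _).trans (add_le_add le_rfl (norm_perp_le _ _))
    have h3 := pow_le_pow_left₀ (abs_nonneg _)
      (h1.trans (mul_le_mul_of_nonneg_left h2 (norm_nonneg v))) 2
    rw [sq_abs, mul_pow] at h3
    refine h3.trans ?_
    nlinarith [mul_le_mul_of_nonneg_left (add_sq_le (a := ‖g x‖) (b := ‖g' x‖))
      (sq_nonneg ‖v‖)]
  have hM := hM0 u (W'.starProjection_apply_mem _) ⟪v, perp W (p' - p)⟫
  have hI2 : (∫ x in Metric.ball z t, (⟪v, perp W (p' - p)⟫ + ⟪u, x - p'⟫) ^ 2 ∂ν) ≤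
      2 * ‖v‖ ^ 2 * ((a ^ 2 + a' ^ 2) * t ^ (n + 2)) := by
    refine (setIntegral_mono_on (integrableOn_ball_of_continuous (by fun_prop) z t)
      ((hi.add hi').const_mul _) measurableSet_ball fun x _ => hb2 x).trans ?_
    simp only [Pi.add_apply]
    rw [integral_const_mul, integral_add hi hi', add_mul]
    exact mul_le_mul_of_nonneg_left (add_le_add hI hI') (by positivity)
  have hI3 : ‖u‖ ^ 2 * ∫ x in Metric.ball z t, ‖perp W' (x - p')‖ ^ 2 ∂ν ≤
      ‖u‖ ^ 2 * (κ / 2 * t ^ (n + 2)) :=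
    mul_le_mul_of_nonneg_left (hI'.trans (mul_le_mul_of_nonneg_right hgood (by positivity)))
      (sq_nonneg _)
  have h4 : κ / 2 * ‖u‖ ^ 2 ≤ 2 * ‖v‖ ^ 2 * (a ^ 2 + a' ^ 2) := by
    refine le_of_mul_le_mul_right ?_ (pow_pos ht (n + 2))
    linarith
  have hun : ‖u‖ ≤ Λ * (a + a') * ‖v‖ := by
    refine (sq_le_sq₀ (norm_nonneg _) (by positivity)).1 ?_
    rw [mul_pow, mul_pow, hΛ2, div_mul_eq_mul_div, div_mul_eq_mul_div, le_div_iff₀ hκ]
    nlinarith [mul_nonneg (mul_nonneg ha ha') (sq_nonneg ‖v‖)]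
  have h5 : ‖v‖ ^ 2 = ⟪u, w⟫ := by
    rw [hu, W'.inner_starProjection_left_eq_right, Submodule.starProjection_eq_self_iff.2 hw,
      perp_eq W v, Wᗮ.inner_starProjection_left_eq_right, ← perp_eq, ← hv,
      real_inner_self_eq_norm_sq]
  by_cases hv0 : ‖v‖ = 0
  · rw [hv0]; positivity
  refine le_of_mul_le_mul_left ?_ (lt_of_le_of_ne (norm_nonneg v) (Ne.symm hv0))
  calc ‖v‖ * ‖v‖ = ⟪u, w⟫ := by rw [← h5]; ring
    _ ≤ ‖u‖ * ‖w‖ := real_inner_le_norm _ _
    _ ≤ Λ * (a + a') * ‖v‖ * ‖w‖ := mul_le_mul_of_nonneg_right hun (norm_nonneg _)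
    _ = _ := by ring

/-- Two planes near the measure in one ball are near each other. -/
theorem planeCompare (hn : 1 ≤ n) : PlaneCompare E n := by
  intro C A hC hA
  obtain ⟨κ, hκ, hmom⟩ := exists_moment (E := E) hn hC
  have hC0 : 0 < C := lt_of_lt_of_le one_pos hC
  set Λ := Real.sqrt (4 / κ) with hΛ
  set Q := Real.sqrt C with hQ
  refine ⟨1 + 2 * Q + 2 * Λ + Λ * (1 + 2 * Q), by positivity, ?_⟩
  intro ν x₀ R hN z t a a' p p' W W' hz hzx ht htR ha ha' hW hW' hI hI' y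
  obtain ⟨-, -, hR, -, hgr, hlo, -⟩ := id hN
  have := hN.finite
  have hlow : C⁻¹ * t ^ n ≤ ν.real (Metric.ball z t) :=
    hlo z hz (by linarith) t ht (by linarith)
  have hpos : 0 < ν.real (Metric.ball z t) := lt_of_lt_of_le (by positivity) hlow
  set g := fun y => perp W (y - p) with hg
  set g' := fun y => perp W' (y - p') with hg'
  have hi : IntegrableOn (fun y => ‖g y‖ ^ 2) (Metric.ball z t) ν :=
    integrableOn_ball_of_continuous ((continuous_perp W p).norm.pow 2) z t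
  have hi' : IntegrableOn (fun y => ‖g' y‖ ^ 2) (Metric.ball z t) ν :=
    integrableOn_ball_of_continuous ((continuous_perp W' p').norm.pow 2) z t
  -- a point near both planes
  obtain ⟨y₀, hy₀, hsmall⟩ : ∃ y₀ ∈ Metric.ball z t,
      ‖g y₀‖ ^ 2 + ‖g' y₀‖ ^ 2 ≤ C * (a ^ 2 + a' ^ 2) * t ^ 2 := by
    by_contra hcon
    simp only [not_exists, not_and, not_le] at hcon
    have h1 : ∫ _ in Metric.ball z t, C * (a ^ 2 + a' ^ 2) * t ^ 2 ∂ν <
        ∫ y in Metric.ball z t, (‖g y‖ ^ 2 + ‖g' y‖ ^ 2) ∂ν := by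
      have hii : IntegrableOn (fun y => ‖g y‖ ^ 2 + ‖g' y‖ ^ 2) (Metric.ball z t) ν := hi.add hi'
      rw [← sub_pos, ← integral_sub hii (integrable_const _).integrableOn,
        setIntegral_pos_iff_support_of_nonneg_ae]
      · refine lt_of_lt_of_le ?_ (measure_mono (μ := ν) (s := Metric.ball z t) fun w hw =>
          ⟨(sub_pos.2 (hcon w hw)).ne', hw⟩)
        exact pos_iff_ne_zero.2 fun h0 => hpos.ne' (by rw [measureReal_def, h0, ENNReal.toReal_zero])
      · filter_upwards [ae_restrict_mem measurableSet_ball] with w hw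
        exact (sub_pos.2 (hcon w hw)).le
      · exact (hi.add hi').sub (integrable_const _).integrableOn
    rw [setIntegral_const, smul_eq_mul, integral_add hi hi'] at h1
    have h2 : C⁻¹ * t ^ n * (C * (a ^ 2 + a' ^ 2) * t ^ 2) ≤
        ν.real (Metric.ball z t) * (C * (a ^ 2 + a' ^ 2) * t ^ 2) :=
      mul_le_mul_of_nonneg_right hlow (by positivity)
    have h3 : C⁻¹ * t ^ n * (C * (a ^ 2 + a' ^ 2) * t ^ 2) = (a ^ 2 + a' ^ 2) * t ^ (n + 2) := by
      rw [pow_add]; field_simp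
    have hI1 : ∫ y in Metric.ball z t, ‖g y‖ ^ 2 ∂ν ≤ a ^ 2 * t ^ (n + 2) := hI
    have hI2 : ∫ y in Metric.ball z t, ‖g' y‖ ^ 2 ∂ν ≤ a' ^ 2 * t ^ (n + 2) := hI'
    nlinarith
  have hQ2 : Q ^ 2 = C := Real.sq_sqrt hC0.le
  have hsm : ∀ x : ℝ, 0 ≤ x → x ^ 2 ≤ C * (a ^ 2 + a' ^ 2) * t ^ 2 → x ≤ Q * (a + a') * t := by
    intro x hx hx2
    refine (sq_le_sq₀ hx (by positivity)).1 (hx2.trans ?_)
    rw [mul_pow, mul_pow, hQ2]
    refine mul_le_mul_of_nonneg_right (mul_le_mul_of_nonneg_left ?_ hC0.le) (sq_nonneg t)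
    nlinarith [mul_nonneg ha ha']
  have hgy₀ := hsm _ (norm_nonneg _) ((le_add_of_nonneg_right (sq_nonneg _)).trans hsmall)
  have hgy₀' := hsm _ (norm_nonneg _) ((le_add_of_nonneg_left (sq_nonneg _)).trans hsmall)
  have hd : ‖y - y₀‖ ≤ t + dist y z := by
    rw [← dist_eq_norm]
    have := dist_triangle y z y₀
    rw [dist_comm z y₀] at this
    linarith [Metric.mem_ball.1 hy₀]
  have hstep : ‖g y‖ ≤ Q * (a + a') * t + ‖perp W (y - y₀)‖ := by
    have : g y = g y₀ + perp W (y - y₀) := by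
      simp only [hg, ← perp_add]; congr 1; abel
    rw [this]; exact (norm_add_le _ _).trans (by linarith)
  change ‖g y‖ ≤ _ * (‖g' y‖ + _)
  set T := t + dist y z with hT
  have hT0 : 0 ≤ T := by positivity
  have hT1 : t ≤ T := le_add_of_nonneg_right dist_nonneg
  have hQ0 : 0 ≤ Q := Real.sqrt_nonneg _
  have hΛ0 : 0 ≤ Λ := Real.sqrt_nonneg _
  have hΛ2 : Λ ^ 2 = 4 / κ := Real.sq_sqrt (by positivity)
  have m1 : Q * (a + a') * t ≤ Q * (a + a') * T :=
    mul_le_mul_of_nonneg_left hT1 (by positivity)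
  rcases lt_or_ge (κ / 2) (a' ^ 2) with hbig | hgood
  · -- the second plane is not close: the bound is trivial
    have h1 : 1 ≤ Λ * a' := by
      refine (one_le_sq_iff₀ (by positivity)).1 ?_
      rw [mul_pow, hΛ2, div_mul_eq_mul_div, one_le_div hκ]
      linarith
    have m2 : T ≤ Λ * (a + a') * T := le_mul_of_one_le_left hT0
      (h1.trans (mul_le_mul_of_nonneg_left (le_add_of_nonneg_left ha) hΛ0))
    have h2 : ‖perp W (y - y₀)‖ ≤ T := (norm_perp_le _ _).trans hd
    have n1 : 0 ≤ (a + a') * T := by positivity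
    have n2 := norm_nonneg (g' y)
    linarith [mul_nonneg hQ0 n1, mul_nonneg hΛ0 n1, mul_nonneg hQ0 n2, mul_nonneg hΛ0 n2,
      mul_nonneg (mul_nonneg hΛ0 hQ0) n1, mul_nonneg (mul_nonneg hΛ0 hQ0) n2]
  · -- the angle between the planes
    have hang : ∀ w ∈ W', ‖perp W w‖ ≤ Λ * (a + a') * ‖w‖ :=
      angle_le hκ ha ha' ht hΛ0 hΛ2 hgood z p p' W W'
        (hmom ν inferInstance hgr z p' t ht hlow W' hW') hI hI'
    have h6 : ‖perp W (y - y₀)‖ ≤ Λ * (a + a') * T + (‖g' y‖ + Q * (a + a') * t) := by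
      have e1 : perp W (y - y₀) =
          perp W (W'.starProjection (y - y₀)) + perp W (g' y - g' y₀) := by
        rw [← perp_add]; congr 1
        simp only [hg', perp, map_sub]; abel
      rw [e1]
      refine (norm_add_le _ _).trans (add_le_add ?_ ?_)
      · refine (hang _ (W'.starProjection_apply_mem _)).trans ?_
        exact mul_le_mul_of_nonneg_left ((W'.norm_starProjection_apply_le _).trans hd)
          (by positivity)
      · exact (norm_perp_le _ _).trans ((norm_sub_le _ _).trans (by linarith))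
    have n1 : 0 ≤ (a + a') * T := by positivity
    have n2 := norm_nonneg (g' y)
    linarith [mul_nonneg hQ0 n1, mul_nonneg hΛ0 n1, mul_nonneg hQ0 n2, mul_nonneg hΛ0 n2,
      mul_nonneg (mul_nonneg hΛ0 hQ0) n1, mul_nonneg (mul_nonneg hΛ0 hQ0) n2]

end

end Vale.Agent.P120.Full
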