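import Vale.Agent.P120.Full.Packing
import Vale.Agent.P120.Generations

/-!
# P120, full answer: a large window gives a large coefficient

The difference of two normalised bumps, times a unit vector, is a test field up to a constant,
and its pairing is the window up to a constant (antisymmetry handles the near part).
-/

namespace Vale.Agent.P120.Full

open MeasureTheory Set Filter
open scoped Topology RealInnerProductSpace

noncomputable section

variable {E : Type*} [NormedAddCommGroup E] [InnerProductSpace ℝ E] [MeasurableSpace E]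
  [BorelSpace E] [FiniteDimensional ℝ E] {n : ℕ} {C A R : ℝ} {ν : Measure E} {x₀ : E}

/-- The integrand of the pairing of the field `g • v`. -/
def sker (n : ℕ) (g : E → ℝ) (v : E) (p : E × E) : ℝ :=
  (g p.1 - g p.2) * ⟪v, kernel n (p.1 - p.2)⟫

omit [MeasurableSpace E] [BorelSpace E] [FiniteDimensional ℝ E] in
lemma sker_eq (n : ℕ) (g : E → ℝ) (v : E) (p : E × E) :
    ⟪g p.1 • v - g p.2 • v, kernel n (p.1 - p.2)⟫ = sker n g v p := by
  rw [← sub_smul, real_inner_smul_left]; rfl

omit [MeasurableSpace E] [BorelSpace E] [FiniteDimensional ℝ E] in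
lemma sker_swap (n : ℕ) (g : E → ℝ) (v : E) (p : E × E) :
    sker n g v p.swap = sker n g v p := by
  simp only [sker, Prod.fst_swap, Prod.snd_swap, kernel, ← neg_sub p.1 p.2, norm_neg, smul_neg,
    inner_neg_right]
  ring

/-- The potential of order `n - 1` of a ball. -/
lemma Nice.pot_le (hn : 1 ≤ n) (h : Nice n C A ν x₀ R) (x : E) {r : ℝ} (hr : 0 < r) :
    IntegrableOn (fun y => (dist x y ^ (n - 1))⁻¹) (Metric.ball x r) ν ∧
      ∫ y in Metric.ball x r, (dist x y ^ (n - 1))⁻¹ ∂ν ≤ 2 ^ n * C * r := by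
  have := h.finite
  obtain ⟨hC, -, hR, -, hgr, -, -⟩ := id h
  have hC0 : 0 ≤ C := zero_le_one.trans hC
  set f := fun y : E => (dist x y ^ (n - 1))⁻¹ with hf
  have hm : Measurable f := by fun_prop
  have hint : Integrable f ν := by
    refine ⟨hm.aestronglyMeasurable, ?_⟩
    rw [hasFiniteIntegral_iff_ofReal (Eventually.of_forall fun y => by positivity)]
    exact (h.integral_inv_pow_le hn x).trans_lt ENNReal.ofReal_lt_top
  refine ⟨hint.integrableOn, ?_⟩
  set S : ℕ → Set E := fun j => annulus x (1 / (j + 1 : ℝ)) r with hS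
  have hmono : Monotone S := fun i j hij y hy =>
    ⟨le_trans (one_div_le_one_div_of_le (by positivity)
      (by exact_mod_cast Nat.add_le_add_right hij 1)) hy.1, hy.2⟩
  have hx : ν {x} = 0 := by
    have hle : ∀ t : ℝ, 0 < t → ν.real {x} ≤ C * t ^ n := fun t ht =>
      (measureReal_mono (Set.singleton_subset_iff.2 (Metric.mem_ball_self ht))
        (measure_ne_top _ _)).trans (hgr x t ht)
    have hlim : Tendsto (fun t : ℝ => C * t ^ n) (𝓝[>] 0) (𝓝 0) := by
      have hc : Continuous fun t : ℝ => C * t ^ n := by fun_prop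
      simpa [zero_pow (by omega : n ≠ 0)] using (hc.tendsto 0).mono_left nhdsWithin_le_nhds
    have h0 : ν.real {x} ≤ 0 := ge_of_tendsto hlim (eventually_nhdsWithin_of_forall hle)
    exact (measureReal_eq_zero_iff).1 (le_antisymm h0 measureReal_nonneg)
  have hU : (⋃ j, S j) = Metric.ball x r \ {x} := by
    ext y
    simp only [hS, annulus, mem_iUnion, mem_setOf_eq, Metric.mem_ball, Set.mem_sdiff,
      mem_singleton_iff, dist_comm y x]
    constructor
    · rintro ⟨j, h1, h2⟩
      refine ⟨h2, fun he => ?_⟩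
      rw [he, dist_self] at h1
      exact absurd h1 (not_le.2 (by positivity))
    · rintro ⟨h2, hne⟩
      obtain ⟨j, hj⟩ := exists_nat_one_div_lt (dist_pos.2 (Ne.symm hne))
      exact ⟨j, hj.le, h2⟩
  have hlim := tendsto_setIntegral_of_monotone (fun j => measurableSet_annulus x _ r) hmono
    (μ := ν) (f := f) (hint.integrableOn)
  rw [hU, setIntegral_congr_set (sdiff_null_ae_eq_self hx)] at hlim
  exact le_of_tendsto hlim (Eventually.of_forall fun j =>
    inner_integral_le hn hgr hC0 x (by positivity) hr)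

/-- The far part of the window sum. -/
def tail (n : ℕ) (ν : Measure E) (z : E) (t : ℝ) : E :=
  ∫ y in {y | 4 * t ≤ dist z y}, kernel n (z - y) ∂ν

lemma lipschitz_bump (z : E) {t : ℝ} (ht : 0 < t) :
    LipschitzWith (NNReal.mk t⁻¹ (by positivity)) (bump z t) :=
  LipschitzWith.of_dist_le_mul fun u v => by
    rw [Real.dist_eq]
    exact (abs_bump_sub_le ht u v).trans (le_of_eq (by rw [NNReal.coe_mk, inv_mul_eq_div]))

lemma Nice.integrable_sker (hn : 1 ≤ n) (h : Nice n C A ν x₀ R) {g : E → ℝ} {L : NNReal}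
    (hg : LipschitzWith L g) (v : E) : Integrable (sker n g v) (ν.prod ν) := by
  have hl : LipschitzWith (L * NNReal.mk ‖v‖ (norm_nonneg v)) fun y => g y • v :=
    LipschitzWith.of_dist_le_mul fun x y => by
      rw [dist_eq_norm, ← sub_smul, norm_smul, Real.norm_eq_abs, ← Real.dist_eq, NNReal.coe_mul,
        NNReal.coe_mk, mul_right_comm]
      exact mul_le_mul_of_nonneg_right (hg.dist_le_mul x y) (norm_nonneg v)
  exact (h.integrable_pair hn hl).congr (Eventually.of_forall fun p => sker_eq n g v p)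

omit [FiniteDimensional ℝ E] in
lemma pair_smul_vec (n : ℕ) (ν : Measure E) (g : E → ℝ) (v : E) :
    pair n ν (fun y => g y • v) = 1 / 2 * ∫ p, sker n g v p ∂(ν.prod ν) := by
  simp only [pair, sker_eq]

/-- The pairing of a bump is the far part of the transform, up to a constant. -/
lemma Nice.pair_bump (hn : 1 ≤ n) (h : Nice n C A ν x₀ R) (z : E) {t : ℝ} (ht : 0 < t)
    (hlow : C⁻¹ * t ^ n ≤ ν.real (Metric.ball z t)) {v : E} (hv : ‖v‖ ≤ 1) :
    |pair n ν (fun y => bump z t y • v) - (∫ y, bump z t y ∂ν) * ⟪v, tail n ν z t⟫| ≤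
      (∫ y, bump z t y ∂ν) * (4 * 8 ^ n * C ^ 3 + kerConst n * 2 ^ n * C) := by
  have := h.finite
  obtain ⟨hC, -, hR, -, hgr, -, -⟩ := id h
  have hC0 : 0 < C := lt_of_lt_of_le one_pos hC
  set m := ∫ y, bump z t y ∂ν
  have hm : C⁻¹ * t ^ n ≤ m := hlow.trans (le_integral_bump z ht)
  set N := Metric.ball z (4 * t)
  set G := sker n (bump z t) v with hG
  have hGi : Integrable G (ν.prod ν) := h.integrable_sker hn (lipschitz_bump z ht) v
  have hNm : MeasurableSet N := measurableSet_ball
  have hφ : ∀ y, bump z t y ≠ 0 → dist y z < 2 * t := fun y hy =>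
    lt_of_not_ge fun h => hy (bump_eq_zero ht h)
  have hout : ∀ y ∉ N, bump z t y = 0 := fun y hy => bump_eq_zero ht (by
    simp only [N, Metric.mem_ball, not_lt] at hy; linarith)
  have hsplit : ∫ p, G p ∂(ν.prod ν) =
      (∫ p in N ×ˢ N, G p ∂(ν.prod ν)) + 2 * ∫ p in N ×ˢ Nᶜ, G p ∂(ν.prod ν) := by
    have hcov : ∀ p, G p = (N ×ˢ N).indicator G p + (N ×ˢ Nᶜ).indicator G p +
        (N ×ˢ Nᶜ).indicator G p.swap := by
      intro p
      have h0 : p.1 ∉ N → p.2 ∉ N → G p = 0 := fun h1 h2 => by
        rw [hG, sker, hout _ h1, hout _ h2, sub_self, zero_mul]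
      have hs : G p.swap = G p := sker_swap n _ v p
      by_cases h1 : p.1 ∈ N <;> by_cases h2 : p.2 ∈ N <;>
        simp [indicator_apply, h1, h2, hs, h0]
    have i1 := hGi.indicator (hNm.prod hNm)
    have i2 := hGi.indicator (hNm.prod hNm.compl)
    have i3 : Integrable (fun p => (N ×ˢ Nᶜ).indicator G p.swap) (ν.prod ν) := i2.swap
    rw [integral_congr_ae (Eventually.of_forall hcov), integral_add (by exact i1.add i2) i3,
      integral_add i1 i2, integral_prod_swap, integral_indicator (hNm.prod hNm),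
      integral_indicator (hNm.prod hNm.compl)]
    ring
  have hnear : |∫ p in N ×ˢ N, G p ∂(ν.prod ν)| ≤ m * (8 * 8 ^ n * C ^ 3) := by
    rw [setIntegral_prod _ hGi.integrableOn, ← Real.norm_eq_abs]
    refine (norm_setIntegral_le_of_norm_le_const (C := 8 * 2 ^ n * C) (measure_lt_top _ _)
      fun x hx => ?_).trans ?_
    · have hsub : N ⊆ Metric.ball x (8 * t) := fun y hy => by
        simp only [N, Metric.mem_ball] at hx hy ⊢
        linarith [dist_triangle_right y x z]
      obtain ⟨hi, hle⟩ := h.pot_le hn x (r := 8 * t) (by positivity)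
      calc ‖∫ y in N, G (x, y) ∂ν‖ ≤ ∫ y in N, t⁻¹ * (dist x y ^ (n - 1))⁻¹ ∂ν := by
            refine norm_integral_le_of_norm_le ((hi.mono_set hsub).const_mul _)
              (Eventually.of_forall fun y => ?_)
            rw [Real.norm_eq_abs, hG, sker, abs_mul]
            simp only
            have a1 := abs_bump_sub_le (z := z) ht x y
            have a2 : |⟪v, kernel n (x - y)⟫| ≤ (dist x y ^ n)⁻¹ := by
              refine (abs_real_inner_le_norm _ _).trans ?_
              have := norm_kernel_le n (x - y)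
              rw [← dist_eq_norm] at this
              exact (mul_le_of_le_one_left (norm_nonneg _) hv).trans this
            refine (mul_le_mul a1 a2 (abs_nonneg _) (by positivity)).trans (?_ : dist x y / t * (dist x y ^ n)⁻¹ ≤ _)
            obtain ⟨j, rfl⟩ : ∃ j, n = j + 1 := ⟨n - 1, by omega⟩
            rcases eq_or_ne (dist x y) 0 with h0 | h0
            · rw [h0, zero_div, zero_mul]
              positivity
            · refine le_of_eq ?_
              rw [Nat.add_sub_cancel, pow_succ]; field_simp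
        _ ≤ t⁻¹ * ∫ y in Metric.ball x (8 * t), (dist x y ^ (n - 1))⁻¹ ∂ν := by
            rw [integral_const_mul]
            exact mul_le_mul_of_nonneg_left (setIntegral_mono_set hi
              (Eventually.of_forall fun y => by positivity) (Eventually.of_forall hsub))
              (by positivity)
        _ ≤ t⁻¹ * (2 ^ n * C * (8 * t)) := mul_le_mul_of_nonneg_left hle (by positivity)
        _ = _ := by field_simp
    · calc 8 * 2 ^ n * C * ν.real N ≤ 8 * 2 ^ n * C * (C * (4 * t) ^ n) :=
            mul_le_mul_of_nonneg_left (hgr z _ (by positivity)) (by positivity)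
        _ = C⁻¹ * t ^ n * (8 * (2 ^ n * 4 ^ n) * C ^ 3) := by rw [mul_pow]; field_simp
        _ = C⁻¹ * t ^ n * (8 * 8 ^ n * C ^ 3) := by rw [← mul_pow]; norm_num
        _ ≤ _ := mul_le_mul_of_nonneg_right hm (by positivity)
  have hFc : Nᶜ = {y | 4 * t ≤ dist z y} := by
    ext y; simp [N, dist_comm]
  have hFm : MeasurableSet Nᶜ := hNm.compl
  have hfar : |(∫ p in N ×ˢ Nᶜ, G p ∂(ν.prod ν)) - m * ⟪v, tail n ν z t⟫| ≤
      m * (kerConst n * 2 ^ n * C) := by
    have hF : ∀ y ∈ Nᶜ, 4 * t ≤ dist z y := fun y hy => by rw [hFc] at hy; exact hy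
    have hN' : ∀ x, bump z t x ≠ 0 → x ∈ N := fun x hx => by_contra fun h => hx (hout x h)
    have hinner : ∀ x ∈ N,
        ∫ y in Nᶜ, G (x, y) ∂ν = bump z t x * ∫ y in Nᶜ, ⟪v, kernel n (x - y)⟫ ∂ν := by
      intro x _
      rw [← integral_const_mul]
      refine setIntegral_congr_fun hFm fun y hy => ?_
      rw [hG, sker, hout y hy, sub_zero]
    set P := fun x => bump z t x * ∫ y in Nᶜ, ⟪v, kernel n (x - y)⟫ ∂ν with hP
    have hpt : ∀ x, |P x - bump z t x * ⟪v, tail n ν z t⟫| ≤
        bump z t x * (kerConst n * 2 ^ n * C) := by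
      intro x
      rw [hP, ← mul_sub, abs_mul, abs_of_nonneg (bump_mem_Icc z t x).1]
      by_cases hx : bump z t x = 0
      · simp [hx]
      refine mul_le_mul_of_nonneg_left ?_ (bump_mem_Icc z t x).1
      have hd := (hφ x hx).le
      have i1 := integrableOn_kernel (n := n) (ν := ν) x (t := 2 * t) (by positivity) hFm
        fun y hy => by
          have := dist_triangle z x y
          rw [dist_comm z x] at this
          linarith [hF y hy]
      have i2 := integrableOn_kernel (n := n) (ν := ν) z (t := 4 * t) (by positivity) hFm hF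
      rw [integral_inner i1 v, tail, ← hFc, ← inner_sub_right, ← integral_sub i1 i2]
      refine (abs_real_inner_le_norm _ _).trans
        ((mul_le_of_le_one_left (norm_nonneg _) hv).trans ?_)
      calc ‖∫ y in Nᶜ, (kernel n (x - y) - kernel n (z - y)) ∂ν‖
          ≤ ∫ y in Nᶜ, kerConst n * (2 * t) * (dist z y ^ (n + 1))⁻¹ ∂ν := by
            refine norm_integral_le_of_norm_le ((integrableOn_inv_pow z (t := 4 * t)
              (by positivity) _ hFm hF).const_mul _) ?_
            refine (ae_restrict_iff' hFm).2 (Eventually.of_forall fun y hy => ?_)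
            have := hF y hy
            have hzy : ‖z - y‖ = dist z y := (dist_eq_norm z y).symm
            have hxz : ‖(x - y) - (z - y)‖ = dist x z := by
              rw [sub_sub_sub_cancel_right, dist_eq_norm]
            refine (norm_kernel_sub_le n (fun h0 => ?_) ?_).trans ?_
            · rw [h0, norm_zero] at hzy; linarith
            · rw [hxz, hzy]; linarith
            · rw [hxz, hzy, div_eq_mul_inv]
              refine mul_le_mul_of_nonneg_right (mul_le_mul_of_nonneg_left hd ?_) (by positivity)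
              unfold kerConst; positivity
        _ ≤ kerConst n * (2 * t) * (2 ^ (n + 1) * C / (4 * t)) := by
            rw [integral_const_mul]
            refine mul_le_mul_of_nonneg_left ?_ (by unfold kerConst; positivity)
            rw [hFc]; exact outer_integral_le hgr hC0.le z (by positivity)
        _ = _ := by field_simp; ring
    have hPi : IntegrableOn P N ν := by
      have h1 : IntegrableOn G (N ×ˢ Nᶜ) (ν.prod ν) := hGi.integrableOn
      rw [IntegrableOn, ← Measure.prod_restrict] at h1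
      exact h1.integral_prod_left.congr
        ((ae_restrict_iff' hNm).2 (Eventually.of_forall hinner))
    have hb := integrable_bump (ν := ν) z t
    have hPu : Integrable P ν := hPi.integrable_of_forall_notMem_eq_zero fun x hx => by
      rw [hP]; simp only [hout x hx, zero_mul]
    rw [setIntegral_prod _ hGi.integrableOn, setIntegral_congr_fun hNm hinner,
      setIntegral_eq_integral_of_forall_compl_eq_zero fun x hx => by rw [hout x hx, zero_mul],
      ← integral_mul_const, ← integral_sub hPu (hb.mul_const _), ← integral_mul_const,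
      ← Real.norm_eq_abs]
    exact norm_integral_le_of_norm_le (hb.mul_const _) (Eventually.of_forall hpt)
  rw [pair_smul_vec, ← hG, hsplit]
  have e : ∀ a b c : ℝ, 1 / 2 * (a + 2 * b) - c = 1 / 2 * a + (b - c) := fun a b c => by ring
  rw [e]
  refine (abs_add_le _ _).trans ?_
  rw [abs_mul, abs_of_pos (by norm_num : (0 : ℝ) < 1 / 2)]
  linarith

/-- The energy of a bounded Lipschitz function supported in a ball. -/
lemma Nice.lip_energy_le (hn : 1 ≤ n) (h : Nice n C A ν x₀ R) {g : E → ℝ} {z : E} {l L B : ℝ}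
    (hl : 0 < l) (hL : ∀ x y, |g x - g y| ≤ L * dist x y) (hB : ∀ x, |g x| ≤ B)
    (hgm : Measurable g) (hzero : ∀ y ∉ Metric.ball z l, g y = 0) :
    Integrable (fun p : E × E => (g p.1 - g p.2) ^ 2 / dist p.1 p.2 ^ (n + 1)) (ν.prod ν) ∧
      ∫ p, (g p.1 - g p.2) ^ 2 / dist p.1 p.2 ^ (n + 1) ∂(ν.prod ν) ≤
        2 * (C * l ^ n) * (L ^ 2 * (2 ^ n * C * (2 * l)) +
          B ^ 2 * (2 ^ (n + 1) * C / (2 * l))) := by
  have := h.finite
  obtain ⟨hC, -, hR, -, hgr, -, -⟩ := id h
  have hC0 : 0 ≤ C := zero_le_one.trans hC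
  set F := fun p : E × E => (g p.1 - g p.2) ^ 2 / dist p.1 p.2 ^ (n + 1) with hF
  have hlip : ∀ p : E × E, F p ≤ L ^ 2 * (dist p.1 p.2 ^ (n - 1))⁻¹ := by
    intro p
    rcases eq_or_ne (dist p.1 p.2) 0 with h0 | h0
    · simp only [hF, h0, zero_pow (by omega : n + 1 ≠ 0), div_zero]; positivity
    · refine (div_le_div_of_nonneg_right ((sq_abs _).symm.le.trans
        (pow_le_pow_left₀ (abs_nonneg _) (hL p.1 p.2) 2)) (by positivity)).trans (le_of_eq ?_)
      obtain ⟨j, rfl⟩ : ∃ j, n = j + 1 := ⟨n - 1, by omega⟩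
      rw [Nat.add_sub_cancel]
      field_simp
      ring
  have hFnn : ∀ p, ‖F p‖ = F p := fun p => Real.norm_of_nonneg (by simp only [hF]; positivity)
  have hFm : Measurable F :=
    Measurable.div (((hgm.comp measurable_fst).sub (hgm.comp measurable_snd)).pow_const 2)
      (by fun_prop)
  have hFint : Integrable F (ν.prod ν) :=
    ((h.integrable_inv_pow_prod hn).const_mul (L ^ 2)).mono' hFm.aestronglyMeasurable
      (Eventually.of_forall fun p => (hFnn p).le.trans (hlip p))
  refine ⟨hFint, ?_⟩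
  set S := Metric.ball z l
  have hin : ∀ x ∈ S, ∫ y, F (x, y) ∂ν ≤
      L ^ 2 * (2 ^ n * C * (2 * l)) + B ^ 2 * (2 ^ (n + 1) * C / (2 * l)) := by
    intro x hx
    obtain ⟨hi, hle⟩ := h.pot_le hn x (r := 2 * l) (by positivity)
    set T := {y | 2 * l ≤ dist x y}
    have hTm : MeasurableSet T := measurableSet_le measurable_const (by fun_prop)
    have hTc : Tᶜ = Metric.ball x (2 * l) := by ext y; simp [T, dist_comm]
    have iT := integrableOn_inv_pow (ν := ν) x (t := 2 * l) (by positivity) (n + 1) hTm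
      fun y hy => hy
    have b2 : ∀ y ∈ T, F (x, y) ≤ B ^ 2 * (dist x y ^ (n + 1))⁻¹ := by
      intro y hy
      have : y ∉ S := fun hyS => by
        simp only [S, T, Metric.mem_ball, mem_setOf_eq] at hx hyS hy
        linarith [dist_triangle_right x y z]
      simp only [hF, hzero y this, sub_zero, div_eq_mul_inv]
      refine mul_le_mul_of_nonneg_right ?_ (by positivity)
      rw [← sq_abs]
      exact pow_le_pow_left₀ (abs_nonneg _) (hB x) 2
    have hFx : AEStronglyMeasurable (fun y => F (x, y)) ν :=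
      (hFm.comp measurable_prodMk_left).aestronglyMeasurable
    have j1 : IntegrableOn (fun y => F (x, y)) (Metric.ball x (2 * l)) ν :=
      (hi.const_mul (L ^ 2)).mono' hFx.restrict
        (Eventually.of_forall fun y => (hFnn _).le.trans (hlip _))
    have j2 : IntegrableOn (fun y => F (x, y)) T ν :=
      (iT.const_mul (B ^ 2)).mono' hFx.restrict ((ae_restrict_iff' hTm).2
        (Eventually.of_forall fun y hy => (hFnn _).le.trans (b2 y hy)))
    have hint : Integrable (fun y => F (x, y)) ν := by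
      rw [← integrableOn_univ, ← union_compl_self T, hTc]
      exact j2.union j1
    rw [← integral_add_compl hTm hint, hTc, add_comm]
    exact add_le_add
      (((setIntegral_mono_on j1 (hi.const_mul _) measurableSet_ball fun y _ => hlip (x, y)).trans
        (le_of_eq (integral_const_mul _ _))).trans (mul_le_mul_of_nonneg_left hle (sq_nonneg L)))
      (((setIntegral_mono_on j2 (iT.const_mul _) hTm b2).trans
        (le_of_eq (integral_const_mul _ _))).trans
        (mul_le_mul_of_nonneg_left (outer_integral_le hgr hC0 x (by positivity)) (sq_nonneg B)))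
  have hSm : MeasurableSet (S ×ˢ (univ : Set E)) := measurableSet_ball.prod MeasurableSet.univ
  have hcov : ∀ p, F p ≤ (S ×ˢ (univ : Set E)).indicator F p +
      (S ×ˢ (univ : Set E)).indicator F p.swap := by
    intro p
    have hs : F p.swap = F p := by
      simp only [hF, Prod.fst_swap, Prod.snd_swap, dist_comm p.2 p.1, sub_sq_comm]
    have hnn : 0 ≤ F p := by simp only [hF]; positivity
    by_cases h1 : p.1 ∈ S <;> by_cases h2 : p.2 ∈ S
    · simp [indicator_apply, h1, h2, hs, hnn]
    · simp [indicator_apply, h1, h2]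
    · simp [indicator_apply, h1, h2, hs]
    · simp [indicator_apply, h1, h2, hF, hzero _ h1, hzero _ h2]
  have i1 := hFint.indicator hSm
  have i2 : Integrable (fun p => (S ×ˢ (univ : Set E)).indicator F p.swap) (ν.prod ν) := i1.swap
  refine (integral_mono hFint (i1.add i2) hcov).trans ?_
  simp only [Pi.add_apply]
  rw [integral_add i1 i2, integral_prod_swap, integral_indicator hSm,
    setIntegral_prod _ hFint.integrableOn, ← two_mul, mul_assoc]
  simp only [setIntegral_univ]
  have hb1 := setIntegral_mono_on hFint.integral_prod_left.integrableOn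
    (integrable_const (L ^ 2 * (2 ^ n * C * (2 * l)) +
      B ^ 2 * (2 ^ (n + 1) * C / (2 * l)))).integrableOn measurableSet_ball hin
  rw [setIntegral_const, smul_eq_mul] at hb1
  exact mul_le_mul_of_nonneg_left (hb1.trans (mul_le_mul_of_nonneg_right (hgr z l hl)
    (by positivity))) two_pos.le

/-- A bump difference times a unit vector is a test field, up to a constant. -/
lemma exists_test (hn : 1 ≤ n) {C θ : ℝ} (hC : 1 ≤ C) (hθ : 0 < θ) :
    ∃ c₀ : ℝ, 0 < c₀ ∧ ∀ (ν : Measure E) (x₀ : E) (R A : ℝ), Nice n C A ν x₀ R →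
      ∀ (z z' : E) (l a b : ℝ) (v : E), 0 < l → z' ∈ ν.support → dist z' x₀ ≤ R / 2 →
        dist z' z ≤ l → l ≤ R / 4 → θ * l ≤ a → a < b → b ≤ l / 4 → ‖v‖ ≤ 1 →
        Mol n ν z l (fun y => (c₀ * l ^ n * psi ν z' a b y) • v) := by
  have hC0 : 0 < C := lt_of_lt_of_le one_pos hC
  set K1 := C / (θ / 4) ^ n with hK1
  set K2 := 8 / θ * K1 with hK2
  set K3 := 2 * C * (K2 ^ 2 * (2 ^ n * C * 2) + K1 ^ 2 * (2 ^ (n + 1) * C / 2)) with hK3
  have hK10 : 0 < K1 := by positivity
  have hK30 : 0 < K3 := by positivity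
  set M := 2 * K1 + K3 + 1 with hM
  refine ⟨(Real.sqrt M)⁻¹, by positivity, ?_⟩
  intro ν x₀ R A h z z' l a b v hl hz' hz'x hz'z hlR ha hab hb hv
  have := h.finite
  obtain ⟨-, -, -, -, hgr, hlo, -⟩ := id h
  obtain ⟨hbd, hLip, hsup, hcont, hmean, habs⟩ := psi_props (n := n) (ν := ν) (z := z') hθ hl ha
    hab hb (inv_pos.2 hC0) fun t ht htl => hlo z' hz' hz'x t ht (htl.trans hlR)
  set ψ := psi ν z' a b with hψ
  have eB : (C⁻¹ * (θ * l / 4) ^ n)⁻¹ = K1 * (l ^ n)⁻¹ := by
    rw [hK1, show θ * l / 4 = θ / 4 * l by ring, mul_pow, mul_inv, mul_inv, inv_inv]; ring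
  rw [eB] at hbd hLip
  set B := K1 * (l ^ n)⁻¹ with hB
  set L := 8 / (θ * l) * B with hL
  have hL0 : 0 ≤ L := by positivity
  have hL' : L = K2 * (l ^ n)⁻¹ * l⁻¹ := by rw [hL, hB, hK2]; field_simp
  set S := Metric.ball z' l
  have hzero : ∀ y ∉ S, ψ y = 0 := fun y hy => hsup y (by
    simp only [S, Metric.mem_ball, not_lt] at hy; linarith)
  set F := fun p : E × E => (ψ p.1 - ψ p.2) ^ 2 / dist p.1 p.2 ^ (n + 1) with hF
  have hψL : LipschitzWith (NNReal.mk L hL0) fun y => ψ y • v :=
    LipschitzWith.of_dist_le_mul fun x y => by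
      rw [dist_eq_norm, ← sub_smul, norm_smul, Real.norm_eq_abs, NNReal.coe_mk]
      exact (mul_le_of_le_one_right (abs_nonneg _) hv).trans (hLip x y)
  obtain ⟨hFint, hE0⟩ := h.lip_energy_le hn (g := ψ) hl hLip hbd hcont.measurable hzero
  have hE : ∫ p, F p ∂(ν.prod ν) ≤ K3 * ((l ^ n)⁻¹ * l⁻¹) := by
    refine hE0.trans (le_of_eq ?_)
    rw [hL', hB, hK3]
    field_simp
  -- the test field
  have hsq : ∫ y, ψ y ^ 2 ∂ν ≤ 2 * B := by
    have hψi : Integrable (fun y => |ψ y|) ν :=
      Integrable.of_bound hcont.abs.aestronglyMeasurable B (Eventually.of_forall fun y => by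
        rw [Real.norm_eq_abs, abs_abs]; exact hbd y)
    have hψ2 : Integrable (fun y => ψ y ^ 2) ν :=
      Integrable.of_bound (hcont.pow 2).aestronglyMeasurable (B ^ 2)
        (Eventually.of_forall fun y => by
          rw [Real.norm_eq_abs, abs_pow]; exact pow_le_pow_left₀ (abs_nonneg _) (hbd y) 2)
    calc ∫ y, ψ y ^ 2 ∂ν ≤ ∫ y, B * |ψ y| ∂ν := integral_mono hψ2 (hψi.const_mul B) fun y => by
          rw [← sq_abs, sq]; exact mul_le_mul_of_nonneg_right (hbd y) (abs_nonneg _)
      _ = B * ∫ y, |ψ y| ∂ν := integral_const_mul _ _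
      _ ≤ B * 2 := mul_le_mul_of_nonneg_left habs (by positivity)
      _ = _ := mul_comm _ _
  set c := (Real.sqrt M)⁻¹ * l ^ n with hc
  have hc2 : c ^ 2 = M⁻¹ * (l ^ n) ^ 2 := by
    rw [hc, mul_pow, inv_pow, Real.sq_sqrt (by positivity)]
  refine ⟨⟨NNReal.mk c (by positivity) * NNReal.mk L hL0, ?_⟩, fun y hy => ?_, ?_, ?_⟩
  · refine LipschitzWith.of_dist_le_mul fun x y => ?_
    rw [dist_eq_norm, ← sub_smul, norm_smul, Real.norm_eq_abs, ← mul_sub, abs_mul,
      abs_of_nonneg (by positivity : 0 ≤ c), NNReal.coe_mul, NNReal.coe_mk, NNReal.coe_mk]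
    exact (mul_assoc c _ _).le.trans ((mul_le_mul_of_nonneg_left
      ((mul_le_of_le_one_right (abs_nonneg _) hv).trans (hLip x y))
      (by positivity : 0 ≤ c)).trans (mul_assoc c _ _).ge)
  · change (c * ψ y) • v = 0
    rw [hzero y fun hyS => ?_, mul_zero, zero_smul]
    simp only [S, Metric.mem_ball] at hyS
    linarith [dist_triangle y z' z]
  · rw [integral_smul_const, integral_const_mul, hmean, mul_zero, zero_smul]
  · have e1 : ∀ r : ℝ, ‖(c * r) • v‖ ^ 2 ≤ c ^ 2 * r ^ 2 := fun r => by
      rw [norm_smul, mul_pow, Real.norm_eq_abs, sq_abs, mul_pow]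
      exact mul_le_of_le_one_right (by positivity) (pow_le_one₀ (norm_nonneg _) hv)
    have i1 : (∫ y, ‖(c * ψ y) • v‖ ^ 2 ∂ν) ≤ c ^ 2 * ∫ y, ψ y ^ 2 ∂ν := by
      rw [← integral_const_mul]
      refine integral_mono_of_nonneg (Eventually.of_forall fun y => sq_nonneg _) ?_
        (Eventually.of_forall fun y => e1 _)
      exact (Integrable.of_bound (hcont.pow 2).aestronglyMeasurable (B ^ 2)
        (Eventually.of_forall fun y => by
          rw [Pi.pow_apply, Real.norm_eq_abs, abs_pow]
          exact pow_le_pow_left₀ (abs_nonneg _) (hbd y) 2)).const_mul _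
    have i2 : energy n ν (fun y => (c * ψ y) • v) ≤ c ^ 2 * ∫ p, F p ∂(ν.prod ν) := by
      rw [energy, ← integral_const_mul]
      refine integral_mono_of_nonneg (Eventually.of_forall fun p => by positivity)
        (hFint.const_mul _) (Eventually.of_forall fun p => ?_)
      simp only [hF, ← mul_div_assoc, ← sub_smul, ← mul_sub]
      exact div_le_div_of_nonneg_right (e1 _) (by positivity)
    calc _ ≤ c ^ 2 * (2 * B) + l * (c ^ 2 * (K3 * ((l ^ n)⁻¹ * l⁻¹))) :=
          add_le_add (i1.trans (mul_le_mul_of_nonneg_left hsq (sq_nonneg c)))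
            (mul_le_mul_of_nonneg_left (i2.trans (mul_le_mul_of_nonneg_left hE (sq_nonneg c))) hl.le)
      _ = M⁻¹ * (2 * K1 + K3) * l ^ n := by rw [hc2, hB]; field_simp
      _ ≤ 1 * l ^ n := by
          refine mul_le_mul_of_nonneg_right ?_ (by positivity)
          rw [inv_mul_le_iff₀ (by positivity), mul_one, hM]
          linarith
      _ = _ := one_mul _

/-- A large window makes the coefficient large. -/
theorem exists_window_coef (hn : 1 ≤ n) {C : ℝ} (hC : 1 ≤ C) :
    ∃ W : ℝ, 0 ≤ W ∧ ∀ θ : ℝ, 0 < θ → ∃ c : ℝ, 0 < c ∧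
      ∀ (ν : Measure E) (x₀ : E) (R A : ℝ), Nice n C A ν x₀ R →
      ∀ (z z' : E) (l a b : ℝ), 0 < l → z' ∈ ν.support → dist z' x₀ ≤ R / 2 → dist z' z ≤ l →
        l ≤ R / 4 → θ * l ≤ a → a < b → b ≤ l / 4 → W < ‖win n ν z' a b‖ →
        c ≤ coef n ν z l := by
  have hC0 : 0 < C := lt_of_lt_of_le one_pos hC
  set Bb := 4 * 8 ^ n * C ^ 3 + kerConst n * 2 ^ n * C with hBb
  have hBb0 : 0 ≤ Bb := by rw [hBb, kerConst]; positivity
  refine ⟨2 * Bb + 1, by linarith, fun θ hθ => ?_⟩
  obtain ⟨c₀, hc₀, htest⟩ := exists_test (E := E) hn hC hθ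
  refine ⟨c₀, hc₀, ?_⟩
  intro ν x₀ R A h z z' l a b hl hz' hz'x hz'z hlR ha hab hb hbig
  have := h.finite
  obtain ⟨-, -, -, -, -, hlo, -⟩ := id h
  set w := win n ν z' a b with hw
  have hw0 : 0 < ‖w‖ := lt_of_le_of_lt (by linarith) hbig
  set v := ‖w‖⁻¹ • w with hv
  have hv1 : ‖v‖ ≤ 1 := by
    rw [hv, norm_smul, norm_inv, norm_norm, inv_mul_cancel₀ hw0.ne']
  have ha0 : 0 < a := lt_of_lt_of_le (by positivity) ha
  have hmol := htest ν x₀ R A h z z' l a b v hl hz' hz'x hz'z hlR ha hab hb hv1
  have key : ∀ t, 0 < t → t ≤ l →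
      0 < (∫ y, bump z' t y ∂ν) ∧
      |pair n ν (fun y => bump z' t y • v) / (∫ y, bump z' t y ∂ν) - ⟪v, tail n ν z' t⟫| ≤ Bb ∧
      Integrable (sker n (bump z' t) v) (ν.prod ν) := by
    intro t ht htl
    have hlow := hlo z' hz' hz'x t ht (htl.trans hlR)
    have hm : 0 < ∫ y, bump z' t y ∂ν :=
      lt_of_lt_of_le (lt_of_lt_of_le (by positivity) hlow) (le_integral_bump z' ht)
    refine ⟨hm, ?_, h.integrable_sker hn (lipschitz_bump z' ht) v⟩
    rw [div_sub' hm.ne', abs_div, abs_of_pos hm, div_le_iff₀ hm, mul_comm Bb]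
    exact h.pair_bump hn z' ht hlow hv1
  obtain ⟨hma, hA1, iA⟩ := key (a / 4) (by positivity) (by linarith)
  obtain ⟨hmb, hA2, iB⟩ := key (b / 4) (by linarith) (by linarith)
  set ma := ∫ y, bump z' (a / 4) y ∂ν
  set mb := ∫ y, bump z' (b / 4) y ∂ν
  have hpair : pair n ν (fun y => (c₀ * l ^ n * psi ν z' a b y) • v) =
      c₀ * l ^ n * (pair n ν (fun y => bump z' (a / 4) y • v) / ma -
        pair n ν (fun y => bump z' (b / 4) y • v) / mb) := by
    rw [pair_smul_vec, pair_smul_vec, pair_smul_vec]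
    have e : ∀ p, sker n (fun y => c₀ * l ^ n * psi ν z' a b y) v p =
        c₀ * l ^ n / ma * sker n (bump z' (a / 4)) v p -
          c₀ * l ^ n / mb * sker n (bump z' (b / 4)) v p := fun p => by
      simp only [sker, psi, ma, mb]; ring
    rw [integral_congr_ae (Eventually.of_forall e), integral_sub (iA.const_mul _) (iB.const_mul _),
      integral_const_mul, integral_const_mul]
    ring
  have htail : ⟪v, tail n ν z' (a / 4)⟫ - ⟪v, tail n ν z' (b / 4)⟫ = ‖w‖ := by
    have e4 : ∀ x : ℝ, 4 * (x / 4) = x := fun x => by ring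
    rw [← inner_sub_right, tail, tail, e4, e4]
    have hm : ∀ s : ℝ, MeasurableSet {y : E | s ≤ dist z' y} := fun s =>
      measurableSet_le measurable_const (by fun_prop)
    have hu : {y | a ≤ dist z' y} = annulus z' a b ∪ {y | b ≤ dist z' y} := by
      ext y
      simp only [annulus, mem_union, mem_setOf_eq]
      constructor
      · intro h1
        by_cases h2 : dist z' y < b
        · exact Or.inl ⟨h1, h2⟩
        · exact Or.inr (not_lt.1 h2)
      · rintro (⟨h1, -⟩ | h1)
        · exact h1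
        · linarith
    rw [hu, setIntegral_union (t := {y | b ≤ dist z' y}) (Set.disjoint_left.2 fun y h1 h2 => absurd h2 (not_le.2 h1.2))
      (hm b) (integrableOn_kernel z' ha0 (measurableSet_annulus z' a b) fun y hy => hy.1)
      (integrableOn_kernel z' (S := {y | b ≤ dist z' y}) (ha0.trans hab) (hm b) fun y hy => hy),
      add_sub_cancel_right, ← win,
      ← hw, hv, real_inner_smul_left, real_inner_self_eq_norm_sq, sq, ← mul_assoc,
      inv_mul_cancel₀ hw0.ne', one_mul]
  have h1 := (abs_le.1 hA1).1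
  have h2 := (abs_le.1 hA2).2
  have h3 := (le_abs_self _).trans (h.abs_pair_le_coef hn hl hmol)
  rw [hpair] at h3
  have h4 : c₀ * l ^ n * 1 ≤ c₀ * l ^ n * (pair n ν (fun y => bump z' (a / 4) y • v) / ma -
      pair n ν (fun y => bump z' (b / 4) y • v) / mb) :=
    mul_le_mul_of_nonneg_left (by linarith) (by positivity)
  exact le_of_mul_le_mul_right (by linarith) (pow_pos hl n)

end

end Vale.Agent.P120.Full
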