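import Vale.Agent.P120.Full.DecayBuild0
import Vale.Agent.P120.Full.EnergyFar
import Vale.Agent.P120.Full.WindowTest
import Vale.Agent.P120.Full.Planes

/-!
# P120, full answer: an adapted frame, and the pairing at the level of an ancestor
-/

namespace Vale.Agent.P120.Full

open MeasureTheory Set Filter
open scoped Topology RealInnerProductSpace

noncomputable section

variable {E : Type*} [NormedAddCommGroup E] [InnerProductSpace ℝ E] [MeasurableSpace E]
  [BorelSpace E] [FiniteDimensional ℝ E] {n : ℕ}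

omit [MeasurableSpace E] [BorelSpace E] in
/-- An orthonormal frame whose last vectors span the orthogonal complement of `W`. -/
lemma exists_frame {m : ℕ} (W : Submodule ℝ E) (hW : Module.finrank ℝ W = n)
    (hm : n + m = Module.finrank ℝ E) :
    ∃ b : OrthonormalBasis (Fin n ⊕ Fin m) ℝ E, ∀ v : E, ‖across b v‖ = ‖perp W v‖ := by
  have hP : Module.finrank ℝ Wᗮ = m := by
    have := W.finrank_add_finrank_orthogonal
    omega
  set bW := (stdOrthonormalBasis ℝ W).reindex (finCongr hW)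
  set bP := (stdOrthonormalBasis ℝ Wᗮ).reindex (finCongr hP)
  refine ⟨(bW.prod bP).map W.orthogonalDecomposition.symm, fun v => ?_⟩
  rw [perp_eq, Submodule.starProjection_apply]
  refine Eq.trans ?_ ((bP.repr.norm_map (Wᗮ.orthogonalProjectionOnto v)).trans rfl)
  congr 1
  ext a
  simp [across, bP.repr_apply_apply, OrthonormalBasis.map_apply]

omit [InnerProductSpace ℝ E] [MeasurableSpace E] [BorelSpace E] [FiniteDimensional ℝ E] in
/-- A compactly supported Lipschitz field is bounded by its constant times the radius. -/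
lemma norm_le_of_lipschitz_support [NormedSpace ℝ E] {F : Type*} [SeminormedAddCommGroup F]
    {φ : E → F} {L : NNReal} {T : ℝ} [Nontrivial E] (hφ : LipschitzWith L φ)
    (h0 : ∀ y, T ≤ ‖y‖ → φ y = 0) (hT : 0 ≤ T) (y : E) : ‖φ y‖ ≤ L * (2 * T) := by
  rcases le_or_gt T ‖y‖ with h | h
  · rw [h0 y h, norm_zero]; positivity
  obtain ⟨e, he⟩ := exists_norm_eq E hT
  calc ‖φ y‖ = dist (φ y) (φ e) := by rw [h0 e he.ge, dist_zero_right]
    _ ≤ L * dist y e := hφ.dist_le_mul y e
    _ ≤ L * (2 * T) := by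
        refine mul_le_mul_of_nonneg_left ?_ L.2
        rw [dist_eq_norm]
        linarith [norm_sub_le y e]

/-- The size of a Lipschitz field with bounded support. -/
lemma Nice.field_size_le (hn : 1 ≤ n) {C A R : ℝ} {ν : Measure E} {x₀ : E}
    (h : Nice n C A ν x₀ R) [Nontrivial E] {φ : E → E} {L : NNReal} {T : ℝ} (hT : 0 < T)
    (hφ : LipschitzWith L φ) (h0 : ∀ y, T ≤ ‖y‖ → φ y = 0) :
    (∫ y, ‖φ y‖ ^ 2 ∂ν) ≤ C * T ^ n * ((L : ℝ) * (2 * T)) ^ 2 ∧
      energy n ν φ ≤ Module.finrank ℝ E * (2 * (C * T ^ n) * ((L : ℝ) ^ 2 * (2 ^ n * C * (2 * T)) +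
        ((L : ℝ) * (2 * T)) ^ 2 * (2 ^ (n + 1) * C / (2 * T)))) := by
  have := h.finite
  have hB := norm_le_of_lipschitz_support hφ h0 hT.le
  refine ⟨?_, ?_⟩
  · have hz : ∀ y ∉ Metric.ball (0 : E) T, ‖φ y‖ ^ 2 = 0 := fun y hy => by
      rw [h0 y (by simpa using hy), norm_zero, zero_pow two_ne_zero]
    rw [← setIntegral_eq_integral_of_forall_compl_eq_zero hz]
    calc ∫ y in Metric.ball (0 : E) T, ‖φ y‖ ^ 2 ∂ν
        ≤ ∫ _ in Metric.ball (0 : E) T, ((L : ℝ) * (2 * T)) ^ 2 ∂ν :=
          integral_mono_of_nonneg (Eventually.of_forall fun y => sq_nonneg _) (integrable_const _)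
            (Eventually.of_forall fun y => pow_le_pow_left₀ (norm_nonneg _) (hB y) 2)
      _ = ν.real (Metric.ball (0 : E) T) * ((L : ℝ) * (2 * T)) ^ 2 := by
          rw [setIntegral_const, smul_eq_mul]
      _ ≤ _ := mul_le_mul_of_nonneg_right (h.2.2.2.2.1 _ _ hT) (sq_nonneg _)
  · set e := stdOrthonormalBasis ℝ E
    have hg : ∀ a, ∀ x y, |⟪e a, φ x⟫ - ⟪e a, φ y⟫| ≤ (L : ℝ) * dist x y := fun a x y => by
      rw [← inner_sub_right]
      refine (abs_real_inner_le_norm _ _).trans ?_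
      rw [e.orthonormal.1 a, one_mul, ← dist_eq_norm]
      exact hφ.dist_le_mul x y
    have hb : ∀ a, ∀ x, |⟪e a, φ x⟫| ≤ (L : ℝ) * (2 * T) := fun a x => by
      refine (abs_real_inner_le_norm _ _).trans ?_
      rw [e.orthonormal.1 a, one_mul]
      exact hB x
    have key := fun a => h.lip_energy_le hn (g := fun x => ⟪e a, φ x⟫) (z := 0) hT (hg a) (hb a)
      (continuous_const.inner hφ.continuous).measurable
      fun y hy => by rw [h0 y (by simpa using hy), inner_zero_right]
    have hsum : ∀ p : E × E, ‖φ p.1 - φ p.2‖ ^ 2 / dist p.1 p.2 ^ (n + 1) =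
        ∑ a, (⟪e a, φ p.1⟫ - ⟪e a, φ p.2⟫) ^ 2 / dist p.1 p.2 ^ (n + 1) := fun p => by
      rw [← Finset.sum_div, ← e.sum_sq_norm_inner_right (φ p.1 - φ p.2)]
      simp only [inner_sub_right, Real.norm_eq_abs, sq_abs]
    rw [energy, integral_congr_ae (Eventually.of_forall hsum),
      integral_finsetSum _ fun a _ => (key a).1]
    refine (Finset.sum_le_sum fun a _ => (key a).2).trans (le_of_eq ?_)
    rw [Finset.sum_const, Finset.card_univ, Fintype.card_fin, nsmul_eq_mul]

/-- The pairing with a fixed field is controlled by the weighted coefficients. -/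
lemma exists_pairing_le (hn : 1 ≤ n) (hnd : n ≤ Module.finrank ℝ E) {C A : ℝ} (hC : 1 ≤ C)
    (T : ℝ) (L : NNReal) :
    ∃ (K : ℝ) (J : ℕ), 0 ≤ K ∧
      ∀ (ν : Measure E) (x₀ : E) (R : ℝ) (c : ℕ → E) (j₀ k : ℕ),
        NormalChain E n C A ν x₀ R c j₀ k → j₀ + J ≤ k →
        ∀ φ : E → E, LipschitzWith L φ → (∀ y, T ≤ ‖y‖ → φ y = 0) → ∫ y, φ y ∂ν = 0 →
          |pair n ν φ| ≤ K * eHat n ν R c j₀ k := by
  have : Nontrivial E := Module.nontrivial_of_finrank_pos (R := ℝ) (by omega)
  set T' := max T 1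
  have hT' : 0 < T' := lt_max_of_lt_right one_pos
  obtain ⟨J, hJ⟩ := pow_unbounded_of_one_lt T' (show (1 : ℝ) < 16 by norm_num)
  set l : ℝ := 16 ^ J
  have hl : 0 < l := by positivity
  set M := C * T' ^ n * ((L : ℝ) * (2 * T')) ^ 2 + l * (Module.finrank ℝ E *
    (2 * (C * T' ^ n) * ((L : ℝ) ^ 2 * (2 ^ n * C * (2 * T')) +
      ((L : ℝ) * (2 * T')) ^ 2 * (2 ^ (n + 1) * C / (2 * T'))))) + 1
  have hC0 : 0 < C := lt_of_lt_of_le one_pos hC
  have hM : 0 < M := by positivity
  set s := Real.sqrt (l ^ n / M)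
  have hs : 0 < s := Real.sqrt_pos.2 (by positivity)
  refine ⟨4 ^ J * l ^ n / s, J, by positivity, ?_⟩
  intro ν x₀ R c j₀ k hch hJk φ hφ hzero hmean
  obtain ⟨h, -, -, hd, hc0, hs1⟩ := hch
  have := h.finite
  have hR := h.2.2.1
  set j := k - J
  have hkj : k - j = J := by omega
  have hscale : scale R j = l := by
    have e := scale_eq R (show j ≤ k by omega)
    rw [hs1, hkj, one_div, inv_pow] at e
    field_simp at e
    linarith
  have hdist : ‖c j‖ ≤ 32 / 15 * l := by
    have e := chain_dist hR (show j ≤ k by omega) fun i h1 h2 => hd i (by omega) (by omega)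
    rw [hc0, hs1, hscale, dist_comm, dist_zero_right] at e
    linarith
  have h0' : ∀ y : E, T' ≤ ‖y‖ → φ y = 0 := fun y hy => hzero y ((le_max_left T 1).trans hy)
  obtain ⟨hsq, hen⟩ := h.field_size_le hn hT' hφ h0'
  have hψL : LipschitzWith (‖s‖₊ * L) fun y => s • φ y := (lipschitzWith_smul s).comp hφ
  have hmol : Mol n ν (c j) l fun y => s • φ y := by
    refine ⟨⟨_, hψL⟩, fun y hy => ?_, ?_, ?_⟩
    · change s • φ y = 0
      rw [h0' y ?_, smul_zero]
      rw [dist_eq_norm] at hy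
      linarith [norm_sub_le y (c j)]
    · rw [integral_smul, hmean, smul_zero]
    · have e1 : ∫ y, ‖s • φ y‖ ^ 2 ∂ν = s ^ 2 * ∫ y, ‖φ y‖ ^ 2 ∂ν := by
        rw [← integral_const_mul]
        simp only [norm_smul, mul_pow, Real.norm_eq_abs, sq_abs]
      have e2 : energy n ν (fun y => s • φ y) = s ^ 2 * energy n ν φ := by
        rw [energy, energy, ← integral_const_mul]
        simp only [← smul_sub, norm_smul, mul_pow, Real.norm_eq_abs, sq_abs, mul_div_assoc]
      rw [e1, e2, Real.sq_sqrt (by positivity)]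
      calc l ^ n / M * (∫ y, ‖φ y‖ ^ 2 ∂ν) + l * (l ^ n / M * energy n ν φ)
          = l ^ n / M * ((∫ y, ‖φ y‖ ^ 2 ∂ν) + l * energy n ν φ) := by ring
        _ ≤ l ^ n / M * M := mul_le_mul_of_nonneg_left (by
              have := mul_le_mul_of_nonneg_left hen hl.le
              simp only [M]
              linarith) (by positivity)
        _ = l ^ n := by field_simp
  have e3 : pair n ν (fun y => s • φ y) = s * pair n ν φ := by
    simp only [pair, ← smul_sub, real_inner_smul_left, integral_const_mul]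
    ring
  have h1 := h.abs_pair_le_coef hn hl hmol
  rw [e3, abs_mul, abs_of_pos hs] at h1
  have h2 : coef n ν (c j) l ≤ 4 ^ J * eHat n ν R c j₀ k := by
    have := Finset.single_le_sum
      (f := fun i => (1 / 4 : ℝ) ^ (k - i) * coef n ν (c i) (scale R i))
      (fun i _ => mul_nonneg (by positivity) (h.coef_nonneg hn (scale_pos hR i) _))
      (Finset.mem_Icc.2 (show j₀ ≤ j ∧ j ≤ k by omega))
    simp only [hkj, hscale] at this
    rw [eHat]
    refine le_trans (le_of_eq ?_) (mul_le_mul_of_nonneg_left this (by positivity))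
    rw [← mul_assoc, ← mul_pow]
    norm_num
  rw [div_mul_eq_mul_div, le_div_iff₀ hs, mul_comm _ s]
  refine h1.trans ((mul_le_mul_of_nonneg_right h2 (by positivity)).trans (le_of_eq ?_))
  ring

end

end Vale.Agent.P120.Full
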