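import Vale.Agent.P120.Full.EnergyFar

/-!
# P120, full answer: the energy bound
-/

namespace Vale.Agent.P120.Full

open MeasureTheory Set Filter
open scoped Topology RealInnerProductSpace ENNReal

noncomputable section

variable {E : Type*} [NormedAddCommGroup E] [InnerProductSpace ℝ E] [MeasurableSpace E]
  [BorelSpace E] [FiniteDimensional ℝ E] {n : ℕ} {C A R : ℝ} {ν : Measure E} {x₀ : E}

omit [MeasurableSpace E] [BorelSpace E] [FiniteDimensional ℝ E] in
lemma kernel_scalar_sub_le {c x y : E} {l : ℝ} (hl : 0 < l) (hx : dist x c ≤ 4 * l)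
    (hy : 16 * l ≤ dist c y) :
    |(dist x y ^ (n + 1))⁻¹ - (dist c y ^ (n + 1))⁻¹| ≤
      4 * ((n + 1) * 4 ^ (n + 1)) * (l * (dist c y ^ (n + 2))⁻¹) ∧
    (dist x y ^ (n + 1))⁻¹ ≤ 2 ^ (n + 1) * (dist c y ^ (n + 1))⁻¹ := by
  set a := dist x y
  set d := dist c y
  have hd : 0 < d := by linarith
  have htri : |a - d| ≤ 4 * l := (abs_dist_sub_le _ _ _).trans hx
  rw [abs_le] at htri
  have ha2 : d / 2 ≤ a := by linarith
  have ha3 : a ≤ 2 * d := by linarith
  have ha0 : 0 < a := by linarith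
  have hq : d ^ (n + 1) ≤ 2 ^ (n + 1) * a ^ (n + 1) := by
    rw [← mul_pow]; exact pow_le_pow_left₀ hd.le (by linarith) _
  have h2 : (a ^ (n + 1))⁻¹ ≤ 2 ^ (n + 1) * (d ^ (n + 1))⁻¹ := by
    rw [← div_eq_mul_inv, le_div_iff₀ (by positivity), inv_mul_le_iff₀ (by positivity),
      mul_comm (a ^ (n + 1))]
    exact hq
  refine ⟨?_, h2⟩
  have hdiff : |d ^ (n + 1) - a ^ (n + 1)| ≤ 4 * l * (n + 1) * (2 * d) ^ n := by
    refine (abs_pow_sub_pow_le (a := d) (b := a) (n := n + 1)).trans ?_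
    rw [Nat.add_sub_cancel, abs_of_pos hd, abs_of_pos ha0, Nat.cast_add, Nat.cast_one]
    refine mul_le_mul (mul_le_mul_of_nonneg_right (abs_le.2 ⟨by linarith, by linarith⟩)
      (by positivity)) (pow_le_pow_left₀ (le_max_of_le_left hd.le) (max_le (by linarith) ha3) _)
      (by positivity) (by positivity)
  rw [inv_sub_inv (by positivity) (by positivity), abs_div,
    abs_of_pos (mul_pos (pow_pos ha0 _) (pow_pos hd _)), div_eq_mul_inv, mul_inv]
  calc |d ^ (n + 1) - a ^ (n + 1)| * ((a ^ (n + 1))⁻¹ * (d ^ (n + 1))⁻¹)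
      ≤ 4 * l * (n + 1) * (2 * d) ^ n * (2 ^ (n + 1) * (d ^ (n + 1))⁻¹ * (d ^ (n + 1))⁻¹) := by
        gcongr
    _ = 4 * ((n + 1) * (2 ^ n * 2 ^ (n + 1))) * (l * (d ^ (n + 2))⁻¹) := by
        rw [mul_pow, pow_succ d (n + 1), pow_succ d n]
        field_simp
    _ ≤ _ := by
        have h4 : (2 : ℝ) ^ n * 2 ^ (n + 1) ≤ 4 ^ (n + 1) := by
          rw [show (4 : ℝ) = 2 * 2 by norm_num, mul_pow]
          exact mul_le_mul_of_nonneg_right (pow_le_pow_right₀ one_le_two (by omega)) (by positivity)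
        gcongr

/-- The centred normal coordinate is orthogonal to the plane. -/
lemma inner_nCoord_starProjection (ν : Measure E) (c : E) (l : ℝ) (p : E)
    (W : Submodule ℝ E) (z q : E) : ⟪nCoord ν c l p W z, W.starProjection q⟫ = 0 := by
  have h1 : ∀ y : E, ⟪perp W y, W.starProjection q⟫ = 0 := fun y => by
    rw [real_inner_comm]
    exact W.inner_right_of_mem_orthogonal (W.starProjection_apply_mem _)
      (W.sub_starProjection_mem_orthogonal y)
  have h2 : ⟪∫ y, cutoff c l y ^ 2 • perp W (y - p) ∂ν, W.starProjection q⟫ = 0 := by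
    by_cases hint : Integrable (fun y => cutoff c l y ^ 2 • perp W (y - p)) ν
    · rw [real_inner_comm, ← integral_inner hint]
      refine integral_eq_zero_of_ae (Eventually.of_forall fun y => ?_)
      simp only [Pi.zero_apply]
      rw [real_inner_smul_right, real_inner_comm, h1, mul_zero]
    · rw [integral_undef hint, inner_zero_left]
  rw [nCoord, inner_sub_left, h1, nMean, real_inner_smul_left, h2, mul_zero, sub_zero]

/-- The two pointwise estimates for the cutoff off field on pairs. -/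
theorem nField_pointwise (hn : 1 ≤ n) (ν : Measure E) (c : E) {l : ℝ} (hl : 0 < l) (p : E)
    (W : Submodule ℝ E) (x y : E) :
    (cutoff c l x ^ 2 + cutoff c l y ^ 2) / 2 * ‖nCoord ν c l p W x - nCoord ν c l p W y‖ ^ 2 /
        dist x y ^ (n + 1) ≤
      2 * ⟪nField ν c l p W x - nField ν c l p W y, kernel n (x - y)⟫ +
        8 * ((‖nCoord ν c l p W x‖ ^ 2 + ‖nCoord ν c l p W y‖ ^ 2) / l ^ 2 *
          (dist x y ^ (n - 1))⁻¹) ∧
    ‖nField ν c l p W x - nField ν c l p W y‖ ^ 2 / dist x y ^ (n + 1) ≤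
      2 * ((cutoff c l x ^ 2 + cutoff c l y ^ 2) / 2 * ‖nCoord ν c l p W x - nCoord ν c l p W y‖ ^ 2 /
        dist x y ^ (n + 1)) +
        8 * ((‖nCoord ν c l p W x‖ ^ 2 + ‖nCoord ν c l p W y‖ ^ 2) / l ^ 2 *
          (dist x y ^ (n - 1))⁻¹) := by
  rcases eq_or_ne x y with rfl | hxy
  · simp only [sub_self, inner_zero_left, norm_zero, mul_zero, zero_add, zero_pow two_ne_zero,
      zero_div]
    constructor <;> positivity
  have hd : 0 < dist x y := dist_pos.2 hxy
  set a := cutoff c l x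
  set b := cutoff c l y
  set v := nCoord ν c l p W x with hv
  set w := nCoord ν c l p W y with hw
  set d := dist x y with hdd
  have ha := cutoff_mem c l x
  have hb := cutoff_mem c l y
  have hab : |a ^ 2 - b ^ 2| ≤ d / l * (a + b) := by
    rw [show a ^ 2 - b ^ 2 = (a - b) * (a + b) by ring, abs_mul,
      abs_of_nonneg (show 0 ≤ a + b by linarith [ha.1, hb.1])]
    exact mul_le_mul_of_nonneg_right (abs_cutoff_sub_le hl x y) (by linarith [ha.1, hb.1])
  have hperp : ⟪nField ν c l p W x - nField ν c l p W y, kernel n (x - y)⟫ =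
      ((a ^ 2 + b ^ 2) / 2 * ‖v - w‖ ^ 2 + (a ^ 2 - b ^ 2) / 2 * ⟪v + w, v - w⟫) /
        d ^ (n + 1) := by
    have hortx : ⟪v, W.starProjection (x - y)⟫ = 0 := inner_nCoord_starProjection ν c l p W x _
    have horty : ⟪w, W.starProjection (x - y)⟫ = 0 := inner_nCoord_starProjection ν c l p W y _
    have e1 : x - y = (v - w) + W.starProjection (x - y) := by
      rw [hv, hw, nCoord, nCoord, sub_sub_sub_cancel_right, ← perp_map_sub]
      simp only [perp, sub_sub_sub_cancel_right]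
      abel
    rw [kernel, real_inner_smul_right, ← dist_eq_norm, ← hdd,
      show nField ν c l p W x = a ^ 2 • v from rfl, show nField ν c l p W y = b ^ 2 • w from rfl,
      e1, inner_add_right]
    simp only [inner_sub_left, real_inner_smul_left, hortx, horty, mul_zero, sub_zero,
      inner_add_left, inner_sub_right, real_inner_self_eq_norm_sq, norm_sub_sq_real,
      real_inner_comm v w]
    ring
  have hsum : (a + b) ^ 2 ≤ 4 * ((a ^ 2 + b ^ 2) / 2) := by nlinarith [sq_nonneg (a - b)]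
  have hcs : |⟪v + w, v - w⟫| ≤ ‖v + w‖ * ‖v - w‖ := abs_real_inner_le_norm _ _
  have hvw : ‖v + w‖ ^ 2 ≤ 2 * (‖v‖ ^ 2 + ‖w‖ ^ 2) := by
    nlinarith [norm_add_le v w, norm_nonneg v, norm_nonneg w, norm_nonneg (v + w),
      sq_nonneg (‖v‖ - ‖w‖)]
  have hrhs : (‖v‖ ^ 2 + ‖w‖ ^ 2) / l ^ 2 * (d ^ (n - 1))⁻¹ =
      (d / l) ^ 2 * (‖v‖ ^ 2 + ‖w‖ ^ 2) / d ^ (n + 1) := by
    obtain ⟨k, rfl⟩ : ∃ k, n = k + 1 := ⟨n - 1, by omega⟩
    rw [Nat.add_sub_cancel, div_pow]
    field_simp
    ring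
  constructor
  · rw [hperp, hrhs, ← mul_div_assoc 8, ← mul_div_assoc 2, ← add_div]
    refine div_le_div_of_nonneg_right ?_ (by positivity)
    have hcross : |(a ^ 2 - b ^ 2) / 2 * ⟪v + w, v - w⟫| ≤
        d / l * (a + b) / 2 * (‖v + w‖ * ‖v - w‖) := by
      rw [abs_mul, abs_div, abs_two]
      exact mul_le_mul (div_le_div_of_nonneg_right hab two_pos.le) hcs (abs_nonneg _)
        (div_nonneg (mul_nonneg (by positivity) (by linarith [ha.1, hb.1])) two_pos.le)
    have h8 : d / l * (a + b) * (‖v + w‖ * ‖v - w‖) ≤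
        (a + b) ^ 2 * ‖v - w‖ ^ 2 / 8 + 2 * ((d / l) ^ 2 * ‖v + w‖ ^ 2) := by
      nlinarith [sq_nonneg ((a + b) * ‖v - w‖ / 4 - 2 * (d / l * ‖v + w‖) / 2)]
    have h9 : (d / l) ^ 2 * ‖v + w‖ ^ 2 ≤ (d / l) ^ 2 * (2 * (‖v‖ ^ 2 + ‖w‖ ^ 2)) :=
      mul_le_mul_of_nonneg_left hvw (sq_nonneg _)
    have h10 : (a + b) ^ 2 * ‖v - w‖ ^ 2 ≤ 4 * ((a ^ 2 + b ^ 2) / 2) * ‖v - w‖ ^ 2 :=
      mul_le_mul_of_nonneg_right hsum (sq_nonneg _)
    have := abs_le.1 hcross
    linarith
  · rw [hrhs, ← mul_div_assoc 8, ← mul_div_assoc 2, ← add_div]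
    refine div_le_div_of_nonneg_right ?_ (by positivity)
    have e : nField ν c l p W x - nField ν c l p W y =
        ((a ^ 2 + b ^ 2) / 2) • (v - w) + ((a ^ 2 - b ^ 2) / 2) • (v + w) := by
      simp only [nField, ← hv, ← hw]
      module
    rw [e]
    have h1 := norm_add_le (((a ^ 2 + b ^ 2) / 2) • (v - w)) (((a ^ 2 - b ^ 2) / 2) • (v + w))
    rw [norm_smul, norm_smul, Real.norm_eq_abs, Real.norm_eq_abs,
      abs_of_nonneg (show 0 ≤ (a ^ 2 + b ^ 2) / 2 by positivity)] at h1
    have hab2 : |(a ^ 2 - b ^ 2) / 2| ≤ d / l := by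
      rw [abs_div, abs_two, div_le_iff₀ two_pos]
      refine hab.trans (mul_le_mul_of_nonneg_left (by linarith [ha.2, hb.2]) (by positivity))
    have hs1 : ((a ^ 2 + b ^ 2) / 2) ^ 2 ≤ (a ^ 2 + b ^ 2) / 2 := by
      have : (a ^ 2 + b ^ 2) / 2 ≤ 1 := by nlinarith [ha.1, ha.2, hb.1, hb.2]
      nlinarith [show 0 ≤ (a ^ 2 + b ^ 2) / 2 by positivity]
    calc _ ≤ ((a ^ 2 + b ^ 2) / 2 * ‖v - w‖ + d / l * ‖v + w‖) ^ 2 :=
          pow_le_pow_left₀ (norm_nonneg _) (h1.trans (add_le_add le_rfl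
            (mul_le_mul_of_nonneg_right hab2 (norm_nonneg _)))) 2
      _ ≤ 2 * ((a ^ 2 + b ^ 2) / 2) ^ 2 * ‖v - w‖ ^ 2 + 2 * ((d / l) ^ 2 * ‖v + w‖ ^ 2) := by
          nlinarith only [sq_nonneg ((a ^ 2 + b ^ 2) / 2 * ‖v - w‖ - d / l * ‖v + w‖)]
      _ ≤ _ := by
          have g1 := mul_le_mul_of_nonneg_right hs1 (sq_nonneg ‖v - w‖)
          have g2 := mul_le_mul_of_nonneg_left hvw (sq_nonneg (d / l))
          have g3 := mul_nonneg (sq_nonneg (d / l)) (add_nonneg (sq_nonneg ‖v‖) (sq_nonneg ‖w‖))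
          linarith only [g1, g2, g3]

/-- The symmetric weighted double integral over a ball. -/
lemma integral_add_mul_inv_pow_le (hn : 1 ≤ n) (h : Nice n C A ν x₀ R) {c : E} {T : ℝ} (hT : 0 < T)
    {g : E → ℝ} (hg : Continuous g) (hg0 : ∀ y, 0 ≤ g y) :
    IntegrableOn (fun q : E × E => (g q.1 + g q.2) * (dist q.1 q.2 ^ (n - 1))⁻¹)
        (Metric.ball c T ×ˢ Metric.ball c T) (ν.prod ν) ∧
      ∫ q in Metric.ball c T ×ˢ Metric.ball c T, (g q.1 + g q.2) * (dist q.1 q.2 ^ (n - 1))⁻¹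
          ∂(ν.prod ν) ≤
        2 * (2 ^ n * C * (2 * T)) * ∫ y in Metric.ball c T, g y ∂ν := by
  have := h.finite
  obtain ⟨h1, h2⟩ := integral_mul_inv_pow_le (c := c) hn h hT hg hg0
  set S := Metric.ball c T
  unfold IntegrableOn at h1 ⊢
  rw [← Measure.prod_restrict] at h1 h2 ⊢
  have hs : Integrable (fun q : E × E => g q.2 * (dist q.1 q.2 ^ (n - 1))⁻¹)
      ((ν.restrict S).prod (ν.restrict S)) := by
    refine h1.swap.congr (Eventually.of_forall fun q => ?_)
    simp [dist_comm q.2 q.1]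
  have e : ∫ q, g q.2 * (dist q.1 q.2 ^ (n - 1))⁻¹ ∂((ν.restrict S).prod (ν.restrict S)) =
      ∫ q, g q.1 * (dist q.1 q.2 ^ (n - 1))⁻¹ ∂((ν.restrict S).prod (ν.restrict S)) := by
    rw [← integral_prod_swap]
    exact integral_congr_ae (Eventually.of_forall fun q => by simp [dist_comm q.2 q.1])
  simp only [add_mul]
  refine ⟨h1.add hs, ?_⟩
  rw [integral_add h1 hs, e]
  linarith

/-- Splitting of a symmetric integrand that vanishes unless one point is in `N`. -/
lemma integral_split_symm [IsFiniteMeasure ν] {N : Set E} (hN : MeasurableSet N) {G : E × E → ℝ}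
    (hG : Integrable G (ν.prod ν)) (hsym : ∀ q, G q.swap = G q)
    (h0 : ∀ q : E × E, q.1 ∉ N → q.2 ∉ N → G q = 0) :
    ∫ q, G q ∂(ν.prod ν) = (∫ q in N ×ˢ N, G q ∂(ν.prod ν)) + 2 * ∫ q in N ×ˢ Nᶜ, G q ∂(ν.prod ν) := by
  have e : ∀ q, G q = (N ×ˢ N).indicator G q +
      ((N ×ˢ Nᶜ).indicator G q + (N ×ˢ Nᶜ).indicator G q.swap) := by
    intro q
    by_cases h1 : q.1 ∈ N <;> by_cases h2 : q.2 ∈ N <;>
      simp [Set.indicator_apply, h1, h2, hsym, h0 q]
  have hi : ∀ s, MeasurableSet s → Integrable (s.indicator G) (ν.prod ν) := fun s hs => hG.indicator hs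
  have h3 : Integrable (fun q => (N ×ˢ Nᶜ).indicator G q.swap) (ν.prod ν) :=
    (hi _ (hN.prod hN.compl)).swap
  have h23 : Integrable
      (fun q => (N ×ˢ Nᶜ).indicator G q + (N ×ˢ Nᶜ).indicator G q.swap) (ν.prod ν) :=
    (hi _ (hN.prod hN.compl)).add h3
  rw [integral_congr_ae (Eventually.of_forall e), integral_add (hi _ (hN.prod hN)) h23,
    integral_add (hi _ (hN.prod hN.compl)) h3,
    integral_prod_swap (fun q => (N ×ˢ Nᶜ).indicator G q),
    integral_indicator (hN.prod hN), integral_indicator (hN.prod hN.compl)]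
  ring

/-- The final absorption. -/
lemma absorb {T S e K Y : ℝ} (hK : 1 ≤ K) (hY : Y ≤ K * (S ^ 2 + T))
    (hY0 : 0 ≤ Y) (hT : T ≤ 4 * e * Real.sqrt Y + K * S ^ 2) :
    T ≤ 16 * K * (S ^ 2 + e ^ 2) := by
  have h1 : 4 * e * Real.sqrt Y ≤ Y / (2 * K) + 8 * K * e ^ 2 := by
    rw [div_add' _ _ _ (by positivity), le_div_iff₀ (by positivity)]
    nlinarith [sq_nonneg (Real.sqrt Y - 4 * K * e), Real.sq_sqrt hY0]
  have h2 : Y / (2 * K) ≤ (S ^ 2 + T) / 2 := by
    rw [div_le_div_iff₀ (by positivity) two_pos]; nlinarith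
  nlinarith [sq_nonneg e, sq_nonneg S]

/-- The mean and the `L²` size of the centred normal coordinate. -/
theorem nCoord_bounds (h : Nice n C A ν x₀ R) {cs : ℕ → E} {j₀ j : ℕ} (hj : j₀ < j)
    (hmem : ∀ i, j₀ ≤ i → i ≤ j → cs i ∈ ν.support ∧ dist (cs i) x₀ ≤ R / 8)
    (hch : ∀ i, j₀ ≤ i → i < j → dist (cs (i + 1)) (cs i) ≤ 2 * scale R i)
    (p : E) (W : Submodule ℝ E) :
    let D := C * Real.sqrt (C * 4 ^ n)
    let S := flatSum ν n R cs j₀ j p W
    let l := scale R j
    ‖nMean ν (cs j) l p W‖ ≤ D * S * l ∧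
      ‖perp W (cs j - p)‖ ≤ 4 * l + D * S * l ∧
      ∫ y in Metric.ball (cs j) (16 * l), ‖nCoord ν (cs j) l p W y‖ ^ 2 ∂ν ≤
        (2 * 256 * 16 ^ (n + 2) + 2 * D ^ 2 * C * 16 ^ n) * S ^ 2 * l ^ (n + 2) := by
  intro D S l
  have := h.finite
  have hR := h.2.2.1
  have hC0 : 0 < C := zero_lt_one.trans_le h.1
  have hl0 : 0 < l := scale_pos hR j
  have hlR : l ≤ R / 65536 := scale_le hR j
  set c := cs j
  obtain ⟨hcs, hcd⟩ := hmem j hj.le le_rfl
  set u := fun y : E => perp W (y - p) with hu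
  have hcu : Continuous u := (continuous_perp_map W).comp (continuous_id.sub continuous_const)
  have hcu2 : Continuous fun y => ‖u y‖ ^ 2 := hcu.norm.pow 2
  have hF : flatness ν n c l p W ≤ S := by
    simpa using flatness_le_flatSum ν n R cs p W hj.le le_rfl
  have hS0 : 0 ≤ S := (Real.sqrt_nonneg _).trans hF
  have hI : ∫ y in Metric.ball c (4 * l), ‖u y‖ ∂ν ≤ Real.sqrt (C * 4 ^ n) * (S * l ^ (n + 1)) :=
    (integral_norm_perp_le h c hl0 p W).trans (by gcongr)
  have hlow : ∀ t, l ≤ t → t ≤ R / 4 → C⁻¹ * l ^ n ≤ ν.real (Metric.ball c t) := fun t ht htR =>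
    le_trans (mul_le_mul_of_nonneg_left (pow_le_pow_left₀ hl0.le ht n) (by positivity))
      (h.2.2.2.2.2.1 c hcs (hcd.trans (by linarith)) t (hl0.trans_le ht) htR)
  have hmass : C⁻¹ * l ^ n ≤ ∫ y, cutoff c l y ^ 2 ∂ν := by
    refine (hlow (3 * l) (by linarith) (by linarith)).trans ?_
    rw [← smul_eq_mul (ν.real _) 1 |>.trans (mul_one _),
      ← integral_indicator_const (1 : ℝ) measurableSet_ball]
    refine integral_mono ((integrable_const 1).indicator measurableSet_ball) ?_ fun y => ?_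
    · exact Integrable.of_bound ((continuous_cutoff c l).pow 2).aestronglyMeasurable 1
        (Eventually.of_forall fun y => by
          rw [norm_pow, Real.norm_eq_abs, abs_of_nonneg (cutoff_mem c l y).1]
          exact pow_le_one₀ (cutoff_mem c l y).1 (cutoff_mem c l y).2)
    · by_cases hy : y ∈ Metric.ball c (3 * l)
      · rw [indicator_of_mem hy, cutoff_eq_one hl0 (Metric.mem_ball.1 hy).le]; norm_num
      · rw [indicator_of_notMem hy]; positivity
  have hmass0 : 0 < ∫ y, cutoff c l y ^ 2 ∂ν := lt_of_lt_of_le (by positivity) hmass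
  have hDe : D * S * l * (C⁻¹ * l ^ n) = Real.sqrt (C * 4 ^ n) * (S * l ^ (n + 1)) := by
    simp only [D, pow_succ]; field_simp
  have hm : ‖nMean ν c l p W‖ ≤ D * S * l := by
    rw [nMean, norm_smul, norm_inv, Real.norm_eq_abs, abs_of_pos hmass0, inv_mul_le_iff₀ hmass0]
    refine le_trans ?_ (mul_le_mul_of_nonneg_right hmass
      (mul_nonneg (mul_nonneg (by positivity) hS0) hl0.le))
    rw [mul_comm (C⁻¹ * l ^ n), hDe]
    refine le_trans ?_ hI
    refine (norm_integral_le_integral_norm _).trans ?_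
    rw [← integral_indicator measurableSet_ball]
    refine integral_mono_of_nonneg (Eventually.of_forall fun y => norm_nonneg _)
      ((integrableOn_ball_cont hcu.norm c _).integrable_indicator measurableSet_ball)
      (Eventually.of_forall fun y => ?_)
    show ‖cutoff c l y ^ 2 • u y‖ ≤ _
    by_cases hy : y ∈ Metric.ball c (4 * l)
    · rw [indicator_of_mem hy, norm_smul, norm_pow, Real.norm_eq_abs,
        abs_of_nonneg (cutoff_mem c l y).1]
      exact mul_le_of_le_one_left (norm_nonneg _) (pow_le_one₀ (cutoff_mem c l y).1 (cutoff_mem c l y).2)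
    · rw [indicator_of_notMem hy,
        cutoff_eq_zero hl0 (not_lt.1 fun hh => hy (Metric.mem_ball.2 hh))]
      simp
  refine ⟨hm, ?_, ?_⟩
  · have hb := hlow (4 * l) (by linarith) (by linarith)
    have h1 : ‖perp W (c - p)‖ * ν.real (Metric.ball c (4 * l)) ≤
        (4 * l) * ν.real (Metric.ball c (4 * l)) + ∫ y in Metric.ball c (4 * l), ‖u y‖ ∂ν := by
      have e : ∀ t : ℝ, t * ν.real (Metric.ball c (4 * l)) = ∫ _y in Metric.ball c (4 * l), t ∂ν :=
        fun t => by rw [setIntegral_const, smul_eq_mul, mul_comm]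
      rw [e, e, ← integral_add (integrable_const _) (integrableOn_ball_cont hcu.norm c _)]
      refine setIntegral_mono_on (integrable_const _).integrableOn
        ((integrable_const _).integrableOn.add (integrableOn_ball_cont hcu.norm c _))
        measurableSet_ball fun y hy => ?_
      have e2 : perp W (c - p) = perp W (c - y) + u y := by simp only [hu, perp_map_sub]; abel
      rw [e2]
      refine (norm_add_le _ _).trans (add_le_add ((norm_perp_apply_le W _).trans ?_) le_rfl)
      rw [← dist_eq_norm, dist_comm]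
      exact (Metric.mem_ball.1 hy).le
    have hb0 : 0 < ν.real (Metric.ball c (4 * l)) := lt_of_lt_of_le (by positivity) hb
    refine le_of_mul_le_mul_right (h1.trans ?_) hb0
    rw [add_mul]
    refine add_le_add le_rfl (hI.trans ?_)
    rw [← hDe]
    exact mul_le_mul_of_nonneg_left hb (mul_nonneg (mul_nonneg (by positivity) hS0) hl0.le)
  · set i := j - 1 with hi
    have hij : j₀ ≤ i ∧ i < j := by omega
    have hsl : scale R i = 16 * l := by
      show scale R i = 16 * scale R j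
      rw [show j = i + 1 by omega, scale_succ]; ring
    have hsub : Metric.ball c (16 * l) ⊆ Metric.ball (cs i) (4 * scale R i) := fun y hy => by
      rw [Metric.mem_ball] at hy ⊢
      have h2 := hch i hij.1 hij.2
      rw [show i + 1 = j by omega] at h2
      linarith [dist_triangle y c (cs i), show dist (cs j) (cs i) = dist c (cs i) from rfl]
    have hFi : flatness ν n (cs i) (scale R i) p W ≤ 16 * S := by
      have h2 := flatness_le_flatSum ν n R cs p W hij.1 hij.2.le
      rwa [show j - i = 1 by omega, pow_one] at h2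
    have hsq : ∫ y in Metric.ball c (16 * l), ‖u y‖ ^ 2 ∂ν ≤
        256 * 16 ^ (n + 2) * S ^ 2 * l ^ (n + 2) := by
      refine (setIntegral_mono_set (integrableOn_ball_cont hcu2 _ _)
        (Eventually.of_forall fun y => sq_nonneg _) hsub.eventuallyLE).trans ?_
      rw [flatness_sq_mul n ν (cs i) (scale_pos hR i), hsl, mul_pow]
      calc flatness ν n (cs i) (16 * l) p W ^ 2 * (16 ^ (n + 2) * l ^ (n + 2))
          ≤ (16 * S) ^ 2 * (16 ^ (n + 2) * l ^ (n + 2)) := by
            refine mul_le_mul_of_nonneg_right (pow_le_pow_left₀ (Real.sqrt_nonneg _) ?_ 2)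
              (by positivity)
            rwa [← hsl]
        _ = _ := by ring
    calc ∫ y in Metric.ball c (16 * l), ‖nCoord ν c l p W y‖ ^ 2 ∂ν
        ≤ ∫ y in Metric.ball c (16 * l), (2 * ‖u y‖ ^ 2 + 2 * ‖nMean ν c l p W‖ ^ 2) ∂ν := by
          refine setIntegral_mono_on
            (integrableOn_ball_cont ((continuous_nCoord ν c l p W).norm.pow 2) _ _)
            (((integrableOn_ball_cont hcu2 c _).const_mul 2).add
              (integrable_const _).integrableOn) measurableSet_ball fun y _ => ?_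
          rw [nCoord]
          nlinarith [norm_sub_le (u y) (nMean ν c l p W), norm_nonneg (u y - nMean ν c l p W),
            sq_nonneg (‖u y‖ - ‖nMean ν c l p W‖)]
      _ ≤ 2 * (256 * 16 ^ (n + 2) * S ^ 2 * l ^ (n + 2)) +
          2 * (D * S * l) ^ 2 * (C * (16 * l) ^ n) := by
          rw [integral_add ((integrableOn_ball_cont hcu2 c _).const_mul 2)
            (integrable_const _).integrableOn, integral_const_mul, setIntegral_const, smul_eq_mul,
            mul_comm (ν.real _)]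
          refine add_le_add (mul_le_mul_of_nonneg_left hsq two_pos.le)
            (mul_le_mul ?_ (h.2.2.2.2.1 c _ (by positivity)) measureReal_nonneg (by positivity))
          gcongr
      _ = _ := by ring

/-- Pairs with one point near and one far away. -/
theorem far_pair_le (hn : 1 ≤ n) (h : Nice n C A ν x₀ R) {c p : E} {W : Submodule ℝ E} {l : ℝ}
    (hl : 0 < l) (hη : (∫ y, cutoff c l y ^ 2 ∂ν) ≠ 0) {V₁ V₂ G : ℝ}
    (hV₂ : ∫ y in Metric.ball c (16 * l), ‖nCoord ν c l p W y‖ ^ 2 ∂ν ≤ V₂)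
    (hV₁ : ∫ y in Metric.ball c (16 * l), ‖nCoord ν c l p W y‖ ∂ν ≤ V₁)
    (hG : ∫ y in {y | 16 * l ≤ dist c y}, ‖nCoord ν c l p W y‖ * (dist c y ^ (n + 2))⁻¹ ∂ν ≤ G)
    (hGi : IntegrableOn (fun y => ‖nCoord ν c l p W y‖ * (dist c y ^ (n + 2))⁻¹)
      {y | 16 * l ≤ dist c y} ν) :
    |∫ q in Metric.ball c (16 * l) ×ˢ (Metric.ball c (16 * l))ᶜ,
        ⟪nField ν c l p W q.1 - nField ν c l p W q.2, kernel n (q.1 - q.2)⟫ ∂(ν.prod ν)| ≤
      2 ^ (n + 1) * V₂ * (2 ^ (n + 1) * C / (16 * l)) +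
        4 * ((n + 1) * 4 ^ (n + 1)) * l * V₁ * G ∧
    ∫ q in Metric.ball c (16 * l) ×ˢ (Metric.ball c (16 * l))ᶜ,
        ‖nField ν c l p W q.1 - nField ν c l p W q.2‖ ^ 2 / dist q.1 q.2 ^ (n + 1) ∂(ν.prod ν) ≤
      2 ^ (n + 1) * V₂ * (2 ^ (n + 1) * C / (16 * l)) := by
  have := h.finite
  set N := Metric.ball c (16 * l) with hN
  have hNc : Nᶜ = {y | 16 * l ≤ dist c y} := by
    ext y; simp [hN, dist_comm]
  set v := nCoord ν c l p W with hv
  have hcv : Continuous v := continuous_nCoord ν c l p W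
  set X := nField ν c l p W with hX
  obtain ⟨L, hL⟩ := exists_lipschitz_nField hl ν p W (c := c)
  set η := fun x => cutoff c l x ^ 2 with hηd
  have hη01 : ∀ x, 0 ≤ η x ∧ η x ≤ 1 := fun x =>
    ⟨sq_nonneg _, pow_le_one₀ (cutoff_mem c l x).1 (cutoff_mem c l x).2⟩
  have hη0 : ∀ x, 4 * l ≤ dist x c → η x = 0 := fun x hx => by simp [hηd, cutoff_eq_zero hl hx]
  have hcη : Continuous η := (continuous_cutoff c l).pow 2
  have hNm : MeasurableSet Nᶜ := measurableSet_ball.compl
  have hXout : ∀ y ∈ Nᶜ, X y = 0 := fun y hy => by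
    have hy' : 16 * l ≤ dist y c := not_lt.1 fun hh => hy (Metric.mem_ball.2 hh)
    show cutoff c l y ^ 2 • nCoord ν c l p W y = 0
    rw [cutoff_eq_zero hl (by linarith), zero_pow two_ne_zero, zero_smul]
  have hvi : Integrable (fun x => η x • v x) ν := by
    obtain ⟨B, hB⟩ := (isCompact_closedBall c (4 * l)).exists_bound_of_continuousOn hcv.continuousOn
    refine Integrable.of_bound (hcη.smul hcv).aestronglyMeasurable (max B 0)
      (Eventually.of_forall fun x => ?_)
    by_cases hx : dist x c ≤ 4 * l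
    · rw [norm_smul, Real.norm_eq_abs, abs_of_nonneg (hη01 x).1]
      exact (mul_le_of_le_one_left (norm_nonneg _) (hη01 x).2).trans
        ((hB x (Metric.mem_closedBall.2 hx)).trans (le_max_left _ _))
    · rw [hη0 x (not_le.1 hx).le, zero_smul, norm_zero]; exact le_max_right _ _
  have hmean : ∫ x in N, η x • v x ∂ν = 0 := by
    rw [setIntegral_eq_integral_of_forall_compl_eq_zero fun x hx => by
      rw [hη0 x (by linarith [not_lt.1 fun hh => hx (Metric.mem_ball.2 hh)]), zero_smul]]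
    simp only [hv, nCoord, smul_sub, hηd]
    have hi1 : Integrable (fun x => cutoff c l x ^ 2 • nMean ν c l p W) ν :=
      (Integrable.of_bound hcη.aestronglyMeasurable 1 (Eventually.of_forall fun x => by
        rw [Real.norm_eq_abs, abs_of_nonneg (hη01 x).1]; exact (hη01 x).2)).smul_const _
    have hi2 : Integrable (fun x => cutoff c l x ^ 2 • perp W (x - p)) ν := by
      refine (hvi.add hi1).congr (Eventually.of_forall fun x => ?_)
      simp only [Pi.add_apply, hv, nCoord, smul_sub, hηd]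
      abel
    rw [integral_sub hi2 hi1, integral_smul_const, nMean, smul_smul, mul_inv_cancel₀ hη, one_smul,
      sub_self]
  have hk : ∀ x, dist x c ≤ 4 * l → ∀ y ∈ Nᶜ,
      |(dist x y ^ (n + 1))⁻¹ - (dist c y ^ (n + 1))⁻¹| ≤
        4 * ((n + 1) * 4 ^ (n + 1)) * (l * (dist c y ^ (n + 2))⁻¹) ∧
      (dist x y ^ (n + 1))⁻¹ ≤ 2 ^ (n + 1) * (dist c y ^ (n + 1))⁻¹ := fun x hx y hy =>
    kernel_scalar_sub_le hl hx (by rw [hNc] at hy; exact hy)
  have hfari : IntegrableOn (fun y => (dist c y ^ (n + 1))⁻¹) Nᶜ ν :=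
    integrableOn_inv_pow c (by positivity : (0 : ℝ) < 16 * l) _ hNm fun y hy => by
      rw [hNc] at hy; exact hy
  have hfar : ∫ y in Nᶜ, (dist c y ^ (n + 1))⁻¹ ∂ν ≤ 2 ^ (n + 1) * C / (16 * l) := by
    rw [hNc]; exact integral_inv_far_le h c (by positivity)
  have hv2i : IntegrableOn (fun x => ‖v x‖ ^ 2) N ν :=
    integrableOn_ball_cont (hcv.norm.pow 2) _ _
  have hv1i : IntegrableOn (fun x => ‖v x‖) N ν := integrableOn_ball_cont hcv.norm _ _
  have hV20 : 0 ≤ V₂ := (integral_nonneg fun x => sq_nonneg _).trans hV₂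
  have hV10 : 0 ≤ V₁ := (integral_nonneg fun x => norm_nonneg _).trans hV₁
  have hG0 : 0 ≤ G := (integral_nonneg fun y => by positivity).trans hG
  constructor
  · set G0 := fun q : E × E => ⟪X q.1 - X q.2, kernel n (q.1 - q.2)⟫ with hG0d
    have hG0i : Integrable G0 (ν.prod ν) := h.integrable_pair hn hL
    have hi : Integrable G0 ((ν.restrict N).prod (ν.restrict Nᶜ)) := by
      rw [Measure.prod_restrict]; exact hG0i.integrableOn
    rw [← Measure.prod_restrict, integral_prod_symm _ hi, ← Real.norm_eq_abs]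
    refine (norm_integral_le_integral_norm _).trans ?_
    calc ∫ y in Nᶜ, ‖∫ x in N, G0 (x, y) ∂ν‖ ∂ν
        ≤ ∫ y in Nᶜ, (2 ^ (n + 1) * V₂ * (dist c y ^ (n + 1))⁻¹ +
            4 * ((n + 1) * 4 ^ (n + 1)) * l * V₁ * (‖v y‖ * (dist c y ^ (n + 2))⁻¹)) ∂ν := by
          refine integral_mono_of_nonneg (Eventually.of_forall fun y => norm_nonneg _)
            ((hfari.const_mul _).add ((by rw [hNc]; exact hGi :
              IntegrableOn (fun y => ‖v y‖ * (dist c y ^ (n + 2))⁻¹) Nᶜ ν).const_mul _))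
            ((ae_restrict_iff' hNm).2 (Eventually.of_forall fun y hy => ?_))
          set k := fun x : E => (dist x y ^ (n + 1))⁻¹
          set kc := (dist c y ^ (n + 1))⁻¹
          have hpt : ∀ x, G0 (x, y) =
              η x * ‖v x‖ ^ 2 * k x - η x * (k x - kc) * ⟪v x, v y⟫ - kc * ⟪η x • v x, v y⟫ := by
            intro x
            have e1 : x - y = (v x - v y) + W.starProjection (x - y) := by
              simp only [hv, nCoord, sub_sub_sub_cancel_right, ← perp_map_sub]
              simp only [perp, sub_sub_sub_cancel_right]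
              abel
            have hort : ⟪v x, W.starProjection (x - y)⟫ = 0 :=
              inner_nCoord_starProjection ν c l p W x _
            simp only [hG0d]
            rw [hXout y hy, sub_zero, kernel, real_inner_smul_right, ← dist_eq_norm,
              show X x = η x • v x from rfl, real_inner_smul_left, real_inner_smul_left, e1,
              inner_add_right, hort, add_zero, inner_sub_right, real_inner_self_eq_norm_sq]
            ring
          have hbd : ∀ x ∈ N, |η x * ‖v x‖ ^ 2 * k x - η x * (k x - kc) * ⟪v x, v y⟫| ≤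
              2 ^ (n + 1) * kc * ‖v x‖ ^ 2 +
                4 * ((n + 1) * 4 ^ (n + 1)) * l * (‖v y‖ * (dist c y ^ (n + 2))⁻¹) * ‖v x‖ := by
            intro x _
            by_cases hx : dist x c ≤ 4 * l
            · obtain ⟨k1, k2⟩ := hk x hx y hy
              refine (abs_sub _ _).trans (add_le_add ?_ ?_)
              · rw [abs_of_nonneg (mul_nonneg (mul_nonneg (hη01 x).1 (sq_nonneg _)) (by positivity))]
                calc η x * ‖v x‖ ^ 2 * k x ≤ 1 * ‖v x‖ ^ 2 * (2 ^ (n + 1) * kc) := by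
                      gcongr
                      · exact (hη01 x).2
                  _ = _ := by ring
              · rw [abs_mul, abs_mul, abs_of_nonneg (hη01 x).1]
                calc η x * |k x - kc| * |⟪v x, v y⟫| ≤
                    1 * (4 * ((n + 1) * 4 ^ (n + 1)) * (l * (dist c y ^ (n + 2))⁻¹)) *
                      (‖v x‖ * ‖v y‖) :=
                      mul_le_mul (mul_le_mul (hη01 x).2 k1 (abs_nonneg _) zero_le_one)
                        (abs_real_inner_le_norm _ _) (abs_nonneg _) (by positivity)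
                  _ = _ := by ring
            · rw [hη0 x (not_le.1 hx).le]
              simp only [zero_mul, sub_zero, abs_zero]
              positivity
          have hlast : Integrable (fun x => kc * ⟪η x • v x, v y⟫) (ν.restrict N) :=
            ((hvi.inner_const (v y)).const_mul kc).restrict
          have hrhs : Integrable (fun x => 2 ^ (n + 1) * kc * ‖v x‖ ^ 2 +
              4 * ((n + 1) * 4 ^ (n + 1)) * l * (‖v y‖ * (dist c y ^ (n + 2))⁻¹) * ‖v x‖)
              (ν.restrict N) := (hv2i.const_mul _).add (hv1i.const_mul _)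
          have hfirst : Integrable
              (fun x => η x * ‖v x‖ ^ 2 * k x - η x * (k x - kc) * ⟪v x, v y⟫) (ν.restrict N) := by
            refine hrhs.mono' ?_ ((ae_restrict_iff' measurableSet_ball).2
              (Eventually.of_forall fun x hx => hbd x hx))
            have hkm : Measurable k := by fun_prop
            exact (((hcη.measurable.mul (hcv.norm.pow 2).measurable).mul hkm).sub
              ((hcη.measurable.mul (hkm.sub measurable_const)).mul
                (hcv.inner continuous_const).measurable)).aestronglyMeasurable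
          have hzero : ∫ x in N, kc * ⟪η x • v x, v y⟫ ∂ν = 0 := by
            rw [integral_const_mul,
              integral_congr_ae (Eventually.of_forall fun x => real_inner_comm (v y) (η x • v x)),
              integral_inner hvi.integrableOn, hmean, inner_zero_right, mul_zero]
          show ‖∫ x in N, G0 (x, y) ∂ν‖ ≤ _
          rw [integral_congr_ae (Eventually.of_forall hpt), integral_sub hfirst hlast, hzero, sub_zero]
          refine (norm_integral_le_integral_norm _).trans ?_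
          refine (setIntegral_mono_on hfirst.norm hrhs measurableSet_ball fun x hx => hbd x hx).trans ?_
          rw [integral_add (hv2i.const_mul _) (hv1i.const_mul _), integral_const_mul, integral_const_mul]
          refine add_le_add ?_ ?_
          · calc 2 ^ (n + 1) * kc * ∫ x in N, ‖v x‖ ^ 2 ∂ν ≤ 2 ^ (n + 1) * kc * V₂ :=
                mul_le_mul_of_nonneg_left hV₂ (by positivity)
              _ = _ := by ring
          · calc 4 * ((n + 1) * 4 ^ (n + 1)) * l * (‖v y‖ * (dist c y ^ (n + 2))⁻¹) *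
                  ∫ x in N, ‖v x‖ ∂ν
                ≤ 4 * ((n + 1) * 4 ^ (n + 1)) * l * (‖v y‖ * (dist c y ^ (n + 2))⁻¹) * V₁ :=
                  mul_le_mul_of_nonneg_left hV₁ (by positivity)
              _ = _ := by ring
      _ ≤ _ := by
          have hGi' : IntegrableOn (fun y => ‖v y‖ * (dist c y ^ (n + 2))⁻¹) Nᶜ ν := by
            rw [hNc]; exact hGi
          rw [integral_add (hfari.const_mul _) (hGi'.const_mul _), integral_const_mul,
            integral_const_mul]
          refine add_le_add (mul_le_mul_of_nonneg_left hfar (by positivity))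
            (mul_le_mul_of_nonneg_left ?_ (by positivity))
          rw [hNc]; exact hG
  · have hint : Integrable (fun q : E × E => ‖v q.1‖ ^ 2 * (dist c q.2 ^ (n + 1))⁻¹)
        ((ν.restrict N).prod (ν.restrict Nᶜ)) := Integrable.mul_prod hv2i hfari
    have hbase : Integrable (fun q : E × E => ‖X q.1 - X q.2‖ ^ 2 / dist q.1 q.2 ^ (n + 1))
        ((ν.restrict N).prod (ν.restrict Nᶜ)) := by
      rw [Measure.prod_restrict]; exact (h.integrable_energy hn hL).integrableOn
    have hae : ∀ᵐ q ∂((ν.restrict N).prod (ν.restrict Nᶜ)),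
        ‖X q.1 - X q.2‖ ^ 2 / dist q.1 q.2 ^ (n + 1) ≤
          2 ^ (n + 1) * (‖v q.1‖ ^ 2 * (dist c q.2 ^ (n + 1))⁻¹) := by
      rw [Measure.prod_restrict]
      refine (ae_restrict_iff' (measurableSet_ball.prod hNm)).2 (Eventually.of_forall fun q hq => ?_)
      rw [hXout q.2 hq.2, sub_zero, show X q.1 = η q.1 • v q.1 from rfl, norm_smul, mul_pow,
        Real.norm_eq_abs, sq_abs]
      by_cases hx : dist q.1 c ≤ 4 * l
      · rw [div_eq_mul_inv]
        calc η q.1 ^ 2 * ‖v q.1‖ ^ 2 * (dist q.1 q.2 ^ (n + 1))⁻¹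
            ≤ 1 * ‖v q.1‖ ^ 2 * (2 ^ (n + 1) * (dist c q.2 ^ (n + 1))⁻¹) := by
              gcongr
              · exact pow_le_one₀ (hη01 _).1 (hη01 _).2
              · exact (hk _ hx _ hq.2).2
          _ = _ := by ring
      · rw [hη0 _ (not_le.1 hx).le]
        simp only [zero_pow two_ne_zero, zero_mul, zero_div]
        positivity
    rw [← Measure.prod_restrict]
    refine (integral_mono_ae hbase (hint.const_mul _) hae).trans ?_
    rw [integral_const_mul, integral_prod_mul (fun x => ‖v x‖ ^ 2) fun y => (dist c y ^ (n + 1))⁻¹,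
      mul_assoc]
    exact mul_le_mul_of_nonneg_left
      (mul_le_mul hV₂ hfar (integral_nonneg fun y => by positivity) hV20) (by positivity)

/-- The mass of the cut off is positive. -/
lemma cutoff_mass_pos (h : Nice n C A ν x₀ R) {c : E} {l : ℝ} (hl : 0 < l) (hlR : l ≤ R / 65536)
    (hcs : c ∈ ν.support) (hcd : dist c x₀ ≤ R / 8) : 0 < ∫ y, cutoff c l y ^ 2 ∂ν := by
  have := h.finite
  have hC0 : 0 < C := zero_lt_one.trans_le h.1
  have h1 := h.2.2.2.2.2.1 c hcs (hcd.trans (by linarith)) (3 * l) (by positivity) (by linarith)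
  refine lt_of_lt_of_le (by positivity : 0 < C⁻¹ * (3 * l) ^ n) (h1.trans ?_)
  rw [← smul_eq_mul (ν.real _) 1 |>.trans (mul_one _),
    ← integral_indicator_const (1 : ℝ) measurableSet_ball]
  refine integral_mono ((integrable_const 1).indicator measurableSet_ball) ?_ fun y => ?_
  · exact Integrable.of_bound ((continuous_cutoff c l).pow 2).aestronglyMeasurable 1
      (Eventually.of_forall fun y => by
        rw [norm_pow, Real.norm_eq_abs, abs_of_nonneg (cutoff_mem c l y).1]
        exact pow_le_one₀ (cutoff_mem c l y).1 (cutoff_mem c l y).2)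
  · by_cases hy : y ∈ Metric.ball c (3 * l)
    · rw [indicator_of_mem hy, cutoff_eq_one hl (Metric.mem_ball.1 hy).le]; norm_num
    · rw [indicator_of_notMem hy]; positivity

/-- The first moment of a continuous field over a ball from the second one. -/
lemma first_moment_le (h : Nice n C A ν x₀ R) {c : E} {l S K2 : ℝ} (hl : 0 < l) (hS : 0 ≤ S)
    (hK2 : 0 ≤ K2) {v : E → E} (hcv : Continuous v)
    (hV2 : ∫ y in Metric.ball c (16 * l), ‖v y‖ ^ 2 ∂ν ≤ K2 * S ^ 2 * l ^ (n + 2)) :
    ∫ y in Metric.ball c (16 * l), ‖v y‖ ∂ν ≤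
      Real.sqrt (K2 * (C * 16 ^ n)) * (S * l ^ (n + 1)) := by
  have := h.finite
  have hC0 : 0 ≤ C := zero_le_one.trans h.1
  set N := Metric.ball c (16 * l)
  obtain ⟨B, hB⟩ :=
    (isCompact_closedBall c (16 * l)).exists_bound_of_continuousOn hcv.norm.continuousOn
  have hf : MemLp (fun y => ‖v y‖) 2 (ν.restrict N) :=
    MemLp.of_bound hcv.norm.aestronglyMeasurable B ((ae_restrict_iff' measurableSet_ball).2
      (Eventually.of_forall fun y hy => hB y (Metric.ball_subset_closedBall hy)))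
  have h1 := integral_mul_le_Lp_mul_Lq_of_nonneg Real.HolderConjugate.two_two
    (μ := ν.restrict N) (Eventually.of_forall fun x => norm_nonneg (v x))
    (Eventually.of_forall fun _ => zero_le_one) (by simpa using hf)
    (by simpa using memLp_const (1 : ℝ))
  simp only [mul_one, integral_const, smul_eq_mul, measureReal_restrict_apply,
    MeasurableSet.univ, univ_inter, Real.rpow_two, one_pow, ← Real.sqrt_eq_rpow] at h1
  refine h1.trans ?_
  refine (mul_le_mul (Real.sqrt_le_sqrt hV2) (Real.sqrt_le_sqrt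
    (h.2.2.2.2.1 c (16 * l) (by positivity))) (Real.sqrt_nonneg _) (Real.sqrt_nonneg _)).trans
    (le_of_eq ?_)
  rw [← Real.sqrt_mul (by positivity),
    show K2 * S ^ 2 * l ^ (n + 2) * (C * (16 * l) ^ n) =
      K2 * (C * 16 ^ n) * (S * l ^ (n + 1)) ^ 2 by ring,
    Real.sqrt_mul (by positivity), Real.sqrt_sq (by positivity)]

/-- The far weighted moment of the centred normal coordinate. -/
lemma far_moment_le (h : Nice n C A ν x₀ R) {cs : ℕ → E} {j₀ j : ℕ} (hj : j₀ < j)
    (hch : ∀ i, j₀ ≤ i → i < j → dist (cs (i + 1)) (cs i) ≤ 2 * scale R i)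
    {p : E} {W : Submodule ℝ E} {D S l : ℝ} (hl : l = scale R j)
    (hS : S = flatSum ν n R cs j₀ j p W) (hD : 0 ≤ D)
    (hm : ‖nMean ν (cs j) l p W‖ ≤ D * S * l)
    (huc : ‖perp W (cs j - p)‖ ≤ 4 * l + D * S * l) :
    IntegrableOn (fun y => ‖nCoord ν (cs j) l p W y‖ * (dist (cs j) y ^ (n + 2))⁻¹)
        {y | 16 * l ≤ dist (cs j) y} ν ∧
      ∫ y in {y | 16 * l ≤ dist (cs j) y},
          ‖nCoord ν (cs j) l p W y‖ * (dist (cs j) y ^ (n + 2))⁻¹ ∂ν ≤
        (16 ^ (n + 2) * Real.sqrt (C * 4 ^ n) + 2 ^ (n + 1) * C * (6 + D) +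
          D * (2 ^ (n + 1) * C / 256)) * S / l := by
  have := h.finite
  have hl0 : 0 < l := hl ▸ scale_pos h.2.2.1 j
  set c := cs j
  have hFm : MeasurableSet {y | 16 * l ≤ dist c y} :=
    measurableSet_le measurable_const (by fun_prop)
  have hcv : Continuous (nCoord ν c l p W) := continuous_nCoord ν c l p W
  have hu1 : IntegrableOn (fun y => ‖perp W (y - p)‖ * (dist c y ^ (n + 2))⁻¹)
      {y | 16 * l ≤ dist c y} ν := by
    refine ((integrableOn_inv_pow c (by positivity : (0 : ℝ) < 16 * l) (n + 1) hFm fun y hy => hy).add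
      ((integrableOn_inv_pow c (by positivity : (0 : ℝ) < 16 * l) (n + 2) hFm
        fun y hy => hy).const_mul ‖perp W (c - p)‖)).mono' ?_
      ((ae_restrict_iff' hFm).2 (Eventually.of_forall fun y (hy : 16 * l ≤ dist c y) => ?_))
    · exact (((continuous_perp_map W).comp (continuous_id.sub continuous_const)).norm.measurable.mul
        (by fun_prop)).aestronglyMeasurable
    · have hy0 : 0 < dist c y := lt_of_lt_of_le (by positivity) hy
      rw [Real.norm_eq_abs, abs_of_nonneg (by positivity)]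
      have e : perp W (y - p) = perp W (y - c) + perp W (c - p) := by simp only [perp_map_sub]; abel
      have h1 : ‖perp W (y - p)‖ ≤ dist c y + ‖perp W (c - p)‖ := by
        rw [e, dist_comm, dist_eq_norm]
        exact (norm_add_le _ _).trans (add_le_add (norm_perp_apply_le W _) le_rfl)
      refine (mul_le_mul_of_nonneg_right h1 (by positivity)).trans (le_of_eq ?_)
      simp only [Pi.add_apply]
      rw [pow_succ (dist c y) (n + 1)]
      field_simp
  have hm2 : IntegrableOn (fun y => ‖nMean ν c l p W‖ * (dist c y ^ (n + 2))⁻¹)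
      {y | 16 * l ≤ dist c y} ν :=
    (integrableOn_inv_pow c (by positivity : (0 : ℝ) < 16 * l) _ hFm fun y hy => hy).const_mul _
  have hGi : IntegrableOn (fun y => ‖nCoord ν c l p W y‖ * (dist c y ^ (n + 2))⁻¹)
      {y | 16 * l ≤ dist c y} ν := by
    refine (hu1.add hm2).mono' (hcv.norm.measurable.mul (by fun_prop)).aestronglyMeasurable
      (Eventually.of_forall fun y => ?_)
    rw [Real.norm_eq_abs, abs_of_nonneg (by positivity), Pi.add_apply, ← add_mul]
    exact mul_le_mul_of_nonneg_right (norm_sub_le _ _) (by positivity)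
  refine ⟨hGi, ?_⟩
  calc ∫ y in {y | 16 * l ≤ dist c y}, ‖nCoord ν c l p W y‖ * (dist c y ^ (n + 2))⁻¹ ∂ν
      ≤ ∫ y in {y | 16 * l ≤ dist c y}, (‖perp W (y - p)‖ * (dist c y ^ (n + 2))⁻¹ +
          ‖nMean ν c l p W‖ * (dist c y ^ (n + 2))⁻¹) ∂ν := by
        refine setIntegral_mono_on hGi (hu1.add hm2) hFm fun y _ => ?_
        rw [← add_mul]
        exact mul_le_mul_of_nonneg_right (norm_sub_le _ _) (by positivity)
    _ ≤ (16 ^ (n + 2) * Real.sqrt (C * 4 ^ n) + 2 ^ (n + 1) * C * (6 + D)) * S / l +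
        D * S * l * (2 ^ (n + 1) * C / (16 * l) ^ 2) := by
        rw [integral_add hu1 hm2, integral_const_mul]
        subst hl hS
        exact add_le_add (far_integral_le h hj hch huc hD)
          (mul_le_mul hm (integral_inv_far_succ_le h c (by positivity))
            (integral_nonneg fun y => by positivity) ((norm_nonneg _).trans hm))
    _ = _ := by
        field_simp
        ring

/-- The test field vanishes away from the large ball. -/
lemma nField_eq_zero {c : E} {l : ℝ} (hl : 0 < l) (p : E) (W : Submodule ℝ E) {y : E}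
    (hy : y ∉ Metric.ball c (16 * l)) : nField ν c l p W y = 0 := by
  have hy' : 16 * l ≤ dist y c := not_lt.1 fun hh => hy (Metric.mem_ball.2 hh)
  show cutoff c l y ^ 2 • nCoord ν c l p W y = 0
  rw [cutoff_eq_zero hl (by linarith), zero_pow two_ne_zero, zero_smul]

/-- The main term against the pairing, and the energy of the test field against the main term. -/
theorem main_term_le (hn : 1 ≤ n) (h : Nice n C A ν x₀ R) {c : E} {l : ℝ} (hl : 0 < l) (p : E)
    (W : Submodule ℝ E) {a b Q : ℝ}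
    (ha : |∫ q in Metric.ball c (16 * l) ×ˢ (Metric.ball c (16 * l))ᶜ,
        ⟪nField ν c l p W q.1 - nField ν c l p W q.2, kernel n (q.1 - q.2)⟫ ∂(ν.prod ν)| ≤ a)
    (hb : ∫ q in Metric.ball c (16 * l) ×ˢ (Metric.ball c (16 * l))ᶜ,
        ‖nField ν c l p W q.1 - nField ν c l p W q.2‖ ^ 2 / dist q.1 q.2 ^ (n + 1) ∂(ν.prod ν) ≤ b)
    (hV : ∫ y in Metric.ball c (16 * l), ‖nCoord ν c l p W y‖ ^ 2 ∂ν ≤ Q) :
    ∃ T : ℝ, 0 ≤ T ∧
      ∫ q in Metric.ball c (3 * l) ×ˢ Metric.ball c (3 * l),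
          ‖perp W (q.1 - q.2)‖ ^ 2 / dist q.1 q.2 ^ (n + 1) ∂(ν.prod ν) ≤ T ∧
      T ≤ 4 * |pair n ν (nField ν c l p W)| + 4 * a +
        8 * (2 * (2 ^ n * C * (2 * (16 * l))) * (Q / l ^ 2)) ∧
      energy n ν (nField ν c l p W) ≤ 2 * T + 2 * b +
        8 * (2 * (2 ^ n * C * (2 * (16 * l))) * (Q / l ^ 2)) := by
  have := h.finite
  have hC0 : 0 ≤ C := zero_le_one.trans h.1
  set v := nCoord ν c l p W with hv
  set N := Metric.ball c (16 * l) with hN
  have hcv : Continuous v := continuous_nCoord ν c l p W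
  set X := nField ν c l p W with hX
  obtain ⟨L, hL⟩ := exists_lipschitz_nField hl ν p W (c := c)
  set G0 := fun q : E × E => ⟪X q.1 - X q.2, kernel n (q.1 - q.2)⟫ with hG0d
  set e0 := fun q : E × E => ‖X q.1 - X q.2‖ ^ 2 / dist q.1 q.2 ^ (n + 1) with he0d
  set M := fun q : E × E => (cutoff c l q.1 ^ 2 + cutoff c l q.2 ^ 2) / 2 * ‖v q.1 - v q.2‖ ^ 2 /
    dist q.1 q.2 ^ (n + 1) with hMd
  set P := fun q : E × E => (‖v q.1‖ ^ 2 / l ^ 2 + ‖v q.2‖ ^ 2 / l ^ 2) *
    (dist q.1 q.2 ^ (n - 1))⁻¹ with hPd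
  have hG0i : Integrable G0 (ν.prod ν) := h.integrable_pair hn hL
  have he0i : Integrable e0 (ν.prod ν) := h.integrable_energy hn hL
  have hXsupp : ∀ y, y ∉ N → X y = 0 := fun y hy => nField_eq_zero hl p W hy
  have hsplit1 := integral_split_symm (N := N) measurableSet_ball hG0i (fun q => by
      simp only [hG0d, Prod.fst_swap, Prod.snd_swap]
      rw [show q.2 - q.1 = -(q.1 - q.2) by abel, show kernel n (-(q.1 - q.2)) = -kernel n (q.1 - q.2)
        by rw [kernel, kernel, norm_neg, smul_neg], inner_neg_right, ← inner_neg_left, neg_sub])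
    (fun q h1 h2 => by simp [hG0d, hXsupp _ h1, hXsupp _ h2])
  have hsplit2 := integral_split_symm (N := N) measurableSet_ball he0i (fun q => by
      simp only [he0d, Prod.fst_swap, Prod.snd_swap, dist_comm q.2 q.1, norm_sub_rev (X q.2)])
    (fun q h1 h2 => by simp [he0d, hXsupp _ h1, hXsupp _ h2])
  obtain ⟨hPi, hPle⟩ := integral_add_mul_inv_pow_le hn h (c := c) (T := 16 * l) (by positivity)
    (g := fun y => ‖v y‖ ^ 2 / l ^ 2) ((hcv.norm.pow 2).div_const _) (fun y => by positivity)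
  have hPle' : ∫ q in N ×ˢ N, P q ∂(ν.prod ν) ≤ 2 * (2 ^ n * C * (2 * (16 * l))) * (Q / l ^ 2) := by
    refine hPle.trans ?_
    rw [integral_div]
    gcongr
  have hpt := nField_pointwise hn ν c hl p W
  have hM0 : ∀ q, 0 ≤ M q := fun q => by positivity
  have hMi : IntegrableOn M (N ×ˢ N) (ν.prod ν) := by
    refine ((hG0i.integrableOn.const_mul 2).add (hPi.const_mul 8)).mono' ?_
      (Eventually.of_forall fun q => ?_)
    · exact (Measurable.div ((((((continuous_cutoff c l).measurable.comp measurable_fst).pow_const 2).add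
        (((continuous_cutoff c l).measurable.comp measurable_snd).pow_const 2)).div_const 2).mul
          ((((hcv.measurable.comp measurable_fst).sub (hcv.measurable.comp measurable_snd)).norm).pow_const 2))
        (by fun_prop)).aestronglyMeasurable
    · rw [Real.norm_eq_abs, abs_of_nonneg (hM0 q)]
      refine (hpt q.1 q.2).1.trans (le_of_eq ?_)
      simp only [Pi.add_apply, hG0d, hv, hX]
      ring
  refine ⟨∫ q in N ×ˢ N, M q ∂(ν.prod ν), integral_nonneg fun q => hM0 q, ?_, ?_, ?_⟩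
  · have hsub : Metric.ball c (3 * l) ×ˢ Metric.ball c (3 * l) ⊆ N ×ˢ N :=
      Set.prod_mono (Metric.ball_subset_ball (by linarith)) (Metric.ball_subset_ball (by linarith))
    calc ∫ q in Metric.ball c (3 * l) ×ˢ Metric.ball c (3 * l),
          ‖perp W (q.1 - q.2)‖ ^ 2 / dist q.1 q.2 ^ (n + 1) ∂(ν.prod ν)
        = ∫ q in Metric.ball c (3 * l) ×ˢ Metric.ball c (3 * l), M q ∂(ν.prod ν) := by
          refine setIntegral_congr_fun (measurableSet_ball.prod measurableSet_ball) fun q hq => ?_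
          simp only [hMd, cutoff_eq_one hl (Metric.mem_ball.1 hq.1).le,
            cutoff_eq_one hl (Metric.mem_ball.1 hq.2).le, hv, nCoord, sub_sub_sub_cancel_right]
          rw [← perp_map_sub, sub_sub_sub_cancel_right]
          ring
      _ ≤ _ := setIntegral_mono_set hMi (Eventually.of_forall hM0) hsub.eventuallyLE
  · have h1 : ∫ q in N ×ˢ N, M q ∂(ν.prod ν) ≤
        2 * (∫ q in N ×ˢ N, G0 q ∂(ν.prod ν)) + 8 * ∫ q in N ×ˢ N, P q ∂(ν.prod ν) := by
      rw [← integral_const_mul, ← integral_const_mul,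
        ← integral_add (hG0i.integrableOn.const_mul 2) (hPi.const_mul 8)]
      refine integral_mono hMi ((hG0i.integrableOn.const_mul 2).add (hPi.const_mul 8)) fun q => ?_
      refine (hpt q.1 q.2).1.trans (le_of_eq ?_)
      simp only [Pi.add_apply, hG0d, hv, hX]
      ring
    have h2 : 2 * pair n ν X = ∫ q, G0 q ∂(ν.prod ν) := by rw [pair]; ring
    have h4 := abs_le.1 ha
    have h5 := le_abs_self (pair n ν X)
    linarith
  · have h1 : ∫ q in N ×ˢ N, e0 q ∂(ν.prod ν) ≤
        2 * (∫ q in N ×ˢ N, M q ∂(ν.prod ν)) + 8 * ∫ q in N ×ˢ N, P q ∂(ν.prod ν) := by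
      rw [← integral_const_mul, ← integral_const_mul,
        ← integral_add (hMi.const_mul 2) (hPi.const_mul 8)]
      refine integral_mono he0i.integrableOn ((hMi.const_mul 2).add (hPi.const_mul 8)) fun q => ?_
      refine (hpt q.1 q.2).2.trans (le_of_eq ?_)
      simp only [Pi.add_apply, hMd, hv, hX]
      ring
    show ∫ q, e0 q ∂(ν.prod ν) ≤ _
    linarith

/-- The test field, normalised, is a molecule: its pairing is bounded by the coefficient. -/
theorem abs_pair_nField_le (hn : 1 ≤ n) (h : Nice n C A ν x₀ R) {c : E} {l : ℝ} (hl : 0 < l)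
    (p : E) (W : Submodule ℝ E) (hη : (∫ y, cutoff c l y ^ 2 ∂ν) ≠ 0) {S Q Y : ℝ} (hS : 0 < S)
    (hV : ∫ y in Metric.ball c (16 * l), ‖nCoord ν c l p W y‖ ^ 2 ∂ν ≤ Q)
    (hY : Q + l * energy n ν (nField ν c l p W) + S ^ 2 * l ^ (n + 2) = Y * l ^ (n + 2)) :
    0 < Y ∧ |pair n ν (nField ν c l p W)| ≤ coef n ν c l * Real.sqrt Y * l ^ (n + 1) := by
  have := h.finite
  set v := nCoord ν c l p W with hv
  set N := Metric.ball c (16 * l) with hN
  have hcv : Continuous v := continuous_nCoord ν c l p W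
  set X := nField ν c l p W with hX
  obtain ⟨L, hL⟩ := exists_lipschitz_nField hl ν p W (c := c)
  have hXsupp : ∀ y, y ∉ N → X y = 0 := fun y hy => nField_eq_zero hl p W hy
  obtain ⟨B, hB⟩ := (isCompact_closedBall c (16 * l)).exists_bound_of_continuousOn
    hL.continuous.continuousOn
  have hXb : ∀ y, ‖X y‖ ≤ max B 0 := fun y => by
    by_cases hy : y ∈ N
    · exact (hB y (Metric.ball_subset_closedBall hy)).trans (le_max_left _ _)
    · rw [hXsupp y hy, norm_zero]; exact le_max_right _ _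
  have hX2i : Integrable (fun y => ‖X y‖ ^ 2) ν :=
    (h.memLp_lipschitz hL ⟨max B 0, hXb⟩).integrable_norm_pow two_ne_zero
  have hX2 : ∫ y, ‖X y‖ ^ 2 ∂ν ≤ Q := by
    rw [← setIntegral_eq_integral_of_forall_compl_eq_zero (s := N) fun y hy => by
      rw [hXsupp y hy, norm_zero, zero_pow two_ne_zero]]
    refine (setIntegral_mono_on hX2i.integrableOn
      (integrableOn_ball_cont (hcv.norm.pow 2) _ _) measurableSet_ball fun y _ => ?_).trans hV
    show ‖cutoff c l y ^ 2 • v y‖ ^ 2 ≤ ‖v y‖ ^ 2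
    rw [norm_smul, norm_pow, Real.norm_eq_abs, abs_of_nonneg (cutoff_mem c l y).1]
    exact pow_le_pow_left₀ (by positivity) (mul_le_of_le_one_left (norm_nonneg _)
      (pow_le_one₀ (cutoff_mem c l y).1 (cutoff_mem c l y).2)) 2
  have hX20 : 0 ≤ ∫ y, ‖X y‖ ^ 2 ∂ν := integral_nonneg fun y => sq_nonneg _
  have hE0 := energy_nonneg n ν X
  have hYpos : 0 < Y := by
    refine pos_of_mul_pos_left (b := l ^ (n + 2)) ?_ (by positivity)
    rw [← hY]
    exact add_pos_of_nonneg_of_pos (add_nonneg (hX20.trans hX2) (mul_nonneg hl.le hE0))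
      (by positivity)
  refine ⟨hYpos, ?_⟩
  have hlam0 : 0 < Real.sqrt Y * l := mul_pos (Real.sqrt_pos.2 hYpos) hl
  set lam := Real.sqrt Y * l with hlam
  have hmol : Mol n ν c l (fun y => lam⁻¹ • X y) := by
    refine ⟨⟨‖lam⁻¹‖₊ * L, LipschitzWith.of_dist_le_mul fun x y => ?_⟩, fun y hy => ?_, ?_, ?_⟩
    · rw [dist_eq_norm, ← smul_sub, norm_smul, ← dist_eq_norm, NNReal.coe_mul, coe_nnnorm, mul_assoc]
      exact mul_le_mul_of_nonneg_left (hL.dist_le_mul x y) (norm_nonneg _)
    · show lam⁻¹ • (cutoff c l y ^ 2 • v y) = 0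
      rw [cutoff_eq_zero hl (by linarith), zero_pow two_ne_zero, zero_smul, smul_zero]
    · rw [integral_smul]
      have hmeanX : ∫ y, X y ∂ν = 0 := by
        have hi1 : Integrable (fun y => cutoff c l y ^ 2 • nMean ν c l p W) ν :=
          (Integrable.of_bound ((continuous_cutoff c l).pow 2).aestronglyMeasurable 1
            (Eventually.of_forall fun y => by
              simp only [Pi.pow_apply]
              rw [norm_pow, Real.norm_eq_abs, abs_of_nonneg (cutoff_mem c l y).1]
              exact pow_le_one₀ (cutoff_mem c l y).1 (cutoff_mem c l y).2)).smul_const _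
        have hXi : Integrable X ν :=
          Integrable.of_bound hL.continuous.aestronglyMeasurable (max B 0)
            (Eventually.of_forall hXb)
        have hi2 : Integrable (fun y => cutoff c l y ^ 2 • perp W (y - p)) ν :=
          (hXi.add hi1).congr (Eventually.of_forall fun y => by
            simp only [Pi.add_apply, hX, nField, nCoord, smul_sub]; abel)
        have e : X = fun y => cutoff c l y ^ 2 • perp W (y - p) - cutoff c l y ^ 2 • nMean ν c l p W := by
          funext y; simp only [hX, nField, nCoord, smul_sub]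
        rw [e, integral_sub hi2 hi1, integral_smul_const, nMean, smul_smul, mul_inv_cancel₀ hη,
          one_smul, sub_self]
      rw [hmeanX, smul_zero]
    · have e1 : ∫ y, ‖lam⁻¹ • X y‖ ^ 2 ∂ν = lam⁻¹ ^ 2 * ∫ y, ‖X y‖ ^ 2 ∂ν := by
        rw [← integral_const_mul]
        exact integral_congr_ae (Eventually.of_forall fun y => by
          simp only [norm_smul, mul_pow, Real.norm_eq_abs, sq_abs])
      have e2 : energy n ν (fun y => lam⁻¹ • X y) = lam⁻¹ ^ 2 * energy n ν X := by
        rw [energy, energy, ← integral_const_mul]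
        exact integral_congr_ae (Eventually.of_forall fun q => by
          simp only [← smul_sub, norm_smul, mul_pow, Real.norm_eq_abs, sq_abs, mul_div_assoc])
      rw [e1, e2, inv_pow, mul_left_comm, ← mul_add, inv_mul_le_iff₀ (pow_pos hlam0 2), hlam,
        mul_pow, Real.sq_sqrt hYpos.le]
      have : Y * l ^ 2 * l ^ n = Y * l ^ (n + 2) := by ring
      rw [this, ← hY]
      linarith [show 0 ≤ S ^ 2 * l ^ (n + 2) by positivity]
  have h1 := h.abs_pair_le_coef hn hl hmol
  have e : pair n ν (fun y => lam⁻¹ • X y) = lam⁻¹ * pair n ν X := by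
    rw [pair, pair]
    simp only [← smul_sub, real_inner_smul_left, integral_const_mul]
    ring
  rw [e, abs_mul, abs_of_pos (inv_pos.2 hlam0), inv_mul_le_iff₀ hlam0] at h1
  refine h1.trans (le_of_eq ?_)
  rw [hlam, pow_succ]; ring

/-- Module D1. -/
theorem energyBound (hn : 1 ≤ n) : EnergyBound E n := by
  intro C A hC hA
  have hC0 : 0 ≤ C := zero_le_one.trans hC
  obtain ⟨D, hD⟩ : ∃ D, D = C * Real.sqrt (C * 4 ^ n) := ⟨_, rfl⟩
  obtain ⟨K2, hK2⟩ : ∃ K2, K2 = 2 * 256 * 16 ^ (n + 2) + 2 * D ^ 2 * C * 16 ^ n := ⟨_, rfl⟩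
  obtain ⟨KG, hKG⟩ : ∃ KG, KG = 16 ^ (n + 2) * Real.sqrt (C * 4 ^ n) +
      2 ^ (n + 1) * C * (6 + D) + D * (2 ^ (n + 1) * C / 256) := ⟨_, rfl⟩
  obtain ⟨KV, hKV⟩ : ∃ KV, KV = 2 * (2 ^ n * C * (2 * 16)) * K2 * 8 := ⟨_, rfl⟩
  obtain ⟨KB, hKB⟩ : ∃ KB, KB = 2 ^ (n + 1) * K2 * (2 ^ (n + 1) * C / 16) := ⟨_, rfl⟩
  obtain ⟨KF, hKF⟩ : ∃ KF, KF = KB + 4 * ((n + 1) * 4 ^ (n + 1)) *
      Real.sqrt (K2 * (C * 16 ^ n)) * KG := ⟨_, rfl⟩
  obtain ⟨KT, hKT⟩ : ∃ KT, KT = 3 + 3 * K2 + 4 * KF + 4 * KV + 4 * KB := ⟨_, rfl⟩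
  have hD0 : 0 ≤ D := by rw [hD]; positivity
  have hK20 : 0 ≤ K2 := by rw [hK2]; positivity
  have hKG0 : 0 ≤ KG := by rw [hKG]; positivity
  have hKV0 : 0 ≤ KV := by rw [hKV]; positivity
  have hKB0 : 0 ≤ KB := by rw [hKB]; positivity
  have hKF0 : 0 ≤ KF := by rw [hKF]; positivity
  have hKT1 : 1 ≤ KT := by linarith
  refine ⟨16 * KT, by linarith, fun ν x₀ R h cs j₀ j hj hmem hch p W _ => ?_⟩
  have hR := h.2.2.1
  obtain ⟨hcs, hcd⟩ := hmem j hj.le le_rfl
  obtain ⟨hm, huc, hV2⟩ := nCoord_bounds h hj hmem hch p W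
  rw [← hD] at hm huc hV2
  rw [← hK2] at hV2
  obtain ⟨hl0, hlR⟩ : 0 < scale R j ∧ scale R j ≤ R / 65536 := ⟨scale_pos hR j, scale_le hR j⟩
  have hSpos : 0 < flatSum ν n R cs j₀ j p W :=
    lt_of_lt_of_le (by positivity : (0 : ℝ) < (1 / 16) ^ (j - j₀))
      (le_add_of_nonneg_right (Finset.sum_nonneg fun i _ =>
        mul_nonneg (by positivity) (Real.sqrt_nonneg _)))
  have hη := (cutoff_mass_pos h hl0 hlR hcs hcd).ne'
  obtain ⟨hGi, hG⟩ := far_moment_le h hj hch (p := p) (W := W) rfl rfl hD0 hm huc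
  rw [← hKG] at hG
  have hV1 := first_moment_le h hl0 hSpos.le hK20 (continuous_nCoord ν (cs j) _ p W) hV2
  obtain ⟨hfar1, hfar2⟩ := far_pair_le hn h hl0 hη hV2 hV1 hG hGi
  obtain ⟨T, hT0, hTle, hT, hE⟩ := main_term_le hn h hl0 p W hfar1 hfar2 hV2
  show _ ≤ 16 * KT * (flatSum ν n R cs j₀ j p W ^ 2 + _) * _
  generalize flatSum ν n R cs j₀ j p W = S at hSpos hV2 hT hE ⊢
  generalize scale R j = l at hl0 hlR hη hV2 hTle hT hE ⊢
  generalize hc : cs j = c at hη hV2 hTle hT hE ⊢
  have hln : 0 < l ^ (n + 1) := by positivity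
  obtain ⟨Y, hY⟩ : ∃ Y, K2 * S ^ 2 * l ^ (n + 2) + l * energy n ν (nField ν c l p W) +
      S ^ 2 * l ^ (n + 2) = Y * l ^ (n + 2) :=
    ⟨_, (div_mul_cancel₀ _ (by positivity)).symm⟩
  obtain ⟨hYpos, hpair⟩ := abs_pair_nField_le hn h hl0 p W hη hSpos hV2 hY
  have ea : 4 * (2 ^ (n + 1) * (K2 * S ^ 2 * l ^ (n + 2)) * (2 ^ (n + 1) * C / (16 * l)) +
      4 * ((n + 1) * 4 ^ (n + 1)) * l * (Real.sqrt (K2 * (C * 16 ^ n)) * (S * l ^ (n + 1))) *
        (KG * S / l)) = 4 * KF * (S ^ 2 * l ^ (n + 1)) := by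
    rw [hKF, hKB, pow_succ l (n + 1)]; field_simp
  have eb : 2 * (2 ^ (n + 1) * (K2 * S ^ 2 * l ^ (n + 2)) * (2 ^ (n + 1) * C / (16 * l))) =
      2 * KB * (S ^ 2 * l ^ (n + 1)) := by
    rw [hKB, pow_succ l (n + 1)]; field_simp
  have ev : 8 * (2 * (2 ^ n * C * (2 * (16 * l))) * (K2 * S ^ 2 * l ^ (n + 2) / l ^ 2)) =
      KV * (S ^ 2 * l ^ (n + 1)) := by
    rw [hKV, pow_succ l (n + 1)]; field_simp
  rw [ea, ev] at hT
  rw [eb, ev] at hE
  have hY' : Y ≤ KT * (S ^ 2 + T / l ^ (n + 1)) := by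
    refine le_of_mul_le_mul_right ?_ (by positivity : 0 < l ^ (n + 2))
    rw [← hY]
    have h1 := mul_le_mul_of_nonneg_left hE hl0.le
    have h2 : KT * (S ^ 2 + T / l ^ (n + 1)) * l ^ (n + 2) =
        KT * (S ^ 2 * l ^ (n + 2)) + KT * (l * T) := by
      rw [pow_succ l (n + 1)]; field_simp
    have h3 : (0 : ℝ) ≤ S ^ 2 * l ^ (n + 2) := by positivity
    have h4 : (K2 + (KV + 2 * KB) + 1) * (S ^ 2 * l ^ (n + 2)) ≤ KT * (S ^ 2 * l ^ (n + 2)) :=
      mul_le_mul_of_nonneg_right (by linarith) h3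
    have h5 : 2 * (l * T) ≤ KT * (l * T) :=
      mul_le_mul_of_nonneg_right (by linarith) (mul_nonneg hl0.le hT0)
    have h6 : l * (2 * T + 2 * KB * (S ^ 2 * l ^ (n + 1)) + KV * (S ^ 2 * l ^ (n + 1))) =
        2 * (l * T) + (KV + 2 * KB) * (S ^ 2 * l ^ (n + 2)) := by ring
    linarith
  have hT2 : T / l ^ (n + 1) ≤ 4 * coef n ν c l * Real.sqrt Y + KT * S ^ 2 := by
    rw [div_le_iff₀ hln]
    have h4 : (4 * KF + KV) * (S ^ 2 * l ^ (n + 1)) ≤ KT * (S ^ 2 * l ^ (n + 1)) :=
      mul_le_mul_of_nonneg_right (by linarith) (by positivity)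
    linarith
  have hfinal := absorb hKT1 hY' hYpos.le hT2
  rw [div_le_iff₀ hln] at hfinal
  exact hTle.trans hfinal

end

end Vale.Agent.P120.Full
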