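import Vale.Agent.P120.Full.DecayBuildPlanes
import Vale.Agent.P120.Full.DecayBuildPair
import Vale.Agent.P120.Full.Energy

/-!
# P120, full answer: the blow-up sequence

A normalised chain with small flatness and negligible coefficients gives a flattening: the plane is
a nearly optimal plane of the last level, the frame is adapted to it.
-/

namespace Vale.Agent.P120.Full

open MeasureTheory Set Filter
open scoped Topology RealInnerProductSpace

noncomputable section

variable {E : Type*} [NormedAddCommGroup E] [InnerProductSpace ℝ E] [MeasurableSpace E]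
  [BorelSpace E] [FiniteDimensional ℝ E] {n m : ℕ} {C A R : ℝ} {ν : Measure E} {x₀ : E}
  {c : ℕ → E} {j₀ k : ℕ}

lemma NormalChain.scale_eq_pow (h : NormalChain E n C A ν x₀ R c j₀ k) {j : ℕ} (hj : j ≤ k) :
    scale R j = 16 ^ (k - j) := by
  have e := scale_eq R hj
  rw [h.2.2.2.2.2, one_div, inv_pow, eq_inv_mul_iff_mul_eq₀ (by positivity), mul_one] at e
  exact e.symm

lemma NormalChain.norm_centre_le (h : NormalChain E n C A ν x₀ R c j₀ k) {j : ℕ} (hj₀ : j₀ ≤ j)
    (hj : j ≤ k) : ‖c j‖ ≤ 32 / 15 * (16 : ℝ) ^ (k - j) := by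
  obtain ⟨hN, -, -, hd, hc0, hs1⟩ := id h
  have e := chain_dist hN.2.2.1 hj fun i h1 h2 => hd i (by omega) (by omega)
  rw [hc0, hs1, h.scale_eq_pow hj, dist_comm, dist_zero_right] at e
  linarith

lemma bHat_ge (n : ℕ) (ν : Measure E) (R : ℝ) (c : ℕ → E) (j₀ k : ℕ) :
    (1 / 4 : ℝ) ^ (k - j₀) ≤ bHat n ν R c j₀ k :=
  le_add_of_nonneg_right (Finset.sum_nonneg fun j _ => mul_nonneg (by positivity)
    (Real.sInf_nonneg (by rintro b ⟨p, W, -, rfl⟩; exact Real.sqrt_nonneg _)))

/-- The radius of the chain is large against the size of the heights. -/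
lemma NormalChain.radius_ge (h : NormalChain E n C A ν x₀ R c j₀ k) {T : ℝ} (hT : 0 < T)
    (hb : bHat n ν R c j₀ k < (4 * T)⁻¹) : T ≤ R / 4 := by
  have hR : R = 16 ^ (k + 4) := by
    have e := h.2.2.2.2.2
    rw [scale, one_div, inv_pow, ← div_eq_mul_inv, div_eq_one_iff_eq (by positivity)] at e
    exact e
  have h2 := (bHat_ge n ν R c j₀ k).trans_lt hb
  rw [one_div, inv_pow, inv_lt_inv₀ (by positivity) (by positivity)] at h2
  have h3 : (4 : ℝ) ^ (k - j₀) ≤ 16 ^ (k + 4) :=
    (pow_le_pow_left₀ (by norm_num) (by norm_num) _).trans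
      (pow_le_pow_right₀ (by norm_num) (by omega))
  linarith

/-- A plane as flat as the sum of the beta numbers at all levels has small heights at all scales. -/
lemma NormalChain.height_le (h : NormalChain E n C A ν x₀ R c j₀ k) {K : ℝ} {p : E}
    {W : Submodule ℝ E}
    (hfl : ∀ j, j₀ ≤ j → j ≤ k →
      flatness ν n (c j) (scale R j) p W ≤ K * 4 ^ (k - j) * bHat n ν R c j₀ k)
    {T : ℝ} (hT : 1 ≤ T) :
    ∫ y in Metric.ball 0 T, ‖perp W (y - p)‖ ^ 2 ∂ν ≤
      (K ^ 2 * 16 ^ (n + 3) + C * (2 * 5 ^ 2 + 2 * (4 * Real.sqrt C * K) ^ 2)) *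
        bHat n ν R c j₀ k ^ 2 * T ^ (n + 3) := by
  obtain ⟨hN, hjk, hc, -, hc0, hs1⟩ := id h
  have := hN.finite
  have hC0 : 0 < C := lt_of_lt_of_le one_pos hN.1
  have hR := hN.2.2.1
  set B := bHat n ν R c j₀ k
  have hBge := bHat_ge n ν R c j₀ k
  have hB : 0 < B := lt_of_lt_of_le (by positivity) hBge
  have hex : ∃ d : ℕ, T ≤ 16 ^ d := (pow_unbounded_of_one_lt T (by norm_num)).imp fun _ h => h.le
  set d := Nat.find hex with hdd
  have hd : T ≤ 16 ^ d := Nat.find_spec hex
  rcases le_or_gt d (k - j₀) with hdk | hdk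
  · -- the ball lies in the ball of an ancestor
    set j := k - d with hj
    have hj0 : j₀ ≤ j := by omega
    have hjk' : j ≤ k := by omega
    have hkj : k - j = d := by omega
    have hd16 : (16 : ℝ) ^ d ≤ 16 * T := by
      rcases Nat.eq_zero_or_pos d with h0 | h0
      · rw [h0, pow_zero]; linarith
      · have := not_le.1 (Nat.find_min hex (show d - 1 < d by omega))
        rw [show d = (d - 1) + 1 by omega, pow_succ]
        linarith
    have hl := h.scale_eq_pow hjk'
    rw [hkj] at hl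
    have hcj := h.norm_centre_le hj0 hjk'
    rw [hkj] at hcj
    have hsub : Metric.ball (0 : E) T ⊆ Metric.ball (c j) (4 * scale R j) := by
      refine Metric.ball_subset_ball' ?_
      rw [dist_comm, dist_zero_right, hl]
      linarith [show (0 : ℝ) < 16 ^ d by positivity]
    have hii : IntegrableOn (fun y => ‖perp W (y - p)‖ ^ 2) (Metric.ball (c j) (4 * scale R j)) ν :=
      integrableOn_ball_of_continuous ((continuous_perp _ _).norm.pow 2) _ _
    refine (setIntegral_mono_set hii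
      (Eventually.of_forall fun x => by simp only [Pi.zero_apply]; positivity)
      hsub.eventuallyLE).trans ?_
    rw [flatness_sq_mul n ν _ (scale_pos hR j)]
    have hf := hfl j hj0 hjk'
    rw [hkj] at hf
    calc flatness ν n (c j) (scale R j) p W ^ 2 * scale R j ^ (n + 2)
        ≤ (K * 4 ^ d * B) ^ 2 * scale R j ^ (n + 2) := mul_le_mul_of_nonneg_right
          (pow_le_pow_left₀ (Real.sqrt_nonneg _) hf 2) (pow_nonneg (scale_pos hR j).le _)
      _ = K ^ 2 * B ^ 2 * ((16 : ℝ) ^ d) ^ (n + 3) := by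
          rw [hl, mul_pow, mul_pow, ← pow_mul 4, mul_comm d 2, pow_mul, pow_succ _ (n + 2)]
          norm_num
          ring
      _ ≤ K ^ 2 * B ^ 2 * (16 * T) ^ (n + 3) :=
          mul_le_mul_of_nonneg_left (pow_le_pow_left₀ (by positivity) hd16 _) (by positivity)
      _ = K ^ 2 * 16 ^ (n + 3) * B ^ 2 * T ^ (n + 3) := by rw [mul_pow]; ring
      _ ≤ _ := by
          refine mul_le_mul_of_nonneg_right (mul_le_mul_of_nonneg_right
            (le_add_of_nonneg_right ?_) (sq_nonneg B)) (by positivity)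
          positivity
  · -- beyond the top of the chain the trivial bound is enough
    have hTk : (16 : ℝ) ^ (k - j₀) < T := not_le.1 (Nat.find_min hex hdk)
    have hBT : 1 ≤ T * B ^ 2 := by
      calc (1 : ℝ) = 16 ^ (k - j₀) * ((1 / 4) ^ (k - j₀)) ^ 2 := by
            rw [← pow_mul, mul_comm (k - j₀) 2, pow_mul, ← mul_pow]; norm_num
        _ ≤ T * B ^ 2 := mul_le_mul hTk.le (pow_le_pow_left₀ (by positivity) hBge 2)
            (by positivity) (by linarith)
    set f := flatness ν n (c k) (scale R k) p W with hf'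
    have hf : f ≤ K * B := by simpa using hfl k hjk le_rfl
    have hf0 : 0 ≤ f := Real.sqrt_nonneg _
    have hI : ∫ y in Metric.ball (0 : E) 4, ‖perp W (y - p)‖ ^ 2 ∂ν ≤
        (f / 2) ^ 2 * 4 ^ (n + 2) := by
      have e := flatness_sq_mul n ν (c k) (scale_pos hR k) p W
      rw [← hf', hs1, hc0, mul_one, one_pow, mul_one] at e
      rw [e]
      nlinarith [sq_nonneg f,
        mul_le_mul_of_nonneg_left (show (4 : ℝ) ≤ 4 ^ (n + 2) from le_self_pow₀ (by norm_num) (by omega))
          (sq_nonneg f)]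
    obtain ⟨hck, hckx⟩ := hc k hjk (by omega)
    rw [hc0] at hck hckx
    have h4 : (4 : ℝ) ≤ R / 8 := by
      have := scale_le hR k
      rw [hs1] at this
      linarith
    obtain ⟨y₀, hy₀, hg, -⟩ := hN.exists_near_planes hck (by linarith) (by norm_num) h4
      (div_nonneg hf0 zero_le_two) (div_nonneg hf0 zero_le_two) hI hI
    rw [Metric.mem_ball, dist_zero_right] at hy₀
    set s := 4 * Real.sqrt C * K with hs
    have hpt : ∀ y ∈ Metric.ball (0 : E) T, ‖perp W (y - p)‖ ^ 2 ≤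
        (2 * 5 ^ 2 + 2 * s ^ 2) * B ^ 2 * T ^ 3 := fun y hy => by
      rw [Metric.mem_ball, dist_zero_right] at hy
      have h1 : ‖perp W (y - p)‖ ≤ 5 * T + s * B := by
        have e : perp W (y - p) = perp W (y - y₀) + perp W (y₀ - p) := by
          rw [← perp_add]; congr 1; abel
        rw [e]
        refine (norm_add_le _ _).trans (add_le_add ?_ (hg.trans ?_))
        · exact (norm_perp_le _ _).trans ((norm_sub_le _ _).trans (by linarith))
        · have := mul_le_mul_of_nonneg_left hf (Real.sqrt_nonneg C)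
          rw [hs]
          linarith
      calc ‖perp W (y - p)‖ ^ 2 ≤ (5 * T + s * B) ^ 2 :=
            pow_le_pow_left₀ (norm_nonneg _) h1 2
        _ ≤ 2 * (5 * T) ^ 2 + 2 * (s * B) ^ 2 := by nlinarith [sq_nonneg (5 * T - s * B)]
        _ = 2 * 5 ^ 2 * T ^ 2 * 1 + 2 * s ^ 2 * B ^ 2 * 1 := by ring
        _ ≤ 2 * 5 ^ 2 * T ^ 2 * (T * B ^ 2) + 2 * s ^ 2 * B ^ 2 * T ^ 3 :=
            add_le_add (mul_le_mul_of_nonneg_left hBT (by positivity))
              (mul_le_mul_of_nonneg_left (one_le_pow₀ hT) (by positivity))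
        _ = _ := by ring
    calc ∫ y in Metric.ball (0 : E) T, ‖perp W (y - p)‖ ^ 2 ∂ν
        ≤ ∫ _ in Metric.ball (0 : E) T, (2 * 5 ^ 2 + 2 * s ^ 2) * B ^ 2 * T ^ 3 ∂ν :=
          setIntegral_mono_on (integrableOn_ball_of_continuous
            ((continuous_perp _ _).norm.pow 2) _ _) (integrable_const _).integrableOn
            measurableSet_ball hpt
      _ = ν.real (Metric.ball (0 : E) T) * ((2 * 5 ^ 2 + 2 * s ^ 2) * B ^ 2 * T ^ 3) := by
          rw [setIntegral_const, smul_eq_mul]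
      _ ≤ C * T ^ n * ((2 * 5 ^ 2 + 2 * s ^ 2) * B ^ 2 * T ^ 3) :=
          mul_le_mul_of_nonneg_right (hN.2.2.2.2.1 _ _ (by linarith)) (by positivity)
      _ = C * (2 * 5 ^ 2 + 2 * s ^ 2) * B ^ 2 * T ^ (n + 3) := by rw [pow_add]; ring
      _ ≤ _ := by
          refine mul_le_mul_of_nonneg_right (mul_le_mul_of_nonneg_right
            (le_add_of_nonneg_left ?_) (sq_nonneg B)) (by positivity)
          positivity

/-- The energy of the heights in a fixed ball. -/
lemma exists_energy_le (hn : 1 ≤ n) (hC : 1 ≤ C) (hA : 0 ≤ A) {K₁ : ℝ} (hK₁ : 0 ≤ K₁) (J : ℕ) :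
    ∃ K : ℝ, ∀ (ν : Measure E) (x₀ : E) (R : ℝ) (c : ℕ → E) (j₀ k : ℕ),
      NormalChain E n C A ν x₀ R c j₀ k → J < k - j₀ →
      eHat n ν R c j₀ k ≤ bHat n ν R c j₀ k →
      ∀ (p : E) (W : Submodule ℝ E), Module.finrank ℝ W = n →
        (∀ j, j₀ ≤ j → j ≤ k →
          flatness ν n (c j) (scale R j) p W ≤ K₁ * 4 ^ (k - j) * bHat n ν R c j₀ k) →
        ∀ T : ℝ, 2 * T ≤ 16 ^ J →
          ∫ q in Metric.ball (0 : E) T ×ˢ Metric.ball (0 : E) T,
              ‖perp W (q.1 - q.2)‖ ^ 2 / dist q.1 q.2 ^ (n + 1) ∂(ν.prod ν) ≤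
            K * bHat n ν R c j₀ k ^ 2 := by
  obtain ⟨KE, hKE, hEB⟩ := energyBound (E := E) hn C A hC hA
  refine ⟨KE * (((4 : ℝ) ^ J * (1 + 2 * K₁)) ^ 2 + (4 ^ J) ^ 2) * (16 ^ J) ^ (n + 1), ?_⟩
  intro ν x₀ R c j₀ k h hJ he p W hW hfl T hT
  obtain ⟨hN, hjk, hc, hd, -, -⟩ := id h
  have := hN.finite
  have hR := hN.2.2.1
  set B := bHat n ν R c j₀ k
  have hBge := bHat_ge n ν R c j₀ k
  have hB : 0 < B := lt_of_lt_of_le (by positivity) hBge
  set j := k - J with hj
  have hkj : k - j = J := by omega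
  have hl : scale R j = 16 ^ J := by rw [h.scale_eq_pow (by omega), hkj]
  have hsub : Metric.ball (0 : E) T ⊆ Metric.ball (c j) (3 * scale R j) := by
    refine Metric.ball_subset_ball' ?_
    have hcj := h.norm_centre_le (show j₀ ≤ j by omega) (show j ≤ k by omega)
    rw [hkj] at hcj
    rw [dist_comm, dist_zero_right, hl]
    linarith [show (0 : ℝ) < 16 ^ J by positivity]
  have hii : IntegrableOn (fun q : E × E => ‖perp W (q.1 - q.2)‖ ^ 2 / dist q.1 q.2 ^ (n + 1))
      (Metric.ball (c j) (3 * scale R j) ×ˢ Metric.ball (c j) (3 * scale R j)) (ν.prod ν) := by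
    have hL : LipschitzWith 1 (perp W) := LipschitzWith.of_dist_le_mul fun x y => by
      rw [NNReal.coe_one, one_mul, dist_eq_norm, ← perp_sub, dist_eq_norm]
      exact norm_perp_le _ _
    have := hN.integrable_energy hn hL
    simp only [← perp_sub] at this
    exact this.integrableOn
  refine (setIntegral_mono_set hii
    (Eventually.of_forall fun q => by simp only [Pi.zero_apply]; positivity)
    (prod_mono hsub hsub).eventuallyLE).trans ?_
  refine (hEB ν x₀ R hN c j₀ j (by omega) (fun i h1 h2 => hc i h1 (by omega))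
    (fun i h1 h2 => hd i h1 (by omega)) p W hW).trans ?_
  rw [hl]
  have hsum : (1 / 16 : ℝ) ^ (j - j₀) + ∑ i ∈ Finset.Icc j₀ j,
      (1 / 16 : ℝ) ^ (j - i) * flatness ν n (c i) (scale R i) p W ≤
      4 ^ J * (1 + 2 * K₁) * B := by
    have t1 : (1 / 16 : ℝ) ^ (j - j₀) ≤ 4 ^ J * B := by
      refine (pow_le_pow_left₀ (by norm_num) (by norm_num : (1 / 16 : ℝ) ≤ 1 / 4) _).trans
        (le_trans (le_of_eq ?_) (mul_le_mul_of_nonneg_left hBge (by positivity)))
      rw [show k - j₀ = J + (j - j₀) by omega, pow_add, ← mul_assoc, ← mul_pow]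
      norm_num
    have t2 : ∀ i ∈ Finset.Icc j₀ j, (1 / 16 : ℝ) ^ (j - i) * flatness ν n (c i) (scale R i) p W ≤
        (1 / 4 : ℝ) ^ (j - i) * (4 ^ J * K₁ * B) := fun i hi => by
      obtain ⟨h1, h2⟩ := Finset.mem_Icc.1 hi
      refine (mul_le_mul_of_nonneg_left (hfl i h1 (by omega)) (by positivity)).trans (le_of_eq ?_)
      rw [show k - i = (j - i) + J by omega, pow_add,
        show (1 / 4 : ℝ) = 1 / 16 * 4 by norm_num, mul_pow]
      ring
    have t3 : ∑ i ∈ Finset.Icc j₀ j, (1 / 4 : ℝ) ^ (j - i) ≤ 2 := by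
      have e : ∑ i ∈ Finset.Icc j₀ j, (1 / 4 : ℝ) ^ (j - i) ≤
          ∑ i ∈ Finset.range (j + 1), (1 / 4 : ℝ) ^ (j - i) :=
        Finset.sum_le_sum_of_subset_of_nonneg
          (fun i hi => Finset.mem_range.2 (by have := (Finset.mem_Icc.1 hi).2; omega))
          fun _ _ _ => by positivity
      refine e.trans ?_
      rw [show ∑ i ∈ Finset.range (j + 1), (1 / 4 : ℝ) ^ (j - i) =
        ∑ i ∈ Finset.range (j + 1), (1 / 4 : ℝ) ^ i from
          Finset.sum_range_reflect (fun i => (1 / 4 : ℝ) ^ i) (j + 1)]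
      calc ∑ i ∈ Finset.range (j + 1), (1 / 4 : ℝ) ^ i ≤ (1 - 1 / 4)⁻¹ := by
            rw [← tsum_geometric_of_lt_one (by norm_num) (by norm_num)]
            exact (summable_geometric_of_lt_one (by norm_num) (by norm_num)).sum_le_tsum _
              fun _ _ => by positivity
        _ ≤ 2 := by norm_num
    refine (add_le_add t1 ((Finset.sum_le_sum t2).trans (le_of_eq (Finset.sum_mul ..).symm))).trans ?_
    have := mul_le_mul_of_nonneg_right t3 (show 0 ≤ 4 ^ J * K₁ * B by positivity)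
    linarith
  have hcoef0 : 0 ≤ coef n ν (c j) (16 ^ J) := hN.coef_nonneg hn (by positivity) _
  have hcoef : coef n ν (c j) (16 ^ J) ≤ 4 ^ J * B := by
    have := Finset.single_le_sum
      (f := fun i => (1 / 4 : ℝ) ^ (k - i) * coef n ν (c i) (scale R i))
      (fun i _ => mul_nonneg (by positivity) (hN.coef_nonneg hn (scale_pos hR i) _))
      (Finset.mem_Icc.2 (show j₀ ≤ j ∧ j ≤ k by omega))
    simp only [hkj, hl] at this
    refine le_trans (le_of_eq ?_) (mul_le_mul_of_nonneg_left (this.trans he) (by positivity))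
    rw [← mul_assoc, ← mul_pow]
    norm_num
  have hsum0 : 0 ≤ (1 / 16 : ℝ) ^ (j - j₀) + ∑ i ∈ Finset.Icc j₀ j,
      (1 / 16 : ℝ) ^ (j - i) * flatness ν n (c i) (scale R i) p W :=
    add_nonneg (by positivity) (Finset.sum_nonneg fun i _ =>
      mul_nonneg (by positivity) (Real.sqrt_nonneg _))
  refine (mul_le_mul_of_nonneg_right (mul_le_mul_of_nonneg_left
    (add_le_add (pow_le_pow_left₀ hsum0 hsum 2) (pow_le_pow_left₀ hcoef0 hcoef 2)) hKE)
    (by positivity)).trans (le_of_eq ?_)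
  ring

/-- A normalised sequence with small flatness and negligible coefficients is a flattening. -/
theorem buildStatement (hn : 1 ≤ n) (hnd : n ≤ Module.finrank ℝ E) : BuildStatement E n := by
  intro C A hC hA U ν x₀ R c j₀ k hch hb he
  obtain ⟨K₁, hK₁, hplane⟩ := exists_chain_plane (E := E) (A := A) hn hnd hC
  choose p W hW hfl using fun i => hplane (ν i) (x₀ i) (R i) (c i) (j₀ i) (k i) (hch i).1 (hch i).2.1
    (fun j h1 h2 => (hch i).2.2.1 j h1 (by omega)) fun j h1 h2 => (hch i).2.2.2.1 j h1 h2.le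
  obtain ⟨m, hm⟩ : ∃ m, n + m = Module.finrank ℝ E := ⟨_, Nat.add_sub_cancel' hnd⟩
  choose b hb' using fun i => exists_frame (W i) (hW i) hm
  set o : ℕ → EuclideanSpace ℝ (Fin m) := fun i => across (b i) (p i) with ho
  set B := fun i => bHat n (ν i) (R i) (c i) (j₀ i) (k i) with hBdef
  have hBge : ∀ i, (1 / 4 : ℝ) ^ (k i - j₀ i) ≤ B i := fun i => bHat_ge _ _ _ _ _ _
  have hB0 : ∀ i, 0 < B i := fun i => lt_of_lt_of_le (by positivity) (hBge i)
  have hlen : ∀ J : ℕ, ∀ᶠ i in (U : Filter ℕ), J < k i - j₀ i := fun J => by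
    filter_upwards [hb.eventually_lt_const (show (0 : ℝ) < (1 / 4) ^ J by positivity)] with i hi
    exact (pow_lt_pow_iff_right_of_lt_one₀ (by norm_num) (by norm_num)).1 ((hBge i).trans_lt hi)
  have hh : ∀ i y, ‖height (b i) (o i) y‖ = ‖perp (W i) (y - p i)‖ := fun i y => by
    rw [← hb' i, height, ho, across_sub]
  refine ⟨m, b, o, C, K₁ ^ 2 * 16 ^ (n + 3) + C * (2 * 5 ^ 2 + 2 * (4 * Real.sqrt C * K₁) ^ 2),
    fun i => (hch i).1.finite, hC, by positivity, fun i => (hch i).1.2.2.2.2.1, fun i => ?_, ?_,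
    hB0, hb, ?_, ?_, ?_⟩
  · have := ((hch i).2.2.1 (k i) (hch i).2.1 (Nat.le_succ _)).1
    rwa [(hch i).2.2.2.2.1] at this
  · intro T
    rcases le_or_gt T 0 with hT | hT
    · exact Eventually.of_forall fun i y _ _ t ht htT => absurd (ht.trans_le htT) (not_lt.2 hT)
    filter_upwards [hb.eventually_lt_const (show (0 : ℝ) < (4 * (4 * T))⁻¹ by positivity)]
      with i hi y hy hyT t ht htT
    have hTR := (hch i).radius_ge (show 0 < 4 * T by positivity) hi
    obtain ⟨-, hx⟩ := (hch i).2.2.1 (k i) (hch i).2.1 (Nat.le_succ _)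
    rw [(hch i).2.2.2.2.1] at hx
    obtain ⟨-, -, hR, -, -, hlo, -⟩ := (hch i).1
    refine hlo y hy ?_ t ht (by linarith)
    have := dist_triangle y 0 (x₀ i)
    rw [dist_zero_right] at this
    linarith
  · intro i T hT
    simp only [hh]
    exact (hch i).height_le (hfl i) hT
  · intro T
    obtain ⟨J, hJ⟩ := pow_unbounded_of_one_lt (2 * T) (show (1 : ℝ) < 16 by norm_num)
    obtain ⟨K', hK'⟩ := exists_energy_le (E := E) (A := A) hn hC hA hK₁ J
    refine ⟨K', ?_⟩
    filter_upwards [hlen J, he 1 one_pos] with i hi hei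
    simp only [hb']
    exact hK' (ν i) (x₀ i) (R i) (c i) (j₀ i) (k i) (hch i) hi (by simpa using hei) (p i) (W i)
      (hW i) (hfl i) T hJ.le
  · intro T L ε hε
    obtain ⟨K', J, hK', hpair⟩ := exists_pairing_le (E := E) hn hnd (A := A) hC T L
    filter_upwards [hlen J, he (ε / (K' + 1)) (by positivity)] with i hi hei φ hφ hφ0 hφm
    refine (hpair (ν i) (x₀ i) (R i) (c i) (j₀ i) (k i) (hch i) (by omega) φ hφ hφ0 hφm).trans
      ((mul_le_mul_of_nonneg_left hei hK').trans ?_)
    rw [← mul_assoc]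
    refine mul_le_mul_of_nonneg_right ?_ (hB0 i).le
    rw [← mul_div_assoc, div_le_iff₀ (by positivity)]
    linarith

end

end Vale.Agent.P120.Full
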