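import Vale.Agent.P120.Full.Planes
import Vale.Agent.P120.Full.EnergyFar

/-!
# P120, full answer: nearly optimal planes along a chain

The planes of two adjacent levels differ linearly in the two flatness numbers, so the plane of the
last level is as flat at every earlier level as the weighted sum of the beta numbers allows.
-/

namespace Vale.Agent.P120.Full

open MeasureTheory Set Filter
open scoped Topology RealInnerProductSpace

noncomputable section

variable {E : Type*} [NormedAddCommGroup E] [InnerProductSpace ℝ E] [MeasurableSpace E]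
  [BorelSpace E] [FiniteDimensional ℝ E] {n : ℕ} {C A R : ℝ} {ν : Measure E} {x₀ : E}

omit [MeasurableSpace E] [BorelSpace E] in
/-- Planes at a small angle have nearby orthogonal projections. -/
lemma norm_perp_sub_perp_le {W W' : Submodule ℝ E} {θ : ℝ} (hθ : 0 ≤ θ)
    (h : ∀ w ∈ W', ‖perp W w‖ ≤ θ * ‖w‖) (h' : ∀ w ∈ W, ‖perp W' w‖ ≤ θ * ‖w‖) (x : E) :
    ‖perp W' x - perp W x‖ ≤ 2 * θ * ‖x‖ := by
  set u := perp W' x with hu
  have h1 : ‖perp W (W'.starProjection x)‖ ≤ θ * ‖x‖ :=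
    (h _ (W'.starProjection_apply_mem x)).trans
      (mul_le_mul_of_nonneg_left (W'.norm_starProjection_apply_le x) hθ)
  have h2 : ‖W.starProjection u‖ ≤ θ * ‖x‖ := by
    by_cases h0 : ‖W.starProjection u‖ = 0
    · rw [h0]; positivity
    refine le_of_mul_le_mul_left ?_ (lt_of_le_of_ne (norm_nonneg _) (Ne.symm h0))
    calc ‖W.starProjection u‖ * ‖W.starProjection u‖
        = ⟪u, W.starProjection u⟫ := by
          rw [← real_inner_self_eq_norm_mul_norm, W.inner_starProjection_left_eq_right,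
            Submodule.starProjection_eq_self_iff.2 (W.starProjection_apply_mem u)]
      _ = ⟪u, perp W' (W.starProjection u)⟫ := by rw [hu, inner_perp_left]
      _ ≤ ‖x‖ * (θ * ‖W.starProjection u‖) := (real_inner_le_norm _ _).trans
          (mul_le_mul (norm_perp_le _ _) (h' _ (W.starProjection_apply_mem u)) (norm_nonneg _)
            (norm_nonneg _))
      _ = _ := by ring
  have e : perp W' x - perp W x = W.starProjection u - perp W (W'.starProjection x) := by
    simp only [hu, perp, map_sub]; abel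
  rw [e]
  exact (norm_sub_le _ _).trans (by linarith)

/-- A point of the ball that is close to two planes. -/
lemma Nice.exists_near_planes (h : Nice n C A ν x₀ R) {z p p' : E} {W W' : Submodule ℝ E}
    {t a a' : ℝ} (hz : z ∈ ν.support) (hzx : dist z x₀ ≤ R / 4) (ht : 0 < t) (htR : t ≤ R / 8)
    (ha : 0 ≤ a) (ha' : 0 ≤ a')
    (hI : ∫ y in Metric.ball z t, ‖perp W (y - p)‖ ^ 2 ∂ν ≤ a ^ 2 * t ^ (n + 2))
    (hI' : ∫ y in Metric.ball z t, ‖perp W' (y - p')‖ ^ 2 ∂ν ≤ a' ^ 2 * t ^ (n + 2)) :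
    ∃ y₀ ∈ Metric.ball z t, ‖perp W (y₀ - p)‖ ≤ Real.sqrt C * (a + a') * t ∧
      ‖perp W' (y₀ - p')‖ ≤ Real.sqrt C * (a + a') * t := by
  have := h.finite
  obtain ⟨hC, -, hR, -, -, hlo, -⟩ := id h
  have hC0 : 0 < C := lt_of_lt_of_le one_pos hC
  have hlow := hlo z hz (by linarith) t ht (by linarith)
  have hpos : 0 < ν.real (Metric.ball z t) := lt_of_lt_of_le (by positivity) hlow
  have hi : IntegrableOn (fun y => ‖perp W (y - p)‖ ^ 2) (Metric.ball z t) ν :=
    integrableOn_ball_of_continuous ((continuous_perp W p).norm.pow 2) z t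
  have hi' : IntegrableOn (fun y => ‖perp W' (y - p')‖ ^ 2) (Metric.ball z t) ν :=
    integrableOn_ball_of_continuous ((continuous_perp W' p').norm.pow 2) z t
  obtain ⟨y₀, hy₀, hle⟩ := exists_le_setAverage (μ := ν) (s := Metric.ball z t)
    (f := fun y => ‖perp W (y - p)‖ ^ 2 + ‖perp W' (y - p')‖ ^ 2)
    (fun h0 => hpos.ne' (by rw [measureReal_def, h0, ENNReal.toReal_zero]))
    (measure_ne_top _ _) (hi.add hi')
  refine ⟨y₀, hy₀, ?_⟩
  rw [setAverage_eq, smul_eq_mul, integral_add hi hi', inv_mul_eq_div,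
    le_div_iff₀ hpos] at hle
  set s := ‖perp W (y₀ - p)‖ ^ 2 + ‖perp W' (y₀ - p')‖ ^ 2
  have hs : s ≤ C * (a ^ 2 + a' ^ 2) * t ^ 2 := by
    refine le_of_mul_le_mul_right ?_ (show 0 < C⁻¹ * t ^ n by positivity)
    calc s * (C⁻¹ * t ^ n) ≤ s * ν.real (Metric.ball z t) :=
          mul_le_mul_of_nonneg_left hlow (by positivity)
      _ ≤ a ^ 2 * t ^ (n + 2) + a' ^ 2 * t ^ (n + 2) := hle.trans (add_le_add hI hI')
      _ = _ := by rw [pow_add]; field_simp
  have hb : ∀ x : ℝ, 0 ≤ x → x ^ 2 ≤ s → x ≤ Real.sqrt C * (a + a') * t := fun x hx hxs => by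
    refine (sq_le_sq₀ hx (by positivity)).1 ((hxs.trans hs).trans ?_)
    rw [mul_pow, mul_pow, Real.sq_sqrt hC0.le]
    refine mul_le_mul_of_nonneg_right (mul_le_mul_of_nonneg_left ?_ hC0.le) (sq_nonneg t)
    nlinarith [mul_nonneg ha ha']
  exact ⟨hb _ (norm_nonneg _) (le_add_of_nonneg_right (sq_nonneg _)),
    hb _ (norm_nonneg _) (le_add_of_nonneg_left (sq_nonneg _))⟩

/-- The normal coordinates of two planes near the measure in one ball differ linearly. -/
lemma exists_perp_diff_le (hn : 1 ≤ n) (hC : 1 ≤ C) :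
    ∃ K : ℝ, 0 ≤ K ∧ ∀ (ν : Measure E) (x₀ : E) (R : ℝ), Nice n C A ν x₀ R →
      ∀ (z : E) (t a a' : ℝ) (p p' : E) (W W' : Submodule ℝ E),
        z ∈ ν.support → dist z x₀ ≤ R / 4 → 0 < t → t ≤ R / 8 → 0 ≤ a → 0 ≤ a' →
        Module.finrank ℝ W = n → Module.finrank ℝ W' = n →
        ∫ y in Metric.ball z t, ‖perp W (y - p)‖ ^ 2 ∂ν ≤ a ^ 2 * t ^ (n + 2) →
        ∫ y in Metric.ball z t, ‖perp W' (y - p')‖ ^ 2 ∂ν ≤ a' ^ 2 * t ^ (n + 2) →
        ∀ y : E, ‖perp W' (y - p') - perp W (y - p)‖ ≤ K * (a + a') * (t + dist y z) := by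
  obtain ⟨κ, hκ, hmom⟩ := exists_moment (E := E) hn hC
  set Λ := Real.sqrt (4 / κ) with hΛ
  refine ⟨2 * Real.sqrt C + 2 * Λ, by positivity, ?_⟩
  intro ν x₀ R hN z t a a' p p' W W' hz hzx ht htR ha ha' hW hW' hI hI' y
  obtain ⟨-, -, hR, -, hgr, hlo, -⟩ := id hN
  have := hN.finite
  have hlow := hlo z hz (by linarith) t ht (by linarith)
  have hΛ2 : Λ ^ 2 = 4 / κ := Real.sq_sqrt (by positivity)
  have hΛ0 : 0 ≤ Λ := Real.sqrt_nonneg _
  have hangle : ∀ (b b' : ℝ) (q q' : E) (V V' : Submodule ℝ E), 0 ≤ b → 0 ≤ b' →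
      Module.finrank ℝ V' = n →
      ∫ y in Metric.ball z t, ‖perp V (y - q)‖ ^ 2 ∂ν ≤ b ^ 2 * t ^ (n + 2) →
      ∫ y in Metric.ball z t, ‖perp V' (y - q')‖ ^ 2 ∂ν ≤ b' ^ 2 * t ^ (n + 2) →
      ∀ w ∈ V', ‖perp V w‖ ≤ Λ * (b + b') * ‖w‖ := by
    intro b b' q q' V V' hb hb' hV' hJ hJ'
    rcases lt_or_ge (κ / 2) (b' ^ 2) with hbig | hgood
    · intro w _
      have h1 : 1 ≤ Λ * b' := by
        refine (one_le_sq_iff₀ (by positivity)).1 ?_
        rw [mul_pow, hΛ2, div_mul_eq_mul_div, one_le_div hκ]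
        linarith
      exact (norm_perp_le _ _).trans (le_mul_of_one_le_left (norm_nonneg w)
        (h1.trans (mul_le_mul_of_nonneg_left (le_add_of_nonneg_left hb) hΛ0)))
    · exact angle_le hκ hb hb' ht hΛ0 hΛ2 hgood z q q' V V'
        (hmom ν inferInstance hgr z q' t ht hlow V' hV') hJ hJ'
  have ang1 := hangle a a' p p' W W' ha ha' hW' hI hI'
  have ang2 := hangle a' a p' p W' W ha' ha hW hI' hI
  rw [add_comm a' a] at ang2
  obtain ⟨y₀, hy₀, hg, hg'⟩ := hN.exists_near_planes hz hzx ht htR ha ha' hI hI'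
  have hd : ‖y - y₀‖ ≤ t + dist y z := by
    rw [← dist_eq_norm]
    have := dist_triangle y z y₀
    rw [dist_comm z y₀] at this
    linarith [Metric.mem_ball.1 hy₀]
  have h0 := norm_perp_sub_perp_le (by positivity) ang1 ang2 (y - y₀)
  have e : perp W' (y - p') - perp W (y - p) =
      (perp W' (y₀ - p') - perp W (y₀ - p)) + (perp W' (y - y₀) - perp W (y - y₀)) := by
    simp only [perp_sub]; abel
  rw [e]
  refine (norm_add_le _ _).trans ((add_le_add (norm_sub_le _ _) h0).trans ?_)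
  have m1 : Real.sqrt C * (a + a') * t ≤ Real.sqrt C * (a + a') * (t + dist y z) :=
    mul_le_mul_of_nonneg_left (le_add_of_nonneg_right dist_nonneg) (by positivity)
  have m2 : 2 * (Λ * (a + a')) * ‖y - y₀‖ ≤ 2 * (Λ * (a + a')) * (t + dist y z) :=
    mul_le_mul_of_nonneg_left hd (by positivity)
  linarith

/-- A plane of nearly optimal flatness. -/
lemma exists_near_plane (hnd : n ≤ Module.finrank ℝ E) (ν : Measure E) (z : E) (l : ℝ) {ε : ℝ}
    (hε : 0 < ε) :
    ∃ (p : E) (W : Submodule ℝ E), Module.finrank ℝ W = n ∧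
      flatness ν n z l p W ≤ beta n ν z l + ε := by
  obtain ⟨W₀, hW₀⟩ : ∃ W : Submodule ℝ E, Module.finrank ℝ W = n := by
    set b := Module.finBasis ℝ E
    refine ⟨Submodule.span ℝ (Set.range (b ∘ Fin.castLE hnd)), ?_⟩
    rw [finrank_span_eq_card (b.linearIndependent.comp _ (Fin.castLE_injective hnd)),
      Fintype.card_fin]
  obtain ⟨b, ⟨p, W, hW, rfl⟩, hlt⟩ := exists_lt_of_csInf_lt
    (s := {b : ℝ | ∃ (p : E) (W : Submodule ℝ E),
      Module.finrank ℝ W = n ∧ b = flatness ν n z l p W})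
    ⟨_, z, W₀, hW₀, rfl⟩
    (show beta n ν z l < beta n ν z l + ε from lt_add_of_pos_right _ hε)
  exact ⟨p, W, hW, hlt.le⟩

/-- The plane of the last level is flat at every earlier level of the chain. -/
theorem exists_chain_plane (hn : 1 ≤ n) (hnd : n ≤ Module.finrank ℝ E) (hC : 1 ≤ C) :
    ∃ K : ℝ, 0 ≤ K ∧ ∀ (ν : Measure E) (x₀ : E) (R : ℝ) (c : ℕ → E) (j₀ k : ℕ),
      Nice n C A ν x₀ R → j₀ ≤ k →
      (∀ j, j₀ ≤ j → j ≤ k → c j ∈ ν.support ∧ dist (c j) x₀ ≤ R / 8) →
      (∀ j, j₀ ≤ j → j < k → dist (c (j + 1)) (c j) ≤ 2 * scale R j) →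
      ∃ (p : E) (W : Submodule ℝ E), Module.finrank ℝ W = n ∧
        ∀ j, j₀ ≤ j → j ≤ k → flatness ν n (c j) (scale R j) p W ≤
          K * 4 ^ (k - j) * bHat n ν R c j₀ k := by
  obtain ⟨K₁, hK₁, hdiff⟩ := exists_perp_diff_le (E := E) (A := A) hn hC
  have hC0 : 0 < C := lt_of_lt_of_le one_pos hC
  set Q := 8 * (K₁ * (2 * 2 ^ (n + 2) + 2)) * (4 / 3) with hQ
  refine ⟨Real.sqrt (8 + 2 * Q ^ 2 * (C * 4 ^ n)), Real.sqrt_nonneg _, ?_⟩
  intro ν x₀ R c j₀ k hN hjk hc hch
  have := hN.finite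
  obtain ⟨-, -, hR, -, hgr, -, -⟩ := id hN
  have hbn : ∀ (z : E) (l : ℝ), 0 ≤ beta n ν z l := fun z l =>
    Real.sInf_nonneg (by rintro b ⟨p, W, -, rfl⟩; exact Real.sqrt_nonneg _)
  set B := bHat n ν R c j₀ k with hB
  choose pl Wl hWl hfl using fun j => exists_near_plane hnd ν (c j) (scale R j)
    (show (0 : ℝ) < (1 / 4) ^ (j - j₀) by positivity)
  have h4 : ∀ m : ℕ, (1 / 4 : ℝ) ^ m * 4 ^ m = 1 := fun m => by
    rw [← mul_pow]; norm_num
  have hB0 : 0 ≤ B := add_nonneg (by positivity)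
    (Finset.sum_nonneg fun j _ => mul_nonneg (by positivity) (hbn _ _))
  -- the flatness of the chosen planes
  have hf : ∀ j, j₀ ≤ j → j ≤ k →
      flatness ν n (c j) (scale R j) (pl j) (Wl j) ≤ 2 * 4 ^ (k - j) * B := fun j h1 h2 => by
    have t1 : (1 / 4 : ℝ) ^ (k - j) * beta n ν (c j) (scale R j) ≤ B :=
      (Finset.single_le_sum (f := fun j => (1 / 4 : ℝ) ^ (k - j) * beta n ν (c j) (scale R j))
        (fun i _ => mul_nonneg (by positivity) (hbn _ _)) (Finset.mem_Icc.2 ⟨h1, h2⟩)).trans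
        (le_add_of_nonneg_left (by positivity))
    have t2 : (1 / 4 : ℝ) ^ (k - j) * (1 / 4) ^ (j - j₀) ≤ B := by
      rw [← pow_add, show k - j + (j - j₀) = k - j₀ by omega]
      exact le_add_of_nonneg_right (Finset.sum_nonneg fun j _ => mul_nonneg (by positivity) (hbn _ _))
    have key : ∀ x : ℝ, (1 / 4 : ℝ) ^ (k - j) * x ≤ B → x ≤ 4 ^ (k - j) * B := fun x hx => by
      have := mul_le_mul_of_nonneg_left hx (show (0 : ℝ) ≤ 4 ^ (k - j) by positivity)
      rwa [← mul_assoc, mul_comm ((4 : ℝ) ^ (k - j)), h4, one_mul] at this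
    linarith [hfl j, key _ t1, key _ t2]
  -- consecutive planes
  have hstep : ∀ j, j₀ ≤ j → j ≤ k → ∀ y ∈ Metric.ball (c j) (4 * scale R j), ∀ d, j + d ≤ k →
      ‖perp (Wl (j + d)) (y - pl (j + d)) - perp (Wl j) (y - pl j)‖ ≤
        Q * B * scale R j * ((4 : ℝ) ^ (k - j) - 4 ^ (k - (j + d))) := by
    intro j hj hjle y hy d hd
    induction d with
    | zero => simp
    | succ d ih =>
      have ih' := ih (by omega)
      set i := j + d with hi
      have hi0 : j₀ ≤ i := by omega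
      have hik : i < k := by omega
      obtain ⟨hzs, hzx⟩ := hc (i + 1) (by omega) (by omega)
      set l := scale R i with hl
      have hl0 : 0 < l := scale_pos hR i
      have hl1 : scale R (i + 1) = l / 16 := scale_succ R i
      set t := 4 * scale R (i + 1) with ht
      have ht0 : 0 < t := by linarith
      have htR : t ≤ R / 8 := by linarith [scale_le hR (i + 1)]
      have hsub : Metric.ball (c (i + 1)) t ⊆ Metric.ball (c i) (4 * l) :=
        Metric.ball_subset_ball' (by linarith [hch i hi0 hik])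
      set f := flatness ν n (c i) l (pl i) (Wl i) with hfdef
      set f' := flatness ν n (c (i + 1)) (scale R (i + 1)) (pl (i + 1)) (Wl (i + 1)) with hfdef'
      have hf0 : 0 ≤ f := Real.sqrt_nonneg _
      have hf0' : 0 ≤ f' := Real.sqrt_nonneg _
      have hI : ∫ y in Metric.ball (c (i + 1)) t, ‖perp (Wl i) (y - pl i)‖ ^ 2 ∂ν ≤
          (f * 2 ^ (n + 2)) ^ 2 * t ^ (n + 2) := by
        have hii : IntegrableOn (fun y => ‖perp (Wl i) (y - pl i)‖ ^ 2)
            (Metric.ball (c i) (4 * l)) ν :=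
          integrableOn_ball_of_continuous ((continuous_perp _ _).norm.pow 2) _ _
        refine (setIntegral_mono_set hii
          (Eventually.of_forall fun x => by simp only [Pi.zero_apply]; positivity)
          hsub.eventuallyLE).trans (le_of_eq ?_)
        rw [flatness_sq_mul n ν _ hl0, ← hfdef, ht, hl1, mul_pow f, ← pow_mul, mul_comm (n + 2) 2,
          pow_mul, mul_assoc, ← mul_pow]
        congr 2
        ring
      have hI' : ∫ y in Metric.ball (c (i + 1)) t, ‖perp (Wl (i + 1)) (y - pl (i + 1))‖ ^ 2 ∂ν ≤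
          f' ^ 2 * t ^ (n + 2) := by
        rw [ht, flatness_sq_mul n ν _ (scale_pos hR _), ← hfdef']
        exact mul_le_mul_of_nonneg_left (pow_le_pow_left₀ (scale_pos hR _).le
          (by linarith [scale_pos hR (i + 1)]) _) (sq_nonneg _)
      have hD := hdiff ν x₀ R hN (c (i + 1)) t _ _ (pl i) (pl (i + 1)) (Wl i) (Wl (i + 1)) hzs
        (hzx.trans (by linarith)) ht0 htR (by positivity) hf0' (hWl i) (hWl (i + 1)) hI hI' y
      have hfa : f * 2 ^ (n + 2) + f' ≤ (2 * 2 ^ (n + 2) + 2) * (4 ^ (k - i) * B) := by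
        have a1 := mul_le_mul_of_nonneg_right (hf i hi0 hik.le)
          (show (0 : ℝ) ≤ 2 ^ (n + 2) by positivity)
        have a2 : f' ≤ 2 * (4 ^ (k - i) * B) := by
          refine (hf (i + 1) (by omega) (by omega)).trans ?_
          rw [mul_assoc]
          exact mul_le_mul_of_nonneg_left (mul_le_mul_of_nonneg_right
            (pow_le_pow_right₀ (by norm_num) (by omega)) hB0) zero_le_two
        linarith
      have hdy : t + dist y (c (i + 1)) ≤ 8 * scale R j := by
        have d1 := chain_dist (cs := c) (i := j) (j := i + 1) hR (by omega)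
          fun m h1 h2 => hch m (by omega) (by omega)
        have d2 := dist_triangle y (c j) (c (i + 1))
        rw [dist_comm (c j) (c (i + 1))] at d2
        have d3 : scale R (i + 1) ≤ scale R j := by
          rw [scale_eq R (show j ≤ i + 1 by omega)]
          exact mul_le_of_le_one_left (scale_pos hR j).le
            (pow_le_one₀ (by norm_num) (by norm_num))
        linarith [Metric.mem_ball.1 hy, scale_pos hR (i + 1), scale_pos hR j]
      have hD' : ‖perp (Wl (i + 1)) (y - pl (i + 1)) - perp (Wl i) (y - pl i)‖ ≤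
          Q * B * scale R j * ((4 : ℝ) ^ (k - i) - 4 ^ (k - (i + 1))) := by
        refine hD.trans ((mul_le_mul (mul_le_mul_of_nonneg_left hfa hK₁) hdy
          (by positivity) (by positivity)).trans (le_of_eq ?_))
        rw [hQ, show k - i = (k - (i + 1)) + 1 by omega, pow_succ]
        ring
      rw [show j + (d + 1) = i + 1 from rfl]
      refine (norm_sub_le_norm_sub_add_norm_sub _ (perp (Wl i) (y - pl i)) _).trans ?_
      linarith
  refine ⟨pl k, Wl k, hWl k, fun j hj hjle => ?_⟩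
  set l := scale R j
  have hl0 : 0 < l := scale_pos hR j
  set S := Metric.ball (c j) (4 * l)
  set q := Q * B * l * (4 : ℝ) ^ (k - j) with hq
  have hpt : ∀ y ∈ S, ‖perp (Wl k) (y - pl k)‖ ^ 2 ≤
      2 * ‖perp (Wl j) (y - pl j)‖ ^ 2 + 2 * q ^ 2 := fun y hy => by
    have h1 := hstep j hj hjle y hy (k - j) (by omega)
    rw [show j + (k - j) = k by omega] at h1
    have h2 : ‖perp (Wl k) (y - pl k)‖ ≤ ‖perp (Wl j) (y - pl j)‖ + q := by
      refine le_trans (norm_le_insert' _ _) (add_le_add le_rfl (h1.trans ?_))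
      exact mul_le_mul_of_nonneg_left (sub_le_self _ (by positivity)) (by positivity)
    refine (pow_le_pow_left₀ (norm_nonneg _) h2 2).trans ?_
    nlinarith [sq_nonneg (‖perp (Wl j) (y - pl j)‖ - q)]
  have hi1 : IntegrableOn (fun y => ‖perp (Wl j) (y - pl j)‖ ^ 2) S ν :=
    integrableOn_ball_of_continuous ((continuous_perp _ _).norm.pow 2) _ _
  have hic : IntegrableOn (fun _ : E => 2 * q ^ 2) S ν := (integrable_const _).integrableOn
  have hI : ∫ y in S, ‖perp (Wl k) (y - pl k)‖ ^ 2 ∂ν ≤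
      (8 + 2 * Q ^ 2 * (C * 4 ^ n)) * (4 ^ (k - j) * B) ^ 2 * l ^ (n + 2) := by
    refine (setIntegral_mono_on (integrableOn_ball_of_continuous
      ((continuous_perp _ _).norm.pow 2) _ _) ((hi1.const_mul 2).add hic)
      measurableSet_ball hpt).trans ?_
    simp only [Pi.add_apply]
    rw [integral_add (hi1.const_mul 2) hic, integral_const_mul, setIntegral_const, smul_eq_mul,
      flatness_sq_mul n ν _ hl0]
    have a1 : flatness ν n (c j) l (pl j) (Wl j) ^ 2 * l ^ (n + 2) ≤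
        (2 * 4 ^ (k - j) * B) ^ 2 * l ^ (n + 2) :=
      mul_le_mul_of_nonneg_right (pow_le_pow_left₀ (Real.sqrt_nonneg _) (hf j hj hjle) 2)
        (by positivity)
    have a2 : ν.real S * (2 * q ^ 2) ≤ C * (4 * l) ^ n * (2 * q ^ 2) :=
      mul_le_mul_of_nonneg_right (hgr _ _ (by positivity)) (by positivity)
    have e : (8 + 2 * Q ^ 2 * (C * 4 ^ n)) * (4 ^ (k - j) * B) ^ 2 * l ^ (n + 2) =
        2 * ((2 * 4 ^ (k - j) * B) ^ 2 * l ^ (n + 2)) + C * (4 * l) ^ n * (2 * q ^ 2) := by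
      rw [hq, mul_pow 4 l, pow_add l]; ring
    rw [e]
    linarith
  rw [flatness, mul_assoc, ← Real.sqrt_sq (show (0 : ℝ) ≤ 4 ^ (k - j) * B by positivity),
    ← Real.sqrt_mul (by positivity)]
  exact Real.sqrt_le_sqrt ((div_le_iff₀ (by positivity)).2 hI)

end

end Vale.Agent.P120.Full
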