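import Vale.Agent.P120.Full.DecayEquations

/-!
# P120, full answer: the limit density is a positive constant
-/

namespace Vale.Agent.P120.Full

open MeasureTheory Set Filter
open scoped Topology RealInnerProductSpace ENNReal

noncomputable section

variable {E : Type*} [NormedAddCommGroup E] [InnerProductSpace ℝ E] [MeasurableSpace E]
  [BorelSpace E] [FiniteDimensional ℝ E] {n m : ℕ} {U : Ultrafilter ℕ} {ν : ℕ → Measure E}
  {b : ℕ → OrthonormalBasis (Fin n ⊕ Fin m) ℝ E} {o : ℕ → EuclideanSpace ℝ (Fin m)}
  {B : ℕ → ℝ} {C K : ℝ}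

lemma locallyIntegrable_of_bounded {f : EuclideanSpace ℝ (Fin n) → ℝ} (hf : Measurable f) {M : ℝ}
    (hM : ∀ x, |f x| ≤ M) : LocallyIntegrable f :=
  (locallyIntegrable_const M).mono hf.aestronglyMeasurable (Eventually.of_forall fun x => by
    rw [Real.norm_eq_abs, Real.norm_eq_abs]; exact (hM x).trans (le_abs_self M))

lemma lipschitzWith_ramp_dist {r : ℝ} (hr : 0 < r) (z : EuclideanSpace ℝ (Fin n)) :
    LipschitzWith (Real.toNNReal (1 / r)) fun x => ramp r (dist x z) := by
  refine LipschitzWith.of_dist_le_mul fun x y => ?_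
  rw [Real.dist_eq, Real.coe_toNNReal _ (by positivity)]
  refine (abs_ramp_diff_le hr _ _).trans ?_
  rw [one_div, inv_mul_eq_div]
  exact div_le_div_of_nonneg_right (abs_dist_sub_le x y z) hr.le

lemma hasCompactSupport_ramp_dist {r : ℝ} (hr : 0 < r) (z : EuclideanSpace ℝ (Fin n)) :
    HasCompactSupport fun x => ramp r (dist x z) :=
  HasCompactSupport.intro (isCompact_closedBall z (2 * r)) fun _ hx =>
    ramp_eq_zero hr (le_of_lt (not_le.1 fun h0 => hx (Metric.mem_closedBall.2 h0)))

lemma isTest_ramp_dist {r : ℝ} (hr : 0 < r) (z : EuclideanSpace ℝ (Fin n)) :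
    IsTest fun x => ramp r (dist x z) :=
  ⟨(lipschitzWith_ramp_dist hr z).continuous, hasCompactSupport_ramp_dist hr z⟩

omit [BorelSpace E] [FiniteDimensional ℝ E] in
lemma WeakLimit.congr {v : ℕ → E → ℝ} {f g : EuclideanSpace ℝ (Fin n) → ℝ}
    (h : WeakLimit U ν b o v f) (hfg : ∀ᵐ x, f x = g x) : WeakLimit U ν b o v g := by
  intro φ hφ
  rw [show ∫ x, φ x * g x = ∫ x, φ x * f x from
    integral_congr_ae (hfg.mono fun x hx => by simp only [hx])]
  exact h φ hφ

/-- The points of the plane approached by the projected supports. -/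
def reached (U : Ultrafilter ℕ) (ν : ℕ → Measure E)
    (b : ℕ → OrthonormalBasis (Fin n ⊕ Fin m) ℝ E) (o : ℕ → EuclideanSpace ℝ (Fin m)) :
    Set (EuclideanSpace ℝ (Fin n)) :=
  {z | ∀ t : ℝ, 0 < t → ∀ᶠ i in (U : Filter ℕ),
    ∃ y ∈ (ν i).support, chi (b i) (o i) y ≠ 0 ∧ dist (proj (b i) y) z < t}

omit [BorelSpace E] [FiniteDimensional ℝ E] in
lemma isClosed_reached : IsClosed (reached U ν b o) := by
  refine isClosed_of_closure_subset fun z hz t ht => ?_
  obtain ⟨z', hz', hd⟩ := Metric.mem_closure_iff.1 hz (t / 2) (half_pos ht)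
  filter_upwards [hz' (t / 2) (half_pos ht)] with i hi
  obtain ⟨y, hy, hc, hy'⟩ := hi
  refine ⟨y, hy, hc, ?_⟩
  have := dist_triangle (proj (b i) y) z' z
  rw [dist_comm z' z] at this
  linarith

lemma Flattening.zero_mem_reached (h : Flattening U ν b o B C K) :
    (0 : EuclideanSpace ℝ (Fin n)) ∈ reached U ν b o := by
  intro t ht
  filter_upwards [h.offset_small one_pos] with i ho
  refine ⟨0, h.zero_mem i, ?_, ?_⟩
  · have : height (b i) (o i) 0 = -(o i) := by
      have : across (b i) (0 : E) = 0 := by ext a; simp [across]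
      rw [height, this, zero_sub]
    rw [chi, this, norm_neg, min_eq_left (by linarith), max_eq_right zero_le_one]
    exact one_ne_zero
  · have : proj (b i) (0 : E) = 0 := by ext a; simp [proj]
    rw [this, dist_self]; exact ht

/-- The lower bound for the limit density at reached points. -/
lemma Flattening.le_ball_of_reached (h : Flattening U ν b o B C K)
    {f : EuclideanSpace ℝ (Fin n) → ℝ} (hfl : LocallyIntegrable f) (hf0 : ∀ x, 0 ≤ f x)
    (hf : WeakLimit U ν b o (fun _ _ => 1) f) {z : EuclideanSpace ℝ (Fin n)}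
    (hz : z ∈ reached U ν b o) {t : ℝ} (ht : 0 < t) :
    C⁻¹ * (t / 4) ^ n ≤ ∫ x in Metric.ball z t, f x := by
  set φ := fun x => ramp (t / 2) (dist x z)
  have hφ := isTest_ramp_dist (half_pos ht) z
  set T := ‖z‖ + t
  have hev : ∀ᶠ i in (U : Filter ℕ),
      C⁻¹ * (t / 4) ^ n ≤ cylInt (ν i) (b i) (o i) φ (fun _ => 1) := by
    filter_upwards [hz (t / 4) (by positivity), h.cylinder T one_pos,
      h.sup_height (T + 3 + t) one_pos, h.lower (T + 3 + t)] with i hi hcyl hsup hlow
    obtain ⟨y, hy, hc, hd⟩ := hi
    have hp : ‖proj (b i) y‖ < T := by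
      have := norm_le_insert' (proj (b i) y) z
      rw [← dist_eq_norm] at this
      linarith
    obtain ⟨hy1, -, -⟩ := hcyl y hy hc hp
    have := h.finite i
    refine (hlow y hy (by linarith) (t / 4) (by positivity) (by linarith [norm_nonneg z])).trans ?_
    rw [cylInt, ← integral_indicator_one measurableSet_ball]
    refine integral_mono_ae ((integrable_const _).indicator measurableSet_ball)
      (integrable_cyl _ _ hφ continuous_const) ?_
    filter_upwards [Measure.support_mem_ae (μ := ν i)] with w hw
    by_cases hwb : w ∈ Metric.ball y (t / 4)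
    · rw [indicator_of_mem hwb, Pi.one_apply, mul_one]
      rw [Metric.mem_ball] at hwb
      have h1 : dist (proj (b i) w) z ≤ t / 2 := by
        linarith [dist_triangle (proj (b i) w) (proj (b i) y) z, dist_proj_le (b i) w y]
      have h2 := hsup w hw (by
        have := norm_le_insert' w y
        rw [← dist_eq_norm] at this
        linarith)
      rw [show φ (proj (b i) w) = 1 from ramp_eq_one (half_pos ht) h1, one_mul, chi,
        min_eq_left (by linarith), max_eq_right zero_le_one]
    · rw [indicator_of_notMem hwb, mul_one]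
      exact mul_nonneg (ramp_bounds _ _).1 (chi_mem _ _ _).1
  refine (ge_of_tendsto (hf φ hφ) hev).trans ?_
  rw [← integral_indicator measurableSet_ball]
  refine integral_mono (hfl.integrable_smul_left_of_hasCompactSupport hφ.1 hφ.2)
    (IntegrableOn.integrable_indicator ((hfl.integrableOn_isCompact
      (isCompact_closedBall z t)).mono_set Metric.ball_subset_closedBall) measurableSet_ball)
    fun x => ?_
  by_cases hx : x ∈ Metric.ball z t
  · rw [indicator_of_mem hx]
    exact mul_le_of_le_one_left (hf0 x) (ramp_bounds _ _).2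
  · rw [indicator_of_notMem hx, show φ x = 0 from ramp_eq_zero (half_pos ht)
      (by linarith [not_lt.1 fun h0 => hx (Metric.mem_ball.2 h0)]), zero_mul]

omit [BorelSpace E] in
/-- The density vanishes off the reached set. -/
lemma Flattening.ae_zero_off_reached (_h : Flattening U ν b o B C K)
    {f : EuclideanSpace ℝ (Fin n) → ℝ} (hfl : LocallyIntegrable f) (hf0 : ∀ x, 0 ≤ f x)
    (hf : WeakLimit U ν b o (fun _ _ => 1) f) :
    ∀ᵐ x, x ∉ reached U ν b o → f x = 0 := by
  filter_upwards [IsUnifLocDoublingMeasure.ae_tendsto_average volume hfl 1] with x hx hxS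
  have h1 := hx (l := 𝓝[>] (0 : ℝ)) (fun _ => x) id tendsto_id
    (by filter_upwards [self_mem_nhdsWithin] with r hr
        simp only [one_mul, id, Metric.mem_closedBall, dist_self]
        exact le_of_lt hr)
  simp only [reached, mem_ofPred_eq, not_forall] at hxS
  obtain ⟨t, ht, hnot⟩ := hxS
  rw [← Ultrafilter.eventually_not] at hnot
  have hzero : ∀ᶠ r in 𝓝[>] (0 : ℝ), ⨍ y in Metric.closedBall x (id r), f y = 0 := by
    filter_upwards [self_mem_nhdsWithin, nhdsWithin_le_nhds (Iio_mem_nhds (half_pos ht))]
      with r (hr : 0 < r) hr2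
    have hr2' : r < t / 2 := mem_Iio.1 hr2
    have hφ := isTest_ramp_dist hr x
    have hlim : Tendsto (fun i => cylInt (ν i) (b i) (o i) (fun y => ramp r (dist y x)) (fun _ => 1))
        U (𝓝 0) := by
      refine tendsto_const_nhds.congr' ?_
      filter_upwards [hnot] with i hi
      symm
      refine integral_eq_zero_of_ae ?_
      filter_upwards [Measure.support_mem_ae (μ := ν i)] with y hy
      by_contra hne
      simp only [mul_one, Pi.zero_apply] at hne
      refine hi ⟨y, hy, right_ne_zero_of_mul hne, ?_⟩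
      by_contra hge
      exact left_ne_zero_of_mul hne
        (ramp_eq_zero hr (by linarith [not_lt.1 hge, hr2']))
    have h0 := tendsto_nhds_unique (hf _ hφ) hlim
    have hle : ∫ y in Metric.closedBall x r, f y ≤ ∫ y, ramp r (dist y x) * f y := by
      rw [← integral_indicator measurableSet_closedBall]
      refine integral_mono (IntegrableOn.integrable_indicator (hfl.integrableOn_isCompact
        (isCompact_closedBall x r)) measurableSet_closedBall)
        (hfl.integrable_smul_left_of_hasCompactSupport hφ.1 hφ.2) fun y => ?_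
      by_cases hy : y ∈ Metric.closedBall x r
      · rw [indicator_of_mem hy, ramp_eq_one hr (Metric.mem_closedBall.1 hy), one_mul]
      · rw [indicator_of_notMem hy]; exact mul_nonneg (ramp_bounds _ _).1 (hf0 y)
    rw [h0] at hle
    rw [setAverage_eq, id, le_antisymm hle (setIntegral_nonneg measurableSet_closedBall fun y _ => hf0 y),
      smul_zero]
  exact tendsto_nhds_unique h1 (tendsto_const_nhds.congr' (hzero.mono fun r hr => hr.symm))

/-- The limit density is a positive constant. -/
theorem Flattening.exists_const_density (h : Flattening U ν b o B C K) (hn : 1 ≤ n)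
    (hH : NoHoles n) (hN : NullRigidity n) :
    ∃ d : ℝ, 0 < d ∧ WeakLimit U ν b o (fun _ _ => 1) fun _ => d := by
  have hC : 0 < C := lt_of_lt_of_le one_pos h.one_le
  obtain ⟨f₀, hf₀m, hf₀b, hf₀⟩ := h.exists_density
  set M := densityBound n C
  have hM : 0 ≤ M := (hf₀b 0).1.trans (hf₀b 0).2
  set S := reached U ν b o
  have hl₀ : LocallyIntegrable f₀ :=
    locallyIntegrable_of_bounded hf₀m fun x => by rw [abs_of_nonneg (hf₀b x).1]; exact (hf₀b x).2
  set f := S.indicator f₀
  have hfm : Measurable f := hf₀m.indicator isClosed_reached.measurableSet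
  have hfb : ∀ x, 0 ≤ f x ∧ f x ≤ M := fun x => by
    by_cases hx : x ∈ S
    · simp only [f, indicator_of_mem hx]; exact hf₀b x
    · simp only [f, indicator_of_notMem hx]; exact ⟨le_rfl, hM⟩
  have hfl : LocallyIntegrable f :=
    locallyIntegrable_of_bounded hfm fun x => by rw [abs_of_nonneg (hfb x).1]; exact (hfb x).2
  have hf : WeakLimit U ν b o (fun _ _ => 1) f := by
    refine hf₀.congr ?_
    filter_upwards [h.ae_zero_off_reached hl₀ (fun x => (hf₀b x).1) hf₀] with x hx
    by_cases hxS : x ∈ S
    · simp only [f, indicator_of_mem hxS]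
    · simp only [f, indicator_of_notMem hxS]; exact hx hxS
  set c := C⁻¹ / 4 ^ n
  have hc : 0 < c := by positivity
  have hlow : ∀ z ∈ S, ∀ t : ℝ, 0 < t → c * t ^ n ≤ ∫ x in Metric.ball z t, f x := by
    intro z hz t ht
    refine le_trans (le_of_eq ?_) (h.le_ball_of_reached hfl (fun x => (hfb x).1) hf hz ht)
    simp only [c, div_pow]; ring
  have hψpos : 0 < ∫ x, ramp 1 (dist x (0 : EuclideanSpace ℝ (Fin n))) * f x := by
    refine lt_of_lt_of_le (show 0 < c * (1 : ℝ) ^ n by positivity)
      ((hlow 0 h.zero_mem_reached 1 one_pos).trans ?_)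
    have hφ := isTest_ramp_dist one_pos (0 : EuclideanSpace ℝ (Fin n))
    rw [← integral_indicator measurableSet_ball]
    refine integral_mono (IntegrableOn.integrable_indicator ((hfl.integrableOn_isCompact
      (isCompact_closedBall 0 1)).mono_set Metric.ball_subset_closedBall) measurableSet_ball)
      (hfl.integrable_smul_left_of_hasCompactSupport hφ.1 hφ.2) fun x => ?_
    by_cases hx : x ∈ Metric.ball (0 : EuclideanSpace ℝ (Fin n)) 1
    · rw [indicator_of_mem hx, ramp_eq_one one_pos (Metric.mem_ball.1 hx).le, one_mul]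
    · rw [indicator_of_notMem hx]; exact mul_nonneg (ramp_bounds _ _).1 (hfb x).1
  have hSu : S = univ := hH f c M S hfm hc hfb isClosed_reached ⟨0, h.zero_mem_reached⟩
    (fun x hx => indicator_of_notMem hx _) hlow
    (h.rieszNull hn hfl hf (lipschitzWith_ramp_dist one_pos 0) (hasCompactSupport_ramp_dist one_pos 0)
      hψpos)
  have hV := unitVol_pos n
  set c' := c / unitVol n
  have hc' : 0 < c' := div_pos hc hV
  have hge : ∀ᵐ x, 0 ≤ f x - c' := by
    refine ae_nonneg_of_ball (hfl.sub (locallyIntegrable_const c')) fun z r hr => ?_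
    have hfin : volume (Metric.closedBall z r) ≠ ⊤ := (isCompact_closedBall z r).measure_ne_top
    have : Nonempty (Fin n) := ⟨⟨0, hn⟩⟩
    rw [integral_sub (hfl.integrableOn_isCompact (isCompact_closedBall z r))
      (integrableOn_const hfin), setIntegral_const, smul_eq_mul, sub_nonneg]
    have h1 : (volume : Measure (EuclideanSpace ℝ (Fin n))).real (Metric.closedBall z r) =
        r ^ n * unitVol n := by
      rw [measureReal_def, Measure.addHaar_closedBall_eq_addHaar_ball, ← measureReal_def,
        volume_real_ball z hr]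
    rw [h1]
    refine le_trans (le_of_eq ?_) ((hlow z (hSu ▸ mem_univ z) r hr).trans
      (setIntegral_mono_set (hfl.integrableOn_isCompact (isCompact_closedBall z r))
        (Eventually.of_forall fun x => (hfb x).1) Metric.ball_subset_closedBall.eventuallyLE))
    simp only [c']
    field_simp
  set g := fun x => max c' (f x)
  have hgb : ∀ x, c' ≤ g x ∧ g x ≤ max c' M := fun x =>
    ⟨le_max_left _ _, max_le_max le_rfl (hfb x).2⟩
  have hgm : Measurable g := measurable_const.max hfm
  have hgf : ∀ᵐ x, f x = g x := by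
    filter_upwards [hge] with x hx
    exact (max_eq_right (by linarith)).symm
  have hgl : LocallyIntegrable g := locallyIntegrable_of_bounded hgm fun x => by
    rw [abs_of_nonneg (hc'.le.trans (hgb x).1)]; exact (hgb x).2
  have hgw := hf.congr hgf
  have hgpos : 0 < ∫ x, ramp 1 (dist x (0 : EuclideanSpace ℝ (Fin n))) * g x :=
    hψpos.trans_eq (integral_congr_ae (hgf.mono fun x hx => by simp only [hx]))
  obtain ⟨d, hd⟩ := hN g c' (max c' M) hgm hc' hgb
    (h.rieszNull hn hgl hgw (lipschitzWith_ramp_dist one_pos 0)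
      (hasCompactSupport_ramp_dist one_pos 0) hgpos)
  obtain ⟨x, hx⟩ := hd.exists
  exact ⟨d, lt_of_lt_of_le hc' (hx ▸ (hgb x).1), hgw.congr hd⟩

end

end Vale.Agent.P120.Full
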