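import Vale.Agent.P120.Full.DecayMiddle

/-!
# P120, full answer: the equations satisfied by the blow-up limit
-/

namespace Vale.Agent.P120.Full

open MeasureTheory Set Filter
open scoped Topology RealInnerProductSpace ENNReal

noncomputable section

variable {E : Type*} [NormedAddCommGroup E] [InnerProductSpace ℝ E] [MeasurableSpace E]
  [BorelSpace E] [FiniteDimensional ℝ E] {n m : ℕ} {U : Ultrafilter ℕ} {ν : ℕ → Measure E}
  {b : ℕ → OrthonormalBasis (Fin n ⊕ Fin m) ℝ E} {o : ℕ → EuclideanSpace ℝ (Fin m)}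
  {B : ℕ → ℝ} {C K : ℝ}

omit [MeasurableSpace E] [BorelSpace E] [FiniteDimensional ℝ E] in
lemma inner_inl (b : OrthonormalBasis (Fin n ⊕ Fin m) ℝ E) (a : Fin n) (z : E) :
    ⟪b (Sum.inl a), z⟫ = proj b z a := rfl

omit [MeasurableSpace E] [BorelSpace E] [FiniteDimensional ℝ E] in
lemma inner_inr (b : OrthonormalBasis (Fin n ⊕ Fin m) ℝ E) (a : Fin m) (z : E) :
    ⟪b (Sum.inr a), z⟫ = across b z a := rfl

omit [BorelSpace E] [FiniteDimensional ℝ E] in
/-- The pairing of a field along a fixed vector. -/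
lemma pair_smul_dir (ν : Measure E) (ψ : E → ℝ) (e : E) {l : E → ℝ} (hl : ∀ z, l z = ⟪e, z⟫) :
    pair n ν (fun y => ψ y • e) = 1 / 2 * part n ν ψ l (fun _ => 1) := by
  rw [pair, part]
  congr 1
  refine integral_congr_ae (Eventually.of_forall fun q => ?_)
  simp only
  rw [← sub_smul, real_inner_smul_left, kernel, real_inner_smul_right, hl, dist_eq_norm, mul_one]
  ring

omit [MeasurableSpace E] [BorelSpace E] [FiniteDimensional ℝ E] in
lemma lipschitzWith_field {ψ : E → ℝ} {L : NNReal} (hψ : LipschitzWith L ψ) {e : E}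
    (he : ‖e‖ = 1) : LipschitzWith L fun y => ψ y • e := by
  refine LipschitzWith.of_dist_le_mul fun x y => ?_
  rw [dist_eq_norm, ← sub_smul, norm_smul, he, mul_one, ← dist_eq_norm]
  exact hψ.dist_le_mul x y

lemma exists_lipschitz_tent {t : ℝ} (ht : 0 < t) :
    ∃ L : NNReal, LipschitzWith L (tent t : EuclideanSpace ℝ (Fin n) → ℝ) := by
  refine ⟨Real.toNNReal (1 / t), LipschitzWith.of_dist_le_mul fun x y => ?_⟩
  rw [Real.dist_eq, Real.coe_toNNReal _ (by positivity), tent, tent]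
  refine (abs_max_sub_max_le_max _ _ _ _).trans (max_le (by rw [sub_self, abs_zero]; positivity) ?_)
  rw [show 1 - ‖x‖ / t - (1 - ‖y‖ / t) = (‖y‖ - ‖x‖) / t by ring, abs_div, abs_of_pos ht,
    div_eq_inv_mul, one_div, dist_eq_norm, ← norm_sub_rev y x]
  exact mul_le_mul_of_nonneg_left (abs_norm_sub_norm_le _ _) (by positivity)

omit [MeasurableSpace E] [BorelSpace E] [FiniteDimensional ℝ E] in
lemma cylField_sub_smul (b : OrthonormalBasis (Fin n ⊕ Fin m) ℝ E) (o : EuclideanSpace ℝ (Fin m))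
    (φ ψ : EuclideanSpace ℝ (Fin n) → ℝ) (c : ℝ) (y : E) :
    cylField b o (fun x => φ x - c * ψ x) y = cylField b o φ y - c * cylField b o ψ y := by
  unfold cylField; ring

lemma part_sub_smul {ν : Measure E} [IsFiniteMeasure ν] (hn : 1 ≤ n) {C : ℝ} (hC : 0 ≤ C)
    (hν : ∀ z t, 0 < t → ν.real (Metric.ball z t) ≤ C * t ^ n) {ψ ψ' l : E → ℝ} {L L' : NNReal}
    (hψ : LipschitzWith L ψ) (hψ' : LipschitzWith L' ψ') (hlc : Continuous l)
    (hl : ∀ z, |l z| ≤ ‖z‖) {Q : ℝ → ℝ} (hQc : Continuous Q) (hQ : ∀ r, |Q r| ≤ 1) (c : ℝ) :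
    part n ν (fun y => ψ y - c * ψ' y) l Q = part n ν ψ l Q - c * part n ν ψ' l Q := by
  have i1 := integrable_part hn hC hν hψ hlc hl hQc hQ
  have i2 := (integrable_part hn hC hν hψ' hlc hl hQc hQ).const_mul c
  rw [part, part, part, ← integral_const_mul, ← integral_sub i1 i2]
  refine integral_congr_ae (Eventually.of_forall fun q => ?_)
  ring

/-- The corrected test fields: mean zero, uniformly Lipschitz and supported in a bounded ball. -/
lemma Flattening.exists_correction (h : Flattening U ν b o B C K)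
    {f : EuclideanSpace ℝ (Fin n) → ℝ} (hf : WeakLimit U ν b o (fun _ _ => 1) f)
    {ψ₀ : EuclideanSpace ℝ (Fin n) → ℝ} {L₀ : NNReal} (hL₀ : LipschitzWith L₀ ψ₀)
    (hψ₀ : HasCompactSupport ψ₀) (hpos : 0 < ∫ x, ψ₀ x * f x)
    {φ : EuclideanSpace ℝ (Fin n) → ℝ} {L : NNReal} (hL : LipschitzWith L φ)
    (hφ : HasCompactSupport φ) (hmean : ∫ x, φ x * f x = 0) :
    ∃ (c : ℕ → ℝ) (L' : NNReal) (T₁ M : ℝ), 0 < T₁ ∧ Tendsto c U (𝓝 0) ∧
      ∀ᶠ i in (U : Filter ℕ),
        LipschitzWith L' (cylField (b i) (o i) fun x => φ x - c i * ψ₀ x) ∧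
        (∀ y, |cylField (b i) (o i) (fun x => φ x - c i * ψ₀ x) y| ≤ M) ∧
        (∀ y, T₁ ≤ ‖y‖ → cylField (b i) (o i) (fun x => φ x - c i * ψ₀ x) y = 0) ∧
        ∫ y, cylField (b i) (o i) (fun x => φ x - c i * ψ₀ x) y ∂ν i = 0 := by
  have ht : IsTest φ := ⟨hL.continuous, hφ⟩
  have ht₀ : IsTest ψ₀ := ⟨hL₀.continuous, hψ₀⟩
  set I := fun i => cylInt (ν i) (b i) (o i) φ (fun _ => 1)
  set I₀ := fun i => cylInt (ν i) (b i) (o i) ψ₀ (fun _ => 1)
  set c := fun i => I i / I₀ i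
  have hc : Tendsto c U (𝓝 0) := by
    have h1 := (hf φ ht).div (hf ψ₀ ht₀) hpos.ne'
    rw [hmean, zero_div] at h1
    exact h1
  obtain ⟨T, hT⟩ := (hφ.isCompact.union hψ₀.isCompact).isBounded.subset_closedBall 0
  obtain ⟨s, hs⟩ := hφ.exists_bound_of_continuous hL.continuous
  obtain ⟨s₀, hs₀⟩ := hψ₀.exists_bound_of_continuous hL₀.continuous
  set S : NNReal := Real.toNNReal s + Real.toNNReal s₀
  refine ⟨c, L + L₀ + S, max T 0 + 4, S, by linarith [le_max_right T 0], hc, ?_⟩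
  filter_upwards [h.offset_small one_pos, Metric.tendsto_nhds.1 hc 1 one_pos,
    (hf ψ₀ ht₀).eventually_const_lt hpos] with i ho hci hI0
  have := h.finite i
  rw [dist_zero_right, Real.norm_eq_abs] at hci
  set φc := fun x => φ x - c i * ψ₀ x
  have hLc : LipschitzWith (L + L₀) φc := by
    refine LipschitzWith.of_dist_le_mul fun x y => ?_
    rw [Real.dist_eq, show φc x - φc y = (φ x - φ y) - c i * (ψ₀ x - ψ₀ y) by simp only [φc]; ring,
      NNReal.coe_add, add_mul]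
    refine (abs_sub _ _).trans ?_
    rw [abs_mul, ← Real.dist_eq, ← Real.dist_eq]
    exact add_le_add (hL.dist_le_mul x y)
      ((mul_le_of_le_one_left dist_nonneg hci.le).trans (hL₀.dist_le_mul x y))
  have hbc : ∀ x, |φc x| ≤ (S : ℝ) := fun x => by
    simp only [φc, S, NNReal.coe_add]
    refine (abs_sub _ _).trans ?_
    rw [abs_mul]
    exact add_le_add ((hs x).trans (Real.le_coe_toNNReal s))
      ((mul_le_of_le_one_left (abs_nonneg _) hci.le).trans ((hs₀ x).trans (Real.le_coe_toNNReal s₀)))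
  have hsupp : ∀ x, max T 0 + 1 ≤ ‖x‖ → φc x = 0 := fun x hx => by
    have h1 : x ∉ tsupport φ ∪ tsupport ψ₀ := fun h0 => by
      have := mem_closedBall_zero_iff.1 (hT h0)
      linarith [le_max_left T 0]
    simp only [φc, image_eq_zero_of_notMem_tsupport fun h0 => h1 (Or.inl h0),
      image_eq_zero_of_notMem_tsupport fun h0 => h1 (Or.inr h0), mul_zero, sub_zero]
  refine ⟨lipschitzWith_cylField (b i) (o i) hLc hbc,
    abs_cylField_le (b i) (o i) hbc, fun y hy => cylField_eq_zero hsupp ho (by linarith), ?_⟩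
  rw [integral_congr_ae (Eventually.of_forall (cylField_sub_smul (b i) (o i) φ ψ₀ (c i)))]
  have i1 := integrable_cyl (ν := ν i) (b i) (o i) ht (continuous_const (y := (1 : ℝ)))
  have i2 := integrable_cyl (ν := ν i) (b i) (o i) ht₀ (continuous_const (y := (1 : ℝ)))
  simp only [mul_one] at i1 i2
  simp only [cylField]
  rw [integral_sub i1 (i2.const_mul _), integral_const_mul]
  have e1 : ∫ y, φ (proj (b i) y) * chi (b i) (o i) y ∂ν i = I i := by simp [I, cylInt]
  have e2 : ∫ y, ψ₀ (proj (b i) y) * chi (b i) (o i) y ∂ν i = I₀ i := by simp [I₀, cylInt]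
  rw [e1, e2]
  simp only [c]
  rw [div_mul_cancel₀ _ (ne_of_gt hI0), sub_self]

/-- The tangential equation. -/
theorem Flattening.rieszNull (h : Flattening U ν b o B C K) (hn : 1 ≤ n)
    {f : EuclideanSpace ℝ (Fin n) → ℝ} (hfl : LocallyIntegrable f)
    (hf : WeakLimit U ν b o (fun _ _ => 1) f) {ψ₀ : EuclideanSpace ℝ (Fin n) → ℝ} {L₀ : NNReal}
    (hL₀ : LipschitzWith L₀ ψ₀) (hψ₀ : HasCompactSupport ψ₀) (hpos : 0 < ∫ x, ψ₀ x * f x) :
    RieszNull n f := by
  intro a φ L hL hφ hmean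
  obtain ⟨c, L', T₁, M, hT₁, hc, hev⟩ := h.exists_correction hf hL₀ hψ₀ hpos hL hφ hmean
  have hC : 0 ≤ C := zero_le_one.trans h.one_le
  set c1 := (L' : ℝ) * (C * (T₁ + 1) ^ n * (2 ^ n * C * 2))
  set c2 := 2 * (M * (C * T₁ ^ n)) * ((2 ^ (n + 1) + (n + 3) * 2 ^ (n + 2)) * T₁ *
    (2 ^ (n + 1) * C * 2))
  have key : ∀ δ T : ℝ, 0 < δ → δ ≤ 1 / 2 → 4 * T₁ ≤ T →
      |rieszForm n δ T f φ a| ≤ c1 * δ + c2 / T := by
    intro δ T hδ hδ1 hT
    have hT0 : 0 < T := by linarith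
    have hmid := (h.tendsto_mid_tangential hn hfl hf hL hφ hδ hT0 a).sub
      (hc.mul (h.tendsto_mid_tangential hn hfl hf hL₀ hψ₀ hδ hT0 a))
    rw [zero_mul, sub_zero] at hmid
    refine le_of_forall_pos_le_add fun η hη => le_of_tendsto hmid.abs ?_
    obtain ⟨S₁, hS₁⟩ : ∃ S : NNReal, ∀ x, |φ x| ≤ (S : ℝ) :=
      ⟨Real.toNNReal (hφ.exists_bound_of_continuous hL.continuous).choose, fun x =>
        ((hφ.exists_bound_of_continuous hL.continuous).choose_spec x).trans (Real.le_coe_toNNReal _)⟩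
    obtain ⟨S₂, hS₂⟩ : ∃ S : NNReal, ∀ x, |ψ₀ x| ≤ (S : ℝ) :=
      ⟨Real.toNNReal (hψ₀.exists_bound_of_continuous hL₀.continuous).choose, fun x =>
        ((hψ₀.exists_bound_of_continuous hL₀.continuous).choose_spec x).trans (Real.le_coe_toNNReal _)⟩
    filter_upwards [hev, h.pairing T₁ L' 1 one_pos,
      h.B_small.eventually_lt_const (show 0 < η / 2 by positivity)] with i hi hpair hBi
    obtain ⟨hLi, hMi, hsi, hmi⟩ := hi
    have := h.finite i
    set l := fun z => proj (b i) z a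
    have hlc : Continuous l := continuous_proj_apply (b i) a
    have hl : ∀ z, |l z| ≤ ‖z‖ := abs_proj_apply_le (b i) a
    have hodd : ∀ z, l (-z) = -l z := fun z => by simp [l, proj]
    have hladd : ∀ x y, l (x - y) = l x - l y := fun x y => by simp [l, proj_sub]
    rw [show part n (ν i) (cylField (b i) (o i) φ) l (cut δ T) -
        c i * part n (ν i) (cylField (b i) (o i) ψ₀) l (cut δ T) =
        part n (ν i) (cylField (b i) (o i) fun x => φ x - c i * ψ₀ x) l (cut δ T) by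
      rw [← part_sub_smul hn hC (h.growth i) (lipschitzWith_cylField _ _ hL hS₁)
        (lipschitzWith_cylField _ _ hL₀ hS₂) hlc hl (Q := cut δ T)
        ((continuous_ramp T).mul (continuous_const.sub (continuous_ramp δ)))
        (fun r => by rw [abs_of_nonneg (cut_bounds δ T r).1]; exact (cut_bounds δ T r).2) (c i)]
      simp only [part, cylField_sub_smul]]
    set ψ := cylField (b i) (o i) fun x => φ x - c i * ψ₀ x
    have h1 : |part n (ν i) ψ l fun _ => 1| ≤ η := by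
      have hp := hpair (fun y => ψ y • b i (Sum.inl a)) (lipschitzWith_field hLi
        ((b i).orthonormal.1 _)) (fun y hy => by rw [hsi y hy, zero_smul])
        (by rw [integral_smul_const, hmi, zero_smul])
      rw [pair_smul_dir (ν i) ψ _ (l := l) (fun z => (inner_inl (b i) a z).symm), abs_mul,
        abs_of_pos (by norm_num : (0 : ℝ) < 1 / 2), one_mul] at hp
      linarith
    have h2 := abs_part_near_le hn hC (h.growth i) hLi hl hT₁ hδ hsi T
    have h3 := abs_part_far_le hC (h.growth i) hLi hMi hlc hl hodd hladd hT₁ hT hsi hmi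
    have h4 := part_split hn hC (h.growth i) hLi hlc hl δ T
    have e2 : (L' : ℝ) * (C * (T₁ + 2 * δ) ^ n * (2 ^ n * C * (2 * δ))) ≤ c1 * δ := by
      calc (L' : ℝ) * (C * (T₁ + 2 * δ) ^ n * (2 ^ n * C * (2 * δ)))
          = (L' : ℝ) * (C * (T₁ + 2 * δ) ^ n * (2 ^ n * C * 2)) * δ := by ring
        _ ≤ c1 * δ := by
            refine mul_le_mul_of_nonneg_right (mul_le_mul_of_nonneg_left (mul_le_mul_of_nonneg_right
              (mul_le_mul_of_nonneg_left (pow_le_pow_left₀ (by linarith) (by linarith) n) hC)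
              (by positivity)) L'.coe_nonneg) hδ.le
    have e3 : 2 * (M * (C * T₁ ^ n)) * ((2 ^ (n + 1) + (n + 3) * 2 ^ (n + 2)) * T₁ *
        (2 ^ (n + 1) * C / (T / 2))) = c2 / T := by
      simp only [c2]; field_simp
    rw [e3] at h3
    obtain ⟨a1, a2⟩ := abs_le.1 h1
    obtain ⟨b1, b2⟩ := abs_le.1 (h2.trans e2)
    obtain ⟨d1, d2⟩ := abs_le.1 h3
    rw [abs_le]
    constructor <;> linarith
  have h0 : Tendsto (fun k : ℕ => c1 * (1 / ((k : ℝ) + 1)) + c2 * (1 / ((k : ℝ) + 1))) atTop (𝓝 0) := by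
    have := (tendsto_one_div_add_atTop_nhds_zero_nat (𝕜 := ℝ))
    simpa using (this.const_mul c1).add (this.const_mul c2)
  refine squeeze_zero_norm' ?_ h0
  obtain ⟨N, hN⟩ := exists_nat_gt (4 * T₁)
  filter_upwards [eventually_ge_atTop (max N 1)] with k hk
  have hk1 : (1 : ℝ) ≤ k := by exact_mod_cast (le_max_right N 1).trans hk
  have hkN : (N : ℝ) ≤ k := by exact_mod_cast (le_max_left N 1).trans hk
  rw [Real.norm_eq_abs]
  refine (key _ _ (by positivity) (by rw [div_le_div_iff₀ (by positivity) two_pos]; linarith)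
    (by linarith)).trans (le_of_eq ?_)
  ring

/-- The middle normal part at one index. -/
lemma Flattening.abs_mid_normal_le (h : Flattening U ν b o B C K) (hn : 1 ≤ n) (a : Fin m) (i : ℕ)
    {ψ : E → ℝ} {L' : NNReal} {T₁ M K' Qh η δ T : ℝ} (hLi : LipschitzWith L' ψ)
    (hMi : ∀ y, |ψ y| ≤ M) (hsi : ∀ y, T₁ ≤ ‖y‖ → ψ y = 0) (hmi : ∫ y, ψ y ∂ν i = 0)
    (hpair : ∀ φ : E → E, LipschitzWith L' φ → (∀ y, T₁ ≤ ‖y‖ → φ y = 0) →
      ∫ y, φ y ∂ν i = 0 → |pair n (ν i) φ| ≤ η / 2 * B i)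
    (hE : ∫ q in Metric.ball (0 : E) (T₁ + 2) ×ˢ Metric.ball (0 : E) (T₁ + 2),
      ‖across (b i) (q.1 - q.2)‖ ^ 2 / dist q.1 q.2 ^ (n + 1) ∂((ν i).prod (ν i)) ≤ K' * B i ^ 2)
    (hQi : ∫ y in Metric.ball (0 : E) T₁, |normHeight b o B a i y| ∂ν i ≤ Qh)
    (hT₁ : 0 < T₁) (hδ : 0 < δ) (hδ1 : δ ≤ 1 / 2) (hT : 4 * T₁ ≤ T) (hT2 : 2 ≤ T) :
    |part n (ν i) ψ (fun z => across (b i) z a) (cut δ T)| ≤
      (((L' : ℝ) ^ 2 * (C * (T₁ + 1) ^ n * (2 ^ n * C * 2)) / 2 + |K'| / 2) * Real.sqrt δ +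
        2 * (M * max Qh 0 * (2 ^ (n + 1) * C)) / T +
        2 * (M * (C * T₁ ^ n) * ((n + 3) * T₁ * 2 ^ (n + 2))) *
          Real.sqrt (weightConst n * K * (3 ^ (n + 3) * 2 * (4 * 2 ^ n * C / Real.sqrt (T / 2)))) +
        η) * B i := by
  have := h.finite i
  have hC : 0 ≤ C := zero_le_one.trans h.one_le
  have hB := h.B_pos i
  set c1 := (L' : ℝ) ^ 2 * (C * (T₁ + 1) ^ n * (2 ^ n * C * 2)) / 2 + |K'| / 2
  set c2 := 2 * (M * max Qh 0 * (2 ^ (n + 1) * C))
  set W := weightConst n * K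
  set c3 := 2 * (M * (C * T₁ ^ n) * ((n + 3) * T₁ * 2 ^ (n + 2)))
  set l := fun z => across (b i) z a
  have hlc : Continuous l := continuous_across_apply (b i) a
  have hl : ∀ z, |l z| ≤ ‖z‖ := abs_across_apply_le (b i) a
  have hodd : ∀ z, l (-z) = -l z := fun z => by simp [l, across]
  set hh := fun y => height (b i) (o i) y a
  have hlh : ∀ x y, l (x - y) = hh x - hh y := fun x y => by
    simp only [l, hh]
    rw [← height_sub_height (b i) (o i), PiLp.sub_apply]
  have hhc : Continuous hh :=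
    (PiLp.continuous_apply 2 _ a).comp (lipschitzWith_height (b i) (o i)).continuous
  have h1 : |part n (ν i) ψ l fun _ => 1| ≤ η * B i := by
    have hp := hpair (fun y => ψ y • b i (Sum.inr a)) (lipschitzWith_field hLi
      ((b i).orthonormal.1 _)) (fun y hy => by rw [hsi y hy, zero_smul])
      (by rw [integral_smul_const, hmi, zero_smul])
    rw [pair_smul_dir (ν i) ψ _ (l := l) (fun z => (inner_inr (b i) a z).symm), abs_mul,
      abs_of_pos (by norm_num : (0 : ℝ) < 1 / 2)] at hp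
    nlinarith
  have hs : 0 < Real.sqrt δ / B i := div_pos (Real.sqrt_pos.2 hδ) hB
  have hE' : ∫ q in Metric.ball (0 : E) (T₁ + 2) ×ˢ Metric.ball (0 : E) (T₁ + 2),
      l (q.1 - q.2) ^ 2 / dist q.1 q.2 ^ (n + 1) ∂((ν i).prod (ν i)) ≤ |K'| * B i ^ 2 := by
    refine le_trans ?_ (hE.trans (mul_le_mul_of_nonneg_right (le_abs_self K') (sq_nonneg _)))
    refine integral_mono_of_nonneg (Eventually.of_forall fun q => by
        simp only [Pi.zero_apply]; positivity) ?_ (Eventually.of_forall fun q => ?_)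
    · refine ((integrable_dist_inv_pow hn hC (h.growth i)).mono'
        (Measurable.aestronglyMeasurable ?_) (Eventually.of_forall fun q => ?_)).integrableOn
      · have hac : Continuous fun z : E => ‖across (b i) z‖ := by
          simpa [height] using (lipschitzWith_height (b i) 0).continuous.norm
        exact ((hac.measurable.comp (measurable_fst.sub measurable_snd)).pow_const 2).div
          ((measurable_fst.dist measurable_snd).pow_const _)
      · rw [Real.norm_eq_abs, abs_of_nonneg (by positivity)]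
        rcases eq_or_ne (dist q.1 q.2) 0 with h0 | h0
        · rw [h0, zero_pow (by omega : n + 1 ≠ 0), div_zero]; positivity
        have h2 : ‖across (b i) (q.1 - q.2)‖ ^ 2 ≤ dist q.1 q.2 ^ 2 := by
          rw [dist_eq_norm]; exact pow_le_pow_left₀ (norm_nonneg _) (norm_across_le _ _) 2
        refine (div_le_div_of_nonneg_right h2 (by positivity)).trans (le_of_eq ?_)
        obtain ⟨p, rfl⟩ : ∃ p, n = p + 1 := ⟨n - 1, by omega⟩
        rw [Nat.add_sub_cancel, pow_succ, pow_succ]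
        field_simp
        ring
    · refine div_le_div_of_nonneg_right ?_ (by positivity)
      rw [← sq_abs, ← Real.norm_eq_abs]
      exact pow_le_pow_left₀ (norm_nonneg _) (PiLp.norm_apply_le _ a) 2
  have h2 := abs_part_near_le_energy hn hC (h.growth i) hLi hlc hl hT₁ hδ hδ1 hs hsi T hE'
  have hWi : Integrable (fun y => hh y ^ 2 / weight n y) (ν i) ∧
      ∫ y, hh y ^ 2 / weight n y ∂ν i ≤ W * B i ^ 2 := by
    obtain ⟨hi1, hi2⟩ := h.weighted_height i
    have hle : ∀ y, hh y ^ 2 / weight n y ≤ ‖height (b i) (o i) y‖ ^ 2 / weight n y := fun y => by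
      refine div_le_div_of_nonneg_right ?_ (weight_pos n y).le
      rw [← sq_abs, ← Real.norm_eq_abs]
      exact pow_le_pow_left₀ (norm_nonneg _) (PiLp.norm_apply_le _ a) 2
    have hi3 : Integrable (fun y => hh y ^ 2 / weight n y) (ν i) :=
      hi1.mono' ((hhc.pow 2).div (continuous_weight n)
        fun y => (weight_pos n y).ne').aestronglyMeasurable
        (Eventually.of_forall fun y => by
          rw [Real.norm_eq_abs, abs_of_nonneg (div_nonneg (sq_nonneg _) (weight_pos n y).le)]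
          exact hle y)
    exact ⟨hi3, (integral_mono hi3 hi1 hle).trans hi2⟩
  have hQ' : ∫ y in Metric.ball (0 : E) T₁, |hh y| ∂ν i ≤ max Qh 0 * B i := by
    have : ∫ y in Metric.ball (0 : E) T₁, |hh y| ∂ν i =
        B i * ∫ y in Metric.ball (0 : E) T₁, |normHeight b o B a i y| ∂ν i := by
      rw [← integral_const_mul]
      refine integral_congr_ae (Eventually.of_forall fun y => ?_)
      simp only [normHeight, hh, abs_div, abs_of_pos hB]
      field_simp
    rw [this, mul_comm]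
    exact mul_le_mul_of_nonneg_right (hQi.trans (le_max_left _ _)) hB.le
  have h3 := abs_part_far_height_le hC (h.growth i) hLi hMi hhc hlc hl hodd hlh hWi.1 hWi.2
    hT₁ hT hT2 hsi hmi hQ'
  have h4 := part_split hn hC (h.growth i) hLi hlc hl δ T
  have e2 : (L' : ℝ) ^ 2 * (C * (T₁ + 2 * δ) ^ n * (2 ^ n * C * (2 * δ))) /
      (2 * (Real.sqrt δ / B i)) + Real.sqrt δ / B i * (|K'| * B i ^ 2) / 2 ≤
      c1 * Real.sqrt δ * B i := by
    have hsd : Real.sqrt δ * Real.sqrt δ = δ := Real.mul_self_sqrt hδ.le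
    have hsd0 : 0 < Real.sqrt δ := Real.sqrt_pos.2 hδ
    have : (L' : ℝ) ^ 2 * (C * (T₁ + 2 * δ) ^ n * (2 ^ n * C * (2 * δ))) ≤
        (L' : ℝ) ^ 2 * (C * (T₁ + 1) ^ n * (2 ^ n * C * 2)) * δ := by
      calc _ = (L' : ℝ) ^ 2 * (C * (T₁ + 2 * δ) ^ n * (2 ^ n * C * 2)) * δ := by ring
        _ ≤ _ := mul_le_mul_of_nonneg_right (mul_le_mul_of_nonneg_left (mul_le_mul_of_nonneg_right
            (mul_le_mul_of_nonneg_left (pow_le_pow_left₀ (by linarith) (by linarith) n) hC)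
            (by positivity)) (sq_nonneg _)) hδ.le
    refine (add_le_add (div_le_div_of_nonneg_right this (by positivity)) le_rfl).trans (le_of_eq ?_)
    simp only [c1]
    field_simp
    linear_combination (-((L' : ℝ) ^ 2 * (C * (T₁ + 1) ^ n * (2 ^ n * C * 2)))) * hsd
  have e3 : 2 * (M * (max Qh 0 * B i) * (2 ^ (n + 1) * C / T)) + 2 * (M * (C * T₁ ^ n) *
      ((n + 3) * T₁ * 2 ^ (n + 2) * Real.sqrt (W * B i ^ 2 *
        (3 ^ (n + 3) * 2 * (4 * 2 ^ n * C / Real.sqrt (T / 2)))))) =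
      (c2 / T + c3 * Real.sqrt (W * (3 ^ (n + 3) * 2 * (4 * 2 ^ n * C / Real.sqrt (T / 2))))) * B i := by
    rw [show W * B i ^ 2 * (3 ^ (n + 3) * 2 * (4 * 2 ^ n * C / Real.sqrt (T / 2))) =
      B i ^ 2 * (W * (3 ^ (n + 3) * 2 * (4 * 2 ^ n * C / Real.sqrt (T / 2)))) by ring,
      Real.sqrt_mul (sq_nonneg _), Real.sqrt_sq hB.le]
    simp only [c2, c3]
    ring
  rw [e3] at h3
  obtain ⟨a1, a2⟩ := abs_le.1 h1
  obtain ⟨b1, b2⟩ := abs_le.1 (h2.trans e2)
  obtain ⟨d1, d2⟩ := abs_le.1 h3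
  rw [abs_le]
  constructor <;> linarith

/-- The normal equation. -/
theorem Flattening.normalNull (h : Flattening U ν b o B C K) (hn : 1 ≤ n)
    {f g : EuclideanSpace ℝ (Fin n) → ℝ} (hfl : LocallyIntegrable f)
    (hf : WeakLimit U ν b o (fun _ _ => 1) f) {ψ₀ : EuclideanSpace ℝ (Fin n) → ℝ} {L₀ : NNReal}
    (hL₀ : LipschitzWith L₀ ψ₀) (hψ₀ : HasCompactSupport ψ₀) (hpos : 0 < ∫ x, ψ₀ x * f x)
    (a : Fin m) (hg : WeakLimit U ν b o (normHeight b o B a) g)
    {φ : EuclideanSpace ℝ (Fin n) → ℝ} {L : NNReal} (hL : LipschitzWith L φ)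
    (hφ : HasCompactSupport φ) (hmean : ∫ x, φ x * f x = 0) :
    Tendsto (fun k : ℕ => normalForm n (1 / ((k : ℝ) + 1)) ((k : ℝ) + 1) g f φ) atTop (𝓝 0) := by
  obtain ⟨c, L', T₁, M, hT₁, hc, hev⟩ := h.exists_correction hf hL₀ hψ₀ hpos hL hφ hmean
  have hC : 0 ≤ C := zero_le_one.trans h.one_le
  obtain ⟨K', hK'⟩ := h.energy (T₁ + 2)
  obtain ⟨Qh, hQh⟩ := (h.weightOK_height a).2 T₁
  have hM0 : 0 ≤ M := by
    obtain ⟨i, hi⟩ := hev.exists
    exact (abs_nonneg _).trans (hi.2.1 0)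
  set c1 := (L' : ℝ) ^ 2 * (C * (T₁ + 1) ^ n * (2 ^ n * C * 2)) / 2 + |K'| / 2
  set c2 := 2 * (M * max Qh 0 * (2 ^ (n + 1) * C))
  set W := weightConst n * K
  set c3 := 2 * (M * (C * T₁ ^ n) * ((n + 3) * T₁ * 2 ^ (n + 2)))
  have key : ∀ δ T : ℝ, 0 < δ → δ ≤ 1 / 2 → 4 * T₁ ≤ T → 2 ≤ T →
      |normalForm n δ T g f φ| ≤ c1 * Real.sqrt δ + c2 / T +
        c3 * Real.sqrt (W * (3 ^ (n + 3) * 2 * (4 * 2 ^ n * C / Real.sqrt (T / 2)))) := by
    intro δ T hδ hδ1 hT hT2
    have hT0 : 0 < T := by linarith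
    have hmid := (h.tendsto_mid_normal hn hfl hf a hg hL hφ hδ hT0).sub
      (hc.mul (h.tendsto_mid_normal hn hfl hf a hg hL₀ hψ₀ hδ hT0))
    rw [zero_mul, sub_zero] at hmid
    refine le_of_forall_pos_le_add fun η hη => le_of_tendsto hmid.abs ?_
    obtain ⟨S₁, hS₁⟩ : ∃ S : NNReal, ∀ x, |φ x| ≤ (S : ℝ) :=
      ⟨Real.toNNReal (hφ.exists_bound_of_continuous hL.continuous).choose, fun x =>
        ((hφ.exists_bound_of_continuous hL.continuous).choose_spec x).trans (Real.le_coe_toNNReal _)⟩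
    obtain ⟨S₂, hS₂⟩ : ∃ S : NNReal, ∀ x, |ψ₀ x| ≤ (S : ℝ) :=
      ⟨Real.toNNReal (hψ₀.exists_bound_of_continuous hL₀.continuous).choose, fun x =>
        ((hψ₀.exists_bound_of_continuous hL₀.continuous).choose_spec x).trans (Real.le_coe_toNNReal _)⟩
    filter_upwards [hev, h.pairing T₁ L' (η / 2) (half_pos hη), hK', hQh] with i hi hpair hE hQi
    obtain ⟨hLi, hMi, hsi, hmi⟩ := hi
    have := h.finite i
    have hB := h.B_pos i
    set l := fun z => across (b i) z a
    have hlc : Continuous l := continuous_across_apply (b i) a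
    have hl : ∀ z, |l z| ≤ ‖z‖ := abs_across_apply_le (b i) a
    have hodd : ∀ z, l (-z) = -l z := fun z => by simp [l, across]
    rw [show part n (ν i) (cylField (b i) (o i) φ) l (cut δ T) / B i -
        c i * (part n (ν i) (cylField (b i) (o i) ψ₀) l (cut δ T) / B i) =
        part n (ν i) (cylField (b i) (o i) fun x => φ x - c i * ψ₀ x) l (cut δ T) / B i by
      rw [← mul_div_assoc, ← sub_div, ← part_sub_smul hn hC (h.growth i)
        (lipschitzWith_cylField _ _ hL hS₁) (lipschitzWith_cylField _ _ hL₀ hS₂) hlc hl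
        (Q := cut δ T) ((continuous_ramp T).mul (continuous_const.sub (continuous_ramp δ)))
        (fun r => by rw [abs_of_nonneg (cut_bounds δ T r).1]; exact (cut_bounds δ T r).2) (c i)]
      simp only [part, cylField_sub_smul]]
    set ψ := cylField (b i) (o i) fun x => φ x - c i * ψ₀ x
    rw [abs_div, abs_of_pos hB, div_le_iff₀ hB]
    exact h.abs_mid_normal_le hn a i hLi hMi hsi hmi hpair hE hQi hT₁ hδ hδ1 hT hT2
  have h0 : Tendsto (fun k : ℕ => c1 * Real.sqrt (1 / ((k : ℝ) + 1)) + c2 * (1 / ((k : ℝ) + 1)) +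
      c3 * Real.sqrt (W * (3 ^ (n + 3) * 2 * (4 * 2 ^ n * C *
        Real.sqrt (2 * (1 / ((k : ℝ) + 1))))))) atTop (𝓝 0) := by
    have ht := (tendsto_one_div_add_atTop_nhds_zero_nat (𝕜 := ℝ))
    have hs : Continuous fun t : ℝ => c1 * Real.sqrt t + c2 * t +
        c3 * Real.sqrt (W * (3 ^ (n + 3) * 2 * (4 * 2 ^ n * C * Real.sqrt (2 * t)))) := by fun_prop
    simpa [Function.comp_def] using (hs.tendsto 0).comp ht
  refine squeeze_zero_norm' ?_ h0
  obtain ⟨N, hN⟩ := exists_nat_gt (4 * T₁)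
  filter_upwards [eventually_ge_atTop (max N 1)] with k hk
  have hk1 : (1 : ℝ) ≤ k := by exact_mod_cast (le_max_right N 1).trans hk
  have hkN : (N : ℝ) ≤ k := by exact_mod_cast (le_max_left N 1).trans hk
  rw [Real.norm_eq_abs]
  refine (key _ _ (by positivity) (by rw [div_le_div_iff₀ (by positivity) two_pos]; linarith)
    (by linarith) (by linarith)).trans (le_of_eq ?_)
  have e : (4 : ℝ) * 2 ^ n * C / Real.sqrt (((k : ℝ) + 1) / 2) =
      4 * 2 ^ n * C * Real.sqrt (2 * (1 / ((k : ℝ) + 1))) := by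
    rw [div_eq_mul_inv, ← Real.sqrt_inv, inv_div, mul_one_div]
  rw [e]
  ring

end

end Vale.Agent.P120.Full
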