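import Vale.Agent.P120.Full.DecayFlat
import Vale.Agent.P120.Full.DecayRep

/-!
# P120, full answer: weak limits of the projected measures and heights
-/

namespace Vale.Agent.P120.Full

open MeasureTheory Set Filter
open scoped Topology RealInnerProductSpace ENNReal

noncomputable section

/-- Cauchy-Schwarz for integrals. -/
lemma sq_integral_mul_le {X : Type*} [MeasurableSpace X] {μ : Measure X} {f g : X → ℝ}
    (hf : Integrable (fun x => f x ^ 2) μ) (hg : Integrable (fun x => g x ^ 2) μ)
    (hfg : Integrable (fun x => f x * g x) μ) :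
    (∫ x, f x * g x ∂μ) ^ 2 ≤ (∫ x, f x ^ 2 ∂μ) * ∫ x, g x ^ 2 ∂μ := by
  have h : ∀ t : ℝ, 0 ≤ (∫ x, f x ^ 2 ∂μ) * (t * t) + 2 * (∫ x, f x * g x ∂μ) * t +
      ∫ x, g x ^ 2 ∂μ := by
    intro t
    have h0 : 0 ≤ ∫ x, (t * f x + g x) ^ 2 ∂μ := integral_nonneg fun x => sq_nonneg _
    refine h0.trans (le_of_eq ?_)
    have e : (fun x => (t * f x + g x) ^ 2) =
        fun x => (t * t * f x ^ 2 + 2 * t * (f x * g x)) + g x ^ 2 := by funext x; ring
    have i1 : Integrable (fun x => t * t * f x ^ 2) μ := hf.const_mul _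
    have i2 : Integrable (fun x => 2 * t * (f x * g x)) μ := hfg.const_mul _
    have i12 : Integrable (fun x => t * t * f x ^ 2 + 2 * t * (f x * g x)) μ := i1.add i2
    rw [e, integral_add i12 hg, integral_add i1 i2, integral_const_mul, integral_const_mul]
    ring
  have h1 := discrim_le_zero h
  rw [discrim] at h1
  linarith

lemma limUnder_linear {n : ℕ} {U : Ultrafilter ℕ} {I : (EuclideanSpace ℝ (Fin n) → ℝ) → ℕ → ℝ}
    (hex : ∀ φ, IsTest φ → ∃ x, Tendsto (I φ) U (𝓝 x))
    (hadd : ∀ φ ψ, IsTest φ → IsTest ψ → I (φ + ψ) = fun i => I φ i + I ψ i)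
    (hsmul : ∀ (a : ℝ) φ, IsTest φ → I (a • φ) = fun i => a * I φ i) :
    ∃ Λ : (EuclideanSpace ℝ (Fin n) → ℝ) → ℝ, (∀ φ, IsTest φ → Tendsto (I φ) U (𝓝 (Λ φ))) ∧
      (∀ φ ψ, IsTest φ → IsTest ψ → Λ (φ + ψ) = Λ φ + Λ ψ) ∧
      ∀ (a : ℝ) φ, IsTest φ → Λ (a • φ) = a * Λ φ := by
  choose! Λ hΛ using hex
  refine ⟨Λ, hΛ, fun φ ψ hφ hψ => ?_, fun a φ hφ => ?_⟩
  · exact tendsto_nhds_unique (hΛ _ (hφ.add hψ))
      (by rw [hadd φ ψ hφ hψ]; exact (hΛ φ hφ).add (hΛ ψ hψ))
  · exact tendsto_nhds_unique (hΛ _ (hφ.smul a))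
      (by rw [hsmul a φ hφ]; exact (hΛ φ hφ).const_mul a)

/-- Functions vanishing wherever a test function vanishes keep compact support. -/
lemma IsTest.support_of {n : ℕ} {φ : EuclideanSpace ℝ (Fin n) → ℝ} (h : IsTest φ)
    (g : EuclideanSpace ℝ (Fin n) → ℝ) (hg : ∀ x, φ x = 0 → g x = 0) : HasCompactSupport g :=
  HasCompactSupport.intro h.2.isCompact fun _ hx => hg _ (image_eq_zero_of_notMem_tsupport hx)

variable {E : Type*} [NormedAddCommGroup E] [InnerProductSpace ℝ E] [MeasurableSpace E]
  [BorelSpace E] [FiniteDimensional ℝ E] {n m : ℕ}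

/-- A test function read on a cylinder, against a weight. -/
def cylInt (ν : Measure E) (b : OrthonormalBasis (Fin n ⊕ Fin m) ℝ E)
    (o : EuclideanSpace ℝ (Fin m)) (φ : EuclideanSpace ℝ (Fin n) → ℝ) (v : E → ℝ) : ℝ :=
  ∫ y, φ (proj b y) * chi b o y * v y ∂ν

omit [MeasurableSpace E] [BorelSpace E] in
lemma continuous_hasCompactSupport_cyl (b : OrthonormalBasis (Fin n ⊕ Fin m) ℝ E)
    (o : EuclideanSpace ℝ (Fin m)) {φ : EuclideanSpace ℝ (Fin n) → ℝ} (hφ : IsTest φ)
    {v : E → ℝ} (hv : Continuous v) :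
    Continuous (fun y => φ (proj b y) * chi b o y * v y) ∧
      HasCompactSupport (fun y => φ (proj b y) * chi b o y * v y) := by
  refine ⟨((hφ.1.comp (lipschitzWith_proj b).continuous).mul
    (lipschitzWith_chi b o).continuous).mul hv, ?_⟩
  obtain ⟨T, hT⟩ := hφ.2.isCompact.isBounded.subset_closedBall 0
  refine HasCompactSupport.intro (isCompact_closedBall (0 : E) (T + 2 + ‖o‖)) fun y hy => ?_
  by_contra hne
  refine hy (mem_closedBall_zero_iff.2 ?_)
  have h1 : ‖proj b y‖ ≤ T := mem_closedBall_zero_iff.1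
    (hT (subset_tsupport _ (left_ne_zero_of_mul (left_ne_zero_of_mul hne))))
  have h2 : ‖height b o y‖ ≤ 2 := by
    by_contra h0
    exact right_ne_zero_of_mul (left_ne_zero_of_mul hne)
      (max_eq_left ((min_le_right _ _).trans (by linarith [not_le.1 h0])))
  linarith [norm_le_proj_add_height b o y]

lemma integrable_cyl {ν : Measure E} [IsFiniteMeasure ν]
    (b : OrthonormalBasis (Fin n ⊕ Fin m) ℝ E) (o : EuclideanSpace ℝ (Fin m))
    {φ : EuclideanSpace ℝ (Fin n) → ℝ} (hφ : IsTest φ) {v : E → ℝ} (hv : Continuous v) :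
    Integrable (fun y => φ (proj b y) * chi b o y * v y) ν :=
  (continuous_hasCompactSupport_cyl b o hφ hv).1.integrable_of_hasCompactSupport
    (continuous_hasCompactSupport_cyl b o hφ hv).2

variable {U : Ultrafilter ℕ} {ν : ℕ → Measure E}
  {b : ℕ → OrthonormalBasis (Fin n ⊕ Fin m) ℝ E} {o : ℕ → EuclideanSpace ℝ (Fin m)}
  {B : ℕ → ℝ} {C K : ℝ}

/-- Weights whose `L¹` norms on bounded sets stay bounded. -/
def WeightOK (U : Ultrafilter ℕ) (ν : ℕ → Measure E) (v : ℕ → E → ℝ) : Prop :=
  (∀ i, Continuous (v i)) ∧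
    ∀ T : ℝ, ∃ M : ℝ, ∀ᶠ i in (U : Filter ℕ), ∫ y in Metric.ball 0 T, |v i y| ∂ν i ≤ M

/-- The weight `v` has limit `g`. -/
def WeakLimit (U : Ultrafilter ℕ) (ν : ℕ → Measure E)
    (b : ℕ → OrthonormalBasis (Fin n ⊕ Fin m) ℝ E) (o : ℕ → EuclideanSpace ℝ (Fin m))
    (v : ℕ → E → ℝ) (g : EuclideanSpace ℝ (Fin n) → ℝ) : Prop :=
  ∀ φ, IsTest φ → Tendsto (fun i => cylInt (ν i) (b i) (o i) φ (v i)) U (𝓝 (∫ x, φ x * g x))

omit [BorelSpace E] [FiniteDimensional ℝ E] in
lemma Flattening.mass_ball (h : Flattening U ν b o B C K) {T : ℝ} (hT : 0 < T) (i : ℕ) :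
    (ν i).real (Metric.ball 0 T) ≤ C * T ^ n :=
  h.growth i 0 T hT

lemma Flattening.weightOK_one (h : Flattening U ν b o B C K) :
    WeightOK U ν fun _ _ => (1 : ℝ) :=
  ⟨fun _ => continuous_const, fun T => ⟨C * (max T 1) ^ n, Eventually.of_forall fun i => by
    have := h.finite i
    simp only [abs_one, setIntegral_const, smul_eq_mul, mul_one]
    exact (measureReal_mono (Metric.ball_subset_ball (le_max_left T 1))).trans
      (h.mass_ball (lt_max_of_lt_right one_pos) i)⟩⟩

/-- Eventually the cylinder integrals only see a bounded ball, where the cutoff is one. -/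
lemma Flattening.abs_cylInt_le (h : Flattening U ν b o B C K) {v : ℕ → E → ℝ}
    (hv : ∀ i, Continuous (v i)) (T : ℝ) : ∀ᶠ i in (U : Filter ℕ), ∀ φ,
      IsTest φ → ∀ s : ℝ, (∀ x, |φ x| ≤ s) → (∀ x, T ≤ ‖x‖ → φ x = 0) →
        |cylInt (ν i) (b i) (o i) φ (v i)| ≤ s * ∫ y in Metric.ball 0 (T + 3), |v i y| ∂ν i := by
  filter_upwards [h.cylinder T one_pos] with i hi φ hφ s hs hsupp
  have := h.finite i
  have hint : IntegrableOn (fun y => |v i y|) (Metric.ball 0 (T + 3)) (ν i) :=
    ((hv i).abs.continuousOn.integrableOn_compact (isCompact_closedBall _ _)).mono_set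
      Metric.ball_subset_closedBall
  rw [← integral_indicator measurableSet_ball, ← integral_const_mul, cylInt, ← Real.norm_eq_abs]
  refine (norm_integral_le_integral_norm _).trans (integral_mono_ae
    (integrable_cyl _ _ hφ (hv i)).norm
    ((hint.integrable_indicator measurableSet_ball).const_mul s) ?_)
  filter_upwards [Measure.support_mem_ae (μ := ν i)] with y hy
  have hs0 : 0 ≤ s := (abs_nonneg _).trans (hs 0)
  by_cases hne : φ (proj (b i) y) * chi (b i) (o i) y = 0
  · rw [hne, zero_mul, norm_zero]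
    exact mul_nonneg hs0 (indicator_nonneg (fun _ _ => abs_nonneg _) y)
  have hp : ‖proj (b i) y‖ < T := not_le.1 fun h0 => left_ne_zero_of_mul hne (hsupp _ h0)
  obtain ⟨hy1, hy2, -⟩ := hi y hy (right_ne_zero_of_mul hne) hp
  rw [indicator_of_mem (mem_ball_zero_iff.2 hy1), hy2, mul_one, norm_mul, Real.norm_eq_abs,
    Real.norm_eq_abs]
  exact mul_le_mul_of_nonneg_right (hs _) (abs_nonneg _)

/-- The tent. -/
def tent (t : ℝ) (x : EuclideanSpace ℝ (Fin n)) : ℝ := max 0 (1 - ‖x‖ / t)

lemma tent_mem {t : ℝ} (ht : 0 < t) (x : EuclideanSpace ℝ (Fin n)) :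
    0 ≤ tent t x ∧ tent t x ≤ 1 :=
  ⟨le_max_left _ _, max_le zero_le_one (by linarith [div_nonneg (norm_nonneg x) ht.le])⟩

lemma tent_eq_zero {t : ℝ} (ht : 0 < t) {x : EuclideanSpace ℝ (Fin n)} (hx : t ≤ ‖x‖) :
    tent t x = 0 := max_eq_left (by linarith [(one_le_div ht).2 hx])

lemma isTest_tent {t : ℝ} (ht : 0 < t) : IsTest (tent t : EuclideanSpace ℝ (Fin n) → ℝ) :=
  ⟨by unfold tent; fun_prop, HasCompactSupport.intro (isCompact_closedBall 0 t) fun x hx =>
    tent_eq_zero ht (le_of_lt (not_le.1 fun h0 => hx (mem_closedBall_zero_iff.2 h0)))⟩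

/-- The volume of the unit ball. -/
def unitVol (n : ℕ) : ℝ :=
  (volume : Measure (EuclideanSpace ℝ (Fin n))).real (Metric.ball 0 1)

lemma unitVol_pos (n : ℕ) : 0 < unitVol n :=
  ENNReal.toReal_pos (Metric.measure_ball_pos _ _ one_pos).ne' measure_ball_lt_top.ne

lemma volume_real_ball (z : EuclideanSpace ℝ (Fin n)) {t : ℝ} (ht : 0 < t) :
    (volume : Measure (EuclideanSpace ℝ (Fin n))).real (Metric.ball z t) = t ^ n * unitVol n := by
  rw [unitVol, measureReal_def, Measure.addHaar_ball_of_pos _ z ht, ENNReal.toReal_mul,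
    ENNReal.toReal_ofReal (by positivity), finrank_euclideanSpace_fin, measureReal_def]

lemma le_integral_tent {t : ℝ} (ht : 0 < t) :
    (t / 2) ^ n * unitVol n / 2 ≤ ∫ x : EuclideanSpace ℝ (Fin n), tent t x := by
  have hi : Integrable (tent t : EuclideanSpace ℝ (Fin n) → ℝ) :=
    (isTest_tent ht).1.integrable_of_hasCompactSupport (isTest_tent ht).2
  calc (t / 2) ^ n * unitVol n / 2 = ∫ _ in Metric.ball (0 : EuclideanSpace ℝ (Fin n)) (t / 2),
        (1 / 2 : ℝ) := by
        rw [setIntegral_const, volume_real_ball _ (by positivity), smul_eq_mul]; ring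
    _ ≤ ∫ x in Metric.ball (0 : EuclideanSpace ℝ (Fin n)) (t / 2), tent t x := by
        refine setIntegral_mono_on ?_ hi.integrableOn measurableSet_ball fun x hx => ?_
        · exact integrableOn_const measure_ball_lt_top.ne
        · refine le_max_of_le_right ?_
          rw [mem_ball_zero_iff] at hx
          have : ‖x‖ / t ≤ 1 / 2 := by rw [div_le_iff₀ ht]; linarith
          linarith
    _ ≤ _ := setIntegral_le_integral hi (Eventually.of_forall fun x => (tent_mem ht x).1)

/-- The upper bound for the limit density. -/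
def densityBound (n : ℕ) (C : ℝ) : ℝ := 2 * C * 10 ^ n / unitVol n

lemma Flattening.avg_bound (h : Flattening U ν b o B C K) {ψ : EuclideanSpace ℝ (Fin n) → ℝ}
    (hψ : IsTest ψ) (hψ0 : ∀ x, 0 ≤ ψ x) {ε : ℝ} (hε : 0 < ε) :
    ∀ᶠ i in (U : Filter ℕ), cylInt (ν i) (b i) (o i) ψ (fun _ => 1) ≤
      densityBound n C * (∫ x, ψ x) + ε := by
  obtain ⟨T0, hT0⟩ := hψ.2.isCompact.isBounded.subset_closedBall 0
  set T := max T0 0 + 1
  have hT : 0 < T := by positivity
  have hC : 0 < C := lt_of_lt_of_le one_pos h.one_le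
  have hzero : ∀ x, T ≤ ‖x‖ → ψ x = 0 := fun x hx => by
    by_contra h0
    have := mem_closedBall_zero_iff.1 (hT0 (subset_tsupport _ h0))
    linarith [le_max_left T0 0]
  set Q := C * (T + 4) ^ n
  obtain ⟨δ, hδ, huc⟩ := Metric.uniformContinuous_iff.1
    (hψ.2.uniformContinuous_of_continuous hψ.1) (ε / (Q + 1)) (by positivity)
  set t := min δ 1
  have ht : 0 < t := lt_min hδ one_pos
  set Z := ∫ x : EuclideanSpace ℝ (Fin n), tent t x
  have hZ : (t / 2) ^ n * unitVol n / 2 ≤ Z := le_integral_tent ht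
  have hV := unitVol_pos n
  have hZ0 : 0 < Z := lt_of_lt_of_le (by positivity) hZ
  filter_upwards [h.cylinder (T + 1) ht] with i hi
  have := h.finite i
  set c := chi (b i) (o i)
  set π := proj (b i)
  have hπc : Continuous π := (lipschitzWith_proj _).continuous
  have hcc : Continuous c := (lipschitzWith_chi _ _).continuous
  set G : EuclideanSpace ℝ (Fin n) → E → ℝ := fun z y => ψ z * tent t (π y - z) * c y with hG
  have hGc : Continuous (Function.uncurry G) := by
    simp only [hG, Function.uncurry_def]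
    exact ((hψ.1.comp continuous_fst).mul ((isTest_tent ht).1.comp
      ((hπc.comp continuous_snd).sub continuous_fst))).mul (hcc.comp continuous_snd)
  have hGs : HasCompactSupport (Function.uncurry G) := by
    refine HasCompactSupport.intro ((isCompact_closedBall (0 : EuclideanSpace ℝ (Fin n)) T).prod
      (isCompact_closedBall (0 : E) (T + t + 2 + ‖o i‖))) fun q hq => ?_
    by_contra hne
    simp only [hG, Function.uncurry_def] at hne
    have h1 : ‖q.1‖ < T := not_le.1 fun h0 => left_ne_zero_of_mul (left_ne_zero_of_mul hne) (hzero _ h0)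
    have h2 : ‖π q.2 - q.1‖ < t := not_le.1 fun h0 =>
      right_ne_zero_of_mul (left_ne_zero_of_mul hne) (tent_eq_zero ht h0)
    have h3 : ‖height (b i) (o i) q.2‖ ≤ 2 := by
      by_contra h0
      exact right_ne_zero_of_mul hne (max_eq_left ((min_le_right _ _).trans (by linarith [not_le.1 h0])))
    refine hq ⟨mem_closedBall_zero_iff.2 h1.le, mem_closedBall_zero_iff.2 ?_⟩
    have h5 := norm_le_insert' (π q.2) q.1
    linarith [norm_le_proj_add_height (b i) (o i) q.2]
  have hGi : Integrable (Function.uncurry G) (volume.prod (ν i)) :=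
    hGc.integrable_of_hasCompactSupport hGs
  have hN : ∀ z, ∫ y, G z y ∂ν i ≤ ψ z * (C * (5 * t) ^ n) := by
    intro z
    simp only [hG, mul_assoc, integral_const_mul]
    by_cases hz : ψ z = 0
    · simp [hz]
    refine mul_le_mul_of_nonneg_left ?_ (hψ0 z)
    have hzT : ‖z‖ < T := not_le.1 fun h0 => hz (hzero z h0)
    by_cases hex : ∃ y0 ∈ (ν i).support, tent t (π y0 - z) * c y0 ≠ 0
    swap
    · simp only [not_exists, not_and, not_not] at hex
      rw [integral_eq_zero_of_ae (by
        filter_upwards [Measure.support_mem_ae (μ := ν i)] with y hy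
        exact hex y hy)]
      positivity
    obtain ⟨y0, hy0, hne0⟩ := hex
    have hbd : ∀ y ∈ (ν i).support, tent t (π y - z) * c y ≠ 0 →
        ‖π y - z‖ < t ∧ ‖height (b i) (o i) y‖ ≤ t := by
      intro y hy hne
      have h2 : ‖π y - z‖ < t := not_le.1 fun h0 => left_ne_zero_of_mul hne (tent_eq_zero ht h0)
      have h5 := norm_le_insert' (π y) z
      exact ⟨h2, (hi y hy (right_ne_zero_of_mul hne)
        (show ‖π y‖ < T + 1 by linarith [min_le_right δ 1])).2.2⟩
    obtain ⟨a1, a2⟩ := hbd y0 hy0 hne0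
    refine le_trans ?_ (h.growth i y0 (5 * t) (by positivity))
    rw [← integral_indicator_one measurableSet_ball]
    refine integral_mono_ae ?_ ((integrable_const _).indicator measurableSet_ball) ?_
    · refine Integrable.of_bound ((((isTest_tent ht).1.comp (hπc.sub continuous_const)).mul
        hcc).aestronglyMeasurable) 1 (Eventually.of_forall fun y => ?_)
      have h1 := tent_mem ht (π y - z)
      have h2 := chi_mem (b i) (o i) y
      rw [Real.norm_eq_abs, abs_of_nonneg (mul_nonneg h1.1 h2.1)]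
      exact mul_le_one₀ h1.2 h2.1 h2.2
    · filter_upwards [Measure.support_mem_ae (μ := ν i)] with y hy
      by_cases hne : tent t (π y - z) * c y = 0
      · rw [hne]; exact indicator_nonneg (fun _ _ => zero_le_one) y
      obtain ⟨c1, c2⟩ := hbd y hy hne
      have hmem : y ∈ Metric.ball y0 (5 * t) := by
        rw [Metric.mem_ball, dist_eq_norm]
        have e1 : ‖proj (b i) (y - y0)‖ ≤ 2 * t := by
          rw [proj_sub, show proj (b i) y - proj (b i) y0 = (π y - z) - (π y0 - z) by
            simp only [π]; abel]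
          linarith [norm_sub_le (π y - z) (π y0 - z)]
        have e2 : ‖across (b i) (y - y0)‖ ≤ 2 * t := by
          rw [← height_sub_height (b i) (o i)]
          linarith [norm_sub_le (height (b i) (o i) y) (height (b i) (o i) y0)]
        linarith [norm_le_proj_add_across (b i) (y - y0)]
      rw [indicator_of_mem hmem, Pi.one_apply]
      exact mul_le_one₀ (tent_mem ht _).2 (chi_mem _ _ y).1 (chi_mem _ _ y).2
  have hF : ∀ y, |(∫ z, ψ z * tent t (π y - z)) - Z * ψ (π y)| ≤ ε / (Q + 1) * Z := by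
    intro y
    have i1 : Integrable (fun z => ψ z * tent t (π y - z)) :=
      (hψ.1.mul ((isTest_tent ht).1.comp (continuous_const.sub continuous_id))).integrable_of_hasCompactSupport
        hψ.2.mul_right
    have i0 : Integrable (fun z => tent t (π y - z)) :=
      ((isTest_tent ht).1.integrable_of_hasCompactSupport (isTest_tent ht).2).comp_sub_left (π y)
    have e : Z * ψ (π y) = ∫ z, ψ (π y) * tent t (π y - z) := by
      rw [integral_const_mul, integral_sub_left_eq_self (tent t) volume (π y), mul_comm]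
    rw [e, ← integral_sub i1 (i0.const_mul _), ← Real.norm_eq_abs]
    refine (norm_integral_le_of_norm_le (i0.const_mul (ε / (Q + 1)))
      (Eventually.of_forall fun z => ?_)).trans (le_of_eq ?_)
    · rw [← sub_mul, norm_mul, Real.norm_eq_abs, Real.norm_eq_abs, abs_of_nonneg (tent_mem ht _).1]
      by_cases h0 : tent t (π y - z) = 0
      · simp [h0]
      refine mul_le_mul_of_nonneg_right ?_ (tent_mem ht _).1
      have h2 : ‖π y - z‖ < t := not_le.1 fun h' => h0 (tent_eq_zero ht h')
      have := huc (a := z) (b := π y) (by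
        rw [dist_eq_norm, norm_sub_rev]; exact lt_of_lt_of_le h2 (min_le_left _ _))
      rw [Real.dist_eq] at this
      exact this.le
    · rw [integral_const_mul, integral_sub_left_eq_self (tent t) volume (π y)]
  have hswap := integral_integral_swap hGi
  have hlow : ∀ y ∈ (ν i).support,
      Z * (ψ (π y) * c y) ≤ (∫ z, G z y) +
        (Metric.ball (0 : E) (T + 4)).indicator (fun _ => ε / (Q + 1) * Z) y := by
    intro y hy
    have hge : 0 ≤ ∫ z, G z y := integral_nonneg fun z =>
      mul_nonneg (mul_nonneg (hψ0 z) (tent_mem ht _).1) (chi_mem _ _ y).1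
    have hnn : 0 ≤ (Metric.ball (0 : E) (T + 4)).indicator (fun _ => ε / (Q + 1) * Z) y :=
      indicator_nonneg (fun _ _ => by positivity) y
    by_cases hne : ψ (π y) * c y = 0
    · rw [hne, mul_zero]; linarith
    have hp : ‖π y‖ < T := not_le.1 fun h0 => left_ne_zero_of_mul hne (hzero _ h0)
    obtain ⟨hy1, hy2, -⟩ := hi y hy (right_ne_zero_of_mul hne) (show ‖π y‖ < T + 1 by linarith)
    rw [indicator_of_mem (mem_ball_zero_iff.2 (by linarith))]
    simp only [hG, c, hy2, mul_one]
    linarith [(abs_le.1 (hF y)).1]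
  have hGy : Integrable (fun y => ∫ z, G z y) (ν i) := hGi.integral_prod_right
  have key : Z * cylInt (ν i) (b i) (o i) ψ (fun _ => 1) ≤
      C * (5 * t) ^ n * (∫ z, ψ z) + ε / (Q + 1) * Z * Q := by
    rw [cylInt, ← integral_const_mul]
    simp only [mul_one]
    have hi1 : Integrable (fun y => Z * (ψ (π y) * c y)) (ν i) := by
      simpa using (integrable_cyl (ν := ν i) (b i) (o i) hψ
        (continuous_const (y := (1 : ℝ)))).const_mul Z
    have hind : Integrable ((Metric.ball (0 : E) (T + 4)).indicator fun _ => ε / (Q + 1) * Z) (ν i) :=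
      (integrable_const _).indicator measurableSet_ball
    refine (integral_mono_ae hi1 (hGy.add hind) ?_).trans ?_
    · filter_upwards [Measure.support_mem_ae (μ := ν i)] with y hy
      exact hlow y hy
    rw [integral_add' hGy hind, ← hswap, integral_indicator measurableSet_ball, setIntegral_const,
      smul_eq_mul]
    refine add_le_add ?_ ?_
    · rw [← integral_const_mul]
      refine integral_mono hGi.integral_prod_left
        ((hψ.1.integrable_of_hasCompactSupport hψ.2).const_mul _) fun z => (hN z).trans_eq ?_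
      ring
    · rw [mul_comm]
      exact mul_le_mul_of_nonneg_left (h.mass_ball (by linarith) i) (by positivity)
  have hM : C * (5 * t) ^ n ≤ Z * densityBound n C := by
    refine le_trans (le_of_eq ?_)
      (mul_le_mul_of_nonneg_right hZ (show 0 ≤ densityBound n C by unfold densityBound; positivity))
    rw [densityBound, show (5 : ℝ) * t = t / 2 * 10 by ring, mul_pow]
    field_simp
  have hI : 0 ≤ ∫ z, ψ z := integral_nonneg hψ0
  have hQ : 0 ≤ Q := by positivity
  have hQ1 : ε / (Q + 1) * Q ≤ ε := by rw [div_mul_eq_mul_div, div_le_iff₀ (by positivity)]; nlinarith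
  refine le_of_mul_le_mul_left ?_ hZ0
  nlinarith [mul_le_mul_of_nonneg_right hM hI, mul_le_mul_of_nonneg_left hQ1 hZ0.le]

lemma Flattening.exists_cyl_limit (h : Flattening U ν b o B C K) {v : ℕ → E → ℝ}
    (hv : WeightOK U ν v) {φ : EuclideanSpace ℝ (Fin n) → ℝ} (hφ : IsTest φ) :
    ∃ x, Tendsto (fun i => cylInt (ν i) (b i) (o i) φ (v i)) U (𝓝 x) := by
  obtain ⟨T0, hT0⟩ := hφ.2.isCompact.isBounded.subset_closedBall 0
  obtain ⟨s, hs⟩ := hφ.2.exists_bound_of_continuous hφ.1
  obtain ⟨M, hM⟩ := hv.2 (T0 + 1 + 3)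
  refine exists_tendsto_of_bdd U (M := s * M) ?_
  filter_upwards [h.abs_cylInt_le hv.1 (T0 + 1), hM] with i hi hMi
  refine (hi φ hφ s (fun x => hs x) fun x hx => ?_).trans
    (mul_le_mul_of_nonneg_left hMi ((norm_nonneg _).trans (hs 0)))
  by_contra h0
  have := mem_closedBall_zero_iff.1 (hT0 (subset_tsupport _ h0))
  linarith

lemma Flattening.exists_functional (h : Flattening U ν b o B C K) {v : ℕ → E → ℝ}
    (hv : WeightOK U ν v) :
    ∃ Λ : (EuclideanSpace ℝ (Fin n) → ℝ) → ℝ,
      (∀ φ, IsTest φ → Tendsto (fun i => cylInt (ν i) (b i) (o i) φ (v i)) U (𝓝 (Λ φ))) ∧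
      (∀ φ ψ, IsTest φ → IsTest ψ → Λ (φ + ψ) = Λ φ + Λ ψ) ∧
      ∀ (a : ℝ) φ, IsTest φ → Λ (a • φ) = a * Λ φ := by
  refine limUnder_linear (fun φ hφ => h.exists_cyl_limit hv hφ) (fun φ ψ hφ hψ => ?_)
    fun a φ _ => ?_
  · funext i
    have := h.finite i
    rw [cylInt, cylInt, cylInt, ← integral_add (integrable_cyl _ _ hφ (hv.1 i))
      (integrable_cyl _ _ hψ (hv.1 i))]
    refine integral_congr_ae (Eventually.of_forall fun y => ?_)
    simp only [Pi.add_apply]; ring
  · funext i
    rw [cylInt, cylInt, ← integral_const_mul]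
    refine integral_congr_ae (Eventually.of_forall fun y => ?_)
    simp only [Pi.smul_apply, smul_eq_mul]; ring

/-- The weight on the plane. -/
def pweight (n : ℕ) (x : EuclideanSpace ℝ (Fin n)) : ℝ :=
  (4 + ‖x‖) ^ (n + 3) * Real.sqrt (4 + ‖x‖)

lemma pweight_pos (x : EuclideanSpace ℝ (Fin n)) : 0 < pweight n x := by
  have : (0 : ℝ) < 4 + ‖x‖ := by positivity
  exact mul_pos (pow_pos this _) (Real.sqrt_pos.2 this)

lemma continuous_pweight : Continuous (pweight n) := by unfold pweight; fun_prop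

lemma integrable_inv_pweight :
    Integrable (fun x : EuclideanSpace ℝ (Fin n) => (pweight n x)⁻¹) := by
  refine (integrable_one_add_norm (r := (n : ℝ) + 1)
    (by rw [finrank_euclideanSpace_fin]; linarith)).mono'
    ((continuous_pweight.inv₀ fun x => (pweight_pos x).ne').aestronglyMeasurable)
    (Eventually.of_forall fun x => ?_)
  have h1 : (0 : ℝ) < 1 + ‖x‖ := by positivity
  rw [Real.norm_eq_abs, abs_of_pos (inv_pos.2 (pweight_pos x)), Real.rpow_neg h1.le,
    show (n : ℝ) + 1 = ((n + 1 : ℕ) : ℝ) by push_cast; ring, Real.rpow_natCast, pweight]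
  refine inv_anti₀ (pow_pos h1 _) ?_
  calc (1 + ‖x‖) ^ (n + 1) ≤ (4 + ‖x‖) ^ (n + 1) := pow_le_pow_left₀ h1.le (by linarith) _
    _ ≤ (4 + ‖x‖) ^ (n + 3) * 1 := by
        rw [mul_one]; exact pow_le_pow_right₀ (by linarith [norm_nonneg x]) (by omega)
    _ ≤ _ := mul_le_mul_of_nonneg_left (Real.one_le_sqrt.2 (by linarith [norm_nonneg x]))
        (by positivity)

/-- The projected measures have a bounded limit density. -/
theorem Flattening.exists_density (h : Flattening U ν b o B C K) :
    ∃ f : EuclideanSpace ℝ (Fin n) → ℝ, Measurable f ∧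
      (∀ x, 0 ≤ f x ∧ f x ≤ densityBound n C) ∧ WeakLimit U ν b o (fun _ _ => 1) f := by
  obtain ⟨Λ, hΛ, hadd, hsmul⟩ := h.exists_functional h.weightOK_one
  set M := densityBound n C
  have hM0 : 0 ≤ M := by
    have := unitVol_pos n
    have := h.one_le
    simp only [M, densityBound]; positivity
  have hup : ∀ ψ, IsTest ψ → (∀ x, 0 ≤ ψ x) → 0 ≤ Λ ψ ∧ Λ ψ ≤ M * ∫ x, ψ x := by
    intro ψ hψ h0
    refine ⟨ge_of_tendsto' (hΛ ψ hψ) fun i => integral_nonneg fun y =>
      mul_nonneg (mul_nonneg (h0 _) (chi_mem _ _ y).1) zero_le_one, ?_⟩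
    exact le_of_forall_pos_le_add fun ε hε => le_of_tendsto (hΛ ψ hψ) (h.avg_bound hψ h0 hε)
  have habs : ∀ φ, IsTest φ → |Λ φ| ≤ M * ∫ x, |φ x| := by
    intro φ hφ
    refine le_trans ?_ (hup _ ⟨hφ.1.abs, hφ.support_of _ fun x hx => by simp [hx]⟩
      fun x => abs_nonneg _).2
    refine le_of_tendsto_of_tendsto' (hΛ φ hφ).abs
      (hΛ _ ⟨hφ.1.abs, hφ.support_of _ fun x hx => by simp [hx]⟩) fun i => ?_
    rw [cylInt, cylInt, ← Real.norm_eq_abs]
    refine (norm_integral_le_integral_norm _).trans_eq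
      (integral_congr_ae (Eventually.of_forall fun y => ?_))
    simp [abs_of_nonneg (chi_mem (b i) (o i) y).1]
  set W := ∫ x, (pweight n x)⁻¹
  have hW0 : 0 ≤ W := integral_nonneg fun x => (inv_pos.2 (pweight_pos x)).le
  obtain ⟨g, hgm, hgl, -, -, hg⟩ := exists_rep hadd hsmul continuous_pweight pweight_pos
    (M := M ^ 2 * W) (by positivity) fun φ hφ => by
      have hs : Continuous fun x => Real.sqrt (pweight n x) := continuous_pweight.sqrt
      have hpos : ∀ x, 0 < Real.sqrt (pweight n x) := fun x => Real.sqrt_pos.2 (pweight_pos x)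
      have e1 : (fun x => (|φ x| * Real.sqrt (pweight n x)) ^ 2) =
          fun x => φ x ^ 2 * pweight n x := by
        funext x; rw [mul_pow, sq_abs, Real.sq_sqrt (pweight_pos x).le]
      have e2 : (fun x => (Real.sqrt (pweight n x))⁻¹ ^ 2) = fun x => (pweight n x)⁻¹ := by
        funext x; rw [inv_pow, Real.sq_sqrt (pweight_pos x).le]
      have e3 : (fun x => |φ x| * Real.sqrt (pweight n x) * (Real.sqrt (pweight n x))⁻¹) =
          fun x => |φ x| := by
        funext x; rw [mul_assoc, mul_inv_cancel₀ (hpos x).ne', mul_one]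
      have i1 : Integrable (fun x => φ x ^ 2 * pweight n x) :=
        ((hφ.1.pow 2).mul continuous_pweight).integrable_of_hasCompactSupport
          (hφ.support_of _ fun x hx => by simp [hx])
      have i4 : Integrable fun x => |φ x| := hφ.1.abs.integrable_of_hasCompactSupport
        (hφ.support_of _ fun x hx => by simp [hx])
      have h3 := sq_integral_mul_le (f := fun x => |φ x| * Real.sqrt (pweight n x))
        (g := fun x => (Real.sqrt (pweight n x))⁻¹)
        (by rw [e1]; exact i1) (by rw [e2]; exact integrable_inv_pweight)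
        (by rw [e3]; exact i4)
      rw [e1, e2, e3] at h3
      calc Λ φ ^ 2 = |Λ φ| ^ 2 := (sq_abs _).symm
        _ ≤ (M * ∫ x, |φ x|) ^ 2 := pow_le_pow_left₀ (abs_nonneg _) (habs φ hφ) 2
        _ ≤ M ^ 2 * ((∫ x, φ x ^ 2 * pweight n x) * W) := by
            rw [mul_pow]; exact mul_le_mul_of_nonneg_left h3 (sq_nonneg M)
        _ = _ := by ring
  have hge : ∀ᵐ x, 0 ≤ g x :=
    ae_nonneg_of_test hgl fun ψ hψ h0 => by rw [← hg ψ hψ]; exact (hup ψ hψ h0).1
  have hle : ∀ᵐ x, 0 ≤ M - g x := by
    refine ae_nonneg_of_test ((locallyIntegrable_const M).sub hgl) fun ψ hψ h0 => ?_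
    have i2 : Integrable fun x => ψ x * g x :=
      hgl.integrable_smul_left_of_hasCompactSupport hψ.1 hψ.2
    have i3 : Integrable fun x => ψ x * M :=
      (hψ.1.integrable_of_hasCompactSupport hψ.2).mul_const M
    simp only [mul_sub]
    rw [integral_sub i3 i2, ← hg ψ hψ, integral_mul_const, sub_nonneg, mul_comm]
    exact (hup ψ hψ h0).2
  refine ⟨fun x => max 0 (min M (g x)), measurable_const.max (measurable_const.min hgm),
    fun x => ⟨le_max_left _ _, max_le hM0 (min_le_left _ _)⟩, fun φ hφ => ?_⟩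
  have e : (∫ x, φ x * max 0 (min M (g x))) = ∫ x, φ x * g x := by
    refine integral_congr_ae ?_
    filter_upwards [hge, hle] with x h1 h2
    rw [min_eq_right (by linarith), max_eq_right h1]
  rw [e, ← hg φ hφ]
  exact hΛ φ hφ

/-- The normalised height in the direction `a`. -/
def normHeight (b : ℕ → OrthonormalBasis (Fin n ⊕ Fin m) ℝ E)
    (o : ℕ → EuclideanSpace ℝ (Fin m)) (B : ℕ → ℝ) (a : Fin m) (i : ℕ) (y : E) : ℝ :=
  height (b i) (o i) y a / B i

omit [MeasurableSpace E] [BorelSpace E] [FiniteDimensional ℝ E] in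
lemma continuous_normHeight (a : Fin m) (i : ℕ) : Continuous (normHeight b o B a i) :=
  (((PiLp.continuous_apply 2 _ a).comp (lipschitzWith_height (b i) (o i)).continuous)).div_const _

lemma Flattening.weightOK_height (h : Flattening U ν b o B C K) (a : Fin m) :
    WeightOK U ν (normHeight b o B a) := by
  refine ⟨continuous_normHeight a, fun T => ⟨C * (max T 1) ^ n + K * (max T 1) ^ (n + 3),
    Eventually.of_forall fun i => ?_⟩⟩
  set T' := max T 1
  have := h.finite i
  have hB := h.B_pos i
  have hc : Continuous fun y => |normHeight b o B a i y| := (continuous_normHeight a i).abs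
  have hint : ∀ g : E → ℝ, Continuous g → IntegrableOn g (Metric.ball 0 T') (ν i) := fun g hg =>
    (hg.continuousOn.integrableOn_compact (isCompact_closedBall _ _)).mono_set
      Metric.ball_subset_closedBall
  refine (setIntegral_mono_set (hint _ hc) (Eventually.of_forall fun y => abs_nonneg _)
    (Metric.ball_subset_ball (le_max_left T 1)).eventuallyLE).trans ?_
  have hsq : IntegrableOn (fun y => (B i ^ 2)⁻¹ * ‖height (b i) (o i) y‖ ^ 2)
      (Metric.ball 0 T') (ν i) := (integrableOn_height_sq h i T').const_mul _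
  refine (setIntegral_mono_on (hint _ hc) ((integrable_const 1).integrableOn.add hsq)
    measurableSet_ball fun y _ => ?_).trans ?_
  · have h1 : |height (b i) (o i) y a| ≤ ‖height (b i) (o i) y‖ := by
      rw [← Real.norm_eq_abs]; exact PiLp.norm_apply_le _ a
    rw [Pi.add_apply, normHeight, abs_div, abs_of_pos hB, div_le_iff₀ hB]
    have h2 : (1 + (B i ^ 2)⁻¹ * ‖height (b i) (o i) y‖ ^ 2) * B i =
        (B i ^ 2 + ‖height (b i) (o i) y‖ ^ 2) / B i := by field_simp
    rw [h2, le_div_iff₀ hB]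
    nlinarith [sq_nonneg (B i - ‖height (b i) (o i) y‖), abs_nonneg (height (b i) (o i) y a)]
  · rw [integral_add' (integrable_const 1).integrableOn hsq, setIntegral_const, smul_eq_mul,
      mul_one, integral_const_mul]
    refine add_le_add (h.mass_ball (lt_max_of_lt_right one_pos) i) ?_
    rw [inv_mul_le_iff₀ (by positivity)]
    exact (h.heightGrowth i T' (le_max_right _ _)).trans (le_of_eq (by ring))

lemma Flattening.height_sq_le (h : Flattening U ν b o B C K)
    {φ : EuclideanSpace ℝ (Fin n) → ℝ} (hφ : IsTest φ)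
    (htest : IsTest fun x => φ x ^ 2 * pweight n x) (a : Fin m) (i : ℕ) (ho : ‖o i‖ ≤ 1) :
    cylInt (ν i) (b i) (o i) φ (normHeight b o B a i) ^ 2 ≤ weightConst n * K *
      cylInt (ν i) (b i) (o i) (fun x => φ x ^ 2 * pweight n x) (fun _ => 1) := by
  have := h.finite i
  have hB := h.B_pos i
  set c := chi (b i) (o i)
  set π := proj (b i)
  set F := fun y => φ (π y) * c y * Real.sqrt (weight n y)
  set G := fun y => normHeight b o B a i y / Real.sqrt (weight n y)
  have hsc : Continuous fun y : E => Real.sqrt (weight n y) := (continuous_weight n).sqrt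
  have hs0 : ∀ y : E, Real.sqrt (weight n y) ≠ 0 := fun y =>
    (Real.sqrt_pos.2 (weight_pos n y)).ne'
  have e : cylInt (ν i) (b i) (o i) φ (normHeight b o B a i) = ∫ y, F y * G y ∂ν i :=
    integral_congr_ae (Eventually.of_forall fun y => by
      simp only [F, G, c, π]; field_simp [hs0 y])
  have hpt : ∀ y, F y ^ 2 ≤ φ (π y) ^ 2 * pweight n (π y) * c y := by
    intro y
    simp only [F, mul_pow, Real.sq_sqrt (weight_pos n y).le]
    obtain ⟨c0, c1⟩ := chi_mem (b i) (o i) y
    by_cases hc : c y = 0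
    · simp [hc]
    have h2 : 1 + ‖y‖ ≤ 4 + ‖π y‖ := by
      linarith [norm_le_of_chi_ne hc ho]
    have h3 : weight n y ≤ pweight n (π y) :=
      mul_le_mul (pow_le_pow_left₀ (by positivity) h2 _) (Real.sqrt_le_sqrt h2)
        (Real.sqrt_nonneg _) (by positivity)
    calc φ (π y) ^ 2 * c y ^ 2 * weight n y ≤ φ (π y) ^ 2 * c y * pweight n (π y) := by
          refine mul_le_mul (mul_le_mul_of_nonneg_left ?_ (sq_nonneg _)) h3
            (weight_pos n y).le (mul_nonneg (sq_nonneg _) c0)
          calc c y ^ 2 = c y * c y := sq _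
            _ ≤ c y * 1 := mul_le_mul_of_nonneg_left c1 c0
            _ = c y := mul_one _
      _ = _ := by ring
  have hGsq : ∀ y, G y ^ 2 ≤ (B i ^ 2)⁻¹ * (‖height (b i) (o i) y‖ ^ 2 / weight n y) := by
    intro y
    simp only [G, normHeight, div_pow, Real.sq_sqrt (weight_pos n y).le]
    rw [← mul_div_assoc, inv_mul_eq_div]
    refine div_le_div_of_nonneg_right (div_le_div_of_nonneg_right ?_ (sq_nonneg _))
      (weight_pos n y).le
    rw [← sq_abs, ← Real.norm_eq_abs]
    exact pow_le_pow_left₀ (norm_nonneg _) (PiLp.norm_apply_le _ a) 2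
  have hFs : Continuous F ∧ HasCompactSupport F :=
    continuous_hasCompactSupport_cyl (b i) (o i) hφ hsc
  have hGc : Continuous G := (continuous_normHeight a i).div hsc hs0
  obtain ⟨hHi, hHb⟩ := h.weighted_height i
  have iF : Integrable (fun y => F y ^ 2) (ν i) :=
    (hFs.1.pow 2).integrable_of_hasCompactSupport
      (HasCompactSupport.intro hFs.2.isCompact fun x hx => by
        simp [image_eq_zero_of_notMem_tsupport hx])
  have iG : Integrable (fun y => G y ^ 2) (ν i) :=
    (hHi.const_mul _).mono' (hGc.pow 2).aestronglyMeasurable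
      (Eventually.of_forall fun y => by
        rw [Real.norm_eq_abs, abs_of_nonneg (sq_nonneg _)]; exact hGsq y)
  have iFG : Integrable (fun y => F y * G y) (ν i) :=
    (hFs.1.mul hGc).integrable_of_hasCompactSupport
      (HasCompactSupport.intro hFs.2.isCompact fun x hx => by
        simp [image_eq_zero_of_notMem_tsupport hx])
  rw [e]
  refine (sq_integral_mul_le iF iG iFG).trans ?_
  rw [mul_comm (weightConst n * K)]
  refine mul_le_mul ?_ ?_ (integral_nonneg fun y => sq_nonneg _)
    (integral_nonneg fun y => ?_)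
  · refine integral_mono iF
      (integrable_cyl (ν := ν i) (b i) (o i) htest continuous_const) fun y => ?_
    rw [mul_one]; exact hpt y
  · refine (integral_mono iG (hHi.const_mul _) hGsq).trans ?_
    rw [integral_const_mul, inv_mul_le_iff₀ (by positivity)]
    exact hHb.trans (le_of_eq (by ring))
  · exact mul_nonneg (mul_nonneg (mul_nonneg (sq_nonneg _) (pweight_pos _).le)
      (chi_mem _ _ y).1) zero_le_one

/-- The normalised heights have a limit of controlled growth. -/
theorem Flattening.exists_height_limit (h : Flattening U ν b o B C K) (a : Fin m) :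
    ∃ g : EuclideanSpace ℝ (Fin n) → ℝ, Measurable g ∧ LocallyIntegrable g ∧
      Integrable (fun x => g x ^ 2 / pweight n x) ∧
      WeakLimit U ν b o (normHeight b o B a) g := by
  obtain ⟨f, hfm, hfM, hf⟩ := h.exists_density
  obtain ⟨Λ, hΛ, hadd, hsmul⟩ := h.exists_functional (h.weightOK_height a)
  set M := densityBound n C
  have hM0 : 0 ≤ M := (hfM 0).1.trans (hfM 0).2
  have hK := h.nonneg
  have hW0 : 0 ≤ weightConst n := by
    have : 1 / Real.sqrt 2 < 1 := by
      rw [div_lt_one (by positivity)]; exact Real.lt_sqrt_of_sq_lt (by norm_num)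
    have : 0 < 1 - 1 / Real.sqrt 2 := by linarith
    unfold weightConst; positivity
  obtain ⟨g, hgm, hgl, hgi, -, hg⟩ := exists_rep hadd hsmul continuous_pweight pweight_pos
    (M := weightConst n * K * M) (by positivity) fun φ hφ => by
      have htest : IsTest fun x => φ x ^ 2 * pweight n x :=
        ⟨(hφ.1.pow 2).mul continuous_pweight,
          hφ.support_of _ fun x hx => by simp [hx]⟩
      have i1 : Integrable fun x => φ x ^ 2 * pweight n x :=
        htest.1.integrable_of_hasCompactSupport htest.2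
      have hlim := (hf _ htest).const_mul (weightConst n * K)
      have hbound : Λ φ ^ 2 ≤ weightConst n * K * ∫ x, φ x ^ 2 * pweight n x * f x := by
        refine le_of_tendsto_of_tendsto ((hΛ φ hφ).pow 2) hlim ?_
        filter_upwards [h.offset_small one_pos] with i ho
        exact h.height_sq_le hφ htest a i ho
      refine hbound.trans ?_
      rw [mul_assoc (weightConst n * K)]
      refine mul_le_mul_of_nonneg_left ?_ (by positivity)
      rw [← integral_const_mul]
      refine integral_mono_of_nonneg (Eventually.of_forall fun x =>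
        mul_nonneg (mul_nonneg (sq_nonneg _) (pweight_pos x).le) (hfM x).1) (i1.const_mul M)
        (Eventually.of_forall fun x => ?_)
      simp only [mul_comm M]
      exact mul_le_mul_of_nonneg_left (hfM x).2 (mul_nonneg (sq_nonneg _) (pweight_pos x).le)
  exact ⟨g, hgm, hgl, hgi, fun φ hφ => by rw [← hg φ hφ]; exact hΛ φ hφ⟩

/-- Inner integrals against a continuous kernel converge uniformly. -/
theorem Flattening.uniform_inner (h : Flattening U ν b o B C K) {v : ℕ → E → ℝ}
    (hv : WeightOK U ν v) {g : EuclideanSpace ℝ (Fin n) → ℝ} (hg : LocallyIntegrable g)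
    (hlim : WeakLimit U ν b o v g) {G : EuclideanSpace ℝ (Fin n) × EuclideanSpace ℝ (Fin n) → ℝ}
    (hG : Continuous G) (hGs : HasCompactSupport G) {ε : ℝ} (hε : 0 < ε) :
    ∀ᶠ i in (U : Filter ℕ), ∀ z,
      |cylInt (ν i) (b i) (o i) (fun x => G (z, x)) (v i) - ∫ x, G (z, x) * g x| ≤ ε := by
  obtain ⟨T0, hT0⟩ := hGs.isCompact.isBounded.subset_closedBall 0
  set T := max T0 0 + 1
  have hzero : ∀ z x : EuclideanSpace ℝ (Fin n), T ≤ ‖z‖ ∨ T ≤ ‖x‖ → G (z, x) = 0 := by
    intro z x hzx
    by_contra h0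
    have h1 := mem_closedBall_zero_iff.1 (hT0 (subset_tsupport _ h0))
    rw [Prod.norm_mk] at h1
    rcases hzx with h2 | h2
    · linarith [le_max_left ‖z‖ ‖x‖, le_max_left T0 0]
    · linarith [le_max_right ‖z‖ ‖x‖, le_max_left T0 0]
  have hsec : ∀ z, IsTest fun x => G (z, x) := fun z =>
    ⟨hG.comp (Continuous.prodMk_right z), HasCompactSupport.intro
      (isCompact_closedBall 0 T) fun x hx => hzero z x (Or.inr (le_of_lt (not_le.1 fun h0 =>
        hx (mem_closedBall_zero_iff.2 h0))))⟩
  obtain ⟨Mv, hMv⟩ := hv.2 (T + 3)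
  set Mg := ∫ x in Metric.closedBall (0 : EuclideanSpace ℝ (Fin n)) T, |g x|
  have hMg : 0 ≤ Mg := setIntegral_nonneg measurableSet_closedBall fun x _ => abs_nonneg _
  set Q := max Mv 0 + Mg + 1
  have hQ : 0 < Q := by positivity
  obtain ⟨δ, hδ, huc⟩ := Metric.uniformContinuous_iff.1
    (hGs.uniformContinuous_of_continuous hG) (ε / (3 * Q)) (by positivity)
  obtain ⟨S, -, hSf, hS⟩ := finite_cover_balls_of_compact
    (isCompact_closedBall (0 : EuclideanSpace ℝ (Fin n)) T) hδ
  have hpts : ∀ᶠ i in (U : Filter ℕ), ∀ z ∈ S,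
      |cylInt (ν i) (b i) (o i) (fun x => G (z, x)) (v i) - ∫ x, G (z, x) * g x| ≤ ε / 3 :=
    hSf.eventually_all.2 fun z _ => by
      have h1 := Metric.tendsto_nhds.1 (hlim _ (hsec z)) (ε / 3) (by positivity)
      filter_upwards [h1] with i hi
      rw [Real.dist_eq] at hi
      exact hi.le
  filter_upwards [hpts, h.abs_cylInt_le hv.1 T, hMv] with i hi hbd hMi z
  have := h.finite i
  by_cases hz : T ≤ ‖z‖
  · simp [cylInt, hzero z _ (Or.inl hz), hε.le]
  obtain ⟨w, hwS, hw⟩ := mem_iUnion₂.1 (hS (mem_closedBall_zero_iff.2 (le_of_lt (not_le.1 hz))))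
  have hdiff : ∀ x, |G (z, x) - G (w, x)| ≤ ε / (3 * Q) := fun x => by
    have := huc (a := (z, x)) (b := (w, x)) (by
      rw [Prod.dist_eq, dist_self, max_eq_left dist_nonneg]; exact Metric.mem_ball.1 hw)
    rw [Real.dist_eq] at this
    exact this.le
  have htest : IsTest fun x => G (z, x) - G (w, x) :=
    ⟨(hsec z).1.sub (hsec w).1, (hsec z).2.sub (hsec w).2⟩
  have e1 : cylInt (ν i) (b i) (o i) (fun x => G (z, x) - G (w, x)) (v i) =
      cylInt (ν i) (b i) (o i) (fun x => G (z, x)) (v i) -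
        cylInt (ν i) (b i) (o i) (fun x => G (w, x)) (v i) := by
    rw [cylInt, cylInt, cylInt, ← integral_sub (integrable_cyl _ _ (hsec z) (hv.1 i))
      (integrable_cyl _ _ (hsec w) (hv.1 i))]
    refine integral_congr_ae (Eventually.of_forall fun y => ?_)
    simp only; ring
  have iz : ∀ w, Integrable fun x => G (w, x) * g x := fun w =>
    hg.integrable_smul_left_of_hasCompactSupport (hsec w).1 (hsec w).2
  have e2 : |(∫ x, G (z, x) * g x) - ∫ x, G (w, x) * g x| ≤ ε / (3 * Q) * Mg := by
    rw [← integral_sub (iz z) (iz w), ← integral_const_mul, ← Real.norm_eq_abs]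
    refine (norm_integral_le_integral_norm _).trans ?_
    rw [← setIntegral_eq_integral_of_forall_compl_eq_zero (s := Metric.closedBall 0 T)]
    · refine setIntegral_mono_on ((iz z).sub' (iz w)).norm.integrableOn
        ((hg.integrableOn_isCompact (isCompact_closedBall 0 T)).norm.const_mul _)
        measurableSet_closedBall fun x _ => ?_
      rw [← sub_mul, norm_mul, Real.norm_eq_abs, Real.norm_eq_abs]
      exact mul_le_mul_of_nonneg_right (hdiff x) (abs_nonneg _)
    · intro x hx
      have hx' : T ≤ ‖x‖ := le_of_lt (not_le.1 fun h0 => hx (mem_closedBall_zero_iff.2 h0))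
      simp [hzero _ x (Or.inr hx')]
  have h1 := hbd _ htest _ hdiff fun x hx => by
    rw [hzero z x (Or.inr hx), hzero w x (Or.inr hx), sub_zero]
  rw [e1] at h1
  have h2 : ε / (3 * Q) * (max Mv 0 + Mg) ≤ ε / 3 := by
    rw [div_mul_eq_mul_div, div_le_div_iff₀ (by positivity) (by positivity)]
    nlinarith
  have h3 := mul_le_mul_of_nonneg_left (hMi.trans (le_max_left Mv 0))
    (show 0 ≤ ε / (3 * Q) by positivity)
  obtain ⟨a1, a2⟩ := abs_le.1 (h1.trans h3)
  obtain ⟨b1, b2⟩ := abs_le.1 e2
  obtain ⟨c1, c2⟩ := abs_le.1 (hi w hwS)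
  rw [abs_le]
  constructor <;> linarith

/-- Double integrals against a continuous kernel converge. -/
theorem Flattening.tendsto_double (h : Flattening U ν b o B C K) {v w : ℕ → E → ℝ}
    (hv : WeightOK U ν v) {g : EuclideanSpace ℝ (Fin n) → ℝ} (hlimv : WeakLimit U ν b o v g)
    (hw : WeightOK U ν w) {k : EuclideanSpace ℝ (Fin n) → ℝ} (hk : LocallyIntegrable k)
    (hlimw : WeakLimit U ν b o w k)
    {G : EuclideanSpace ℝ (Fin n) × EuclideanSpace ℝ (Fin n) → ℝ}
    (hG : Continuous G) (hGs : HasCompactSupport G) :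
    Tendsto (fun i => ∫ x, chi (b i) (o i) x * v i x *
      cylInt (ν i) (b i) (o i) (fun z => G (proj (b i) x, z)) (w i) ∂ν i) U
      (𝓝 (∫ x, g x * ∫ z, G (x, z) * k z)) := by
  set Ψ := fun x => ∫ z, G (x, z) * k z with hΨ
  obtain ⟨T0, hT0⟩ := hGs.isCompact.isBounded.subset_closedBall 0
  set T := max T0 0 + 1
  have hzero : ∀ z x : EuclideanSpace ℝ (Fin n), T ≤ ‖z‖ → G (z, x) = 0 := by
    intro z x hzx
    by_contra h0
    have h1 := mem_closedBall_zero_iff.1 (hT0 (subset_tsupport _ h0))
    rw [Prod.norm_mk] at h1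
    linarith [le_max_left ‖z‖ ‖x‖, le_max_left T0 0]
  have hΨT : ∀ x, T ≤ ‖x‖ → Ψ x = 0 := fun x hx => by simp [hΨ, hzero x _ hx]
  have hΨtest : IsTest Ψ := by
    refine ⟨?_, HasCompactSupport.intro (isCompact_closedBall 0 T) fun x hx => hΨT x
      (le_of_lt (not_le.1 fun h0 => hx (mem_closedBall_zero_iff.2 h0)))⟩
    have hsnd : ∀ x z, T ≤ ‖z‖ → G (x, z) = 0 := by
      intro x z hzx
      by_contra h0
      have h1 := mem_closedBall_zero_iff.1 (hT0 (subset_tsupport _ h0))
      rw [Prod.norm_mk] at h1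
      linarith [le_max_right ‖x‖ ‖z‖, le_max_left T0 0]
    obtain ⟨s, hs⟩ := hGs.exists_bound_of_continuous hG
    refine continuous_of_dominated (bound := fun z =>
      (Metric.closedBall (0 : EuclideanSpace ℝ (Fin n)) T).indicator (fun z => s * |k z|) z)
      (fun x => (hG.comp (Continuous.prodMk_right x)).aestronglyMeasurable.mul hk.aestronglyMeasurable)
      (fun x => Eventually.of_forall fun z => ?_) ?_ (Eventually.of_forall fun z => ?_)
    · by_cases hz : z ∈ Metric.closedBall (0 : EuclideanSpace ℝ (Fin n)) T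
      · rw [indicator_of_mem hz, norm_mul, Real.norm_eq_abs (k z)]
        exact mul_le_mul_of_nonneg_right (hs _) (abs_nonneg _)
      · rw [indicator_of_notMem hz, hsnd x z (le_of_lt (not_le.1 fun h0 =>
          hz (mem_closedBall_zero_iff.2 h0))), zero_mul, norm_zero]
    · exact IntegrableOn.integrable_indicator
        ((hk.integrableOn_isCompact (isCompact_closedBall 0 T)).norm.const_mul s)
        measurableSet_closedBall
    · exact (hG.comp (Continuous.prodMk_left z)).mul continuous_const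
  have h1 : Tendsto (fun i => cylInt (ν i) (b i) (o i) Ψ (v i)) U (𝓝 (∫ x, g x * Ψ x)) := by
    simpa only [mul_comm] using hlimv Ψ hΨtest
  obtain ⟨Mv, hMv⟩ := hv.2 (T + 3)
  rw [Metric.tendsto_nhds] at h1 ⊢
  intro ε hε
  set η := ε / 2 / (max Mv 0 + 1)
  filter_upwards [h1 (ε / 2) (by positivity),
    h.uniform_inner hw hk hlimw hG hGs (show 0 < η by positivity), h.cylinder T one_pos, hMv]
    with i hi1 hu hcyl hMi
  have := h.finite i
  set c := chi (b i) (o i)
  set π := proj (b i)
  set Φ := fun z => cylInt (ν i) (b i) (o i) (fun x => G (z, x)) (w i)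
  have hΦ0 : ∀ z, T ≤ ‖z‖ → Φ z = 0 := fun z hz => by simp [Φ, cylInt, hzero z _ hz]
  have hπm : Measurable π := (lipschitzWith_proj _).continuous.measurable
  have hΦm : StronglyMeasurable fun x => Φ (π x) := by
    refine StronglyMeasurable.integral_prod_right
      (f := fun x y => G (π x, π y) * c y * w i y) ?_
    exact ((hG.comp (((lipschitzWith_proj _).continuous.comp continuous_fst).prodMk
      ((lipschitzWith_proj _).continuous.comp continuous_snd))).mul
      ((lipschitzWith_chi _ _).continuous.comp continuous_snd)).mul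
      ((hw.1 i).comp continuous_snd) |>.measurable.stronglyMeasurable
  have hd : |(∫ x, c x * v i x * Φ (π x) ∂ν i) - cylInt (ν i) (b i) (o i) Ψ (v i)| ≤
      η * ∫ y in Metric.ball 0 (T + 3), |v i y| ∂ν i := by
    have i2 : Integrable (fun x => c x * v i x * Φ (π x)) (ν i) := by
      obtain ⟨R, hR⟩ := hΨtest.2.exists_bound_of_continuous hΨtest.1
      have hbase : Integrable ((Metric.ball (0 : E) (T + 3)).indicator fun y =>
          (R + η) * |v i y|) (ν i) :=
        IntegrableOn.integrable_indicator ((((hv.1 i).abs.continuousOn.integrableOn_compact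
          (isCompact_closedBall _ _)).mono_set Metric.ball_subset_closedBall).const_mul _)
          measurableSet_ball
      refine hbase.mono' (((lipschitzWith_chi _ _).continuous.mul (hv.1 i)).aestronglyMeasurable.mul
        hΦm.aestronglyMeasurable) ?_
      filter_upwards [Measure.support_mem_ae (μ := ν i)] with x hx
      have hRη : 0 ≤ R + η := add_nonneg ((norm_nonneg _).trans (hR 0)) (by positivity)
      by_cases hne : c x * Φ (π x) = 0
      · rw [show c x * v i x * Φ (π x) = v i x * (c x * Φ (π x)) by ring, hne, mul_zero, norm_zero]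
        exact indicator_nonneg (fun _ _ => mul_nonneg hRη (abs_nonneg _)) x
      have hp : ‖π x‖ < T := not_le.1 fun h0 => right_ne_zero_of_mul hne (hΦ0 _ h0)
      obtain ⟨hx1, hx2, -⟩ := hcyl x hx (left_ne_zero_of_mul hne) hp
      rw [indicator_of_mem (mem_ball_zero_iff.2 hx1), show c x = 1 from hx2, one_mul, norm_mul,
        Real.norm_eq_abs, mul_comm, Real.norm_eq_abs]
      refine mul_le_mul_of_nonneg_right ?_ (abs_nonneg _)
      have hu' := abs_le.1 (hu (π x))
      have hR' := abs_le.1 (hR (π x))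
      rw [abs_le]
      constructor <;> linarith [hu'.1, hu'.2, hR'.1, hR'.2]
    rw [cylInt, ← integral_sub i2 (integrable_cyl _ _ hΨtest (hv.1 i)),
      ← integral_indicator measurableSet_ball, ← integral_const_mul, ← Real.norm_eq_abs]
    have hbase : Integrable (fun x => η * (Metric.ball (0 : E) (T + 3)).indicator
        (fun y => |v i y|) x) (ν i) :=
      (IntegrableOn.integrable_indicator (((hv.1 i).abs.continuousOn.integrableOn_compact
        (isCompact_closedBall _ _)).mono_set Metric.ball_subset_closedBall)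
        measurableSet_ball).const_mul η
    refine norm_integral_le_of_norm_le hbase ?_
    filter_upwards [Measure.support_mem_ae (μ := ν i)] with x hx
    rw [show c x * v i x * Φ (π x) - Ψ (π x) * c x * v i x = c x * (Φ (π x) - Ψ (π x)) * v i x by
      ring, norm_mul]
    by_cases hne : c x * (Φ (π x) - Ψ (π x)) = 0
    · rw [hne, norm_zero, zero_mul]
      exact mul_nonneg (by positivity) (indicator_nonneg (fun _ _ => abs_nonneg _) x)
    have hp : ‖π x‖ < T := not_le.1 fun h0 => right_ne_zero_of_mul hne (by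
      rw [hΦ0 _ h0, hΨT _ h0, sub_zero])
    obtain ⟨hx1, hx2, -⟩ := hcyl x hx (left_ne_zero_of_mul hne) hp
    rw [indicator_of_mem (mem_ball_zero_iff.2 hx1), show c x = 1 from hx2, one_mul,
      Real.norm_eq_abs, Real.norm_eq_abs]
    exact mul_le_mul_of_nonneg_right (hu _) (abs_nonneg _)
  have hη : η * ∫ y in Metric.ball 0 (T + 3), |v i y| ∂ν i ≤ ε / 2 := by
    refine (mul_le_mul_of_nonneg_left (hMi.trans (le_max_left Mv 0)) (by positivity)).trans ?_
    simp only [η, div_mul_eq_mul_div, div_le_div_iff₀ (show (0:ℝ) < max Mv 0 + 1 by positivity)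
      two_pos]
    nlinarith [le_max_right Mv 0]
  rw [Real.dist_eq] at hi1 ⊢
  obtain ⟨a1, a2⟩ := abs_le.1 (hd.trans hη)
  obtain ⟨b1, b2⟩ := abs_lt.1 hi1
  rw [abs_lt]
  constructor <;> linarith

end

end Vale.Agent.P120.Full
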