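import Vale.Agent.P120.Full.DecayLimits

/-!
# P120, full answer: statement of the strong compactness step
-/

namespace Vale.Agent.P120.Full

open MeasureTheory Set Filter
open scoped Topology

noncomputable section

/-- Weights of bounded Dirichlet energy tending weakly to zero tend to zero in `L²` locally. -/
def StrongStatement (E : Type*) [NormedAddCommGroup E] [InnerProductSpace ℝ E] [MeasurableSpace E]
    [BorelSpace E] [FiniteDimensional ℝ E] (n m : ℕ) : Prop :=
  ∀ (U : Ultrafilter ℕ) (ν : ℕ → Measure E) (b : ℕ → OrthonormalBasis (Fin n ⊕ Fin m) ℝ E)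
    (o : ℕ → EuclideanSpace ℝ (Fin m)) (B : ℕ → ℝ) (C K : ℝ),
    Flattening U ν b o B C K → ∀ v : ℕ → E → ℝ, WeightOK U ν v →
      (∀ T : ℝ, ∃ M : ℝ, ∀ᶠ i in (U : Filter ℕ),
        IntegrableOn (fun q : E × E => (v i q.1 - v i q.2) ^ 2 / dist q.1 q.2 ^ (n + 1))
          (Metric.ball (0 : E) T ×ˢ Metric.ball (0 : E) T) ((ν i).prod (ν i)) ∧
        ∫ q in Metric.ball (0 : E) T ×ˢ Metric.ball (0 : E) T,
          (v i q.1 - v i q.2) ^ 2 / dist q.1 q.2 ^ (n + 1) ∂((ν i).prod (ν i)) ≤ M) →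
      WeakLimit U ν b o v 0 →
      ∀ T : ℝ, Tendsto (fun i => ∫ y in Metric.ball (0 : E) T, v i y ^ 2 ∂ν i) U (𝓝 0)

end

end Vale.Agent.P120.Full
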