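import Vale.Agent.P120.Full.DecayBuild0
import Vale.Agent.P120.Full.DecayStrong0
import Vale.Agent.P120.Full.DecayAffine0
import Vale.Agent.P120.Full.DecayDensity

/-!
# P120, full answer: excess decay
-/

namespace Vale.Agent.P120.Full

open MeasureTheory Set Filter
open scoped Topology RealInnerProductSpace ENNReal

noncomputable section

variable {E : Type*} [NormedAddCommGroup E] [InnerProductSpace ℝ E] [MeasurableSpace E]
  [BorelSpace E] [FiniteDimensional ℝ E] {n m : ℕ} {U : Ultrafilter ℕ} {ν : ℕ → Measure E}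
  {b : ℕ → OrthonormalBasis (Fin n ⊕ Fin m) ℝ E} {o : ℕ → EuclideanSpace ℝ (Fin m)}
  {B : ℕ → ℝ} {C K : ℝ}

/-- The deviation of the normalised height from an affine function. -/
def deviation (b : ℕ → OrthonormalBasis (Fin n ⊕ Fin m) ℝ E)
    (o : ℕ → EuclideanSpace ℝ (Fin m)) (B : ℕ → ℝ) (a : Fin m)
    (α : EuclideanSpace ℝ (Fin n)) (β : ℝ) (i : ℕ) (y : E) : ℝ :=
  normHeight b o B a i y - (⟪α, proj (b i) y⟫ + β)

omit [MeasurableSpace E] [BorelSpace E] [FiniteDimensional ℝ E] in
lemma continuous_deviation (a : Fin m) (α : EuclideanSpace ℝ (Fin n)) (β : ℝ) (i : ℕ) :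
    Continuous (deviation b o B a α β i) :=
  (continuous_normHeight a i).sub
    ((continuous_const.inner (lipschitzWith_proj (b i)).continuous).add continuous_const)

lemma Flattening.weightOK_deviation (h : Flattening U ν b o B C K) (a : Fin m)
    (α : EuclideanSpace ℝ (Fin n)) (β : ℝ) : WeightOK U ν (deviation b o B a α β) := by
  refine ⟨continuous_deviation a α β, fun T => ?_⟩
  obtain ⟨M, hM⟩ := (h.weightOK_height a).2 T
  refine ⟨M + (‖α‖ * |T| + |β|) * (C * (max T 1) ^ n), ?_⟩
  filter_upwards [hM] with i hi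
  have := h.finite i
  have hint : ∀ g : E → ℝ, Continuous g → IntegrableOn g (Metric.ball 0 T) (ν i) := fun g hg =>
    (hg.continuousOn.integrableOn_compact (isCompact_closedBall _ _)).mono_set
      Metric.ball_subset_closedBall
  have i1 := hint _ (continuous_normHeight (b := b) (o := o) (B := B) a i).abs
  refine (setIntegral_mono_on (hint _ (continuous_deviation a α β i).abs)
    (i1.add (integrable_const (‖α‖ * |T| + |β|)).integrableOn) measurableSet_ball fun y hy => ?_).trans ?_
  · rw [Pi.add_apply, deviation]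
    refine (abs_sub _ _).trans (add_le_add le_rfl ((abs_add_le _ _).trans (add_le_add ?_ le_rfl)))
    refine (abs_real_inner_le_norm _ _).trans (mul_le_mul_of_nonneg_left ?_ (norm_nonneg _))
    linarith [norm_proj_le (b i) y, mem_ball_zero_iff.1 hy, le_abs_self T]
  · rw [integral_add' i1 (integrable_const _).integrableOn, setIntegral_const, smul_eq_mul]
    refine add_le_add hi ?_
    rw [mul_comm]
    exact mul_le_mul_of_nonneg_left ((measureReal_mono (Metric.ball_subset_ball (le_max_left T 1))).trans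
      (h.mass_ball (lt_max_of_lt_right one_pos) i)) (by positivity)

lemma Flattening.dirichlet_deviation (h : Flattening U ν b o B C K) (hn : 1 ≤ n) (a : Fin m)
    (α : EuclideanSpace ℝ (Fin n)) (β : ℝ) (T : ℝ) :
    ∃ M : ℝ, ∀ᶠ i in (U : Filter ℕ),
      IntegrableOn (fun q : E × E =>
        (deviation b o B a α β i q.1 - deviation b o B a α β i q.2) ^ 2 / dist q.1 q.2 ^ (n + 1))
        (Metric.ball (0 : E) T ×ˢ Metric.ball (0 : E) T) ((ν i).prod (ν i)) ∧
      ∫ q in Metric.ball (0 : E) T ×ˢ Metric.ball (0 : E) T,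
        (deviation b o B a α β i q.1 - deviation b o B a α β i q.2) ^ 2 / dist q.1 q.2 ^ (n + 1)
          ∂((ν i).prod (ν i)) ≤ M := by
  have hC : 0 ≤ C := zero_le_one.trans h.one_le
  obtain ⟨K', hK'⟩ := h.energy T
  set T' := max T 1
  refine ⟨2 * K' + 2 * ‖α‖ ^ 2 * (C * T' ^ n * (2 ^ n * C * (2 * T'))), ?_⟩
  filter_upwards [hK'] with i hi
  have := h.finite i
  have hB := h.B_pos i
  set S := Metric.ball (0 : E) T ×ˢ Metric.ball (0 : E) T
  have hbase := integrable_dist_inv_pow hn hC (h.growth i)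
  have hac : Continuous fun z : E => ‖across (b i) z‖ := by
    simpa [height] using (lipschitzWith_height (b i) 0).continuous.norm
  have hA : Integrable (fun q : E × E => ‖across (b i) (q.1 - q.2)‖ ^ 2 / dist q.1 q.2 ^ (n + 1))
      ((ν i).prod (ν i)) := by
    refine hbase.mono' (((hac.measurable.comp (measurable_fst.sub measurable_snd)).pow_const 2).div
      ((measurable_fst.dist measurable_snd).pow_const _)).aestronglyMeasurable
      (Eventually.of_forall fun q => ?_)
    rw [Real.norm_eq_abs, abs_of_nonneg (by positivity)]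
    rcases eq_or_ne (dist q.1 q.2) 0 with h0 | h0
    · rw [h0, zero_pow (by omega : n + 1 ≠ 0), div_zero]; positivity
    have h2 : ‖across (b i) (q.1 - q.2)‖ ^ 2 ≤ dist q.1 q.2 ^ 2 := by
      rw [dist_eq_norm]; exact pow_le_pow_left₀ (norm_nonneg _) (norm_across_le _ _) 2
    refine (div_le_div_of_nonneg_right h2 (by positivity)).trans (le_of_eq ?_)
    obtain ⟨p, rfl⟩ : ∃ p, n = p + 1 := ⟨n - 1, by omega⟩
    rw [Nat.add_sub_cancel, pow_succ, pow_succ]
    field_simp
    ring
  set R := fun q : E × E => 2 * (B i ^ 2)⁻¹ *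
    (‖across (b i) (q.1 - q.2)‖ ^ 2 / dist q.1 q.2 ^ (n + 1)) +
      2 * ‖α‖ ^ 2 * (dist q.1 q.2 ^ (n - 1))⁻¹
  have hR : Integrable R ((ν i).prod (ν i)) := (hA.const_mul _).add (hbase.const_mul _)
  have hpt : ∀ q : E × E, (deviation b o B a α β i q.1 - deviation b o B a α β i q.2) ^ 2 /
      dist q.1 q.2 ^ (n + 1) ≤ R q := by
    intro q
    rcases eq_or_ne (dist q.1 q.2) 0 with h0 | h0
    · rw [h0, zero_pow (by omega : n + 1 ≠ 0), div_zero]
      simp only [R]
      positivity
    have hd : 0 < dist q.1 q.2 := lt_of_le_of_ne dist_nonneg (Ne.symm h0)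
    have e : deviation b o B a α β i q.1 - deviation b o B a α β i q.2 =
        across (b i) (q.1 - q.2) a / B i - ⟪α, proj (b i) (q.1 - q.2)⟫ := by
      simp only [deviation, normHeight, proj_sub, inner_sub_right]
      rw [← height_sub_height (b i) (o i), PiLp.sub_apply]
      ring
    have h1 : (across (b i) (q.1 - q.2) a / B i) ^ 2 ≤
        (B i ^ 2)⁻¹ * ‖across (b i) (q.1 - q.2)‖ ^ 2 := by
      rw [div_pow, div_eq_inv_mul]
      refine mul_le_mul_of_nonneg_left ?_ (by positivity)
      exact sq_le_sq.2 (by rw [abs_norm, ← Real.norm_eq_abs]; exact PiLp.norm_apply_le _ a)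
    have h2 : ⟪α, proj (b i) (q.1 - q.2)⟫ ^ 2 ≤ ‖α‖ ^ 2 * dist q.1 q.2 ^ 2 := by
      rw [← mul_pow, ← sq_abs, dist_eq_norm]
      exact pow_le_pow_left₀ (abs_nonneg _) ((abs_real_inner_le_norm _ _).trans
        (mul_le_mul_of_nonneg_left (norm_proj_le _ _) (norm_nonneg _))) 2
    have h3 : R q = (2 * (B i ^ 2)⁻¹ * ‖across (b i) (q.1 - q.2)‖ ^ 2 +
        2 * (‖α‖ ^ 2 * dist q.1 q.2 ^ 2)) / dist q.1 q.2 ^ (n + 1) := by
      simp only [R]
      obtain ⟨p, rfl⟩ : ∃ p, n = p + 1 := ⟨n - 1, by omega⟩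
      rw [Nat.add_sub_cancel, pow_succ, pow_succ]
      field_simp
      ring
    rw [h3, e]
    refine div_le_div_of_nonneg_right ?_ (by positivity)
    nlinarith [sq_nonneg (across (b i) (q.1 - q.2) a / B i + ⟪α, proj (b i) (q.1 - q.2)⟫)]
  have hm : Measurable fun q : E × E =>
      (deviation b o B a α β i q.1 - deviation b o B a α β i q.2) ^ 2 / dist q.1 q.2 ^ (n + 1) :=
    ((((continuous_deviation a α β i).measurable.comp measurable_fst).sub
      ((continuous_deviation a α β i).measurable.comp measurable_snd)).pow_const 2).div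
      ((measurable_fst.dist measurable_snd).pow_const _)
  have hint := hR.mono' hm.aestronglyMeasurable (Eventually.of_forall fun q => by
    rw [Real.norm_eq_abs, abs_of_nonneg (by positivity)]; exact hpt q)
  refine ⟨hint.integrableOn, ?_⟩
  refine (setIntegral_mono hint.integrableOn hR.integrableOn hpt).trans ?_
  rw [integral_add (hA.const_mul _).integrableOn (hbase.const_mul _).integrableOn,
    integral_const_mul, integral_const_mul]
  refine add_le_add ?_ ?_
  · refine (mul_le_mul_of_nonneg_left hi (by positivity)).trans (le_of_eq ?_)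
    field_simp
  · refine mul_le_mul_of_nonneg_left ?_ (by positivity)
    have hT' : 0 < T' := lt_max_of_lt_right one_pos
    refine (setIntegral_mono_set (hbase.integrableOn)
      (Eventually.of_forall fun q => by simp only [Pi.zero_apply]; positivity) ?_).trans
      (integral_nearPairs_le hn hC (h.growth i) (T := T') (t := 2 * T') hT' (by positivity))
    refine LE.le.eventuallyLE fun q hq => ⟨?_, ?_⟩
    · exact lt_of_lt_of_le (mem_ball_zero_iff.1 hq.1) (le_max_left _ _)
    · rw [dist_eq_norm]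
      linarith [norm_sub_le q.1 q.2, mem_ball_zero_iff.1 hq.1, mem_ball_zero_iff.1 hq.2,
        le_max_left T 1]

/-- The heights become affine. -/
theorem Flattening.exists_affine (h : Flattening U ν b o B C K) (hn : 1 ≤ n) (hH : NoHoles n)
    (hN : NullRigidity n) (hA : AffineStep n) (hS : StrongStatement E n m) :
    ∃ (α : Fin m → EuclideanSpace ℝ (Fin n)) (β : Fin m → ℝ), ∀ (a : Fin m) (T : ℝ),
      Tendsto (fun i => ∫ y in Metric.ball (0 : E) T, deviation b o B a (α a) (β a) i y ^ 2 ∂ν i) U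
        (𝓝 0) := by
  obtain ⟨d, hd, hf⟩ := h.exists_const_density hn hH hN
  have hfl : LocallyIntegrable fun _ : EuclideanSpace ℝ (Fin n) => d := locallyIntegrable_const d
  have hpos : 0 < ∫ x, ramp 1 (dist x (0 : EuclideanSpace ℝ (Fin n))) * d := by
    rw [integral_mul_const]
    refine mul_pos ?_ hd
    refine lt_of_lt_of_le ?_ (setIntegral_le_integral (s := Metric.closedBall 0 1)
      ((isTest_ramp_dist one_pos 0).1.integrable_of_hasCompactSupport (isTest_ramp_dist one_pos 0).2)
      (Eventually.of_forall fun x => (ramp_bounds _ _).1))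
    rw [setIntegral_congr_fun measurableSet_closedBall
      (g := fun _ => (1 : ℝ)) fun x hx => ramp_eq_one one_pos (Metric.mem_closedBall.1 hx),
      setIntegral_const, smul_eq_mul, mul_one]
    exact ENNReal.toReal_pos (Metric.measure_closedBall_pos _ _ one_pos).ne'
      (isCompact_closedBall _ _).measure_ne_top
  have hex : ∀ a : Fin m, ∃ (α : EuclideanSpace ℝ (Fin n)) (β : ℝ), ∀ T : ℝ,
      Tendsto (fun i => ∫ y in Metric.ball (0 : E) T, deviation b o B a α β i y ^ 2 ∂ν i) U (𝓝 0) := by
    intro a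
    obtain ⟨g, hgm, hgl, hgi, hg⟩ := h.exists_height_limit a
    obtain ⟨α, β, hab⟩ := hA g hgm hgl hgi fun φ L hL hφ hm => by
      have := h.normalNull hn hfl hf (lipschitzWith_ramp_dist one_pos 0)
        (hasCompactSupport_ramp_dist one_pos 0) hpos a hg hL hφ
        (by rw [integral_mul_const, hm, zero_mul])
      have h2 := this.const_mul d⁻¹
      rw [mul_zero] at h2
      refine h2.congr fun k => ?_
      simp only [normalForm, mul_one, integral_mul_const]
      simp only [← mul_assoc, integral_mul_const]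
      field_simp
    refine ⟨d⁻¹ • α, β / d, hS U ν b o B C K h _ (h.weightOK_deviation a _ _)
      (h.dirichlet_deviation hn a _ _) fun φ hφ => ?_⟩
    set aff : EuclideanSpace ℝ (Fin n) → ℝ := fun x => ⟪d⁻¹ • α, x⟫ + β / d
    have haff : Continuous aff := (continuous_const.inner continuous_id).add continuous_const
    have ht : IsTest fun x => φ x * aff x :=
      ⟨hφ.1.mul haff, hφ.support_of _ fun x hx => by simp [hx]⟩
    have hlim := (hg φ hφ).sub (hf _ ht)
    have e : (∫ x, φ x * (0 : EuclideanSpace ℝ (Fin n) → ℝ) x) =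
        (∫ x, φ x * g x) - ∫ x, φ x * aff x * d := by
      rw [sub_eq_zero.2]
      · simp
      refine integral_congr_ae ?_
      filter_upwards [hab] with x hx
      rw [hx]
      simp only [aff, real_inner_smul_left]
      field_simp
    rw [e]
    refine hlim.congr fun i => ?_
    have := h.finite i
    simp only [cylInt]
    rw [← integral_sub (integrable_cyl _ _ hφ (continuous_normHeight a i))
      (integrable_cyl _ _ ht continuous_const)]
    refine integral_congr_ae (Eventually.of_forall fun y => ?_)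
    simp only [deviation, aff]
    ring
  choose α β hαβ using hex
  exact ⟨α, β, fun a T => hαβ a T⟩

/-- At the next scale the flatness is negligible against `B`. -/
theorem Flattening.beta_small (h : Flattening U ν b o B C K) (hn : 1 ≤ n) (hH : NoHoles n)
    (hN : NullRigidity n) (hA : AffineStep n) (hS : StrongStatement E n m) {z : ℕ → E}
    (hz : ∀ i, ‖z i‖ ≤ 2) {δ : ℝ} (hδ : 0 < δ) :
    ∀ᶠ i in (U : Filter ℕ), beta n (ν i) (z i) (1 / 16) ≤ δ * B i := by
  obtain ⟨α, β, hαβ⟩ := h.exists_affine hn hH hN hA hS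
  have hsum : Tendsto (fun i => ∑ a, ∫ y in Metric.ball (0 : E) 3,
      deviation b o B a (α a) (β a) i y ^ 2 ∂ν i) U (𝓝 0) := by
    simpa using tendsto_finsetSum Finset.univ fun a _ => hαβ a 3
  filter_upwards [hsum.eventually_lt_const
    (show 0 < δ ^ 2 * (1 / 16 : ℝ) ^ (n + 2) by positivity)] with i hi
  have := h.finite i
  have hB := h.B_pos i
  set e := b i
  set G : EuclideanSpace ℝ (Fin n) →ₗ[ℝ] E :=
    { toFun := fun x => (∑ a, x a • e (Sum.inl a)) + ∑ c, (B i * ⟪α c, x⟫) • e (Sum.inr c)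
      map_add' := fun x y => by
        simp only [PiLp.add_apply, inner_add_right, mul_add, add_smul, Finset.sum_add_distrib]
        abel
      map_smul' := fun r x => by
        simp only [PiLp.smul_apply, smul_eq_mul, inner_smul_right, RingHom.id_apply, smul_add,
          Finset.smul_sum, smul_smul]
        congr 1
        exact Finset.sum_congr rfl fun c _ => by ring_nf }
  have hGdef : ∀ x, G x = (∑ a, x a • e (Sum.inl a)) + ∑ c, (B i * ⟪α c, x⟫) • e (Sum.inr c) :=
    fun _ => rfl
  have hproj : ∀ x, proj e (G x) = x := fun x => by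
    ext a
    simp [proj, hGdef, inner_add_right, inner_sum, inner_smul_right, e.inner_eq_ite]
  have hGinj : Function.Injective G := fun x y hxy => by rw [← hproj x, hxy, hproj y]
  set W' := LinearMap.range G
  have hW' : Module.finrank ℝ W' = n := by
    rw [LinearMap.finrank_range_of_inj hGinj, finrank_euclideanSpace_fin]
  set p' : E := ∑ c, (o i c + B i * β c) • e (Sum.inr c)
  have hperp : ∀ y, ‖perp W' (y - p')‖ ^ 2 ≤ B i ^ 2 * ∑ a, deviation b o B a (α a) (β a) i y ^ 2 := by
    intro y
    have h1 : ‖perp W' (y - p')‖ ≤ ‖y - p' - G (proj e y)‖ := by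
      rw [perp, Submodule.starProjection_minimal (U := W') (y := y - p')]
      exact ciInf_le ⟨0, by rintro _ ⟨w, rfl⟩; exact norm_nonneg _⟩
        (⟨G (proj e y), LinearMap.mem_range_self G _⟩ : W')
    refine (pow_le_pow_left₀ (norm_nonneg _) h1 2).trans (le_of_eq ?_)
    rw [norm_sq_split e, proj_sub, proj_sub, hproj]
    have hp : proj e p' = 0 := by
      ext a
      simp [proj, p', inner_sum, inner_smul_right, e.inner_eq_ite]
    rw [hp, sub_zero, sub_self, norm_zero, zero_pow two_ne_zero, zero_add,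
      EuclideanSpace.norm_sq_eq, Finset.mul_sum]
    refine Finset.sum_congr rfl fun a _ => ?_
    rw [Real.norm_eq_abs, sq_abs, ← mul_pow]
    congr 1
    simp [across, p', hGdef, deviation, normHeight, height, inner_sub_right, inner_add_right,
      inner_sum, inner_smul_right, e.inner_eq_ite]
    field_simp
    ring
  have hint : ∀ a, IntegrableOn (fun y => deviation b o B a (α a) (β a) i y ^ 2)
      (Metric.ball (0 : E) 3) (ν i) := fun a =>
    (((continuous_deviation a _ _ i).pow 2).continuousOn.integrableOn_compact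
      (isCompact_closedBall _ _)).mono_set Metric.ball_subset_closedBall
  have hsumint : IntegrableOn (fun y => B i ^ 2 * ∑ a, deviation b o B a (α a) (β a) i y ^ 2)
      (Metric.ball (0 : E) 3) (ν i) := Integrable.const_mul (integrable_finsetSum _ fun a _ => hint a) _
  have hsub : Metric.ball (z i) (4 * (1 / 16 : ℝ)) ⊆ Metric.ball (0 : E) 3 :=
    Metric.ball_subset_ball' (by rw [dist_zero_right]; linarith [hz i])
  have hI : ∫ y in Metric.ball (z i) (4 * (1 / 16 : ℝ)), ‖perp W' (y - p')‖ ^ 2 ∂ν i ≤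
      (δ * B i) ^ 2 * (1 / 16 : ℝ) ^ (n + 2) := by
    refine (integral_mono_of_nonneg (Eventually.of_forall fun y => sq_nonneg _)
      (hsumint.mono_set hsub) (Eventually.of_forall hperp)).trans ?_
    refine (setIntegral_mono_set hsumint (Eventually.of_forall fun y => by
      simp only [Pi.zero_apply]; positivity) hsub.eventuallyLE).trans ?_
    rw [integral_const_mul, integral_finsetSum _ fun a _ => hint a, mul_pow, mul_comm (δ ^ 2),
      mul_assoc]
    exact mul_le_mul_of_nonneg_left hi.le (sq_nonneg _)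
  refine le_trans (csInf_le ⟨0, ?_⟩ ⟨p', W', hW', rfl⟩) ?_
  · rintro _ ⟨_, _, _, rfl⟩; exact Real.sqrt_nonneg _
  · rw [flatness, Real.sqrt_le_iff]
    refine ⟨by positivity, ?_⟩
    rw [div_le_iff₀ (by positivity)]
    exact hI

/-- The flatness at a child is bounded by that at the parent. -/
lemma beta_child_le (hnd : n ≤ Module.finrank ℝ E) {ν₀ : Measure E} [IsFiniteMeasure ν₀]
    {z : E} (hz : ‖z‖ ≤ 2) :
    beta n ν₀ z (1 / 16) ≤ Real.sqrt (16 ^ (n + 2)) * beta n ν₀ 0 1 := by
  have hne : {r : ℝ | ∃ (p : E) (W : Submodule ℝ E), Module.finrank ℝ W = n ∧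
      r = flatness ν₀ n 0 1 p W}.Nonempty := by
    obtain ⟨f, hf⟩ := exists_linearIndependent_of_le_finrank (R := ℝ) (M := E) hnd
    exact ⟨_, 0, Submodule.span ℝ (Set.range f), by rw [finrank_span_eq_card hf, Fintype.card_fin],
      rfl⟩
  have hpos : 0 < Real.sqrt ((16 : ℝ) ^ (n + 2)) := Real.sqrt_pos.2 (by positivity)
  rw [← div_le_iff₀' hpos]
  refine le_csInf hne ?_
  rintro _ ⟨p, W, hW, rfl⟩
  rw [div_le_iff₀' hpos]
  refine le_trans (csInf_le ⟨0, ?_⟩ ⟨p, W, hW, rfl⟩) ?_
  · rintro _ ⟨_, _, _, rfl⟩; exact Real.sqrt_nonneg _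
  rw [flatness, flatness, ← Real.sqrt_mul (by positivity)]
  refine Real.sqrt_le_sqrt ?_
  have hc : Continuous fun y => ‖perp W (y - p)‖ ^ 2 := by
    unfold perp
    exact ((continuous_id.sub continuous_const).sub (W.starProjection.continuous.comp
      (continuous_id.sub continuous_const))).norm.pow 2
  have hmono : ∫ y in Metric.ball z (4 * (1 / 16 : ℝ)), ‖perp W (y - p)‖ ^ 2 ∂ν₀ ≤
      ∫ y in Metric.ball (0 : E) (4 * 1), ‖perp W (y - p)‖ ^ 2 ∂ν₀ :=
    setIntegral_mono_set ((hc.continuousOn.integrableOn_compact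
      (isCompact_closedBall _ _)).mono_set Metric.ball_subset_closedBall)
      (Eventually.of_forall fun y => by simp only [Pi.zero_apply]; positivity)
      (Metric.ball_subset_ball' (by rw [dist_zero_right]; linarith)).eventuallyLE
  rw [one_pow, div_one, div_le_iff₀ (by positivity),
    show (1 / 16 : ℝ) ^ (n + 2) = ((16 : ℝ) ^ (n + 2))⁻¹ by rw [one_div, inv_pow]]
  refine hmono.trans (le_of_eq ?_)
  field_simp

/-- Module D, from its parts. -/
theorem decay_of_parts (hn : 1 ≤ n) (hnd : n ≤ Module.finrank ℝ E) (hR : RescaleStatement E n)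
    (hB : BuildStatement E n) (hH : NoHoles n) (hN : NullRigidity n) (hA : AffineStep n)
    (hS : ∀ m, StrongStatement E n m) : Decay E n := by
  refine hR fun C A δ hC hA0 hδ => ?_
  by_contra hcon
  simp only [not_exists, not_and, not_forall, not_le, exists_prop] at hcon
  choose ν x₀ R c j₀ k hch hsmall hbig using
    fun i : ℕ => hcon (1 / ((i : ℝ) + 1)) (i : ℝ) (by positivity)
  set U : Ultrafilter ℕ := hyperfilter ℕ
  have hU : (U : Filter ℕ) ≤ atTop := by
    rw [← Nat.cofinite_eq_atTop]; exact hyperfilter_le_cofinite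
  set Bs := fun i => bHat n (ν i) (R i) (c i) (j₀ i) (k i)
  have hbeta : ∀ i j, 0 ≤ beta n (ν i) (c i j) (scale (R i) j) := fun i j =>
    Real.sInf_nonneg (by rintro _ ⟨_, _, _, rfl⟩; exact Real.sqrt_nonneg _)
  have hBpos : ∀ i, 0 < Bs i := fun i =>
    add_pos_of_pos_of_nonneg (by positivity)
      (Finset.sum_nonneg fun j _ => mul_nonneg (by positivity) (hbeta i j))
  have hlim : Tendsto Bs U (𝓝 0) :=
    squeeze_zero (fun i => (hBpos i).le) hsmall
      (tendsto_one_div_add_atTop_nhds_zero_nat.mono_left hU)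
  have hbk : ∀ i, beta n (ν i) 0 1 ≤ Bs i := fun i => by
    obtain ⟨hN', hjk, hc, -, hc0, hs1⟩ := hch i
    have h1 := Finset.single_le_sum
      (f := fun j => (1 / 4 : ℝ) ^ (k i - j) * beta n (ν i) (c i j) (scale (R i) j))
      (fun j _ => mul_nonneg (by positivity) (hbeta i j)) (Finset.mem_Icc.2 ⟨hjk, le_rfl⟩)
    simp only [Nat.sub_self, pow_zero, one_mul, hc0, hs1] at h1
    have h2 : (0 : ℝ) ≤ (1 / 4 : ℝ) ^ (k i - j₀ i) := by positivity
    show _ ≤ bHat n (ν i) (R i) (c i) (j₀ i) (k i)
    rw [bHat]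
    linarith
  have hnext : ∀ i, ‖c i (k i + 1)‖ ≤ 2 ∧ scale (R i) (k i + 1) = 1 / 16 := fun i => by
    obtain ⟨hN', hjk, hc, hd, hc0, hs1⟩ := hch i
    refine ⟨?_, ?_⟩
    · have := hd (k i) hjk le_rfl
      rwa [hc0, hs1, dist_zero_right, mul_one] at this
    · have e : scale (R i) (k i + 1) = scale (R i) (k i) * (1 / 16) := by
        rw [scale, scale, show k i + 1 + 4 = k i + 4 + 1 by omega, pow_succ]; ring
      rw [e, hs1, one_mul]
  have hfin : ∀ i, IsFiniteMeasure (ν i) := fun i => (hch i).1.finite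
  set F := Real.sqrt ((16 : ℝ) ^ (n + 2))
  have hF : 0 ≤ F := Real.sqrt_nonneg _
  have hle : ∀ i : ℕ, (i : ℝ) * eHat n (ν i) (R i) (c i) (j₀ i) (k i) ≤ F * Bs i := fun i => by
    have := hfin i
    have h1 := (beta_child_le hnd (ν₀ := ν i) (hnext i).1).trans
      (mul_le_mul_of_nonneg_left (hbk i) hF)
    have h2 := hbig i
    rw [(hnext i).2] at h2
    have h3 : 0 ≤ δ * Bs i := (mul_pos hδ (hBpos i)).le
    linarith
  have heps : ∀ ε : ℝ, 0 < ε → ∀ᶠ i in (U : Filter ℕ),
      eHat n (ν i) (R i) (c i) (j₀ i) (k i) ≤ ε * Bs i := by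
    intro ε hε
    obtain ⟨N, hN'⟩ := exists_nat_gt (F / ε)
    filter_upwards [hU (eventually_ge_atTop (N + 1))] with i (hi : N + 1 ≤ i)
    have h1 : F / ε < i := lt_of_lt_of_le hN' (by exact_mod_cast (Nat.le_succ N).trans hi)
    have h2 : (0 : ℝ) < i := by exact_mod_cast Nat.lt_of_lt_of_le N.succ_pos hi
    rw [div_lt_iff₀ hε] at h1
    refine le_of_mul_le_mul_left ((hle i).trans ?_) h2
    rw [← mul_assoc]
    exact mul_le_mul_of_nonneg_right h1.le (hBpos i).le
  obtain ⟨m, b, o, C', K', hfl⟩ := hB C A hC hA0 U ν x₀ R c j₀ k hch hlim heps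
  obtain ⟨i, hi⟩ := (hfl.beta_small hn hH hN hA (hS m) (z := fun i => c i (k i + 1))
    (fun i => (hnext i).1) hδ).exists
  have h2 := hbig i
  rw [(hnext i).2] at h2
  have h3 : 0 ≤ eHat n (ν i) (R i) (c i) (j₀ i) (k i) :=
    Finset.sum_nonneg fun j _ => mul_nonneg (by positivity)
      (Real.sSup_nonneg (by rintro _ ⟨φ, -, rfl⟩
                            exact div_nonneg (abs_nonneg _) (pow_nonneg (scale_pos (hch i).1.2.2.1 j).le n)))
  nlinarith [mul_nonneg (Nat.cast_nonneg (α := ℝ) i) h3]

end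

end Vale.Agent.P120.Full
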