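import Vale.Agent.P120.Full.DecayParts

/-!
# P120, full answer: the middle part of the pairing converges
-/

namespace Vale.Agent.P120.Full

open MeasureTheory Set Filter
open scoped Topology RealInnerProductSpace ENNReal

noncomputable section

/-- Uniform continuity of the cut kernel, in the form used below. -/
lemma exists_radCut_modulus (n : ℕ) {δ T η : ℝ} (hδ : 0 < δ) (hT : 0 < T) (hη : 0 < η) :
    ∃ ε : ℝ, 0 < ε ∧ ∀ r r', |r - r'| ≤ 2 * ε → |radCut n δ T r - radCut n δ T r'| ≤ η := by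
  obtain ⟨d, hd, hd'⟩ := Metric.uniformContinuous_iff.1 (uniformContinuous_radCut n hδ hT) η hη
  refine ⟨d / 3, by positivity, fun r r' hr => ?_⟩
  have := hd' (a := r) (b := r') (by rw [Real.dist_eq]; linarith)
  rw [Real.dist_eq] at this
  exact this.le

variable {E : Type*} [NormedAddCommGroup E] [InnerProductSpace ℝ E] [MeasurableSpace E]
  [BorelSpace E] [FiniteDimensional ℝ E] {n m : ℕ} {U : Ultrafilter ℕ} {ν : ℕ → Measure E}
  {b : ℕ → OrthonormalBasis (Fin n ⊕ Fin m) ℝ E} {o : ℕ → EuclideanSpace ℝ (Fin m)}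
  {B : ℕ → ℝ} {C K : ℝ}

/-- The test field read on the cylinder. -/
def cylField (b : OrthonormalBasis (Fin n ⊕ Fin m) ℝ E) (o : EuclideanSpace ℝ (Fin m))
    (φ : EuclideanSpace ℝ (Fin n) → ℝ) (y : E) : ℝ :=
  φ (proj b y) * chi b o y

omit [MeasurableSpace E] [BorelSpace E] [FiniteDimensional ℝ E] in
lemma lipschitzWith_cylField (b : OrthonormalBasis (Fin n ⊕ Fin m) ℝ E)
    (o : EuclideanSpace ℝ (Fin m)) {φ : EuclideanSpace ℝ (Fin n) → ℝ} {L s : NNReal}
    (hL : LipschitzWith L φ) (hs : ∀ x, |φ x| ≤ s) :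
    LipschitzWith (L + s) (cylField b o φ) := by
  refine LipschitzWith.of_dist_le_mul fun x y => ?_
  obtain ⟨a0, a1⟩ := chi_mem b o x
  have h1 : |φ (proj b x) - φ (proj b y)| ≤ L * dist x y := by
    rw [← Real.dist_eq]
    exact (hL.dist_le_mul _ _).trans (mul_le_mul_of_nonneg_left (dist_proj_le b x y) L.coe_nonneg)
  have h2 : |chi b o x - chi b o y| ≤ dist x y := by
    rw [← Real.dist_eq]
    simpa using (lipschitzWith_chi b o).dist_le_mul x y
  rw [Real.dist_eq, show cylField b o φ x - cylField b o φ y =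
      (φ (proj b x) - φ (proj b y)) * chi b o x + φ (proj b y) * (chi b o x - chi b o y) by
    unfold cylField; ring]
  refine (abs_add_le _ _).trans ?_
  rw [abs_mul, abs_mul, abs_of_nonneg a0, NNReal.coe_add, add_mul]
  exact add_le_add ((mul_le_of_le_one_right (abs_nonneg _) a1).trans h1)
    (mul_le_mul (hs _) h2 (abs_nonneg _) s.coe_nonneg)

omit [MeasurableSpace E] [BorelSpace E] [FiniteDimensional ℝ E] in
lemma abs_cylField_le (b : OrthonormalBasis (Fin n ⊕ Fin m) ℝ E) (o : EuclideanSpace ℝ (Fin m))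
    {φ : EuclideanSpace ℝ (Fin n) → ℝ} {s : ℝ} (hs : ∀ x, |φ x| ≤ s) (y : E) :
    |cylField b o φ y| ≤ s := by
  rw [cylField, abs_mul, abs_of_nonneg (chi_mem b o y).1]
  exact (mul_le_of_le_one_right (abs_nonneg _) (chi_mem b o y).2).trans (hs _)

omit [MeasurableSpace E] [BorelSpace E] [FiniteDimensional ℝ E] in
lemma cylField_eq_zero {b : OrthonormalBasis (Fin n ⊕ Fin m) ℝ E} {o : EuclideanSpace ℝ (Fin m)}
    {φ : EuclideanSpace ℝ (Fin n) → ℝ} {T₀ : ℝ} (hsupp : ∀ x, T₀ ≤ ‖x‖ → φ x = 0) (ho : ‖o‖ ≤ 1)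
    {y : E} (hy : T₀ + 3 ≤ ‖y‖) : cylField b o φ y = 0 := by
  by_contra h
  have h1 := norm_le_of_chi_ne (right_ne_zero_of_mul h) ho
  exact left_ne_zero_of_mul h (hsupp _ (by linarith))

omit [MeasurableSpace E] [BorelSpace E] [FiniteDimensional ℝ E] in
lemma abs_proj_apply_le (b : OrthonormalBasis (Fin n ⊕ Fin m) ℝ E) (a : Fin n) (z : E) :
    |proj b z a| ≤ ‖z‖ := by
  rw [← Real.norm_eq_abs]; exact (PiLp.norm_apply_le _ a).trans (norm_proj_le b z)

omit [MeasurableSpace E] [BorelSpace E] [FiniteDimensional ℝ E] in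
lemma abs_across_apply_le (b : OrthonormalBasis (Fin n ⊕ Fin m) ℝ E) (a : Fin m) (z : E) :
    |across b z a| ≤ ‖z‖ := by
  rw [← Real.norm_eq_abs]; exact (PiLp.norm_apply_le _ a).trans (norm_across_le b z)

omit [MeasurableSpace E] [BorelSpace E] [FiniteDimensional ℝ E] in
lemma continuous_proj_apply (b : OrthonormalBasis (Fin n ⊕ Fin m) ℝ E) (a : Fin n) :
    Continuous fun z => proj b z a :=
  (PiLp.continuous_apply 2 _ a).comp (lipschitzWith_proj b).continuous

omit [MeasurableSpace E] [BorelSpace E] [FiniteDimensional ℝ E] in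
lemma continuous_across_apply (b : OrthonormalBasis (Fin n ⊕ Fin m) ℝ E) (a : Fin m) :
    Continuous fun z => across b z a := by
  have h : (fun z => across b z a) = (fun f : EuclideanSpace ℝ (Fin m) => f a) ∘ height b 0 := by
    funext z; simp [height]
  rw [h]
  exact (PiLp.continuous_apply 2 _ a).comp (lipschitzWith_height b 0).continuous

/-- Points of the support seen by the middle kernel lie in a bounded ball near the plane. -/
lemma Flattening.cut_pairs (h : Flattening U ν b o B C K) {T₀ T ε : ℝ} (hT : 0 < T) (hε : 0 < ε) :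
    ∀ᶠ i in (U : Filter ℕ), ∀ x ∈ (ν i).support, ∀ y ∈ (ν i).support,
      chi (b i) (o i) x ≠ 0 → ‖proj (b i) x‖ < T₀ →
      (dist x y < 2 * T ∨ chi (b i) (o i) y ≠ 0 ∧ dist (proj (b i) x) (proj (b i) y) < 2 * T) →
      ‖x‖ < T₀ + 2 * T + 3 ∧ ‖y‖ < T₀ + 2 * T + 3 ∧ chi (b i) (o i) x = 1 ∧
        chi (b i) (o i) y = 1 ∧ ‖height (b i) (o i) x‖ ≤ ε ∧ ‖height (b i) (o i) y‖ ≤ ε := by
  filter_upwards [h.cylinder T₀ hε, h.cylinder (T₀ + 2 * T) hε,
    h.sup_height (T₀ + 2 * T + 3) (lt_min hε one_pos)] with i h1 h2 h3 x hx y hy hcx hpx hor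
  obtain ⟨a1, a2, a3⟩ := h1 x hx hcx hpx
  suffices hy3 : ‖y‖ < T₀ + 2 * T + 3 ∧ chi (b i) (o i) y = 1 ∧ ‖height (b i) (o i) y‖ ≤ ε from
    ⟨by linarith, hy3.1, a2, hy3.2.1, a3, hy3.2.2⟩
  rcases hor with hd | ⟨hcy, hd⟩
  · have hy' : ‖y‖ < T₀ + 2 * T + 3 := by
      have := norm_le_insert' y x
      rw [← dist_eq_norm, dist_comm] at this
      linarith
    have h4 := h3 y hy hy'
    refine ⟨hy', ?_, h4.trans (min_le_left _ _)⟩
    have := h4.trans (min_le_right _ _)
    rw [chi, min_eq_left (by linarith), max_eq_right zero_le_one]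
  · refine h2 y hy hcy ?_
    have := norm_le_insert' (proj (b i) y) (proj (b i) x)
    rw [← dist_eq_norm, dist_comm] at this
    linarith

/-- The symmetric kernel of the middle part. -/
def midKer (n : ℕ) (φ : EuclideanSpace ℝ (Fin n) → ℝ) (δ T : ℝ)
    (w : EuclideanSpace ℝ (Fin n) → ℝ)
    (q : EuclideanSpace ℝ (Fin n) × EuclideanSpace ℝ (Fin n)) : ℝ :=
  (φ q.1 - φ q.2) * (w (q.1 - q.2) * radCut n δ T ‖q.1 - q.2‖)

lemma midKer_test {φ w : EuclideanSpace ℝ (Fin n) → ℝ} (hφ : IsTest φ) (hw : Continuous w)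
    {δ T : ℝ} (hδ : 0 < δ) (hT : 0 < T) :
    Continuous (midKer n φ δ T w) ∧ HasCompactSupport (midKer n φ δ T w) := by
  refine ⟨((hφ.1.comp continuous_fst).sub (hφ.1.comp continuous_snd)).mul
    ((hw.comp (continuous_fst.sub continuous_snd)).mul
      ((continuous_radCut n hδ T).comp (continuous_fst.sub continuous_snd).norm)), ?_⟩
  obtain ⟨T₀, hT₀⟩ := hφ.2.isCompact.isBounded.subset_closedBall 0
  refine HasCompactSupport.intro ((isCompact_closedBall (0 : EuclideanSpace ℝ (Fin n))
    (T₀ + 2 * T)).prod (isCompact_closedBall (0 : EuclideanSpace ℝ (Fin n)) (T₀ + 2 * T)))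
    fun q hq => ?_
  by_contra hne
  have h1 : ‖q.1 - q.2‖ < 2 * T := not_le.1 fun h0 =>
    right_ne_zero_of_mul (right_ne_zero_of_mul hne) (radCut_eq_zero n hT h0)
  have h2 := norm_le_insert' q.1 q.2
  have h3 := norm_le_insert' q.2 q.1
  rw [norm_sub_rev] at h3
  refine hq ⟨mem_closedBall_zero_iff.2 ?_, mem_closedBall_zero_iff.2 ?_⟩ <;>
  · by_cases hx : φ q.1 = 0
    · have hy : φ q.2 ≠ 0 := fun hy => left_ne_zero_of_mul hne (by rw [hx, hy, sub_zero])
      have := mem_closedBall_zero_iff.1 (hT₀ (subset_tsupport _ hy))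
      linarith
    · have := mem_closedBall_zero_iff.1 (hT₀ (subset_tsupport _ hx))
      linarith

omit [MeasurableSpace E] [BorelSpace E] [FiniteDimensional ℝ E] in
/-- Reading the middle kernel on the cylinder changes it only by the height. -/
lemma mid_compare {b : OrthonormalBasis (Fin n ⊕ Fin m) ℝ E} {o : EuclideanSpace ℝ (Fin m)}
    {φ : EuclideanSpace ℝ (Fin n) → ℝ} {s T₀ δ T ε η : ℝ} (hs : ∀ x, |φ x| ≤ s)
    (hsupp : ∀ x, T₀ ≤ ‖x‖ → φ x = 0) (hδ : 0 < δ) (hT : 0 < T) (hη : 0 ≤ η)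
    (hu : ∀ r r', |r - r'| ≤ 2 * ε → |radCut n δ T r - radCut n δ T r'| ≤ η) {x y : E}
    (hgx : chi b o x ≠ 0 → ‖proj b x‖ < T₀ →
      (dist x y < 2 * T ∨ chi b o y ≠ 0 ∧ dist (proj b x) (proj b y) < 2 * T) →
      ‖x‖ < T₀ + 2 * T + 3 ∧ ‖y‖ < T₀ + 2 * T + 3 ∧ chi b o x = 1 ∧ chi b o y = 1 ∧
        ‖height b o x‖ ≤ ε ∧ ‖height b o y‖ ≤ ε)
    (hgy : chi b o y ≠ 0 → ‖proj b y‖ < T₀ →
      (dist y x < 2 * T ∨ chi b o x ≠ 0 ∧ dist (proj b y) (proj b x) < 2 * T) →
      ‖y‖ < T₀ + 2 * T + 3 ∧ ‖x‖ < T₀ + 2 * T + 3 ∧ chi b o y = 1 ∧ chi b o x = 1 ∧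
        ‖height b o y‖ ≤ ε ∧ ‖height b o x‖ ≤ ε) (c : ℝ) :
    |(cylField b o φ x - cylField b o φ y) * (c / dist x y ^ (n + 1)) * cut δ T (dist x y) -
        chi b o x * chi b o y * ((φ (proj b x) - φ (proj b y)) *
          (c * radCut n δ T ‖proj b x - proj b y‖))| ≤
      (Metric.ball (0 : E) (T₀ + 2 * T + 3) ×ˢ Metric.ball (0 : E) (T₀ + 2 * T + 3)).indicator
        (fun _ => 2 * s * |c| * η) (x, y) := by
  have e1 : (cylField b o φ x - cylField b o φ y) * (c / dist x y ^ (n + 1)) * cut δ T (dist x y) =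
      (cylField b o φ x - cylField b o φ y) * (c * radCut n δ T (dist x y)) := by
    rw [radCut_def n hδ]; ring
  rw [e1]
  have hs0 : 0 ≤ s := (abs_nonneg _).trans (hs 0)
  set S := Metric.ball (0 : E) (T₀ + 2 * T + 3) ×ˢ Metric.ball (0 : E) (T₀ + 2 * T + 3)
  by_cases hgood : (‖x‖ < T₀ + 2 * T + 3 ∧ ‖y‖ < T₀ + 2 * T + 3) ∧
      (chi b o x = 1 ∧ chi b o y = 1 ∧ ‖height b o x‖ ≤ ε ∧ ‖height b o y‖ ≤ ε)
  · obtain ⟨⟨x1, y1⟩, x2, y2, x3, y3⟩ := hgood
    rw [indicator_of_mem (show (x, y) ∈ S from ⟨mem_ball_zero_iff.2 x1, mem_ball_zero_iff.2 y1⟩)]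
    simp only [cylField, x2, y2, mul_one, one_mul]
    rw [← mul_sub, ← mul_sub, abs_mul, abs_mul]
    have hd : |dist x y - ‖proj b x - proj b y‖| ≤ 2 * ε := by
      rw [← proj_sub, dist_eq_norm, abs_of_nonneg (sub_nonneg.2 (norm_proj_le b _))]
      have h1 := norm_le_proj_add_across b (x - y)
      rw [← height_sub_height b o] at h1
      linarith [norm_sub_le (height b o x) (height b o y)]
    calc |φ (proj b x) - φ (proj b y)| *
          (|c| * |radCut n δ T (dist x y) - radCut n δ T ‖proj b x - proj b y‖|)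
        ≤ 2 * s * (|c| * η) := mul_le_mul ((abs_sub _ _).trans (by linarith [hs (proj b x), hs (proj b y)]))
          (mul_le_mul_of_nonneg_left (hu _ _ hd) (abs_nonneg _)) (by positivity) (by positivity)
      _ = _ := by ring
  have hI : (cylField b o φ x - cylField b o φ y) * (c * radCut n δ T (dist x y)) = 0 := by
    by_contra hne
    have hr : dist x y < 2 * T := not_le.1 fun h0 =>
      right_ne_zero_of_mul (right_ne_zero_of_mul hne) (radCut_eq_zero n hT h0)
    by_cases hx : cylField b o φ x = 0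
    · have hy : cylField b o φ y ≠ 0 := fun hy => left_ne_zero_of_mul hne (by rw [hx, hy, sub_zero])
      obtain ⟨q1, q2, q3, q4, q5, q6⟩ := hgy (right_ne_zero_of_mul hy)
        (not_le.1 fun h0 => left_ne_zero_of_mul hy (hsupp _ h0)) (Or.inl (by rwa [dist_comm]))
      exact hgood ⟨⟨q2, q1⟩, q4, q3, q6, q5⟩
    · obtain ⟨q1, q2, q3, q4, q5, q6⟩ := hgx (right_ne_zero_of_mul hx)
        (not_le.1 fun h0 => left_ne_zero_of_mul hx (hsupp _ h0)) (Or.inl hr)
      exact hgood ⟨⟨q1, q2⟩, q3, q4, q5, q6⟩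
  have hJ : chi b o x * chi b o y * ((φ (proj b x) - φ (proj b y)) *
      (c * radCut n δ T ‖proj b x - proj b y‖)) = 0 := by
    by_contra hne
    have hr : dist (proj b x) (proj b y) < 2 * T := by
      rw [dist_eq_norm]
      exact not_le.1 fun h0 => right_ne_zero_of_mul (right_ne_zero_of_mul (right_ne_zero_of_mul hne))
        (radCut_eq_zero n hT h0)
    have hcx := left_ne_zero_of_mul (left_ne_zero_of_mul hne)
    have hcy := right_ne_zero_of_mul (left_ne_zero_of_mul hne)
    by_cases hx : φ (proj b x) = 0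
    · have hy : φ (proj b y) ≠ 0 := fun hy =>
        left_ne_zero_of_mul (right_ne_zero_of_mul hne) (by rw [hx, hy, sub_zero])
      obtain ⟨q1, q2, q3, q4, q5, q6⟩ := hgy hcy
        (not_le.1 fun h0 => hy (hsupp _ h0)) (Or.inr ⟨hcx, by rwa [dist_comm]⟩)
      exact hgood ⟨⟨q2, q1⟩, q4, q3, q6, q5⟩
    · obtain ⟨q1, q2, q3, q4, q5, q6⟩ := hgx hcx
        (not_le.1 fun h0 => hx (hsupp _ h0)) (Or.inr ⟨hcy, hr⟩)
      exact hgood ⟨⟨q1, q2⟩, q3, q4, q5, q6⟩
  rw [hI, hJ, sub_zero, abs_zero]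
  exact indicator_nonneg (fun _ _ => by positivity) _

/-- Products of cylinder fields are integrable on pairs. -/
lemma integrable_pairs {ν : Measure E} [IsFiniteMeasure ν]
    (b : OrthonormalBasis (Fin n ⊕ Fin m) ℝ E) (o : EuclideanSpace ℝ (Fin m))
    {G : EuclideanSpace ℝ (Fin n) × EuclideanSpace ℝ (Fin n) → ℝ}
    (hG : Continuous G) (hGs : HasCompactSupport G) {v : E → ℝ} (hv : Continuous v) :
    Integrable (fun q : E × E => chi b o q.1 * v q.1 *
      (G (proj b q.1, proj b q.2) * chi b o q.2 * 1)) (ν.prod ν) := by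
  obtain ⟨R, hR⟩ := hGs.isCompact.isBounded.subset_closedBall 0
  have hpc := (lipschitzWith_proj b).continuous
  have hcc := (lipschitzWith_chi b o).continuous
  refine Continuous.integrable_of_hasCompactSupport ?_ (HasCompactSupport.intro
    ((isCompact_closedBall (0 : E) (R + 2 + ‖o‖)).prod (isCompact_closedBall (0 : E) (R + 2 + ‖o‖)))
    fun q hq => ?_)
  · exact ((hcc.comp continuous_fst).mul (hv.comp continuous_fst)).mul
      (((hG.comp ((hpc.comp continuous_fst).prodMk (hpc.comp continuous_snd))).mul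
        (hcc.comp continuous_snd)).mul continuous_const)
  by_contra hne
  have h1 := mem_closedBall_zero_iff.1 (hR (subset_tsupport _
    (left_ne_zero_of_mul (left_ne_zero_of_mul (right_ne_zero_of_mul hne)))))
  rw [Prod.norm_mk] at h1
  have hle : ∀ y, chi b o y ≠ 0 → ‖height b o y‖ ≤ 2 := fun y hy => by
    by_contra h0
    exact hy (max_eq_left ((min_le_right _ _).trans (by linarith [not_le.1 h0])))
  have h2 := hle q.1 (left_ne_zero_of_mul (left_ne_zero_of_mul hne))
  have h3 := hle q.2 (right_ne_zero_of_mul (left_ne_zero_of_mul (right_ne_zero_of_mul hne)))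
  refine hq ⟨mem_closedBall_zero_iff.2 ?_, mem_closedBall_zero_iff.2 ?_⟩
  · linarith [norm_le_proj_add_height b o q.1, le_max_left ‖proj b q.1‖ ‖proj b q.2‖]
  · linarith [norm_le_proj_add_height b o q.2, le_max_right ‖proj b q.1‖ ‖proj b q.2‖]

/-- The middle tangential part. -/
theorem Flattening.tendsto_mid_tangential (h : Flattening U ν b o B C K) (hn : 1 ≤ n)
    {f : EuclideanSpace ℝ (Fin n) → ℝ} (hfl : LocallyIntegrable f)
    (hf : WeakLimit U ν b o (fun _ _ => 1) f) {φ : EuclideanSpace ℝ (Fin n) → ℝ} {L : NNReal}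
    (hL : LipschitzWith L φ) (hφ : HasCompactSupport φ) {δ T : ℝ} (hδ : 0 < δ) (hT : 0 < T)
    (a : Fin n) :
    Tendsto (fun i => part n (ν i) (cylField (b i) (o i) φ) (fun z => proj (b i) z a) (cut δ T))
      U (𝓝 (rieszForm n δ T f φ a)) := by
  have htest : IsTest φ := ⟨hL.continuous, hφ⟩
  obtain ⟨T₀, hT₀⟩ := hφ.isCompact.isBounded.subset_closedBall 0
  obtain ⟨s, hs⟩ := hφ.exists_bound_of_continuous hL.continuous
  have hs' : ∀ x, |φ x| ≤ s := hs
  have hsN : ∀ x, |φ x| ≤ (Real.toNNReal s : ℝ) := fun x => (hs' x).trans (Real.le_coe_toNNReal s)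
  have hsupp : ∀ x, T₀ + 1 ≤ ‖x‖ → φ x = 0 := fun x hx => by
    by_contra h0
    have := mem_closedBall_zero_iff.1 (hT₀ (subset_tsupport _ h0))
    linarith
  set w : EuclideanSpace ℝ (Fin n) → ℝ := fun z => z a
  have hwc : Continuous w := PiLp.continuous_apply 2 _ a
  obtain ⟨hGc, hGs⟩ := midKer_test htest hwc hδ hT
  have hlim := h.tendsto_double h.weightOK_one hf h.weightOK_one hfl hf hGc hGs
  have hval : rieszForm n δ T f φ a = ∫ x, f x * ∫ z, midKer n φ δ T w (x, z) * f z := by
    refine integral_congr_ae (Eventually.of_forall fun x => ?_)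
    simp only
    congr 1
    refine integral_congr_ae (Eventually.of_forall fun z => ?_)
    simp only [midKer, w, PiLp.sub_apply]
    rw [radCut_def n hδ]
    ring
  rw [hval]
  set T2 := T₀ + 1 + 2 * T + 3
  have hC : 0 ≤ C := zero_le_one.trans h.one_le
  set Q := 2 * (|s| + 1) * (2 * (|T2| + 1)) * (C * (|T2| + 1) ^ n) ^ 2 + 1
  have hQ : 0 < Q := by positivity
  rw [Metric.tendsto_nhds] at hlim ⊢
  intro η hη
  obtain ⟨ε, hε, hu⟩ := exists_radCut_modulus n hδ hT (show 0 < η / 2 / Q by positivity)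
  filter_upwards [hlim (η / 2) (by positivity), h.cut_pairs (T₀ := T₀ + 1) hT hε] with i hi hpairs
  have := h.finite i
  set ψ := cylField (b i) (o i) φ
  set l := fun z => proj (b i) z a
  have hI := integrable_part (Q := cut δ T) (ν := ν i) hn hC (h.growth i)
    (lipschitzWith_cylField (b i) (o i) hL hsN)
    (continuous_proj_apply (b i) a) (abs_proj_apply_le (b i) a)
    ((continuous_ramp T).mul (continuous_const.sub (continuous_ramp δ)))
    fun r => by rw [abs_of_nonneg (cut_bounds δ T r).1]; exact (cut_bounds δ T r).2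
  have hJ := integrable_pairs (ν := ν i) (b i) (o i) hGc hGs (v := fun _ => (1 : ℝ)) continuous_const
  have e : ∫ x, chi (b i) (o i) x * (1 : ℝ) *
        cylInt (ν i) (b i) (o i) (fun z => midKer n φ δ T w (proj (b i) x, z)) (fun _ => 1) ∂ν i =
      ∫ q, chi (b i) (o i) q.1 * 1 * (midKer n φ δ T w (proj (b i) q.1, proj (b i) q.2) *
        chi (b i) (o i) q.2 * 1) ∂((ν i).prod (ν i)) := by
    rw [integral_prod _ hJ]
    simp only [cylInt, integral_const_mul]
  have hS : MeasurableSet (Metric.ball (0 : E) T2 ×ˢ Metric.ball (0 : E) T2) :=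
    measurableSet_ball.prod measurableSet_ball
  have hs0 : 0 ≤ s := (norm_nonneg _).trans (hs 0)
  have hd : |part n (ν i) ψ l (cut δ T) - ∫ q, chi (b i) (o i) q.1 * 1 *
      (midKer n φ δ T w (proj (b i) q.1, proj (b i) q.2) * chi (b i) (o i) q.2 * 1)
        ∂((ν i).prod (ν i))| ≤ η / 2 := by
    rw [part, ← integral_sub hI hJ, ← Real.norm_eq_abs]
    refine (norm_integral_le_of_norm_le ((integrable_const (2 * s * (2 * |T2|) * (η / 2 / Q))).indicator
      hS) ?_).trans ?_
    · filter_upwards [Measure.quasiMeasurePreserving_fst.tendsto_ae (Measure.support_mem_ae (μ := ν i)),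
        Measure.quasiMeasurePreserving_snd.tendsto_ae (Measure.support_mem_ae (μ := ν i))]
        with q hq1 hq2
      have hc := mid_compare (b := b i) (o := o i) (ε := ε) (η := η / 2 / Q) hs' hsupp hδ hT
        (by positivity) hu (x := q.1) (y := q.2) (hpairs q.1 hq1 q.2 hq2) (hpairs q.2 hq2 q.1 hq1)
        (proj (b i) (q.1 - q.2) a)
      rw [Real.norm_eq_abs, show chi (b i) (o i) q.1 * 1 *
          (midKer n φ δ T w (proj (b i) q.1, proj (b i) q.2) * chi (b i) (o i) q.2 * 1) =
          chi (b i) (o i) q.1 * chi (b i) (o i) q.2 *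
            ((φ (proj (b i) q.1) - φ (proj (b i) q.2)) * (proj (b i) (q.1 - q.2) a *
              radCut n δ T ‖proj (b i) q.1 - proj (b i) q.2‖)) by
        simp only [midKer, w, proj_sub]; ring]
      refine hc.trans ?_
      by_cases hq : (q.1, q.2) ∈ Metric.ball (0 : E) T2 ×ˢ Metric.ball (0 : E) T2
      · rw [indicator_of_mem hq, indicator_of_mem hq]
        refine mul_le_mul_of_nonneg_right (mul_le_mul_of_nonneg_left ?_ (by positivity)) (by positivity)
        refine (abs_proj_apply_le _ _ _).trans ((norm_sub_le _ _).trans ?_)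
        linarith [mem_ball_zero_iff.1 hq.1, mem_ball_zero_iff.1 hq.2, le_abs_self T2]
      · rw [indicator_of_notMem hq, indicator_of_notMem hq]
    · rw [integral_indicator hS, setIntegral_const, smul_eq_mul, measureReal_prod_prod]
      have hm : (ν i).real (Metric.ball (0 : E) T2) ≤ C * (|T2| + 1) ^ n :=
        (measureReal_mono (Metric.ball_subset_ball (by linarith [le_abs_self T2]))).trans
          (h.mass_ball (by positivity) i)
      have hpre : 2 * s * (2 * |T2|) ≤ 2 * (|s| + 1) * (2 * (|T2| + 1)) :=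
        mul_le_mul (by linarith [le_abs_self s]) (by linarith) (by positivity) (by positivity)
      calc (ν i).real (Metric.ball 0 T2) * (ν i).real (Metric.ball 0 T2) *
            (2 * s * (2 * |T2|) * (η / 2 / Q))
          ≤ C * (|T2| + 1) ^ n * (C * (|T2| + 1) ^ n) *
            (2 * (|s| + 1) * (2 * (|T2| + 1)) * (η / 2 / Q)) :=
            mul_le_mul (mul_le_mul hm hm measureReal_nonneg (by positivity))
              (mul_le_mul_of_nonneg_right hpre (by positivity)) (by positivity) (by positivity)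
        _ = (Q - 1) * (η / 2 / Q) := by simp only [Q]; ring
        _ ≤ Q * (η / 2 / Q) := mul_le_mul_of_nonneg_right (by linarith) (by positivity)
        _ = η / 2 := mul_div_cancel₀ _ hQ.ne'
  rw [Real.dist_eq] at hi ⊢
  rw [← e] at hd
  obtain ⟨a1, a2⟩ := abs_le.1 hd
  obtain ⟨b1, b2⟩ := abs_lt.1 hi
  rw [abs_lt]
  constructor <;> linarith

/-- The normal form of the limit. -/
def normalForm (n : ℕ) (δ T : ℝ) (g f φ : EuclideanSpace ℝ (Fin n) → ℝ) : ℝ :=
  2 * ∫ x, g x * ∫ z, midKer n φ δ T (fun _ => 1) (x, z) * f z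

/-- The middle normal part. -/
theorem Flattening.tendsto_mid_normal (h : Flattening U ν b o B C K) (hn : 1 ≤ n)
    {f g : EuclideanSpace ℝ (Fin n) → ℝ} (hfl : LocallyIntegrable f)
    (hf : WeakLimit U ν b o (fun _ _ => 1) f) (a : Fin m)
    (hg : WeakLimit U ν b o (normHeight b o B a) g)
    {φ : EuclideanSpace ℝ (Fin n) → ℝ} {L : NNReal}
    (hL : LipschitzWith L φ) (hφ : HasCompactSupport φ) {δ T : ℝ} (hδ : 0 < δ) (hT : 0 < T) :
    Tendsto (fun i => part n (ν i) (cylField (b i) (o i) φ) (fun z => across (b i) z a) (cut δ T) /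
      B i) U (𝓝 (normalForm n δ T g f φ)) := by
  have htest : IsTest φ := ⟨hL.continuous, hφ⟩
  obtain ⟨T₀, hT₀⟩ := hφ.isCompact.isBounded.subset_closedBall 0
  obtain ⟨s, hs⟩ := hφ.exists_bound_of_continuous hL.continuous
  have hs' : ∀ x, |φ x| ≤ s := hs
  have hs0 : 0 ≤ s := (norm_nonneg _).trans (hs 0)
  have hsN : ∀ x, |φ x| ≤ (Real.toNNReal s : ℝ) := fun x => (hs' x).trans (Real.le_coe_toNNReal s)
  have hsupp : ∀ x, T₀ + 1 ≤ ‖x‖ → φ x = 0 := fun x hx => by
    by_contra h0
    have := mem_closedBall_zero_iff.1 (hT₀ (subset_tsupport _ h0))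
    linarith
  set w : EuclideanSpace ℝ (Fin n) → ℝ := fun _ => 1
  obtain ⟨hGc, hGs⟩ := midKer_test htest (continuous_const : Continuous w) hδ hT
  have hwh := h.weightOK_height a
  have hlim := (h.tendsto_double hwh hg h.weightOK_one hfl hf hGc hGs).const_mul 2
  set T2 := T₀ + 1 + 2 * T + 3
  have hC : 0 ≤ C := zero_le_one.trans h.one_le
  obtain ⟨Mh, hMh⟩ := hwh.2 (|T2| + 1)
  set Q := 2 * s * (2 * (max Mh 0 * (C * (|T2| + 1) ^ n))) + 1
  have hQ : 0 < Q := by positivity
  rw [Metric.tendsto_nhds] at hlim ⊢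
  intro η hη
  obtain ⟨ε, hε, hu⟩ := exists_radCut_modulus n hδ hT (show 0 < η / 2 / Q by positivity)
  filter_upwards [hlim (η / 2) (by positivity), h.cut_pairs (T₀ := T₀ + 1) hT hε, hMh]
    with i hi hpairs hMi
  have := h.finite i
  have hB := h.B_pos i
  set ψ := cylField (b i) (o i) φ
  set v := normHeight b o B a i
  have hvc : Continuous v := continuous_normHeight a i
  set S := Metric.ball (0 : E) (|T2| + 1) ×ˢ Metric.ball (0 : E) (|T2| + 1)
  have hS : MeasurableSet S := measurableSet_ball.prod measurableSet_ball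
  have hI := (integrable_part (Q := cut δ T) (ν := ν i) hn hC (h.growth i)
    (lipschitzWith_cylField (b i) (o i) hL hsN)
    (continuous_across_apply (b i) a) (abs_across_apply_le (b i) a)
    ((continuous_ramp T).mul (continuous_const.sub (continuous_ramp δ)))
    (fun r => by rw [abs_of_nonneg (cut_bounds δ T r).1]; exact (cut_bounds δ T r).2)).div_const (B i)
  set H := fun q : E × E => chi (b i) (o i) q.1 * v q.1 *
    (midKer n φ δ T w (proj (b i) q.1, proj (b i) q.2) * chi (b i) (o i) q.2 * 1)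
  have hH : Integrable H ((ν i).prod (ν i)) := integrable_pairs (b i) (o i) hGc hGs hvc
  have hH' : Integrable (fun q => H q.swap) ((ν i).prod (ν i)) := hH.swap
  have e : (2 : ℝ) * ∫ x, chi (b i) (o i) x * v x *
        cylInt (ν i) (b i) (o i) (fun z => midKer n φ δ T w (proj (b i) x, z)) (fun _ => 1) ∂ν i =
      ∫ q, (H q + H q.swap) ∂((ν i).prod (ν i)) := by
    rw [integral_add hH hH', integral_prod_swap, integral_prod _ hH, two_mul]
    simp only [H, cylInt, integral_const_mul]
  have hv1 : Integrable ((Metric.ball (0 : E) (|T2| + 1)).indicator fun y => |v y|) (ν i) :=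
    IntegrableOn.integrable_indicator ((hvc.abs.continuousOn.integrableOn_compact
      (isCompact_closedBall _ _)).mono_set Metric.ball_subset_closedBall) measurableSet_ball
  have h1i : Integrable ((Metric.ball (0 : E) (|T2| + 1)).indicator fun _ => (1 : ℝ)) (ν i) :=
    (integrable_const _).indicator measurableSet_ball
  set F := fun q : E × E => 2 * s * (η / 2 / Q) *
    ((Metric.ball (0 : E) (|T2| + 1)).indicator (fun y => |v y|) q.1 *
        (Metric.ball (0 : E) (|T2| + 1)).indicator (fun _ => (1 : ℝ)) q.2 +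
      (Metric.ball (0 : E) (|T2| + 1)).indicator (fun _ => (1 : ℝ)) q.1 *
        (Metric.ball (0 : E) (|T2| + 1)).indicator (fun y => |v y|) q.2)
  have hF : Integrable F ((ν i).prod (ν i)) :=
    ((hv1.mul_prod h1i).add (h1i.mul_prod hv1)).const_mul _
  have hd : |part n (ν i) ψ (fun z => across (b i) z a) (cut δ T) / B i -
      ∫ q, (H q + H q.swap) ∂((ν i).prod (ν i))| ≤ η / 2 := by
    have hHH : Integrable (fun q => H q + H q.swap) ((ν i).prod (ν i)) := hH.add hH'
    rw [part, ← integral_div, ← integral_sub hI hHH, ← Real.norm_eq_abs]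
    refine (norm_integral_le_of_norm_le hF ?_).trans ?_
    · filter_upwards [Measure.quasiMeasurePreserving_fst.tendsto_ae (Measure.support_mem_ae (μ := ν i)),
        Measure.quasiMeasurePreserving_snd.tendsto_ae (Measure.support_mem_ae (μ := ν i))]
        with q hq1 hq2
      have hvd : v q.1 - v q.2 = across (b i) (q.1 - q.2) a / B i := by
        simp only [v, normHeight]
        rw [← sub_div, ← height_sub_height (b i) (o i), PiLp.sub_apply]
      have hc := mid_compare (b := b i) (o := o i) (ε := ε) (η := η / 2 / Q) hs' hsupp hδ hT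
        (by positivity) hu (x := q.1) (y := q.2) (hpairs q.1 hq1 q.2 hq2) (hpairs q.2 hq2 q.1 hq1)
        (v q.1 - v q.2)
      rw [Real.norm_eq_abs, show H q + H q.swap = chi (b i) (o i) q.1 * chi (b i) (o i) q.2 *
            ((φ (proj (b i) q.1) - φ (proj (b i) q.2)) * ((v q.1 - v q.2) *
              radCut n δ T ‖proj (b i) q.1 - proj (b i) q.2‖)) by
        simp only [H, midKer, w, Prod.fst_swap, Prod.snd_swap,
          norm_sub_rev (proj (b i) q.2) (proj (b i) q.1)]; ring,
        show (ψ q.1 - ψ q.2) * (across (b i) (q.1 - q.2) a / dist q.1 q.2 ^ (n + 1)) *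
          cut δ T (dist q.1 q.2) / B i = (ψ q.1 - ψ q.2) *
            ((v q.1 - v q.2) / dist q.1 q.2 ^ (n + 1)) * cut δ T (dist q.1 q.2) by
          rw [hvd]; ring]
      refine hc.trans ?_
      by_cases hq : (q.1, q.2) ∈ Metric.ball (0 : E) T2 ×ˢ Metric.ball (0 : E) T2
      · have hq1' : q.1 ∈ Metric.ball (0 : E) (|T2| + 1) :=
          Metric.ball_subset_ball (by linarith [le_abs_self T2]) hq.1
        have hq2' : q.2 ∈ Metric.ball (0 : E) (|T2| + 1) :=
          Metric.ball_subset_ball (by linarith [le_abs_self T2]) hq.2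
        simp only [F]
        rw [indicator_of_mem hq, indicator_of_mem hq1', indicator_of_mem hq1', indicator_of_mem hq2',
          indicator_of_mem hq2', mul_one, one_mul]
        nlinarith [mul_le_mul_of_nonneg_left (abs_sub (v q.1) (v q.2))
          (show 0 ≤ 2 * s * (η / 2 / Q) by positivity)]
      · rw [indicator_of_notMem hq]
        exact mul_nonneg (by positivity) (add_nonneg
          (mul_nonneg (indicator_nonneg (fun _ _ => abs_nonneg _) _)
            (indicator_nonneg (fun _ _ => zero_le_one) _))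
          (mul_nonneg (indicator_nonneg (fun _ _ => zero_le_one) _)
            (indicator_nonneg (fun _ _ => abs_nonneg _) _)))
    · simp only [F]
      rw [integral_const_mul, integral_add (hv1.mul_prod h1i) (h1i.mul_prod hv1), integral_prod_mul,
        integral_prod_mul, integral_indicator measurableSet_ball,
        integral_indicator measurableSet_ball, setIntegral_const, smul_eq_mul, mul_one]
      set X := ∫ y in Metric.ball (0 : E) (|T2| + 1), |v y| ∂ν i
      have hm := h.mass_ball (show (0 : ℝ) < |T2| + 1 by positivity) i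
      have hX : X ≤ max Mh 0 := hMi.trans (le_max_left _ _)
      calc 2 * s * (η / 2 / Q) * (X * (ν i).real (Metric.ball 0 (|T2| + 1)) +
            (ν i).real (Metric.ball 0 (|T2| + 1)) * X)
          ≤ 2 * s * (η / 2 / Q) * (max Mh 0 * (C * (|T2| + 1) ^ n) +
            C * (|T2| + 1) ^ n * max Mh 0) :=
            mul_le_mul_of_nonneg_left (add_le_add
              (mul_le_mul hX hm measureReal_nonneg (le_max_right _ _))
              (mul_le_mul hm hX (integral_nonneg fun y => abs_nonneg _) (by positivity)))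
              (by positivity)
        _ = (Q - 1) * (η / 2 / Q) := by simp only [Q]; ring
        _ ≤ Q * (η / 2 / Q) := mul_le_mul_of_nonneg_right (by linarith) (by positivity)
        _ = η / 2 := mul_div_cancel₀ _ hQ.ne'
  rw [e, Real.dist_eq] at hi
  rw [Real.dist_eq, normalForm]
  obtain ⟨a1, a2⟩ := abs_le.1 hd
  obtain ⟨b1, b2⟩ := abs_lt.1 hi
  rw [abs_lt]
  constructor <;> linarith

end

end Vale.Agent.P120.Full
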