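import Vale.Agent.P120.Full.DecayLimits
import Vale.Agent.P120.Full.DecayKernel

/-!
# P120, full answer: near and far parts of the pairing
-/

namespace Vale.Agent.P120.Full

open MeasureTheory Set Filter
open scoped Topology RealInnerProductSpace ENNReal

noncomputable section

variable {E : Type*} [NormedAddCommGroup E] [InnerProductSpace ℝ E] [MeasurableSpace E]
  [BorelSpace E] [FiniteDimensional ℝ E] {n : ℕ} {C : ℝ} {ν : Measure E} [IsFiniteMeasure ν]

/-- A part of the pairing: the scalar field `ψ`, the component `l`, the radial factor `Q`. -/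
def part (n : ℕ) (ν : Measure E) (ψ : E → ℝ) (l : E → ℝ) (Q : ℝ → ℝ) : ℝ :=
  ∫ q, (ψ q.1 - ψ q.2) * (l (q.1 - q.2) / dist q.1 q.2 ^ (n + 1)) * Q (dist q.1 q.2) ∂(ν.prod ν)

lemma integrable_dist_inv_pow (hn : 1 ≤ n) (hC : 0 ≤ C)
    (hν : ∀ z t, 0 < t → ν.real (Metric.ball z t) ≤ C * t ^ n) :
    Integrable (fun q : E × E => (dist q.1 q.2 ^ (n - 1))⁻¹) (ν.prod ν) := by
  refine ⟨Measurable.aestronglyMeasurable (by fun_prop), ?_⟩
  rw [hasFiniteIntegral_iff_ofReal (Eventually.of_forall fun q => by positivity),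
    lintegral_prod _ (Measurable.aemeasurable (by fun_prop))]
  have hb : ∀ x, ∫⁻ y, ENNReal.ofReal ((dist x y ^ (n - 1))⁻¹) ∂ν ≤
      ENNReal.ofReal (2 ^ n * C * 1) + ν univ := fun x => by
    rw [← lintegral_add_compl _ (measurableSet_ball (x := x) (ε := (1 : ℝ)))]
    refine add_le_add (lintegral_inv_pow_ball hn hC hν x one_pos) ?_
    refine le_trans (setLIntegral_mono measurable_const fun y hy => ?_)
      ((setLIntegral_const _ (1 : ℝ≥0∞)).trans_le (by rw [one_mul]; exact measure_mono (subset_univ _)))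
    rw [mem_compl_iff, Metric.mem_ball, not_lt, dist_comm] at hy
    exact ENNReal.ofReal_le_one.2 (inv_le_one_of_one_le₀ (one_le_pow₀ hy))
  refine (lintegral_mono hb).trans_lt ?_
  rw [lintegral_const]
  exact ENNReal.mul_lt_top (ENNReal.add_lt_top.2 ⟨ENNReal.ofReal_lt_top, measure_lt_top _ _⟩)
    (measure_lt_top _ _)

variable {ψ l : E → ℝ} {L : NNReal}

omit [InnerProductSpace ℝ E] [MeasurableSpace E] [BorelSpace E] [FiniteDimensional ℝ E] in
lemma abs_part_le (hn : 1 ≤ n) (hψ : LipschitzWith L ψ) (hl : ∀ z, |l z| ≤ ‖z‖) {w : ℝ}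
    (hw : |w| ≤ 1) (q : E × E) :
    |(ψ q.1 - ψ q.2) * (l (q.1 - q.2) / dist q.1 q.2 ^ (n + 1)) * w| ≤
      L * (dist q.1 q.2 ^ (n - 1))⁻¹ := by
  rw [abs_mul, abs_mul, abs_div, abs_of_nonneg (pow_nonneg dist_nonneg (n + 1))]
  refine (mul_le_of_le_one_right (by positivity) hw).trans ?_
  rcases eq_or_ne (dist q.1 q.2) 0 with h0 | h0
  · rw [h0, zero_pow (by omega : n + 1 ≠ 0), div_zero, mul_zero]
    positivity
  have h1 : |ψ q.1 - ψ q.2| ≤ L * dist q.1 q.2 := by rw [← Real.dist_eq]; exact hψ.dist_le_mul _ _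
  have h2 : |l (q.1 - q.2)| ≤ dist q.1 q.2 := by rw [dist_eq_norm]; exact hl _
  refine (mul_le_mul h1 (div_le_div_of_nonneg_right h2 (by positivity)) (by positivity)
    (by positivity)).trans (le_of_eq ?_)
  obtain ⟨p, rfl⟩ : ∃ p, n = p + 1 := ⟨n - 1, by omega⟩
  rw [Nat.add_sub_cancel, pow_succ, pow_succ]
  field_simp

lemma integrable_part (hn : 1 ≤ n) (hC : 0 ≤ C)
    (hν : ∀ z t, 0 < t → ν.real (Metric.ball z t) ≤ C * t ^ n) (hψ : LipschitzWith L ψ)
    (hlc : Continuous l) (hl : ∀ z, |l z| ≤ ‖z‖) {Q : ℝ → ℝ} (hQc : Continuous Q)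
    (hQ : ∀ r, |Q r| ≤ 1) :
    Integrable (fun q : E × E =>
      (ψ q.1 - ψ q.2) * (l (q.1 - q.2) / dist q.1 q.2 ^ (n + 1)) * Q (dist q.1 q.2))
      (ν.prod ν) := by
  refine ((integrable_dist_inv_pow hn hC hν).const_mul (L : ℝ)).mono' ?_
    (Eventually.of_forall fun q => abs_part_le hn hψ hl (hQ _) q)
  exact ((((hψ.continuous.measurable.comp measurable_fst).sub
    (hψ.continuous.measurable.comp measurable_snd)).mul
    (((hlc.measurable.comp (measurable_fst.sub measurable_snd))).div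
      ((measurable_fst.dist measurable_snd).pow_const _))).mul
    (hQc.measurable.comp (measurable_fst.dist measurable_snd))).aestronglyMeasurable

lemma part_split (hn : 1 ≤ n) (hC : 0 ≤ C)
    (hν : ∀ z t, 0 < t → ν.real (Metric.ball z t) ≤ C * t ^ n) (hψ : LipschitzWith L ψ)
    (hlc : Continuous l) (hl : ∀ z, |l z| ≤ ‖z‖) (δ T : ℝ) :
    part n ν ψ l (fun _ => 1) = part n ν ψ l (fun r => ramp T r * ramp δ r) +
      part n ν ψ l (cut δ T) + part n ν ψ l (fun r => 1 - ramp T r) := by
  have i1 := integrable_part hn hC hν hψ hlc hl (Q := fun r => ramp T r * ramp δ r)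
    ((continuous_ramp T).mul (continuous_ramp δ)) fun r => by
      obtain ⟨a0, a1⟩ := ramp_bounds T r
      obtain ⟨b0, b1⟩ := ramp_bounds δ r
      rw [abs_of_nonneg (mul_nonneg a0 b0)]; exact mul_le_one₀ a1 b0 b1
  have i2 := integrable_part hn hC hν hψ hlc hl (Q := cut δ T)
    ((continuous_ramp T).mul (continuous_const.sub (continuous_ramp δ))) fun r => by
      obtain ⟨a0, a1⟩ := cut_bounds δ T r
      rw [abs_of_nonneg a0]; exact a1
  have i3 := integrable_part hn hC hν hψ hlc hl (Q := fun r => 1 - ramp T r)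
    (continuous_const.sub (continuous_ramp T)) fun r => by
      obtain ⟨a0, a1⟩ := ramp_bounds T r
      rw [abs_of_nonneg (by linarith)]; linarith
  simp only [part]
  rw [← integral_add i1 i2, ← integral_add]
  · refine integral_congr_ae (Eventually.of_forall fun q => ?_)
    simp only
    rw [← mul_add, ← mul_add, ramp_split]
  · exact i1.add i2
  · exact i3

omit [InnerProductSpace ℝ E] [MeasurableSpace E] [BorelSpace E] [FiniteDimensional ℝ E] in
lemma mem_nearPairs {T δ : ℝ} (hδ : 0 < δ) (hsupp : ∀ y, T ≤ ‖y‖ → ψ y = 0) {Tr : ℝ} {q : E × E}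
    (hne : (ψ q.1 - ψ q.2) * (l (q.1 - q.2) / dist q.1 q.2 ^ (n + 1)) *
      (ramp Tr (dist q.1 q.2) * ramp δ (dist q.1 q.2)) ≠ 0) :
    q ∈ nearPairs (T + 2 * δ) (2 * δ) := by
  have h1 : dist q.1 q.2 < 2 * δ := not_le.1 fun h0 =>
    right_ne_zero_of_mul (right_ne_zero_of_mul hne) (ramp_eq_zero hδ h0)
  refine ⟨?_, h1⟩
  by_contra h0
  rw [not_lt] at h0
  have h2 := norm_le_insert' q.1 q.2
  rw [← dist_eq_norm] at h2
  refine left_ne_zero_of_mul (left_ne_zero_of_mul hne) ?_
  rw [hsupp _ (by linarith), hsupp _ (by linarith), sub_zero]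

/-- The near part, bounded by the Lipschitz constant. -/
lemma abs_part_near_le (hn : 1 ≤ n) (hC : 0 ≤ C)
    (hν : ∀ z t, 0 < t → ν.real (Metric.ball z t) ≤ C * t ^ n) (hψ : LipschitzWith L ψ)
    (hl : ∀ z, |l z| ≤ ‖z‖) {T δ : ℝ} (hT : 0 < T) (hδ : 0 < δ)
    (hsupp : ∀ y, T ≤ ‖y‖ → ψ y = 0) (Tr : ℝ) :
    |part n ν ψ l fun r => ramp Tr r * ramp δ r| ≤
      L * (C * (T + 2 * δ) ^ n * (2 ^ n * C * (2 * δ))) := by
  have hm := measurableSet_nearPairs (E := E) (T + 2 * δ) (2 * δ)
  have hi := ((integrable_dist_inv_pow hn hC hν).const_mul (L : ℝ)).indicator hm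
  rw [← Real.norm_eq_abs, part]
  refine (norm_integral_le_of_norm_le hi (Eventually.of_forall fun q => ?_)).trans ?_
  · by_cases hne : (ψ q.1 - ψ q.2) * (l (q.1 - q.2) / dist q.1 q.2 ^ (n + 1)) *
        (ramp Tr (dist q.1 q.2) * ramp δ (dist q.1 q.2)) = 0
    · rw [hne, norm_zero]
      exact indicator_nonneg (fun _ _ => by positivity) q
    · rw [indicator_of_mem (mem_nearPairs hδ hsupp hne), Real.norm_eq_abs]
      refine abs_part_le hn hψ hl ?_ q
      obtain ⟨a0, a1⟩ := ramp_bounds Tr (dist q.1 q.2)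
      obtain ⟨b0, b1⟩ := ramp_bounds δ (dist q.1 q.2)
      rw [abs_of_nonneg (mul_nonneg a0 b0)]
      exact mul_le_one₀ a1 b0 b1
  · rw [integral_indicator hm, integral_const_mul]
    exact mul_le_mul_of_nonneg_left
      (integral_nearPairs_le hn hC hν (by linarith) (by linarith)) L.coe_nonneg

/-- The near part, bounded by the energy of the component. -/
lemma abs_part_near_le_energy (hn : 1 ≤ n) (hC : 0 ≤ C)
    (hν : ∀ z t, 0 < t → ν.real (Metric.ball z t) ≤ C * t ^ n) (hψ : LipschitzWith L ψ)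
    (hlc : Continuous l) (hl : ∀ z, |l z| ≤ ‖z‖) {T δ s W : ℝ} (hT : 0 < T) (hδ : 0 < δ)
    (hδ1 : δ ≤ 1 / 2) (hs : 0 < s) (hsupp : ∀ y, T ≤ ‖y‖ → ψ y = 0) (Tr : ℝ)
    (hW : ∫ q in Metric.ball (0 : E) (T + 2) ×ˢ Metric.ball (0 : E) (T + 2),
      l (q.1 - q.2) ^ 2 / dist q.1 q.2 ^ (n + 1) ∂(ν.prod ν) ≤ W) :
    |part n ν ψ l fun r => ramp Tr r * ramp δ r| ≤
      (L : ℝ) ^ 2 * (C * (T + 2 * δ) ^ n * (2 ^ n * C * (2 * δ))) / (2 * s) + s * W / 2 := by
  have hm := measurableSet_nearPairs (E := E) (T + 2 * δ) (2 * δ)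
  set S := Metric.ball (0 : E) (T + 2) ×ˢ Metric.ball (0 : E) (T + 2)
  have hS : MeasurableSet S := measurableSet_ball.prod measurableSet_ball
  have i1 : Integrable (fun q => (L : ℝ) ^ 2 / (2 * s) * (nearPairs (T + 2 * δ) (2 * δ)).indicator
      (fun q : E × E => (dist q.1 q.2 ^ (n - 1))⁻¹) q) (ν.prod ν) :=
    ((integrable_dist_inv_pow hn hC hν).indicator hm).const_mul _
  have i0 : Integrable (fun q : E × E => l (q.1 - q.2) ^ 2 / dist q.1 q.2 ^ (n + 1)) (ν.prod ν) := by
    refine (integrable_dist_inv_pow hn hC hν).mono'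
      (((hlc.measurable.comp (measurable_fst.sub measurable_snd)).pow_const 2).div
        ((measurable_fst.dist measurable_snd).pow_const _)).aestronglyMeasurable
      (Eventually.of_forall fun q => ?_)
    rw [Real.norm_eq_abs, abs_of_nonneg (by positivity)]
    rcases eq_or_ne (dist q.1 q.2) 0 with h0 | h0
    · rw [h0, zero_pow (by omega : n + 1 ≠ 0), div_zero]; positivity
    have h2 : l (q.1 - q.2) ^ 2 ≤ dist q.1 q.2 ^ 2 := by
      rw [← sq_abs, dist_eq_norm]; exact pow_le_pow_left₀ (abs_nonneg _) (hl _) 2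
    refine (div_le_div_of_nonneg_right h2 (by positivity)).trans (le_of_eq ?_)
    obtain ⟨p, rfl⟩ : ∃ p, n = p + 1 := ⟨n - 1, by omega⟩
    rw [Nat.add_sub_cancel, pow_succ, pow_succ]
    field_simp
    ring
  have i2 : Integrable (fun q => s / 2 * S.indicator
      (fun q : E × E => l (q.1 - q.2) ^ 2 / dist q.1 q.2 ^ (n + 1)) q) (ν.prod ν) :=
    (i0.indicator hS).const_mul _
  rw [← Real.norm_eq_abs, part]
  refine (norm_integral_le_of_norm_le (i1.add i2) (Eventually.of_forall fun q => ?_)).trans ?_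
  · rw [Pi.add_apply]
    have hpos : 0 ≤ (nearPairs (T + 2 * δ) (2 * δ)).indicator
        (fun q : E × E => (dist q.1 q.2 ^ (n - 1))⁻¹) q :=
      indicator_nonneg (fun _ _ => by positivity) q
    have hpos2 : 0 ≤ S.indicator (fun q : E × E => l (q.1 - q.2) ^ 2 / dist q.1 q.2 ^ (n + 1)) q :=
      indicator_nonneg (fun _ _ => by positivity) q
    by_cases hne : (ψ q.1 - ψ q.2) * (l (q.1 - q.2) / dist q.1 q.2 ^ (n + 1)) *
        (ramp Tr (dist q.1 q.2) * ramp δ (dist q.1 q.2)) = 0
    · rw [hne, norm_zero]; positivity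
    have hmem := mem_nearPairs hδ hsupp hne
    have hqS : q ∈ S := by
      obtain ⟨a, c⟩ := hmem
      refine ⟨mem_ball_zero_iff.2 (by linarith), mem_ball_zero_iff.2 ?_⟩
      have h2 := norm_le_insert' q.2 q.1
      rw [← dist_eq_norm, dist_comm] at h2
      linarith
    rw [indicator_of_mem hmem, indicator_of_mem hqS, Real.norm_eq_abs, abs_mul]
    obtain ⟨a0, a1⟩ := ramp_bounds Tr (dist q.1 q.2)
    obtain ⟨b0, b1⟩ := ramp_bounds δ (dist q.1 q.2)
    refine (mul_le_of_le_one_right (abs_nonneg _)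
      (by rw [abs_of_nonneg (mul_nonneg a0 b0)]; exact mul_le_one₀ a1 b0 b1)).trans ?_
    set r := dist q.1 q.2
    have hr : 0 < r := by
      refine lt_of_le_of_ne dist_nonneg fun h0 => left_ne_zero_of_mul hne ?_
      rw [← h0, zero_pow (by omega : n + 1 ≠ 0), div_zero, mul_zero]
    have h1 : |ψ q.1 - ψ q.2| ≤ L * r := by rw [← Real.dist_eq]; exact hψ.dist_le_mul _ _
    rw [abs_mul, abs_div, abs_of_pos (pow_pos hr (n + 1))]
    refine (mul_le_mul_of_nonneg_right h1 (by positivity)).trans ?_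
    rw [← mul_div_assoc, ← sq_abs (l (q.1 - q.2))]
    obtain ⟨p, rfl⟩ : ∃ p, n = p + 1 := ⟨n - 1, by omega⟩
    rw [Nat.add_sub_cancel]
    have hsum : (L : ℝ) ^ 2 / (2 * s) * (r ^ p)⁻¹ + s / 2 * (|l (q.1 - q.2)| ^ 2 / r ^ (p + 1 + 1)) =
        ((L : ℝ) ^ 2 * r ^ 2 / (2 * s) + s / 2 * |l (q.1 - q.2)| ^ 2) / r ^ (p + 1 + 1) := by
      field_simp
      ring
    rw [hsum]
    refine div_le_div_of_nonneg_right ?_ (by positivity)
    rw [div_add' _ _ _ (by positivity), le_div_iff₀ (by positivity)]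
    nlinarith [sq_nonneg ((L : ℝ) * r - s * |l (q.1 - q.2)|)]
  · rw [integral_add' i1 i2, integral_const_mul, integral_const_mul, integral_indicator hm,
      integral_indicator hS]
    refine add_le_add ((mul_le_mul_of_nonneg_left
      (integral_nearPairs_le hn hC hν (by linarith) (by linarith)) (by positivity)).trans
        (le_of_eq (by ring))) ((mul_le_mul_of_nonneg_left hW (by positivity)).trans (le_of_eq (by ring)))

lemma integrable_farHalf (hψ : LipschitzWith L ψ) {M : ℝ} (hM : ∀ y, |ψ y| ≤ M) (hlc : Continuous l)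
    (hl : ∀ z, |l z| ≤ ‖z‖) {T : ℝ} (hT : 0 < T) :
    Integrable (fun q : E × E => ψ q.1 * (l (q.1 - q.2) * farKer n T (dist q.1 q.2))) (ν.prod ν) := by
  refine Integrable.of_bound ?_ (M * (T ^ n)⁻¹) (Eventually.of_forall fun q => ?_)
  · refine ((hψ.continuous.measurable.comp measurable_fst).mul
      ((hlc.measurable.comp (measurable_fst.sub measurable_snd)).mul ?_)).aestronglyMeasurable
    exact ((measurable_const.sub (continuous_ramp T).measurable).div
      (measurable_id.pow_const _)).comp (measurable_fst.dist measurable_snd)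
  rw [norm_mul, Real.norm_eq_abs]
  refine mul_le_mul (hM _) ?_ (norm_nonneg _) ((abs_nonneg _).trans (hM q.1))
  obtain ⟨k0, k1⟩ := farKer_mem n T (dist_nonneg (x := q.1) (y := q.2))
  rw [norm_mul, Real.norm_eq_abs, Real.norm_eq_abs, abs_of_nonneg k0]
  rcases le_or_gt (dist q.1 q.2) T with h | h
  · rw [farKer_eq_zero n hT h, mul_zero]; positivity
  have hr : 0 < dist q.1 q.2 := hT.trans h
  refine (mul_le_mul (hl _) k1 k0 (norm_nonneg _)).trans ?_
  rw [← dist_eq_norm, pow_succ', mul_inv, ← mul_assoc, mul_inv_cancel₀ hr.ne', one_mul]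
  exact inv_anti₀ (pow_pos hT n) (pow_le_pow_left₀ hT.le h.le _)

lemma part_far_eq (hψ : LipschitzWith L ψ) {M : ℝ} (hM : ∀ y, |ψ y| ≤ M) (hlc : Continuous l)
    (hl : ∀ z, |l z| ≤ ‖z‖) (hodd : ∀ z, l (-z) = -l z) {T : ℝ} (hT : 0 < T) :
    part n ν ψ l (fun r => 1 - ramp T r) =
      2 * ∫ x, ψ x * ∫ y, l (x - y) * farKer n T (dist x y) ∂ν ∂ν := by
  set H := fun q : E × E => ψ q.1 * (l (q.1 - q.2) * farKer n T (dist q.1 q.2))
  have hH : Integrable H (ν.prod ν) := integrable_farHalf hψ hM hlc hl hT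
  have e : ∀ q : E × E, (ψ q.1 - ψ q.2) * (l (q.1 - q.2) / dist q.1 q.2 ^ (n + 1)) *
      (1 - ramp T (dist q.1 q.2)) = H q + H q.swap := by
    intro q
    simp only [H, Prod.fst_swap, Prod.snd_swap, farKer, dist_comm q.2 q.1]
    rw [show q.2 - q.1 = -(q.1 - q.2) by abel, hodd]
    ring
  rw [part, integral_congr_ae (Eventually.of_forall e),
    integral_add hH (show Integrable (fun q => H q.swap) (ν.prod ν) from hH.swap),
    integral_prod_swap, integral_prod _ hH, two_mul]
  simp only [H, integral_const_mul]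

/-- The far part for a bounded component. -/
lemma abs_part_far_le (hC : 0 ≤ C) (hν : ∀ z t, 0 < t → ν.real (Metric.ball z t) ≤ C * t ^ n)
    (hψ : LipschitzWith L ψ) {M : ℝ} (hM : ∀ y, |ψ y| ≤ M) (hlc : Continuous l)
    (hl : ∀ z, |l z| ≤ ‖z‖) (hodd : ∀ z, l (-z) = -l z) (hladd : ∀ x y, l (x - y) = l x - l y)
    {T T₀ : ℝ} (hT₀ : 0 < T₀) (hT : 4 * T₀ ≤ T) (hsupp : ∀ y, T₀ ≤ ‖y‖ → ψ y = 0)
    (hmean : ∫ y, ψ y ∂ν = 0) :
    |part n ν ψ l (fun r => 1 - ramp T r)| ≤
      2 * (M * (C * T₀ ^ n)) * ((2 ^ (n + 1) + (n + 3) * 2 ^ (n + 2)) * T₀ *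
        (2 ^ (n + 1) * C / (T / 2))) := by
  have hT0 : 0 < T := by linarith
  set F := fun x => ∫ y, l (x - y) * farKer n T (dist x y) ∂ν
  set c := (2 : ℝ) ^ (n + 1) + (n + 3) * 2 ^ (n + 2)
  have hc : 0 ≤ c := by positivity
  have hmeas : ∀ x, Measurable fun y => l (x - y) * farKer n T (dist x y) := fun x =>
    ((hlc.measurable.comp (measurable_const.sub measurable_id))).mul
      (((measurable_const.sub (continuous_ramp T).measurable).div
        (measurable_id.pow_const _)).comp (measurable_const.dist measurable_id))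
  have hint : ∀ x, Integrable (fun y => l (x - y) * farKer n T (dist x y)) ν := fun x => by
    refine Integrable.of_bound (hmeas x).aestronglyMeasurable (T ^ n)⁻¹
      (Eventually.of_forall fun y => ?_)
    obtain ⟨k0, k1⟩ := farKer_mem n T (dist_nonneg (x := x) (y := y))
    rw [norm_mul, Real.norm_eq_abs, Real.norm_eq_abs, abs_of_nonneg k0]
    rcases le_or_gt (dist x y) T with h | h
    · rw [farKer_eq_zero n hT0 h, mul_zero]; positivity
    have hr : 0 < dist x y := hT0.trans h
    refine (mul_le_mul (hl _) k1 k0 (norm_nonneg _)).trans ?_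
    rw [← dist_eq_norm, pow_succ', mul_inv, ← mul_assoc, mul_inv_cancel₀ hr.ne', one_mul]
    exact inv_anti₀ (pow_pos hT0 n) (pow_le_pow_left₀ hT0.le h.le _)
  have hF : ∀ x, ‖x‖ < T₀ → |F x - F 0| ≤ c * T₀ * (2 ^ (n + 1) * C / (T / 2)) := by
    intro x hx
    simp only [F]
    rw [← integral_sub (hint x) (hint 0), ← Real.norm_eq_abs]
    have hms : MeasurableSet {y : E | T / 2 ≤ dist 0 y} :=
      measurableSet_le measurable_const (measurable_const.dist measurable_id)
    have hbase : Integrable ({y : E | T / 2 ≤ dist 0 y}.indicator fun y =>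
        c * T₀ * (dist (0 : E) y ^ (n + 1))⁻¹) ν :=
      IntegrableOn.integrable_indicator ((integrableOn_inv_pow (0 : E)
        (by linarith : (0 : ℝ) < T / 2) _ hms fun y hy => hy).const_mul _) hms
    refine (norm_integral_le_of_norm_le hbase (Eventually.of_forall fun y => ?_)).trans ?_
    · have hd : |dist x y - dist 0 y| ≤ ‖x‖ :=
        (abs_dist_sub_le x 0 y).trans_eq (dist_zero_right x)
      obtain ⟨hd1, hd2⟩ := abs_le.1 hd
      by_cases hy : T / 2 ≤ dist 0 y
      swap
      · rw [farKer_eq_zero n hT0 (by linarith), farKer_eq_zero n hT0 (by linarith), mul_zero,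
          mul_zero, sub_zero, norm_zero]
        exact indicator_nonneg (fun _ _ => by positivity) y
      rw [indicator_of_mem (show y ∈ {y : E | T / 2 ≤ dist 0 y} from hy), Real.norm_eq_abs]
      set t := dist (0 : E) y
      have ht : 0 < t := by linarith
      have hsplit : l (x - y) * farKer n T (dist x y) - l (0 - y) * farKer n T t =
          l x * farKer n T (dist x y) + l (0 - y) * (farKer n T (dist x y) - farKer n T t) := by
        rw [hladd x y, zero_sub, hodd]; ring
      rw [hsplit]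
      have hk1 : |farKer n T (dist x y)| ≤ 2 ^ (n + 1) * (t ^ (n + 1))⁻¹ := by
        obtain ⟨k0, k1⟩ := farKer_mem n T (dist_nonneg (x := x) (y := y))
        rw [abs_of_nonneg k0]
        refine k1.trans ((inv_anti₀ (pow_pos (half_pos ht) _)
          (pow_le_pow_left₀ (half_pos ht).le (by linarith) _)).trans (le_of_eq ?_))
        rw [div_pow, inv_div, div_eq_mul_inv]
      have hk2 : |farKer n T (dist x y) - farKer n T t| ≤
          (n + 3) * T₀ / (t / 2) ^ (n + 2) :=
        (abs_farKer_sub_le n hT0 (half_pos ht) (by linarith) (by linarith)).trans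
          (div_le_div_of_nonneg_right (mul_le_mul_of_nonneg_left (hd.trans hx.le) (by positivity))
            (by positivity))
      refine (abs_add_le _ _).trans ?_
      rw [abs_mul, abs_mul]
      refine (add_le_add (mul_le_mul ((hl x).trans hx.le) hk1 (abs_nonneg _) hT₀.le)
        (mul_le_mul (show |l (0 - y)| ≤ t from (hl _).trans_eq (dist_eq_norm 0 y).symm) hk2
          (abs_nonneg _) ht.le)).trans (le_of_eq ?_)
      simp only [c]
      rw [div_pow]
      field_simp
      ring
    · rw [integral_indicator hms, integral_const_mul]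
      exact mul_le_mul_of_nonneg_left (outer_integral_le hν hC 0 (by linarith)) (by positivity)
  have hI : Integrable (fun x => ψ x * F x) ν := by
    have := (integrable_farHalf (n := n) (ν := ν) hψ hM hlc hl hT0).integral_prod_left
    simpa only [integral_const_mul] using this
  have hψi : Integrable ψ ν :=
    Integrable.of_bound hψ.continuous.aestronglyMeasurable M (Eventually.of_forall hM)
  rw [part_far_eq hψ hM hlc hl hodd hT0, abs_mul, abs_two, mul_assoc]
  refine mul_le_mul_of_nonneg_left ?_ zero_le_two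
  have e : ∫ x, ψ x * F x ∂ν = ∫ x, ψ x * (F x - F 0) ∂ν := by
    simp only [mul_sub]
    rw [integral_sub hI (hψi.mul_const _), integral_mul_const, hmean, zero_mul, sub_zero]
  set W := c * T₀ * (2 ^ (n + 1) * C / (T / 2))
  have hW : 0 ≤ W := by positivity
  have hM0 : 0 ≤ M := (abs_nonneg _).trans (hM 0)
  change |∫ x, ψ x * F x ∂ν| ≤ M * (C * T₀ ^ n) * W
  rw [e, ← Real.norm_eq_abs]
  refine (norm_integral_le_of_norm_le ((integrable_const (M * W)).indicator
    (measurableSet_ball (x := (0 : E)) (ε := T₀))) (Eventually.of_forall fun x => ?_)).trans ?_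
  · by_cases hx : x ∈ Metric.ball (0 : E) T₀
    · rw [indicator_of_mem hx, norm_mul]
      exact mul_le_mul (hM x) (hF x (mem_ball_zero_iff.1 hx)) (norm_nonneg _) hM0
    · rw [indicator_of_notMem hx, hsupp x (not_lt.1 fun h0 => hx (mem_ball_zero_iff.2 h0)),
        zero_mul, norm_zero]
  · rw [integral_indicator measurableSet_ball, setIntegral_const, smul_eq_mul]
    calc ν.real (Metric.ball 0 T₀) * (M * W) ≤ C * T₀ ^ n * (M * W) :=
          mul_le_mul_of_nonneg_right (hν 0 T₀ hT₀) (mul_nonneg hM0 hW)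
      _ = _ := by ring

/-- The far part of a component with controlled growth. -/
lemma abs_part_far_height_le (hC : 0 ≤ C) (hν : ∀ z t, 0 < t → ν.real (Metric.ball z t) ≤ C * t ^ n)
    (hψ : LipschitzWith L ψ) {M : ℝ} (hM : ∀ y, |ψ y| ≤ M) {h : E → ℝ} (hhc : Continuous h)
    (hlc : Continuous l) (hl : ∀ z, |l z| ≤ ‖z‖) (hodd : ∀ z, l (-z) = -l z)
    (hlh : ∀ x y, l (x - y) = h x - h y) {W Q : ℝ}
    (hWi : Integrable (fun y => h y ^ 2 / weight n y) ν)
    (hW : ∫ y, h y ^ 2 / weight n y ∂ν ≤ W) {T T₀ : ℝ} (hT₀ : 0 < T₀) (hT : 4 * T₀ ≤ T)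
    (hT1 : 2 ≤ T) (hsupp : ∀ y, T₀ ≤ ‖y‖ → ψ y = 0) (hmean : ∫ y, ψ y ∂ν = 0)
    (hQ : ∫ y in Metric.ball (0 : E) T₀, |h y| ∂ν ≤ Q) :
    |part n ν ψ l (fun r => 1 - ramp T r)| ≤
      2 * (M * Q * (2 ^ (n + 1) * C / T)) + 2 * (M * (C * T₀ ^ n) * ((n + 3) * T₀ * 2 ^ (n + 2) *
        Real.sqrt (W * (3 ^ (n + 3) * 2 * (4 * 2 ^ n * C / Real.sqrt (T / 2)))))) := by
  have hT0 : 0 < T := by linarith
  have hM0 : 0 ≤ M := (abs_nonneg _).trans (hM 0)
  have hk : ∀ x : E, Measurable fun y => farKer n T (dist x y) := fun x =>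
    ((measurable_const.sub (continuous_ramp T).measurable).div (measurable_id.pow_const _)).comp
      (measurable_const.dist measurable_id)
  have hkb : ∀ x y : E, |farKer n T (dist x y)| ≤ (T ^ (n + 1))⁻¹ := fun x y => by
    obtain ⟨k0, k1⟩ := farKer_mem n T (dist_nonneg (x := x) (y := y))
    rw [abs_of_nonneg k0]
    rcases le_or_gt (dist x y) T with h | h
    · rw [farKer_eq_zero n hT0 h]; positivity
    · exact k1.trans (inv_anti₀ (pow_pos hT0 _) (pow_le_pow_left₀ hT0.le h.le _))
  set wt := fun y : E => weight n y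
  have hwt : ∀ y, 0 < wt y := fun y => weight_pos n y
  set A := fun y => |h y| / Real.sqrt (wt y)
  have hms : MeasurableSet {y : E | T / 2 ≤ ‖y‖} := measurableSet_le measurable_const measurable_norm
  set g := {y : E | T / 2 ≤ ‖y‖}.indicator fun y => (‖y‖ ^ (n + 2))⁻¹
  have hg0 : ∀ y, 0 ≤ g y := fun y => indicator_nonneg (fun _ _ => by positivity) y
  set G := fun y => g y * Real.sqrt (wt y)
  have eA : ∀ y, A y ^ 2 = h y ^ 2 / wt y := fun y => by
    simp only [A, div_pow, sq_abs, Real.sq_sqrt (hwt y).le]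
  have eAG : ∀ y, A y * G y = |h y| * g y := fun y => by
    simp only [A, G]
    field_simp [(Real.sqrt_pos.2 (hwt y)).ne']
  have hG2 : ∀ y, G y ^ 2 ≤ {y : E | T / 2 ≤ ‖y‖}.indicator
      (fun y => 3 ^ (n + 3) * 2 * (‖y‖ ^ n * Real.sqrt ‖y‖)⁻¹) y := by
    intro y
    by_cases hy : y ∈ {y : E | T / 2 ≤ ‖y‖}
    swap
    · simp [G, g, indicator_of_notMem hy]
    rw [indicator_of_mem hy]
    simp only [G, g, indicator_of_mem hy, mul_pow, Real.sq_sqrt (hwt y).le, inv_pow]
    set t := ‖y‖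
    have ht : 1 ≤ t := le_trans (by linarith) hy
    have h1 : 1 + t ≤ 3 * t := by linarith
    have h2 : Real.sqrt (1 + t) ≤ 2 * Real.sqrt t := by
      rw [show (2 : ℝ) = Real.sqrt 4 by rw [show (4 : ℝ) = 2 ^ 2 by norm_num, Real.sqrt_sq zero_le_two],
        ← Real.sqrt_mul (by norm_num)]
      exact Real.sqrt_le_sqrt (by linarith)
    have h3 : wt y ≤ (3 * t) ^ (n + 3) * (2 * Real.sqrt t) :=
      mul_le_mul (pow_le_pow_left₀ (by positivity) h1 _) h2 (Real.sqrt_nonneg _) (by positivity)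
    refine (mul_le_mul_of_nonneg_left h3 (by positivity)).trans (le_of_eq ?_)
    field_simp
    rw [Real.sq_sqrt (by linarith)]
    ring
  have hgm : Measurable g := (measurable_norm.pow_const _).inv.indicator hms
  have hAm : Measurable A := hhc.abs.measurable.div (continuous_weight n).sqrt.measurable
  have hGm : Measurable G := hgm.mul (continuous_weight n).sqrt.measurable
  have iA : Integrable (fun y => A y ^ 2) ν := by simp only [eA]; exact hWi
  have hD : IntegrableOn (fun y : E => (‖y‖ ^ n * Real.sqrt ‖y‖)⁻¹) {y : E | T / 2 ≤ ‖y‖} ν := by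
    refine Integrable.of_bound (Measurable.aestronglyMeasurable (by fun_prop))
      1 ((ae_restrict_iff' hms).2 (Eventually.of_forall fun y hy => ?_))
    rw [Real.norm_eq_abs, abs_of_nonneg (by positivity)]
    have ht : 1 ≤ ‖y‖ := le_trans (by linarith) (hy : T / 2 ≤ ‖y‖)
    exact inv_le_one_of_one_le₀ (one_le_mul_of_one_le_of_one_le (one_le_pow₀ ht)
      (Real.one_le_sqrt.2 ht))
  have iG : Integrable (fun y => G y ^ 2) ν :=
    (IntegrableOn.integrable_indicator (hD.const_mul (3 ^ (n + 3) * 2)) hms).mono'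
      (hGm.pow_const 2).aestronglyMeasurable
      (Eventually.of_forall fun y => by rw [Real.norm_eq_abs, abs_of_nonneg (sq_nonneg _)]; exact hG2 y)
  have iAG : Integrable (fun y => A y * G y) ν := by
    refine (iA.add iG).mono' (hAm.mul hGm).aestronglyMeasurable (Eventually.of_forall fun y => ?_)
    rw [Pi.add_apply, Real.norm_eq_abs, abs_mul, ← sq_abs (A y), ← sq_abs (G y)]
    nlinarith [sq_nonneg (|A y| - |G y|), abs_nonneg (A y), abs_nonneg (G y)]
  set S := Real.sqrt (W * (3 ^ (n + 3) * 2 * (4 * 2 ^ n * C / Real.sqrt (T / 2))))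
  have hW0 : 0 ≤ W := le_trans (integral_nonneg fun y => div_nonneg (sq_nonneg _) (hwt y).le) hW
  have hS : ∫ y, |h y| * g y ∂ν ≤ S := by
    rw [← integral_congr_ae (Eventually.of_forall eAG)]
    refine Real.le_sqrt_of_sq_le ((sq_integral_mul_le iA iG iAG).trans ?_)
    refine mul_le_mul (by simp only [eA]; exact hW) ?_ (integral_nonneg fun y => sq_nonneg _) hW0
    refine (integral_mono iG (IntegrableOn.integrable_indicator
      (hD.const_mul (3 ^ (n + 3) * 2)) hms) hG2).trans ?_
    rw [integral_indicator hms, integral_const_mul]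
    exact mul_le_mul_of_nonneg_left (outer_sqrt_le hC hν (by linarith)) (by positivity)
  have hhi : Integrable (fun y => |h y| * g y) ν := iAG.congr (Eventually.of_forall eAG)
  set c := ((n : ℝ) + 3) * T₀ * 2 ^ (n + 2)
  have hkint : ∀ x, Integrable (fun y => farKer n T (dist x y)) ν := fun x =>
    Integrable.of_bound (hk x).aestronglyMeasurable _ (Eventually.of_forall (hkb x))
  have hdiffb : ∀ x, ‖x‖ < T₀ → ∀ y, |farKer n T (dist x y) - farKer n T ‖y‖| ≤ c * g y := by
    intro x hx y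
    have hd : |dist x y - ‖y‖| ≤ ‖x‖ := by
      have h1 := abs_dist_sub_le x 0 y
      rwa [dist_zero_right, dist_zero_left] at h1
    obtain ⟨hd1, hd2⟩ := abs_le.1 hd
    by_cases hy : T / 2 ≤ ‖y‖
    swap
    · rw [farKer_eq_zero n hT0 (by linarith), farKer_eq_zero n hT0 (by linarith), sub_zero, abs_zero]
      exact mul_nonneg (by positivity) (hg0 y)
    have hy0 : 0 < ‖y‖ := by linarith
    simp only [g, indicator_of_mem (show y ∈ {y : E | T / 2 ≤ ‖y‖} from hy)]
    refine (abs_farKer_sub_le n hT0 (half_pos hy0) (by linarith) (by linarith)).trans ?_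
    refine (div_le_div_of_nonneg_right (mul_le_mul_of_nonneg_left (hd.trans hx.le) (by positivity))
      (by positivity)).trans (le_of_eq ?_)
    simp only [c, div_pow]
    field_simp
  set K1 := fun x => ∫ y, farKer n T (dist x y) ∂ν
  set K2 := fun x => ∫ y, h y * (farKer n T (dist x y) - farKer n T ‖y‖) ∂ν
  have hK1 : ∀ x, |K1 x| ≤ 2 ^ (n + 1) * C / T := by
    intro x
    have hmx : MeasurableSet {y : E | T ≤ dist x y} :=
      measurableSet_le measurable_const (measurable_const.dist measurable_id)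
    simp only [K1]
    rw [← Real.norm_eq_abs]
    refine (norm_integral_le_of_norm_le (IntegrableOn.integrable_indicator
      (integrableOn_inv_pow x hT0 (n + 1) hmx fun y hy => hy) hmx)
      (Eventually.of_forall fun y => ?_)).trans ?_
    · obtain ⟨k0, k1⟩ := farKer_mem n T (dist_nonneg (x := x) (y := y))
      by_cases hy : y ∈ {y : E | T ≤ dist x y}
      · rw [indicator_of_mem hy, Real.norm_eq_abs, abs_of_nonneg k0]; exact k1
      · rw [indicator_of_notMem hy, farKer_eq_zero n hT0 (le_of_lt (not_le.1 hy)), norm_zero]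
    · rw [integral_indicator hmx]; exact outer_integral_le hν hC x hT0
  have hK2 : ∀ x, ‖x‖ < T₀ → |K2 x| ≤ c * S := by
    intro x hx
    simp only [K2]
    rw [← Real.norm_eq_abs]
    refine (norm_integral_le_of_norm_le (hhi.const_mul c) (Eventually.of_forall fun y => ?_)).trans
      (by rw [integral_const_mul]; exact mul_le_mul_of_nonneg_left hS (by positivity))
    rw [norm_mul, Real.norm_eq_abs, Real.norm_eq_abs]
    exact (mul_le_mul_of_nonneg_left (hdiffb x hx y) (abs_nonneg _)).trans (le_of_eq (by ring))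
  set k0 := fun y => h y * farKer n T ‖y‖
  set Z := ∫ y, k0 y ∂ν
  have hgrow : ∀ x y : E, ‖h y * farKer n T (dist x y)‖ ≤
      |h x| * (T ^ (n + 1))⁻¹ + (T ^ n)⁻¹ := by
    intro x y
    obtain ⟨k0', k1⟩ := farKer_mem n T (dist_nonneg (x := x) (y := y))
    rw [norm_mul, Real.norm_eq_abs, Real.norm_eq_abs, abs_of_nonneg k0']
    rcases le_or_gt (dist x y) T with h' | h'
    · rw [farKer_eq_zero n hT0 h', mul_zero]; positivity
    have hd : 0 < dist x y := hT0.trans h'
    have h1 : |h y| ≤ |h x| + dist x y := by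
      have h2 := hl (x - y)
      rw [hlh, ← dist_eq_norm] at h2
      linarith [abs_sub_abs_le_abs_sub (h y) (h x), abs_sub_comm (h y) (h x)]
    refine (mul_le_mul h1 k1 k0' (by positivity)).trans ?_
    rw [add_mul]
    refine add_le_add (mul_le_mul_of_nonneg_left (inv_anti₀ (pow_pos hT0 _)
      (pow_le_pow_left₀ hT0.le h'.le _)) (abs_nonneg _)) (le_of_eq_of_le ?_ (inv_anti₀ (pow_pos hT0 n)
      (pow_le_pow_left₀ hT0.le h'.le n)))
    rw [pow_succ', mul_inv, ← mul_assoc, mul_inv_cancel₀ hd.ne', one_mul]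
  have hhk : ∀ x, Integrable (fun y => h y * farKer n T (dist x y)) ν := fun x =>
    Integrable.of_bound (hhc.measurable.mul (hk x)).aestronglyMeasurable _
      (Eventually.of_forall (hgrow x))
  have hk0 : Integrable k0 ν := by simpa only [k0, dist_zero_left] using hhk 0
  set F := fun x => ∫ y, l (x - y) * farKer n T (dist x y) ∂ν
  have hF : ∀ x, F x = h x * K1 x - (K2 x + Z) := by
    intro x
    simp only [F, K1, K2, Z, hlh, sub_mul, mul_sub]
    rw [integral_sub ((hkint x).const_mul _) (hhk x), integral_const_mul,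
      integral_sub (hhk x) hk0]
    ring
  have hψi : Integrable ψ ν :=
    Integrable.of_bound hψ.continuous.aestronglyMeasurable M (Eventually.of_forall hM)
  have hI : Integrable (fun x => ψ x * F x) ν := by
    have := (integrable_farHalf (n := n) (ν := ν) hψ hM hlc hl hT0).integral_prod_left
    simpa only [integral_const_mul] using this
  have e : ∫ x, ψ x * F x ∂ν = ∫ x, ψ x * (F x + Z) ∂ν := by
    simp only [mul_add]
    rw [integral_add hI (hψi.mul_const _), integral_mul_const, hmean, zero_mul, add_zero]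
  rw [part_far_eq hψ hM hlc hl hodd hT0, abs_mul, abs_two, ← mul_add]
  refine mul_le_mul_of_nonneg_left ?_ zero_le_two
  change |∫ x, ψ x * F x ∂ν| ≤ _
  rw [e, ← Real.norm_eq_abs]
  have hball : IntegrableOn (fun y => |h y|) (Metric.ball (0 : E) T₀) ν :=
    (hhc.abs.continuousOn.integrableOn_compact (isCompact_closedBall _ _)).mono_set
      Metric.ball_subset_closedBall
  have i1 : Integrable (fun x => M * (2 ^ (n + 1) * C / T) *
      (Metric.ball (0 : E) T₀).indicator (fun y => |h y|) x) ν :=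
    (hball.integrable_indicator measurableSet_ball).const_mul _
  have i2 : Integrable ((Metric.ball (0 : E) T₀).indicator fun _ => M * (c * S)) ν :=
    (integrable_const _).indicator measurableSet_ball
  refine (norm_integral_le_of_norm_le (i1.add i2) (Eventually.of_forall fun x => ?_)).trans ?_
  · rw [Pi.add_apply]
    by_cases hx : x ∈ Metric.ball (0 : E) T₀
    · rw [indicator_of_mem hx, indicator_of_mem hx, norm_mul, Real.norm_eq_abs, Real.norm_eq_abs,
        show F x + Z = h x * K1 x - K2 x by rw [hF]; ring]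
      refine (mul_le_mul (hM x) ((abs_sub _ _).trans (add_le_add
        ((abs_mul _ _).trans_le (mul_le_mul_of_nonneg_left (hK1 x) (abs_nonneg _)))
        (hK2 x (mem_ball_zero_iff.1 hx)))) (abs_nonneg _) hM0).trans (le_of_eq ?_)
      ring
    · rw [hsupp x (not_lt.1 fun h0 => hx (mem_ball_zero_iff.2 h0)), zero_mul, norm_zero,
        indicator_of_notMem hx, indicator_of_notMem hx]
      simp
  · rw [integral_add' i1 i2, integral_const_mul, integral_indicator measurableSet_ball,
      integral_indicator measurableSet_ball, setIntegral_const, smul_eq_mul]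
    have hC' : 0 ≤ M * (2 ^ (n + 1) * C / T) := mul_nonneg hM0 (by positivity)
    refine add_le_add ((mul_le_mul_of_nonneg_left hQ hC').trans (le_of_eq (by ring))) ?_
    refine (mul_le_mul_of_nonneg_right (hν 0 T₀ hT₀)
      (mul_nonneg hM0 (mul_nonneg (by positivity) (Real.sqrt_nonneg _)))).trans (le_of_eq ?_)
    simp only [c, S]
    ring

end

end Vale.Agent.P120.Full
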