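import Vale.Agent.P120.Full.TreeBasic
import Vale.Agent.P120.Full.Planes

/-!
# P120, full answer, module E: flat chains lie on a graph

Small quadratic flatness is small uniform flatness on a slightly smaller ball, by the lower
regularity.  Along a chain of flat cells whose planes are near a fixed plane the support is then
near a Lipschitz graph over that plane.
-/

namespace Vale.Agent.P120.Full

open MeasureTheory Set Filter
open scoped Topology RealInnerProductSpace Classical

noncomputable section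

variable {E : Type*} [NormedAddCommGroup E] [InnerProductSpace ℝ E] [MeasurableSpace E]
  [BorelSpace E] [FiniteDimensional ℝ E] {n : ℕ} {C A R : ℝ} {ν : Measure E} {x₀ : E}

omit [MeasurableSpace E] [BorelSpace E] in
lemma AngleLE.norm_perp_le {θ : ℝ} {W₀ W : Submodule ℝ E} (h : AngleLE θ W₀ W) (hθ : 0 ≤ θ)
    (v : E) : ‖perp W₀ v‖ ≤ ‖perp W v‖ + θ * ‖v‖ := by
  have e : perp W₀ v = perp W₀ (W.starProjection v) + perp W₀ (perp W v) := by
    rw [← perp_add]
    congr 1
    rw [perp]; abel
  rw [e]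
  refine (norm_add_le _ _).trans ?_
  have h1 := (h _ (W.starProjection_apply_mem v)).trans
    (mul_le_mul_of_nonneg_left (W.norm_starProjection_apply_le v) hθ)
  have h2 := Full.norm_perp_le W₀ (perp W v)
  linarith

omit [MeasurableSpace E] [BorelSpace E] in
lemma perp_eq_zero {W : Submodule ℝ E} {v : E} (hv : v ∈ W) : perp W v = 0 := by
  rw [perp, Submodule.starProjection_eq_self_iff.2 hv, sub_self]

omit [MeasurableSpace E] [BorelSpace E] in
lemma angleLE_self {θ : ℝ} (hθ : 0 ≤ θ) (W : Submodule ℝ E) : AngleLE θ W W := fun v hv => by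
  rw [perp_eq_zero hv, norm_zero]; positivity

/-- Small quadratic flatness gives small uniform flatness. -/
lemma exists_supFlat (hC : 1 ≤ C) {η : ℝ} (hη : 0 < η) (hη1 : η ≤ 1) :
    ∃ ε : ℝ, 0 < ε ∧ ∀ (ν : Measure E) (x₀ : E) (R : ℝ) (A : ℝ), Nice n C A ν x₀ R →
      ∀ (z : E) (l : ℝ) (p : E) (W : Submodule ℝ E), 0 < l → 4 * l ≤ R / 4 → dist z x₀ ≤ R / 4 →
        flatness ν n z l p W ≤ ε →
        ∀ y ∈ ν.support, dist y z ≤ 3 * l → ‖perp W (y - p)‖ ≤ η * l := by
  have hC0 : 0 < C := lt_of_lt_of_le one_pos hC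
  set b := C⁻¹ * (η / 2) ^ (n + 2) with hb
  have hb0 : 0 < b := by positivity
  refine ⟨min 1 (b / 2), lt_min one_pos (by positivity), fun ν x₀ R A hN z l p W hl hlR hzx hfl
    y hy hyz => ?_⟩
  haveI := hN.finite
  by_contra hcon
  rw [not_le] at hcon
  have hε : 0 ≤ min 1 (b / 2) := le_min zero_le_one (by positivity)
  rw [flatness, Real.sqrt_le_left hε, div_le_iff₀ (by positivity)] at hfl
  have hsub : Metric.ball y (η * l / 2) ⊆ Metric.ball z (4 * l) :=
    Metric.ball_subset_ball' (by nlinarith [mul_le_mul_of_nonneg_right hη1 hl.le])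
  have hlow : C⁻¹ * (η * l / 2) ^ n ≤ ν.real (Metric.ball y (η * l / 2)) :=
    hN.2.2.2.2.2.1 y hy (by linarith [dist_triangle y z x₀]) _ (by positivity)
      (by nlinarith [mul_le_mul_of_nonneg_right hη1 hl.le])
  have hint : IntegrableOn (fun w => ‖perp W (w - p)‖ ^ 2) (Metric.ball z (4 * l)) ν :=
    integrableOn_ball_of_continuous ((continuous_perp W p).norm.pow 2) z (4 * l)
  have hpt : ∀ w ∈ Metric.ball y (η * l / 2), (η * l / 2) ^ 2 ≤ ‖perp W (w - p)‖ ^ 2 := by
    intro w hw
    refine pow_le_pow_left₀ (by positivity) ?_ 2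
    have h1 : perp W (y - p) = perp W (w - p) - perp W (w - y) := by
      rw [← perp_sub]; congr 1; abel
    have h2 := norm_sub_le (perp W (w - p)) (perp W (w - y))
    have h3 := (Full.norm_perp_le W (w - y)).trans_lt (by
      rw [← dist_eq_norm]; exact Metric.mem_ball.1 hw)
    rw [← h1] at h2
    linarith
  have h4 : (η * l / 2) ^ 2 * (C⁻¹ * (η * l / 2) ^ n) ≤
      ∫ w in Metric.ball z (4 * l), ‖perp W (w - p)‖ ^ 2 ∂ν := by
    refine (mul_le_mul_of_nonneg_left hlow (sq_nonneg _)).trans ?_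
    refine (setIntegral_ge_of_const_le_real measurableSet_ball (measure_ne_top _ _) hpt
      (hint.mono_set hsub)).trans ?_
    exact setIntegral_mono_set hint (Eventually.of_forall fun w => sq_nonneg _)
      (HasSubset.Subset.eventuallyLE hsub)
  have h5 : (η * l / 2) ^ 2 * (C⁻¹ * (η * l / 2) ^ n) = b * l ^ (n + 2) := by
    rw [hb, show η * l / 2 = η / 2 * l by ring, mul_pow, mul_pow, pow_add, pow_add]
    ring
  have h6 : min 1 (b / 2) ^ 2 < b := by
    calc min 1 (b / 2) ^ 2 = min 1 (b / 2) * min 1 (b / 2) := sq _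
      _ ≤ 1 * (b / 2) := mul_le_mul (min_le_left _ _) (min_le_right _ _) hε zero_le_one
      _ < b := by linarith
  have h7 := mul_lt_mul_of_pos_right h6 (show 0 < l ^ (n + 2) by positivity)
  linarith

/-- Along a flat chain whose planes are near `W₀` the support is near a graph over `W₀`. -/
lemma exists_chainGraph (hC : 1 ≤ C) :
    ∃ ε : ℝ, 0 < ε ∧ ∀ (ν : Measure E) (x₀ : E) (R : ℝ) (A : ℝ), Nice n C A ν x₀ R →
      ∀ (D : Cells ν x₀ R) (pl : ℕ → E → E × Submodule ℝ E) (W₀ : Submodule ℝ E) (θ : ℝ),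
        0 ≤ θ → ∀ (k j : ℕ), k ≤ j → ∀ w ∈ D.inner j,
        (∀ i, k ≤ i → i ≤ j →
          flatness ν n (D.anc j w i) (scale R i) (pl i (D.anc j w i)).1 (pl i (D.anc j w i)).2 ≤ ε ∧
            AngleLE θ W₀ (pl i (D.anc j w i)).2) →
        ∀ x ∈ D.cell j w, ∀ y ∈ D.cell k (D.anc j w k),
          ‖perp W₀ (x - y)‖ ≤ (θ + 1 / 128) * dist x y + 1 / 2048 * scale R j := by
  obtain ⟨ε, hε, hsup⟩ := exists_supFlat (E := E) (n := n) hC (η := 1 / 4096) (by norm_num)
    (by norm_num)
  refine ⟨ε, hε, fun ν x₀ R A hN D pl W₀ θ hθ k j hkj w hw hch => ?_⟩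
  have hR : 0 < R := hN.2.2.1
  intro x hx y hy
  have hys : y ∈ ν.support := (D.subset_ball k _ (D.inner_subset (D.anc_inner hw k hkj)) hy).1
  have hxs : x ∈ ν.support := (D.subset_ball j w (D.inner_subset hw) hx).1
  -- one level used directly
  have direct : ∀ i, k ≤ i → i ≤ j → dist y (D.anc j w i) ≤ 3 * scale R i →
      ‖perp W₀ (x - y)‖ ≤ θ * dist x y + 1 / 2048 * scale R i := by
    intro i hki hij hyi
    obtain ⟨hf, ha⟩ := hch i hki hij
    have hi := D.anc_inner hw i hij
    have hs := scale_pos' hR i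
    have hle := scale_le' hR i
    have hd : dist (D.anc j w i) x₀ ≤ R / 4 := by linarith [D.dist_inner hR hi]
    have hxi : dist x (D.anc j w i) ≤ 2 * scale R i :=
      (D.subset_ball i _ (D.inner_subset hi) (D.cell_subset_anc hw i hij hx)).2
    have h1 := hsup ν x₀ R A hN _ _ _ _ hs (by linarith) hd hf x hxs (by linarith)
    have h2 := hsup ν x₀ R A hN _ _ _ _ hs (by linarith) hd hf y hys hyi
    refine (ha.norm_perp_le hθ (x - y)).trans ?_
    rw [← dist_eq_norm]
    have h3 : perp (pl i (D.anc j w i)).2 (x - y) = perp (pl i (D.anc j w i)).2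
        (x - (pl i (D.anc j w i)).1) - perp (pl i (D.anc j w i)).2
        (y - (pl i (D.anc j w i)).1) := by rw [← perp_sub]; congr 1; abel
    rw [h3]
    linarith [norm_sub_le (perp (pl i (D.anc j w i)).2 (x - (pl i (D.anc j w i)).1))
      (perp (pl i (D.anc j w i)).2 (y - (pl i (D.anc j w i)).1))]
  -- the levels whose scale is below the distance
  have far : ∀ i, k ≤ i → i ≤ j → scale R i < dist x y →
      ‖perp W₀ (x - y)‖ ≤ (θ + 1 / 128) * dist x y := by
    intro i
    induction i with
    | zero =>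
      intro hk0 h0j hlt
      have hy0 : dist y (D.anc j w 0) ≤ 2 * scale R 0 := by
        obtain rfl : k = 0 := by omega
        exact (D.subset_ball 0 _ (D.inner_subset (D.anc_inner hw 0 h0j)) hy).2
      have := scale_pos' hR 0
      linarith [direct 0 hk0 h0j (by linarith), dist_nonneg (x := x) (y := y)]
    | succ i ih =>
      intro hki hij hlt
      rcases hki.eq_or_lt with rfl | hlt'
      · have hyk : dist y (D.anc j w (i + 1)) ≤ 2 * scale R (i + 1) :=
          (D.subset_ball _ _ (D.inner_subset (D.anc_inner hw _ hij)) hy).2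
        have := scale_pos' hR (i + 1)
        linarith [direct (i + 1) le_rfl hij (by linarith), dist_nonneg (x := x) (y := y)]
      · rcases lt_or_ge (scale R i) (dist x y) with h | h
        · exact ih (by omega) (by omega) h
        · have hxi : dist x (D.anc j w i) ≤ 2 * scale R i :=
            (D.subset_ball i _ (D.inner_subset (D.anc_inner hw i (by omega)))
              (D.cell_subset_anc hw i (by omega) hx)).2
          have hs := scale_succ' R i
          linarith [direct i (by omega) (by omega)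
            (by linarith [dist_triangle_left y (D.anc j w i) x])]
  rcases lt_or_ge (scale R j) (dist x y) with h | h
  · have := scale_pos' hR j
    linarith [far j hkj le_rfl h]
  · have hxj : dist x (D.anc j w j) ≤ 2 * scale R j :=
      (D.subset_ball j _ (D.inner_subset (D.anc_inner hw j le_rfl))
        (D.cell_subset_anc hw j le_rfl hx)).2
    linarith [direct j hkj le_rfl (by linarith [dist_triangle_left y (D.anc j w j) x]),
      dist_nonneg (x := x) (y := y)]

omit [MeasurableSpace E] [BorelSpace E] in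
/-- Coordinates along a plane. -/
lemma exists_coordinates {W : Submodule ℝ E} (hW : Module.finrank ℝ W = n) :
    ∃ π : E → EuclideanSpace ℝ (Fin n), LipschitzWith 1 π ∧
      ∀ x y, dist x y ≤ dist (π x) (π y) + ‖perp W (x - y)‖ := by
  set e : W ≃ₗᵢ[ℝ] EuclideanSpace ℝ (Fin n) :=
    ((stdOrthonormalBasis ℝ W).reindex (finCongr hW)).repr
  have hd : ∀ x y, dist (e (W.orthogonalProjection x)) (e (W.orthogonalProjection y)) =
      ‖W.starProjection (x - y)‖ := by
    intro x y
    rw [e.dist_map, dist_eq_norm, ← map_sub, Submodule.starProjection_apply, Submodule.coe_norm]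
  refine ⟨fun x => e (W.orthogonalProjection x), LipschitzWith.of_dist_le_mul fun x y => ?_,
    fun x y => ?_⟩
  · rw [hd, NNReal.coe_one, one_mul, dist_eq_norm]
    exact W.norm_starProjection_apply_le _
  · rw [hd, dist_eq_norm]
    refine le_of_eq_of_le ?_ (norm_add_le _ _)
    congr 1
    rw [perp]; abel

/-- A flat child has its plane near the plane of its flat parent. -/
lemma exists_child_angle (hp : PlaneCompare E n) (hC : 1 ≤ C) (hA : 0 ≤ A) {θ : ℝ} (hθ : 0 < θ) :
    ∃ ε : ℝ, 0 < ε ∧ ∀ (ν : Measure E) (x₀ : E) (R : ℝ), Nice n C A ν x₀ R →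
      ∀ (D : Cells ν x₀ R) (pl : ℕ → E → E × Submodule ℝ E), IsPlanes n D pl →
      ∀ k, ∀ w ∈ D.inner (k + 1), cellB n D k (D.parent k w) ≤ ε → cellB n D (k + 1) w ≤ ε →
        AngleLE θ (pl k (D.parent k w)).2 (pl (k + 1) w).2 := by
  obtain ⟨K, hK0, hK⟩ := hp C A hC hA
  refine ⟨θ / (2 * (K + 1) * 4 ^ (n + 2)), by positivity,
    fun ν x₀ R hN D pl hpl k w hw hbp hbw v hv => ?_⟩
  haveI := hN.finite
  have hR : 0 < R := hN.2.2.1
  set p := D.parent k w with hpdef
  have hpi := D.parent_inner hw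
  set t := 4 * scale R (k + 1) with ht
  have hs1 := scale_pos' hR (k + 1)
  have hsk := scale_pos' hR k
  have hsucc := scale_succ' R k
  have hle := scale_le' hR (k + 1)
  set a := 4 ^ (n + 2) * cellB n D k p with hadef
  set a' := cellB n D (k + 1) w with ha'def
  have ha : 0 ≤ a := mul_nonneg (by positivity) (cellB_nonneg D k p)
  have ha' : 0 ≤ a' := cellB_nonneg D _ w
  -- the two flatness integrals on the common ball
  have hfI : ∀ (z : E) (l : ℝ) (q : E) (W : Submodule ℝ E) (B : ℝ), 0 < l → 0 ≤ B →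
      flatness ν n z l q W ≤ B →
      ∫ y in Metric.ball z (4 * l), ‖perp W (y - q)‖ ^ 2 ∂ν ≤ B ^ 2 * l ^ (n + 2) := by
    intro z l q W B hl hB h
    rw [flatness, Real.sqrt_le_left hB, div_le_iff₀ (by positivity)] at h
    exact h
  have h2 : ∫ y in Metric.ball w t, ‖perp (pl (k + 1) w).2 (y - (pl (k + 1) w).1)‖ ^ 2 ∂ν ≤
      a' ^ 2 * t ^ (n + 2) := by
    refine (hfI w _ _ _ a' hs1 ha' (flatness_le_cellB hpl hw)).trans ?_
    exact mul_le_mul_of_nonneg_left (pow_le_pow_left₀ hs1.le (by linarith) _) (sq_nonneg _)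
  have h1 : ∫ y in Metric.ball w t, ‖perp (pl k p).2 (y - (pl k p).1)‖ ^ 2 ∂ν ≤
      a ^ 2 * t ^ (n + 2) := by
    have hsub : Metric.ball w t ⊆ Metric.ball p (4 * scale R k) :=
      Metric.ball_subset_ball' (by linarith [D.dist_parent k w (D.inner_subset hw)])
    refine (setIntegral_mono_set (integrableOn_ball_of_continuous
      ((continuous_perp _ _).norm.pow 2) _ _) (Eventually.of_forall fun y => sq_nonneg _)
      (HasSubset.Subset.eventuallyLE hsub)).trans ?_
    refine (hfI p _ _ _ _ hsk (cellB_nonneg D k p) (flatness_le_cellB hpl hpi)).trans ?_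
    have e : scale R k = 4 * t := by rw [ht]; linarith
    have h4 : (1 : ℝ) ≤ 4 ^ (n + 2) := one_le_pow₀ (by norm_num)
    have gen : ∀ B T : ℝ, ((4 : ℝ) ^ (n + 2) * B) ^ 2 * T ^ (n + 2) =
        4 ^ (n + 2) * (B ^ 2 * (4 * T) ^ (n + 2)) := fun B T => by
      rw [mul_pow (4 : ℝ) T (n + 2), mul_pow]
      ring
    have e2 : a ^ 2 * t ^ (n + 2) =
        4 ^ (n + 2) * (cellB n D k p ^ 2 * scale R k ^ (n + 2)) := by
      rw [e]
      exact gen _ _
    rw [e2]
    exact le_mul_of_one_le_left (mul_nonneg (sq_nonneg _) (by positivity)) h4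
  have hcmp := hK ν x₀ R hN w t a a' (pl k p).1 (pl (k + 1) w).1 (pl k p).2 (pl (k + 1) w).2
    (D.mem_support _ w (D.inner_subset hw)).1 (by linarith [D.dist_inner hR hw]) (by positivity)
    (by linarith) ha ha' (hpl k p hpi).1 (hpl (k + 1) w hw).1 h1 h2
  -- let the point run to infinity along the plane of the child
  set q := (pl (k + 1) w).1 with hq
  have key : ∀ s : ℝ, 0 < s → s * ‖perp (pl k p).2 v‖ ≤ ‖perp (pl k p).2 (q - (pl k p).1)‖ +
      K * ((a + a') * (t + dist q w + s * ‖v‖)) := by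
    intro s hs
    have h3 := hcmp (q + s • v)
    rw [show q + s • v - q = s • v by abel, perp_eq_zero ((pl (k + 1) w).2.smul_mem s hv),
      norm_zero, zero_add] at h3
    have h4 : perp (pl k p).2 (s • v) = perp (pl k p).2 (q + s • v - (pl k p).1) -
        perp (pl k p).2 (q - (pl k p).1) := by rw [← perp_sub]; congr 1; abel
    have h5 : ‖perp (pl k p).2 (s • v)‖ = s * ‖perp (pl k p).2 v‖ := by
      rw [perp, map_smul, ← smul_sub, norm_smul, Real.norm_eq_abs, abs_of_pos hs, perp]
    have h6 := norm_sub_le (perp (pl k p).2 (q + s • v - (pl k p).1))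
      (perp (pl k p).2 (q - (pl k p).1))
    rw [← h4, h5] at h6
    have h7 : dist (q + s • v) w ≤ dist q w + s * ‖v‖ := by
      refine (dist_triangle _ q w).trans ?_
      rw [dist_eq_norm (q + s • v) q, add_sub_cancel_left, norm_smul, Real.norm_eq_abs,
        abs_of_pos hs]
      linarith
    have h8 := mul_le_mul_of_nonneg_left (mul_le_mul_of_nonneg_left
      (show t + dist (q + s • v) w ≤ t + dist q w + s * ‖v‖ by linarith) (add_nonneg ha ha')) hK0
    linarith
  have hlin : ‖perp (pl k p).2 v‖ ≤ K * (a + a') * ‖v‖ := by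
    by_contra hcon
    rw [not_le] at hcon
    set c := ‖perp (pl k p).2 (q - (pl k p).1)‖ + K * ((a + a') * (t + dist q w)) with hcdef
    set g := ‖perp (pl k p).2 v‖ - K * (a + a') * ‖v‖ with hgdef
    have hg : 0 < g := by linarith
    have hc0 : 0 ≤ c := add_nonneg (norm_nonneg _)
      (mul_nonneg hK0 (mul_nonneg (add_nonneg ha ha') (by positivity)))
    have h9 := key ((c + 1) / g) (by positivity)
    have h10 : (c + 1) / g * g = c + 1 := div_mul_cancel₀ _ hg.ne'
    rw [hgdef] at h10
    have : (c + 1) / g * ‖perp (pl k p).2 v‖ - (c + 1) / g * (K * (a + a') * ‖v‖) = c + 1 := by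
      rw [← mul_sub]; exact h10
    linarith
  refine hlin.trans (mul_le_mul_of_nonneg_right ?_ (norm_nonneg v))
  have h11 : a + a' ≤ θ / (K + 1) := by
    have e1 : (4 : ℝ) ^ (n + 2) * (θ / (2 * (K + 1) * 4 ^ (n + 2))) = θ / (2 * (K + 1)) := by
      field_simp
    have h12 : a ≤ θ / (2 * (K + 1)) := (mul_le_mul_of_nonneg_left hbp (by positivity)).trans_eq e1
    have h13 : a' ≤ θ / (2 * (K + 1)) := hbw.trans (by
      refine div_le_div_of_nonneg_left hθ.le (by positivity) ?_
      exact le_mul_of_one_le_right (by positivity) (one_le_pow₀ (by norm_num)))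
    have e2 : θ / (K + 1) = θ / (2 * (K + 1)) + θ / (2 * (K + 1)) := by field_simp; ring
    linarith
  refine (mul_le_mul_of_nonneg_left h11 hK0).trans ?_
  rw [← mul_div_assoc, div_le_iff₀ (by linarith)]
  nlinarith

end

end Vale.Agent.P120.Full
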