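import Vale.Agent.P120.Full.Layers

/-!
# P120, full answer, module F: a big piece of a Lipschitz image

Half of the points near the centre leave the trees boundedly often, by the packing of the corona;
their coordinates are inverted and the inverse is extended to all of `ℝ^n`.
-/

namespace Vale.Agent.P120.Full

open MeasureTheory Set Filter
open scoped Topology Classical ENNReal NNReal

noncomputable section

variable {E : Type*} [NormedAddCommGroup E] [InnerProductSpace ℝ E] [MeasurableSpace E]
  [BorelSpace E] [FiniteDimensional ℝ E] {n : ℕ} {ν : Measure E} {x₀ : E} {R : ℝ}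
  {D : Cells ν x₀ R}

/-- The number of cells below generation `M` containing the point that do not continue. -/
def count (D : Cells ν x₀ R) (cont : ℕ → E → Prop) (M : ℕ) (x : E) : ℝ :=
  ∑ k ∈ Finset.range M, ∑ z ∈ (relevant D k).filter (fun z => ¬cont k z),
    (D.cell k z).indicator (fun _ => (1 : ℝ)) x

omit [FiniteDimensional ℝ E] in
lemma count_nonneg (cont : ℕ → E → Prop) (M : ℕ) (x : E) : 0 ≤ count D cont M x :=
  Finset.sum_nonneg fun _ _ => Finset.sum_nonneg fun _ _ =>
    indicator_nonneg (fun _ _ => zero_le_one) _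

omit [FiniteDimensional ℝ E] in
lemma count_mono (cont : ℕ → E → Prop) {M M' : ℕ} (h : M ≤ M') (x : E) :
    count D cont M x ≤ count D cont M' x :=
  Finset.sum_le_sum_of_subset_of_nonneg (Finset.range_mono h) fun _ _ _ =>
    Finset.sum_nonneg fun _ _ => indicator_nonneg (fun _ _ => zero_le_one) _

omit [FiniteDimensional ℝ E] in
lemma le_count_of_not_few {cont : ℕ → E → Prop} {x : E} {N : ℕ}
    (hx : x ∈ Metric.ball x₀ (R / 256)) (h : ¬Few D cont 0 x N) :
    ∃ M, (N : ℝ) + 1 ≤ count D cont M x := by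
  simp only [Few, not_forall, not_le] at h
  obtain ⟨s, hs, hcard⟩ := h
  refine ⟨s.sup id + 1, ?_⟩
  calc (N : ℝ) + 1 ≤ s.card := by exact_mod_cast hcard
    _ = ∑ _i ∈ s, (1 : ℝ) := by simp
    _ ≤ ∑ i ∈ s, ∑ z ∈ (relevant D i).filter (fun z => ¬cont i z),
          (D.cell i z).indicator (fun _ => (1 : ℝ)) x := Finset.sum_le_sum fun i hi => by
        obtain ⟨-, w, hw, hxw, hc⟩ := hs i hi
        refine le_trans ?_ (Finset.single_le_sum
          (fun z _ => indicator_nonneg (fun _ _ => zero_le_one) _)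
          (Finset.mem_filter.2 ⟨D.relevant_mem hw hxw hx, hc⟩))
        rw [indicator_of_mem hxw]
    _ ≤ count D cont (s.sup id + 1) x :=
        Finset.sum_le_sum_of_subset_of_nonneg (fun i hi => Finset.mem_range.2
          (Nat.lt_succ_of_le (Finset.le_sup (f := id) hi))) fun _ _ _ =>
          Finset.sum_nonneg fun _ _ => indicator_nonneg (fun _ _ => zero_le_one) _

omit [FiniteDimensional ℝ E] in
lemma measure_not_few_le [IsFiniteMeasure ν] {K : ℝ} (hK : 0 ≤ K) (hR : 0 < R)
    (T : Corona n D K) (N : ℕ) :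
    ν.real {x | x ∈ Metric.ball x₀ (R / 256) ∧ ¬Few D T.cont 0 x N} ≤ K * R ^ n / (N + 1) := by
  have hN : (0 : ℝ) < N + 1 := by positivity
  set B : ℕ → Set E := fun M => {x | (N : ℝ) + 1 ≤ count D T.cont M x}
  have hB : ∀ M, ν.real (B M) ≤ K * R ^ n / (N + 1) := by
    intro M
    have hi : ∀ k z, z ∈ (relevant D k).filter (fun z => ¬T.cont k z) →
        Integrable ((D.cell k z).indicator fun _ => (1 : ℝ)) ν := fun k z hz =>
      (integrable_const _).indicator
        (D.measurableSet_cell k z (Finset.mem_filter.1 (Finset.mem_filter.1 hz).1).1)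
    have hint : ∫ x, count D T.cont M x ∂ν =
        ∑ k ∈ Finset.range M, ∑ z ∈ (relevant D k).filter (fun z => ¬T.cont k z),
          ν.real (D.cell k z) := by
      unfold count
      rw [integral_finsetSum _ fun k _ => integrable_finsetSum _ fun z hz => hi k z hz]
      refine Finset.sum_congr rfl fun k _ => ?_
      rw [integral_finsetSum _ fun z hz => hi k z hz]
      refine Finset.sum_congr rfl fun z hz => ?_
      rw [integral_indicator_const (1 : ℝ)
        (D.measurableSet_cell k z (Finset.mem_filter.1 (Finset.mem_filter.1 hz).1).1),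
        smul_eq_mul, mul_one]
    have h1 : ((N : ℝ) + 1) * ν.real (B M) ≤ K * R ^ n :=
      (mul_meas_ge_le_integral_of_nonneg (Eventually.of_forall (count_nonneg T.cont M))
        (integrable_finsetSum _ fun k _ => integrable_finsetSum _ fun z hz => hi k z hz)
        _).trans (hint ▸ T.packing M)
    rw [le_div_iff₀ hN, mul_comm]
    exact h1
  have hmono : Monotone B := fun M M' h x hx => le_trans hx (count_mono T.cont h x)
  have hU : ν (⋃ M, B M) ≤ ENNReal.ofReal (K * R ^ n / (N + 1)) := by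
    rw [hmono.measure_iUnion]
    refine iSup_le fun M => ?_
    rw [← ofReal_measureReal (measure_ne_top ν _)]
    exact ENNReal.ofReal_le_ofReal (hB M)
  refine ENNReal.toReal_le_of_le_ofReal (by positivity) (le_trans (measure_mono ?_) hU)
  rintro x ⟨hx, hf⟩
  exact mem_iUnion.2 (le_count_of_not_few hx hf)

/-- Module F: every ball holds a big piece of a Lipschitz image of a ball of `ℝ^n`. -/
theorem bigPiece (hn : 1 ≤ n) (hA : CellsExist E n) (hE : CoronaExist E n) {C A : ℝ} (hC : 1 ≤ C)
    (hA0 : 0 ≤ A) (c : ℝ → ℝ) :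
    ∃ θ : ℝ, 0 < θ ∧ ∃ M : ℝ≥0, ∀ (ν : Measure E) (x₀ : E) (R : ℝ), Nice n C A ν x₀ R →
      x₀ ∈ ν.support → FlatAt n c ν x₀ R → ∃ g : EuclideanSpace ℝ (Fin n) → E, LipschitzWith M g ∧
        θ * R ^ n ≤ ν.real (Metric.ball x₀ R ∩ g '' Metric.ball 0 R) := by
  obtain ⟨K₀, hK⟩ := hE C A hC hA0 c
  set K := max K₀ 0 with hKdef
  set θ := C⁻¹ * (1 / 256 : ℝ) ^ n / 2 with hθdef
  have hθ : 0 < θ := by
    have : 0 < C := lt_of_lt_of_le one_pos hC
    positivity
  obtain ⟨N, hN⟩ := exists_nat_ge (K / θ)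
  set L : ℝ := ((branching n C : ℝ) + 1) * (2000 * ((branching n C : ℝ) + 1)) ^ (N + 1)
    with hLdef
  refine ⟨θ, hθ, lipschitzExtensionConstant E * L.toNNReal, fun ν x₀ R hNice hx₀ hflat => ?_⟩
  have hR : 0 < R := hNice.2.2.1
  haveI : IsFiniteMeasure ν := ⟨lt_of_le_of_lt hNice.2.2.2.1 ENNReal.ofReal_lt_top⟩
  obtain ⟨D⟩ := hA C A ν x₀ R hNice hx₀
  obtain ⟨T₀⟩ := hK ν x₀ R hNice hx₀ hflat D
  set T : Corona n D K := ⟨T₀.cont, T₀.graph, fun M => (T₀.packing M).trans
    (mul_le_mul_of_nonneg_right (le_max_left _ _) (by positivity))⟩ with hT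
  set G := {x | x ∈ ν.support ∧ x ∈ Metric.ball x₀ (R / 256) ∧ Few D T.cont 0 x N} with hG
  have hbr : (1 : ℝ) ≤ (branching n C : ℝ) + 1 := by simp
  have hcoord : Coord n G (R / 2) L := by
    have hcard : (relevant D 0).card ≤ branching n C := by
      have hs := scale_pos' hR 0
      have h0 : scale R 0 = R / 65536 := by unfold scale; ring
      have h1 := card_le_of_separated hNice (Z := relevant D 0) (c := x₀) (a := R / 16)
        (b := scale R 0) (by linarith) hs (by linarith) (fun w hw => by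
          obtain ⟨h1, h2⟩ := D.mem_support 0 w (Finset.mem_filter.1 hw).1
          exact ⟨h1, by linarith, h2⟩)
        ((D.separated 0).mono (by
          intro w hw
          exact Finset.mem_coe.2 (Finset.mem_filter.1 (Finset.mem_coe.1 hw)).1))
      rw [← Nat.cast_le (α := ℝ)]
      refine h1.trans (le_trans (le_of_eq ?_) (Nat.le_ceil _))
      congr 2
      rw [h0, div_eq_iff (by linarith)]
      ring
    refine (coord_glue hn (relevant D 0) hcard (s := scale R 0) (ρ := R / 2) (d := R / 128)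
      (L := (2000 * ((branching n C : ℝ) + 1)) ^ (N + 1))
      (S := fun z => {x | x ∈ D.cell 0 z ∧ x ∈ Metric.ball x₀ (R / 256) ∧ Few D T.cont 0 x N})
      (fun x hx => ?_) (scale_pos' hR 0) (by positivity) (fun x hx y hy => ?_)
      (coord_layer hn hNice T N 0)).mono (max_le ?_ ?_)
    · have h := D.cover 0 ⟨hx.1, Metric.ball_subset_ball (by linarith) hx.2.1⟩
      simp only [mem_iUnion] at h
      obtain ⟨u, hu, hxu⟩ := h
      exact ⟨u, D.relevant_mem hu hxu hx.2.1, hxu, hx.2.1, hx.2.2⟩
    · have h1 := Metric.mem_ball.1 hx.2.1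
      have h2 := Metric.mem_ball.1 hy.2.1
      linarith [dist_triangle_right x y x₀]
    · have h2 : (1 : ℝ) ≤ (2000 * ((branching n C : ℝ) + 1)) ^ (N + 1) :=
        one_le_pow₀ (by linarith)
      rw [hLdef, div_le_iff₀ (by positivity)]
      have h3 : ((branching n C : ℝ) + 1) * (R / 2) ≤
          ((branching n C : ℝ) + 1) * (2000 * ((branching n C : ℝ) + 1)) ^ (N + 1) * (R / 2) :=
        mul_le_mul_of_nonneg_right (le_mul_of_one_le_right (by linarith) h2) (by linarith)
      have : 0 ≤ ((branching n C : ℝ) + 1) * R := mul_nonneg (by linarith) hR.le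
      linarith
    · rw [hLdef, div_le_iff₀ (by positivity), show scale R 0 = R / 65536 by unfold scale; ring]
      have : 0 ≤ ((branching n C : ℝ) + 1) *
          (2000 * ((branching n C : ℝ) + 1)) ^ (N + 1) * R := by positivity
      linarith
  obtain ⟨f, hf1, hf2⟩ := hcoord
  have hLnn : ∀ a : ℝ, L * a = (L.toNNReal : ℝ) * a := fun a => by
    rw [Real.coe_toNNReal _ (by positivity)]
  have hinv : ∀ x ∈ G, Function.invFunOn f G (f x) = x := by
    intro x hx
    have h1 : ∃ a ∈ G, f a = f x := ⟨x, hx, rfl⟩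
    have h2 := hf2 _ (Function.invFunOn_mem h1) x hx
    rw [Function.invFunOn_eq h1, dist_self, mul_zero] at h2
    exact dist_le_zero.1 h2
  have hlip : LipschitzOnWith L.toNNReal (Function.invFunOn f G) (f '' G) := by
    refine LipschitzOnWith.of_dist_le_mul ?_
    rintro _ ⟨a, ha, rfl⟩ _ ⟨b, hb, rfl⟩
    rw [hinv a ha, hinv b hb, ← hLnn]
    exact hf2 a ha b hb
  obtain ⟨g, hg, hgeq⟩ := hlip.extend_finite_dimension
  refine ⟨g, hg, ?_⟩
  have hGsub : G ⊆ Metric.ball x₀ R ∩ g '' Metric.ball 0 R := fun x hx => by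
    refine ⟨Metric.ball_subset_ball (by linarith) hx.2.1, f x, ?_, ?_⟩
    · rw [Metric.mem_ball, dist_zero_right]
      linarith [hf1 x hx]
    · rw [← hgeq (mem_image_of_mem f hx), hinv x hx]
  have hbad := measure_not_few_le (le_max_right _ _) hR T N
  have htop : 2 * θ * R ^ n ≤ ν.real (ν.support ∩ Metric.ball x₀ (R / 256)) := by
    rw [inter_comm, measureReal_congr (inter_ae_eq_left_of_ae_eq_univ
      (ae_eq_univ.2 Measure.measure_compl_support))]
    refine le_trans (le_of_eq ?_) (hNice.2.2.2.2.2.1 x₀ hx₀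
      (by rw [dist_self]; linarith) (R / 256) (by linarith) (by linarith))
    rw [hθdef, div_pow, div_pow, one_pow]
    ring
  have hcov : ν.support ∩ Metric.ball x₀ (R / 256) ⊆
      G ∪ {x | x ∈ Metric.ball x₀ (R / 256) ∧ ¬Few D T.cont 0 x N} := fun x hx => by
    by_cases hf : Few D T.cont 0 x N
    · exact Or.inl ⟨hx.1, hx.2, hf⟩
    · exact Or.inr ⟨hx.2, hf⟩
  have hsmall : K * R ^ n / ((N : ℝ) + 1) ≤ θ * R ^ n := by
    rw [div_le_iff₀ (by positivity)]
    rw [div_le_iff₀ hθ] at hN
    have h4 : 0 ≤ θ * R ^ n := by positivity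
    have h5 := mul_le_mul_of_nonneg_right hN (show 0 ≤ R ^ n by positivity)
    linarith
  have := (measureReal_mono hcov (measure_ne_top ν _)).trans (measureReal_union_le _ _)
  linarith [measureReal_mono (μ := ν) hGsub (measure_ne_top _ _)]

end

end Vale.Agent.P120.Full
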