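import Vale.Agent.P120.Full.Corona

/-!
# P120, full answer, module F: layered coordinates

A set gets coordinates in `ℝ^n` when it carries a map into a ball whose inverse is Lipschitz.
The points below a cell that leave the trees at most `m` times get coordinates in the ball of the
scale of the cell, the constant being multiplied by a fixed factor for each time.
-/

namespace Vale.Agent.P120.Full

open MeasureTheory Set Filter
open scoped Topology Classical

noncomputable section

variable {E : Type*} [NormedAddCommGroup E] [InnerProductSpace ℝ E] [MeasurableSpace E]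
  [BorelSpace E] {n : ℕ} {ν : Measure E} {x₀ : E} {R : ℝ}

lemma scale_pos' (hR : 0 < R) (k : ℕ) : 0 < scale R k := by unfold scale; positivity

lemma scale_succ' (R : ℝ) (k : ℕ) : scale R (k + 1) = scale R k / 16 := by
  rw [scale, scale, show k + 1 + 4 = k + 4 + 1 by ring, pow_succ]
  ring

lemma scale_le' (hR : 0 < R) (k : ℕ) : scale R k ≤ R / 65536 := by
  have h : ((1 : ℝ) / 16) ^ (k + 4) ≤ ((1 : ℝ) / 16) ^ 4 :=
    pow_le_pow_of_le_one (by norm_num) (by norm_num) (by omega)
  rw [scale]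
  refine (mul_le_mul_of_nonneg_left h hR.le).trans (le_of_eq ?_)
  ring

namespace Cells

variable (D : Cells ν x₀ R)

lemma eq_of_mem {k : ℕ} {z w x : E} (hz : z ∈ D.Z k) (hw : w ∈ D.Z k) (hxz : x ∈ D.cell k z)
    (hxw : x ∈ D.cell k w) : z = w :=
  (D.disjoint_cell k).elim_set (Finset.mem_coe.2 hz) (Finset.mem_coe.2 hw) x hxz hxw

lemma cell_subset_cell {k i : ℕ} (hki : k ≤ i) {z : E} (hz : z ∈ D.Z k) :
    ∀ w ∈ D.Z i, ∀ x ∈ D.cell i w, x ∈ D.cell k z → D.cell i w ⊆ D.cell k z := by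
  induction i, hki using Nat.le_induction with
  | base =>
    intro w hw x hxw hxz
    rw [D.eq_of_mem hw hz hxw hxz]
  | succ i _ ih =>
    intro w hw x hxw hxz
    exact (D.cell_subset i w hw).trans
      (ih _ (D.parent_mem i w hw) x (D.cell_subset i w hw hxw) hxz)

lemma exists_cell {k l : ℕ} {z x : E} (hz : z ∈ D.Z k) (hx : x ∈ D.cell k z)
    (hb : x ∈ Metric.ball x₀ (R / 256)) : ∃ u ∈ D.Z l, x ∈ D.cell l u := by
  have hR : 0 < R := by
    have := dist_nonneg.trans_lt (Metric.mem_ball.1 hb)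
    linarith
  have h := D.cover l ⟨(D.subset_ball k z hz hx).1,
    Metric.ball_subset_ball (by linarith) hb⟩
  simp only [mem_iUnion] at h
  obtain ⟨u, hu, hxu⟩ := h
  exact ⟨u, hu, hxu⟩

lemma relevant_mem {k : ℕ} {z x : E} (hz : z ∈ D.Z k) (hx : x ∈ D.cell k z)
    (hb : x ∈ Metric.ball x₀ (R / 256)) : z ∈ relevant D k :=
  Finset.mem_filter.2 ⟨hz, x, hx, hb⟩

lemma dist_le_of_relevant (hR : 0 < R) {k : ℕ} {z : E} (hz : z ∈ relevant D k) :
    dist z x₀ ≤ R / 64 := by
  obtain ⟨hz, x, hx, hb⟩ := Finset.mem_filter.1 hz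
  have h1 : dist x z ≤ 2 * scale R k := (D.subset_ball k z hz hx).2
  have h2 := scale_le' hR k
  have h3 := dist_triangle_left z x₀ x
  rw [Metric.mem_ball] at hb
  linarith

lemma center_mem (hR : 0 < R) {k : ℕ} {z : E} (hz : z ∈ relevant D k) : z ∈ D.cell k z := by
  have h := (Finset.mem_filter.1 hz).1
  refine D.ball_subset k z h (D.dist_le_of_relevant hR hz) ⟨(D.mem_support k z h).1, ?_⟩
  have := scale_pos' hR k
  exact Metric.mem_ball_self (by positivity)

end Cells

/-- Coordinates on `G`: a map into the ball of radius `r` of `ℝ^n` with `L`-Lipschitz inverse. -/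
def Coord (n : ℕ) (G : Set E) (r L : ℝ) : Prop :=
  ∃ f : E → EuclideanSpace ℝ (Fin n), (∀ x ∈ G, ‖f x‖ ≤ r) ∧
    ∀ x ∈ G, ∀ y ∈ G, dist x y ≤ L * dist (f x) (f y)

omit [InnerProductSpace ℝ E] [MeasurableSpace E] [BorelSpace E] in
lemma Coord.mono {G : Set E} {r L L' : ℝ} (h : Coord n G r L) (hL : L ≤ L') : Coord n G r L' := by
  obtain ⟨f, h1, h2⟩ := h
  exact ⟨f, h1, fun x hx y hy => (h2 x hx y hy).trans (mul_le_mul_of_nonneg_right hL dist_nonneg)⟩

omit [InnerProductSpace ℝ E] [MeasurableSpace E] [BorelSpace E] in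
lemma Coord.empty {G : Set E} {r L : ℝ} (h : ∀ x, x ∉ G) : Coord n G r L :=
  ⟨fun _ => 0, fun x hx => absurd hx (h x), fun x hx => absurd hx (h x)⟩

omit [InnerProductSpace ℝ E] [MeasurableSpace E] [BorelSpace E] in
/-- Finitely many pieces are put at evenly spaced points of a line. -/
lemma coord_glue (hn : 1 ≤ n) {ι : Type*} (F : Finset ι) {N : ℕ} (hN : F.card ≤ N) {G : Set E}
    {S : ι → Set E} (hG : ∀ x ∈ G, ∃ i ∈ F, x ∈ S i) {s ρ d L : ℝ} (hs : 0 < s) (hρ : 0 < ρ)
    (hd : ∀ x ∈ G, ∀ y ∈ G, dist x y ≤ d) (h : ∀ i ∈ F, Coord n (S i) s L) :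
    Coord n G ρ (max (4 * (N + 1) * d / ρ) (8 * (N + 1) * L * s / ρ)) := by
  classical
  rcases G.eq_empty_or_nonempty with rfl | ⟨x₁, hx₁⟩
  · exact Coord.empty fun x hx => hx
  haveI : Nonempty ι := ⟨(hG x₁ hx₁).choose⟩
  choose! φ hφF hφS using hG
  choose! f hf1 hf2 using h
  set e : EuclideanSpace ℝ (Fin n) := EuclideanSpace.single ⟨0, hn⟩ 1
  have he : ‖e‖ = 1 := by simp [e]
  set idx : ι → ℕ := fun i => if h : i ∈ F then (F.equivFin ⟨i, h⟩ : ℕ) else 0 with hidx
  have hidx_inj : ∀ i ∈ F, ∀ j ∈ F, idx i = idx j → i = j := by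
    intro i hi j hj hij
    simp only [hidx, dif_pos hi, dif_pos hj] at hij
    exact congrArg Subtype.val (F.equivFin.injective (Fin.ext hij))
  have hidx_lt : ∀ i, (idx i : ℝ) ≤ N := by
    intro i
    by_cases hi : i ∈ F
    · simp only [hidx, dif_pos hi]
      exact_mod_cast (F.equivFin ⟨i, hi⟩).isLt.le.trans hN
    · simp [hidx, dif_neg hi]
  set M : ℝ := N + 1
  have hM : 0 < M := by positivity
  set t := ρ / (2 * M) with ht
  set c := ρ / (8 * M * s) with hc
  have hc0 : 0 < c := by positivity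
  have ht0 : 0 < t := by positivity
  have hcs : c * s = ρ / (8 * M) := by rw [hc]; field_simp
  set g : E → EuclideanSpace ℝ (Fin n) := fun x => ((idx (φ x) : ℝ) * t) • e + c • f (φ x) x
    with hg
  refine ⟨g, fun x hx => ?_, fun x hx y hy => ?_⟩
  · refine (norm_add_le _ _).trans ?_
    rw [norm_smul, norm_smul, he, mul_one, Real.norm_eq_abs, Real.norm_eq_abs,
      abs_of_nonneg (by positivity), abs_of_pos hc0]
    have h1 : (idx (φ x) : ℝ) * t ≤ ρ / 2 := by
      refine (mul_le_mul_of_nonneg_right (hidx_lt _) ht0.le).trans ?_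
      rw [ht, mul_div, div_le_iff₀ (by positivity)]
      have : ρ / 2 * (2 * M) = ρ * M := by ring
      rw [this, mul_comm]
      exact mul_le_mul_of_nonneg_left (by simp [M]) hρ.le
    have h2 : c * ‖f (φ x) x‖ ≤ ρ / 2 := by
      refine (mul_le_mul_of_nonneg_left (hf1 _ (hφF x hx) _ (hφS x hx)) hc0.le).trans ?_
      rw [hcs]
      refine div_le_div_of_nonneg_left hρ.le two_pos ?_
      have : 1 ≤ M := by simp [M]
      linarith
    linarith
  · by_cases hxy : φ x = φ y
    · have h1 := hf2 _ (hφF x hx) _ (hφS x hx) y (hxy ▸ hφS y hy)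
      have h2 : dist (g x) (g y) = c * dist (f (φ x) x) (f (φ x) y) := by
        simp only [hg, ← hxy]
        rw [dist_add_left, dist_smul₀, Real.norm_eq_abs, abs_of_pos hc0]
      refine h1.trans ((le_of_eq ?_).trans
        (mul_le_mul_of_nonneg_right (le_max_right _ _) dist_nonneg))
      rw [h2, hc]
      field_simp
    · have hne : (1 : ℝ) ≤ |(idx (φ x) : ℝ) - idx (φ y)| := by
        have hd' : idx (φ x) ≠ idx (φ y) := fun e' =>
          hxy (hidx_inj _ (hφF x hx) _ (hφF y hy) e')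
        rcases Nat.lt_or_gt_of_ne hd' with h' | h'
        · have : (idx (φ x) : ℝ) + 1 ≤ idx (φ y) := by exact_mod_cast h'
          exact le_trans (by linarith) (neg_le_abs _)
        · have : (idx (φ y) : ℝ) + 1 ≤ idx (φ x) := by exact_mod_cast h'
          exact le_trans (by linarith) (le_abs_self _)
      have hu : ∀ w ∈ G, ‖c • f (φ w) w‖ ≤ ρ / (8 * M) := by
        intro w hw
        rw [norm_smul, Real.norm_eq_abs, abs_of_pos hc0, ← hcs]
        exact mul_le_mul_of_nonneg_left (hf1 _ (hφF w hw) _ (hφS w hw)) hc0.le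
      have hsep : t ≤ dist (g x) (g y) + ρ / (8 * M) + ρ / (8 * M) := by
        have h1 : t ≤ ‖((idx (φ x) : ℝ) * t) • e - ((idx (φ y) : ℝ) * t) • e‖ := by
          rw [← sub_smul, norm_smul, he, mul_one, Real.norm_eq_abs, ← sub_mul, abs_mul,
            abs_of_pos ht0]
          exact le_mul_of_one_le_left ht0.le hne
        have h2 : ((idx (φ x) : ℝ) * t) • e - ((idx (φ y) : ℝ) * t) • e =
            g x - g y - c • f (φ x) x + c • f (φ y) y := by
          simp only [hg]; abel
        rw [h2] at h1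
        have h3 := norm_add_le (g x - g y - c • f (φ x) x) (c • f (φ y) y)
        have h4 := norm_sub_le (g x - g y) (c • f (φ x) x)
        rw [dist_eq_norm (g x) (g y)]
        linarith [hu x hx, hu y hy]
      have h5 : ρ / (4 * M) ≤ dist (g x) (g y) := by
        have e1 : t = ρ / (4 * M) + ρ / (8 * M) + ρ / (8 * M) := by rw [ht]; field_simp; ring
        linarith
      have hd0 : 0 ≤ d := dist_nonneg.trans (hd x hx x hx)
      refine (hd x hx y hy).trans ((le_of_eq ?_).trans ((mul_le_mul_of_nonneg_left h5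
        (show 0 ≤ 4 * M * d / ρ by positivity)).trans
        (mul_le_mul_of_nonneg_right (le_max_left _ _) dist_nonneg)))
      field_simp

/-- A separated family in the support is small. -/
lemma card_le_of_separated {C A : ℝ} (hN : Nice n C A ν x₀ R) {Z : Finset E} {c : E} {a b : ℝ}
    (ha : 0 ≤ a) (hb : 0 < b) (hb' : b / 2 ≤ R / 4)
    (hmem : ∀ z ∈ Z, z ∈ ν.support ∧ dist z x₀ ≤ R / 2 ∧ dist z c ≤ a)
    (hsep : (↑Z : Set E).Pairwise fun u v => b ≤ dist u v) :
    (Z.card : ℝ) ≤ C ^ 2 * (2 * (a + b) / b) ^ n := by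
  obtain ⟨hC, -, -, huniv, hup, hlow, -⟩ := hN
  haveI : IsFiniteMeasure ν := ⟨lt_of_le_of_lt huniv ENNReal.ofReal_lt_top⟩
  have hdisj : (↑Z : Set E).PairwiseDisjoint fun z => Metric.ball z (b / 2) := fun u hu v hv huv =>
    Metric.ball_disjoint_ball (by linarith [hsep hu hv huv])
  have hsub : (⋃ z ∈ Z, Metric.ball z (b / 2)) ⊆ Metric.ball c (a + b) := by
    simp only [iUnion_subset_iff]
    intro z hz
    exact Metric.ball_subset_ball' (by linarith [(hmem z hz).2.2])
  have h1 : (Z.card : ℝ) * (C⁻¹ * (b / 2) ^ n) ≤ C * (a + b) ^ n :=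
    calc (Z.card : ℝ) * (C⁻¹ * (b / 2) ^ n) = ∑ _z ∈ Z, C⁻¹ * (b / 2) ^ n := by
          rw [Finset.sum_const, nsmul_eq_mul]
      _ ≤ ∑ z ∈ Z, ν.real (Metric.ball z (b / 2)) := Finset.sum_le_sum fun z hz =>
          hlow z (hmem z hz).1 (hmem z hz).2.1 _ (by positivity) hb'
      _ = ν.real (⋃ z ∈ Z, Metric.ball z (b / 2)) :=
          (measureReal_biUnion_finset hdisj fun z _ => measurableSet_ball).symm
      _ ≤ ν.real (Metric.ball c (a + b)) := measureReal_mono hsub
      _ ≤ C * (a + b) ^ n := hup c _ (by positivity)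
  have hC0 : 0 < C := lt_of_lt_of_le one_pos hC
  rw [div_pow, ← mul_div_assoc, le_div_iff₀ (pow_pos hb n), mul_pow]
  rw [div_pow, ← mul_le_mul_iff_of_pos_left (show 0 < C * 2 ^ n by positivity)] at h1
  refine le_of_eq_of_le ?_ (h1.trans (le_of_eq (by ring)))
  field_simp

variable {D : Cells ν x₀ R} {cont : ℕ → E → Prop} {k : ℕ}

/-- The point `x` leaves the tree below generation `k` first at the cell `w` of generation
`j + 1`. -/
def Exit (D : Cells ν x₀ R) (cont : ℕ → E → Prop) (k : ℕ) (x : E) (j : ℕ) (w : E) : Prop :=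
  k ≤ j ∧ w ∈ D.Z (j + 1) ∧ x ∈ D.cell (j + 1) w ∧ ¬cont (j + 1) w ∧
    ∀ l, k < l → l ≤ j → ∀ u ∈ D.Z l, x ∈ D.cell l u → cont l u

lemma cont_of_no_exit {x : E} (h : ∀ j w, ¬Exit D cont k x j w) :
    ∀ l, k < l → ∀ u ∈ D.Z l, x ∈ D.cell l u → cont l u := by
  intro l
  induction l using Nat.strong_induction_on with
  | _ l ih =>
    intro hl u hu hxu
    by_contra hc
    obtain ⟨j, rfl⟩ : ∃ j, l = j + 1 := ⟨l - 1, by omega⟩
    exact h j u ⟨by omega, hu, hxu, hc, fun i hi hij => ih i (by omega) hi⟩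

lemma Exit.cont_center {x w : E} {j : ℕ} (h : Exit D cont k x j w)
    (hx : x ∈ Metric.ball x₀ (R / 256)) :
    ∀ l, k < l → l ≤ j → ∀ u ∈ D.Z l, w ∈ D.cell l u → cont l u := by
  intro l hl hlj u hu hwu
  obtain ⟨-, hw, hxw, -, hc⟩ := h
  have hR : 0 < R := by
    have := dist_nonneg.trans_lt (Metric.mem_ball.1 hx)
    linarith
  have hwm := D.center_mem hR (D.relevant_mem hw hxw hx)
  obtain ⟨u', hu', hxu'⟩ := D.exists_cell (l := l) hw hxw hx
  have hwu' := D.cell_subset_cell (show l ≤ j + 1 by omega) hu' w hw x hxw hxu' hwm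
  exact D.eq_of_mem hu' hu hwu' hwu ▸ hc l hl hlj u' hu' hxu'

lemma Exit.unique {x y p w w' : E} {j j' : ℕ} (h : Exit D cont k x j w)
    (h' : Exit D cont k y j' w') (hx : x ∈ Metric.ball x₀ (R / 256))
    (hy : y ∈ Metric.ball x₀ (R / 256)) (hp : p ∈ D.cell (j + 1) w)
    (hp' : p ∈ D.cell (j' + 1) w') : j = j' ∧ w = w' := by
  wlog hle : j ≤ j' generalizing x y w w' j j'
  · exact (this h' h hy hx hp' hp (le_of_not_ge hle)).imp Eq.symm Eq.symm
  obtain ⟨hkj, hw, -, hnc, -⟩ := h
  obtain ⟨-, hw', hyw', -, hc'⟩ := h'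
  rcases hle.eq_or_lt with rfl | hlt
  · exact ⟨rfl, D.eq_of_mem hw hw' hp hp'⟩
  · obtain ⟨u, hu, hyu⟩ := D.exists_cell (l := j + 1) hw' hyw' hy
    have hpu := D.cell_subset_cell (show j + 1 ≤ j' + 1 by omega) hu w' hw' y hyw' hyu hp'
    have huw := D.eq_of_mem hu hw hpu hp
    exact absurd (huw ▸ hc' (j + 1) (by omega) (by omega) u hu hyu) hnc

/-- Coordinates for the points below a cell whose continuing part lies near a graph. -/
lemma coord_tree (hR : 0 < R) {z : E} (hz : z ∈ relevant D k) {π : E → EuclideanSpace ℝ (Fin n)}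
    (hπ : LipschitzWith 1 π)
    (hg : ∀ j, k ≤ j → ∀ x ∈ D.cell k z, ∀ y ∈ D.cell k z,
      (∀ i, k < i → i ≤ j → ∀ w ∈ D.Z i, x ∈ D.cell i w → cont i w) →
        dist x y ≤ 2 * dist (π x) (π y) + 1 / 512 * scale R j)
    {G : Set E} (hG : G ⊆ D.cell k z ∩ Metric.ball x₀ (R / 256)) {L : ℝ} (hL : 1 ≤ L)
    (h : ∀ j w, k ≤ j → w ∈ D.Z (j + 1) →
      Coord n {x | x ∈ G ∧ x ∈ D.cell (j + 1) w ∧ ¬cont (j + 1) w} (scale R (j + 1)) L) :
    Coord n G (scale R k) (2000 * L) := by
  classical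
  have hzZ := (Finset.mem_filter.1 hz).1
  have hπd : ∀ a b, dist (π a) (π b) ≤ dist a b := fun a b => by
    simpa using hπ.dist_le_mul a b
  choose! f hf1 hf2 using h
  have key : ∀ x ∈ G, ∃ v : EuclideanSpace ℝ (Fin n),
      (∃ j w, Exit D cont k x j w ∧ v = π w + (1 / 64 : ℝ) • f j w x) ∨
        ((∀ j w, ¬Exit D cont k x j w) ∧ v = π x) := by
    intro x _
    by_cases he : ∃ j w, Exit D cont k x j w
    · obtain ⟨j, w, he⟩ := he
      exact ⟨_, Or.inl ⟨j, w, he, rfl⟩⟩
    · exact ⟨_, Or.inr ⟨fun j w hjw => he ⟨j, w, hjw⟩, rfl⟩⟩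
  choose! v hv using key
  -- the facts about an exit point
  have hex : ∀ x ∈ G, ∀ j w, Exit D cont k x j w →
      ‖(1 / 64 : ℝ) • f j w x‖ ≤ scale R (j + 1) / 64 ∧ w ∈ D.cell k z ∧
        w ∈ D.cell (j + 1) w ∧ dist x w ≤ 2 * scale R (j + 1) ∧
        ∀ y ∈ D.cell k z, y ∉ D.cell (j + 1) w → scale R (j + 1) / 4 ≤ dist w y ∧
          dist w y ≤ 4 * dist (π w) (π y) := by
    intro x hx j w he
    have hkj := he.1
    have hwZ := he.2.1
    have hxw := he.2.2.1
    have hrel := D.relevant_mem hwZ hxw (hG hx).2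
    have hwm := D.center_mem hR hrel
    have hwk := D.cell_subset_cell (show k ≤ j + 1 by omega) hzZ w hwZ x hxw (hG hx).1 hwm
    refine ⟨?_, hwk, hwm, (D.subset_ball _ w hwZ hxw).2, fun y hy hyn => ?_⟩
    · rw [norm_smul, Real.norm_eq_abs, abs_of_pos (by norm_num)]
      have := hf1 j w hkj hwZ x ⟨hx, hxw, he.2.2.2.1⟩
      linarith
    · have hfar : scale R (j + 1) / 4 ≤ dist w y := by
        by_contra hlt
        refine hyn (D.ball_subset _ w hwZ (D.dist_le_of_relevant hR hrel)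
          ⟨(D.subset_ball k z hzZ hy).1, ?_⟩)
        rw [Metric.mem_ball, dist_comm]
        linarith
      have hgr := hg j hkj w hwk y hy (he.cont_center (hG hx).2)
      have := scale_succ' R j
      have h0 : 0 ≤ dist w y := dist_nonneg
      refine ⟨hfar, ?_⟩
      linarith
  refine ⟨fun x => (1 / 8 : ℝ) • (v x - π z), fun x hx => ?_, fun x hx y hy => ?_⟩
  · rw [norm_smul, Real.norm_eq_abs, abs_of_pos (by norm_num)]
    have hs := scale_pos' hR k
    rcases hv x hx with ⟨j, w, he, hvx⟩ | ⟨-, hvx⟩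
    · obtain ⟨h1, hwk, -, -, -⟩ := hex x hx j w he
      have h2 := (D.subset_ball k z hzZ hwk).2
      rw [Metric.mem_closedBall] at h2
      have h3 : scale R (j + 1) ≤ scale R k := by
        unfold scale
        exact mul_le_mul_of_nonneg_left
          (pow_le_pow_of_le_one (by norm_num) (by norm_num) (by have := he.1; omega)) hR.le
      have h4 : ‖v x - π z‖ ≤ dist (π w) (π z) + ‖(1 / 64 : ℝ) • f j w x‖ := by
        rw [hvx, dist_eq_norm, add_sub_right_comm]
        exact norm_add_le _ _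
      linarith [hπd w z]
    · have h2 := (D.subset_ball k z hzZ (hG hx).1).2
      rw [Metric.mem_closedBall] at h2
      rw [hvx, ← dist_eq_norm]
      linarith [hπd x z]
  · rw [dist_smul₀, dist_sub_right, Real.norm_eq_abs, abs_of_pos (by norm_num)]
    -- an exit point against a point outside its cell
    have mixed : ∀ a ∈ G, ∀ j w, Exit D cont k a j w →
        v a = π w + (1 / 64 : ℝ) • f j w a → ∀ b ∈ D.cell k z, b ∉ D.cell (j + 1) w →
        ∀ (u : EuclideanSpace ℝ (Fin n)) (q : ℝ), ‖u - π b‖ ≤ q →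
          dist w b ≤ 4 * (dist (v a) u + scale R (j + 1) / 64 + q) ∧
            scale R (j + 1) ≤ 4 * dist w b ∧ dist a w ≤ 2 * scale R (j + 1) := by
      intro a ha j w he hva b hb hbn u q hq
      obtain ⟨h1, -, -, h3, h4⟩ := hex a ha j w he
      obtain ⟨h5, h6⟩ := h4 b hb hbn
      refine ⟨h6.trans (mul_le_mul_of_nonneg_left ?_ (by norm_num)), by linarith, h3⟩
      have e : π w - π b = (v a - u) - (1 / 64 : ℝ) • f j w a + (u - π b) := by rw [hva]; abel
      rw [dist_eq_norm, dist_eq_norm, e]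
      have h7 := norm_add_le ((v a - u) - (1 / 64 : ℝ) • f j w a) (u - π b)
      have h8 := norm_sub_le (v a - u) ((1 / 64 : ℝ) • f j w a)
      linarith
    have fin : ∀ d : ℝ, 0 ≤ d → ∀ c : ℝ, c ≤ 2000 → dist x y ≤ 1 / 8 * (c * d) →
        dist x y ≤ 2000 * L * (1 / 8 * d) := fun d hd c hc hle => by
      have : c * d ≤ 2000 * L * d := mul_le_mul_of_nonneg_right (by linarith) hd
      linarith
    rcases hv x hx with ⟨j, w, he, hvx⟩ | ⟨hno, hvx⟩ <;>
      rcases hv y hy with ⟨j', w', he', hvy⟩ | ⟨hno', hvy⟩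
    · by_cases hsame : j = j' ∧ w = w'
      · obtain ⟨rfl, rfl⟩ := hsame
        have h1 := hf2 j w he.1 he.2.1 x ⟨hx, he.2.2.1, he.2.2.2.1⟩ y
          ⟨hy, he'.2.2.1, he'.2.2.2.1⟩
        rw [hvx, hvy, dist_add_left, dist_smul₀, Real.norm_eq_abs, abs_of_pos (by norm_num)]
        have : 0 ≤ L * dist (f j w x) (f j w y) := mul_nonneg (by linarith) dist_nonneg
        linarith
      · obtain ⟨hq, hwk', hwm', hyw', -⟩ := hex y hy j' w' he'
        obtain ⟨hq', hwk, hwm, -, -⟩ := hex x hx j w he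
        have hn1 : w' ∉ D.cell (j + 1) w := fun hm =>
          hsame (he.unique he' (hG hx).2 (hG hy).2 hm hwm')
        have hn2 : w ∉ D.cell (j' + 1) w' := fun hm =>
          hsame (he.unique he' (hG hx).2 (hG hy).2 hwm hm)
        obtain ⟨m1, m2, m3⟩ := mixed x hx j w he hvx w' hwk' hn1 (v y) (scale R (j' + 1) / 64)
          (by rw [hvy, add_sub_cancel_left]; exact hq)
        obtain ⟨-, m5, -⟩ := mixed y hy j' w' he' hvy w hwk hn2 (v x) (scale R (j + 1) / 64)
          (by rw [hvx, add_sub_cancel_left]; exact hq')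
        rw [dist_comm w' w] at m5
        refine fin _ dist_nonneg 2000 le_rfl ?_
        linarith [dist_triangle4 x w w' y, dist_comm y w', dist_nonneg (x := w) (y := w'),
          dist_nonneg (x := v x) (y := v y)]
    · have hn1 : y ∉ D.cell (j + 1) w := fun hm =>
        he.2.2.2.1 (cont_of_no_exit hno' (j + 1) (by have := he.1; omega) w he.2.1 hm)
      obtain ⟨m1, m2, m3⟩ := mixed x hx j w he hvx y (hG hy).1 hn1 (v y) 0 (by rw [hvy]; simp)
      refine fin _ dist_nonneg 2000 le_rfl ?_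
      linarith [dist_triangle x w y, dist_nonneg (x := w) (y := y),
        dist_nonneg (x := v x) (y := v y)]
    · have hn1 : x ∉ D.cell (j' + 1) w' := fun hm =>
        he'.2.2.2.1 (cont_of_no_exit hno (j' + 1) (by have := he'.1; omega) w' he'.2.1 hm)
      obtain ⟨m1, m2, m3⟩ := mixed y hy j' w' he' hvy x (hG hx).1 hn1 (v x) 0 (by rw [hvx]; simp)
      rw [dist_comm (v y)] at m1
      refine fin _ dist_nonneg 2000 le_rfl ?_
      linarith [dist_triangle x w' y, dist_comm x w', dist_comm w' y, dist_comm y w',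
        dist_nonneg (x := w') (y := x), dist_nonneg (x := v x) (y := v y)]
    · have hlim : Tendsto (fun j => 2 * dist (π x) (π y) + 1 / 512 * scale R j) atTop
          (𝓝 (2 * dist (π x) (π y))) := by
        have h1 : Tendsto (fun j => scale R j) atTop (𝓝 0) := by
          have h2 := ((tendsto_pow_atTop_nhds_zero_of_lt_one (show (0 : ℝ) ≤ 1 / 16 by norm_num)
            (by norm_num)).comp (tendsto_add_atTop_nat 4)).const_mul R
          rw [mul_zero] at h2
          exact h2
        have h3 := (h1.const_mul (1 / 512 : ℝ)).const_add (2 * dist (π x) (π y))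
        simpa using h3
      have hxy := ge_of_tendsto hlim (Filter.eventually_atTop.2 ⟨k, fun j hj =>
        hg j hj x (hG hx).1 y (hG hy).1 fun i hi _ u hu hxu => cont_of_no_exit hno i hi u hu hxu⟩)
      rw [hvx, hvy]
      refine fin _ dist_nonneg 16 (by norm_num) ?_
      linarith

/-- The bound on the number of children of a cell and on the number of top cells. -/
def branching (n : ℕ) (C : ℝ) : ℕ := ⌈C ^ 2 * (8194 : ℝ) ^ n⌉₊

lemma coord_step (hn : 1 ≤ n) {C A K : ℝ} (hN : Nice n C A ν x₀ R) (T : Corona n D K) {z : E}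
    (hz : z ∈ relevant D k) {G : Set E} (hG : G ⊆ D.cell k z ∩ Metric.ball x₀ (R / 256))
    {L : ℝ} (hL : 1 ≤ L)
    (h : ∀ j w, k ≤ j → w ∈ D.Z (j + 1) →
      Coord n {x | x ∈ G ∧ x ∈ D.cell (j + 1) w ∧ ¬T.cont (j + 1) w} (scale R (j + 1)) L) :
    Coord n G (scale R k) (2000 * (branching n C + 1) * L) := by
  classical
  have hR : 0 < R := hN.2.2.1
  have hzZ := (Finset.mem_filter.1 hz).1
  have hb : (0 : ℝ) ≤ branching n C := Nat.cast_nonneg _
  by_cases hc : ∃ z' ∈ D.Z (k + 1), D.parent k z' = z ∧ T.cont (k + 1) z'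
  · obtain ⟨π, hπ, hg⟩ := T.graph k z hz hc
    refine (coord_tree hR hz hπ hg hG hL h).mono ?_
    nlinarith
  · push Not at hc
    set F := (D.Z (k + 1)).filter fun w => D.parent k w = z
    have hs := scale_pos' hR (k + 1)
    have hcard : F.card ≤ branching n C := by
      have hsc := scale_succ' R k
      have hle := scale_le' hR (k + 1)
      have h1 := card_le_of_separated hN (Z := F) (c := z) (a := 2 * scale R k)
        (b := scale R (k + 1)) (by linarith) hs (by linarith) (fun w hw => by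
          obtain ⟨hw, hwp⟩ := Finset.mem_filter.1 hw
          obtain ⟨h1, h2⟩ := D.mem_support _ w hw
          exact ⟨h1, by linarith, hwp ▸ D.dist_parent k w hw⟩)
        ((D.separated (k + 1)).mono (by
          intro w hw
          exact Finset.mem_coe.2 (Finset.mem_filter.1 (Finset.mem_coe.1 hw)).1))
      rw [← Nat.cast_le (α := ℝ)]
      refine h1.trans (le_trans ?_ (Nat.le_ceil _))
      refine mul_le_mul_of_nonneg_left (pow_le_pow_left₀ (by
        have := scale_pos' hR k
        positivity) ?_ n) (sq_nonneg C)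
      rw [div_le_iff₀ hs]
      linarith
    refine (coord_glue hn F hcard (s := scale R (k + 1)) (ρ := scale R k) (d := 4 * scale R k)
      (L := L) (S := fun w => {x | x ∈ G ∧ x ∈ D.cell (k + 1) w ∧ ¬T.cont (k + 1) w})
      (fun x hx => ?_) hs (scale_pos' hR k) (fun x hx y hy => ?_)
      (fun w hw => h k w le_rfl (Finset.mem_filter.1 hw).1)).mono (max_le ?_ ?_)
    · obtain ⟨w, hw, hxw⟩ := D.exists_cell (l := k + 1) hzZ (hG hx).1 (hG hx).2
      have hp : D.parent k w = z :=
        D.eq_of_mem (D.parent_mem k w hw) hzZ (D.cell_subset k w hw hxw) (hG hx).1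
      exact ⟨w, Finset.mem_filter.2 ⟨hw, hp⟩, hx, hxw, hc w hw hp⟩
    · have h1 := (D.subset_ball k z hzZ (hG hx).1).2
      have h2 := (D.subset_ball k z hzZ (hG hy).1).2
      rw [Metric.mem_closedBall] at h1 h2
      linarith [dist_triangle_right x y z]
    · rw [div_le_iff₀ (scale_pos' hR k)]
      have : 0 ≤ ((branching n C : ℝ) + 1) * scale R k :=
        mul_nonneg (by linarith) (scale_pos' hR k).le
      nlinarith
    · rw [div_le_iff₀ (scale_pos' hR k), scale_succ' R k]
      have : 0 ≤ ((branching n C : ℝ) + 1) * L * scale R k :=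
        mul_nonneg (mul_nonneg (by linarith) (by linarith)) (scale_pos' hR k).le
      nlinarith

/-- At most `m` cells below generation `k` on the chain of `x` do not continue. -/
def Few (D : Cells ν x₀ R) (cont : ℕ → E → Prop) (k : ℕ) (x : E) (m : ℕ) : Prop :=
  ∀ s : Finset ℕ, (∀ i ∈ s, k < i ∧ ∃ w ∈ D.Z i, x ∈ D.cell i w ∧ ¬cont i w) → s.card ≤ m

/-- Coordinates for the points leaving the trees at most `m` times. -/
lemma coord_layer (hn : 1 ≤ n) {C A K : ℝ} (hN : Nice n C A ν x₀ R) (T : Corona n D K) :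
    ∀ m : ℕ, ∀ k, ∀ z ∈ relevant D k,
      Coord n {x | x ∈ D.cell k z ∧ x ∈ Metric.ball x₀ (R / 256) ∧ Few D T.cont k x m}
        (scale R k) ((2000 * (branching n C + 1)) ^ (m + 1)) := by
  have hR : 0 < R := hN.2.2.1
  have hΛ : (1 : ℝ) ≤ 2000 * ((branching n C : ℝ) + 1) := by
    have : (0 : ℝ) ≤ branching n C := Nat.cast_nonneg _
    linarith
  intro m
  induction m with
  | zero =>
    intro k z hz
    refine (coord_step hn hN T hz (fun x hx => ⟨hx.1, hx.2.1⟩) le_rfl fun j w hj hw =>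
      Coord.empty fun x hx => ?_).mono (by rw [mul_one, pow_one])
    classical
    have := hx.1.2.2 {j + 1} (fun i hi => by
      rw [Finset.mem_singleton] at hi
      subst hi
      exact ⟨by omega, w, hw, hx.2⟩)
    simp at this
  | succ m ih =>
    intro k z hz
    refine (coord_step hn hN T hz (fun x hx => ⟨hx.1, hx.2.1⟩) (L := (2000 * ((branching n C : ℝ) + 1)) ^ (m + 1)) (one_le_pow₀ hΛ) fun j w hj hw =>
      ?_).mono (by rw [pow_succ' _ (m + 1)])
    by_cases hne : ∃ x, x ∈ {x | x ∈ D.cell k z ∧ x ∈ Metric.ball x₀ (R / 256) ∧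
        Few D T.cont k x (m + 1)} ∧ x ∈ D.cell (j + 1) w ∧ ¬T.cont (j + 1) w
    · obtain ⟨x₁, hx₁, hxw₁, hnc⟩ := hne
      obtain ⟨f, hf1, hf2⟩ := ih (j + 1) w (D.relevant_mem hw hxw₁ hx₁.2.1)
      have hsub : ∀ x, (x ∈ {x | x ∈ D.cell k z ∧ x ∈ Metric.ball x₀ (R / 256) ∧
          Few D T.cont k x (m + 1)} ∧ x ∈ D.cell (j + 1) w ∧ ¬T.cont (j + 1) w) →
          x ∈ {x | x ∈ D.cell (j + 1) w ∧ x ∈ Metric.ball x₀ (R / 256) ∧
            Few D T.cont (j + 1) x m} := by
        rintro x ⟨⟨-, hxb, hfew⟩, hxw, -⟩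
        classical
        refine ⟨hxw, hxb, fun s hs => ?_⟩
        have hni : j + 1 ∉ s := fun hm => lt_irrefl _ (hs _ hm).1
        have := hfew (insert (j + 1) s) (fun i hi => by
          rcases Finset.mem_insert.1 hi with rfl | hi
          · exact ⟨by omega, w, hw, hxw, hnc⟩
          · exact ⟨by have := (hs i hi).1; omega, (hs i hi).2⟩)
        rw [Finset.card_insert_of_notMem hni] at this
        omega
      exact ⟨f, fun x hx => hf1 x (hsub x hx), fun x hx y hy => hf2 x (hsub x hx) y (hsub y hy)⟩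
    · exact Coord.empty fun x hx => hne ⟨x, hx⟩

end

end Vale.Agent.P120.Full
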