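import Vale.Agent.P120.Full.LiouvilleKernel

/-!
# P120, module C: functions of controlled growth annihilated by the operator of order one

The class is invariant under dilations and translations, and its annihilation property extends from
compactly supported test functions to derivatives of rapidly decreasing functions.
-/

namespace Vale.Agent.P120.Full.Liou

open MeasureTheory Set Filter Metric
open scoped Topology RealInnerProductSpace ContDiff ENNReal

noncomputable section

variable {n : ℕ}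

/-- Growth of order below `n + 2`, measured on balls. -/
def Growth (u : X n → ℝ) : Prop :=
  Measurable u ∧ ∃ M : ℝ, 0 ≤ M ∧ ∀ T : ℝ, 1 ≤ T → ∫⁻ x in ball (0 : X n) T, ENNReal.ofReal |u x| ≤
    ENNReal.ofReal (M * T ^ ((n : ℝ) + 7 / 4))

/-- Functions of controlled growth annihilated by `lap`. -/
def Cls (u : X n → ℝ) : Prop :=
  Growth u ∧ ∀ φ : X n → ℝ, ContDiff ℝ ∞ φ → HasCompactSupport φ → ∫ x, φ x = 0 →
    ∫ x, u x * lap φ x = 0

/-- The weight at scale `L`. -/
def wt (L : ℝ) (x : X n) : ℝ := ((1 + ‖x‖ / L) ^ (n + 2))⁻¹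

theorem wt_nonneg {L : ℝ} (hL : 0 ≤ L) (x : X n) : 0 ≤ wt L x := by unfold wt; positivity

theorem wt_continuous {L : ℝ} (hL : 0 ≤ L) : Continuous (wt (n := n) L) :=
  (by fun_prop : Continuous fun x : X n => (1 + ‖x‖ / L) ^ (n + 2)).inv₀ fun x => by positivity

theorem Growth.mono {u : X n → ℝ} (hu : Measurable u) {M : ℝ}
    (h : ∀ T : ℝ, 1 ≤ T → ∫⁻ x in ball (0 : X n) T, ENNReal.ofReal |u x| ≤
      ENNReal.ofReal (M * T ^ ((n : ℝ) + 7 / 4))) : Growth u :=
  ⟨hu, max M 0, le_max_right _ _, fun T hT => (h T hT).trans (ENNReal.ofReal_le_ofReal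
    (mul_le_mul_of_nonneg_right (le_max_left _ _) (by positivity)))⟩

theorem Growth.sub {u v : X n → ℝ} (hu : Growth u) (hv : Growth v) :
    Growth fun x => u x - v x := by
  obtain ⟨hum, M, hM, hu'⟩ := hu
  obtain ⟨hvm, N, hN, hv'⟩ := hv
  refine ⟨hum.sub hvm, M + N, add_nonneg hM hN, fun T hT => ?_⟩
  rw [add_mul, ENNReal.ofReal_add (by positivity) (by positivity)]
  refine le_trans ?_ (add_le_add (hu' T hT) (hv' T hT))
  rw [← lintegral_add_left hum.abs.ennreal_ofReal]
  refine lintegral_mono fun x => ?_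
  rw [← ENNReal.ofReal_add (abs_nonneg _) (abs_nonneg _)]
  exact ENNReal.ofReal_le_ofReal (abs_sub _ _)

theorem Growth.translate {u : X n → ℝ} (hu : Growth u) (y : X n) : Growth fun x => u (x + y) := by
  obtain ⟨hum, M, hM, hu'⟩ := hu
  refine ⟨hum.comp (measurable_id.add_const y), M * (1 + ‖y‖) ^ ((n : ℝ) + 7 / 4), by positivity,
    fun T hT => ?_⟩
  have hT' : 1 ≤ (1 + ‖y‖) * T := one_le_mul_of_one_le_of_one_le (by linarith [norm_nonneg y]) hT
  rw [mul_assoc, ← Real.mul_rpow (by positivity) (by linarith)]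
  refine le_trans ?_ (hu' _ hT')
  have e := (measurePreserving_add_right (volume : Measure (X n)) y).setLIntegral_comp_preimage_emb
    (measurableEmbedding_addRight y) (fun x => ENNReal.ofReal |u x|) (ball y T)
  have e2 : (fun x => x + y) ⁻¹' ball y T = ball (0 : X n) T := by
    ext x; simp [mem_ball, dist_eq_norm]
  rw [e2] at e
  rw [e]
  refine lintegral_mono_set (ball_subset_ball' ?_)
  rw [dist_zero_right]
  nlinarith [norm_nonneg y]

theorem Growth.scale {u : X n → ℝ} (hu : Growth u) {L : ℝ} (hL : 0 < L) :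
    Growth fun x => u (L • x) := by
  obtain ⟨hum, M, hM, hu'⟩ := hu
  refine ⟨hum.comp (measurable_const_smul L), (L ^ n)⁻¹ * (M * (1 + L) ^ ((n : ℝ) + 7 / 4)),
    by positivity, fun T hT => ?_⟩
  have hT' : 1 ≤ (1 + L) * T := one_le_mul_of_one_le_of_one_le (by linarith) hT
  have hmap : Measurable fun x => (ball (0 : X n) ((1 + L) * T)).indicator
      (fun z => ENNReal.ofReal |u z|) x := (hum.abs.ennreal_ofReal).indicator measurableSet_ball
  have e := lintegral_map hmap (measurable_const_smul (α := X n) L) (μ := volume)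
  rw [Measure.map_addHaar_smul _ hL.ne', lintegral_smul_measure, lintegral_indicator measurableSet_ball,
    finrank_euclideanSpace_fin, abs_of_pos (by positivity), smul_eq_mul] at e
  calc ∫⁻ x in ball (0 : X n) T, ENNReal.ofReal |u (L • x)|
      ≤ ∫⁻ x, (ball (0 : X n) ((1 + L) * T)).indicator (fun z => ENNReal.ofReal |u z|) (L • x) := by
        rw [← lintegral_indicator measurableSet_ball]
        refine lintegral_mono fun x => ?_
        by_cases hx : x ∈ ball (0 : X n) T
        · rw [indicator_of_mem hx, indicator_of_mem]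
          rw [mem_ball_zero_iff] at hx ⊢
          rw [norm_smul, Real.norm_of_nonneg hL.le]
          nlinarith [norm_nonneg x]
        · rw [indicator_of_notMem hx]; exact zero_le
    _ ≤ _ := by
        rw [← e, mul_assoc (L ^ n)⁻¹, ENNReal.ofReal_mul (by positivity : (0 : ℝ) ≤ (L ^ n)⁻¹),
          mul_assoc M, ← Real.mul_rpow (by positivity) (by linarith)]
        gcongr
        exact hu' _ hT'

theorem Growth.integrableOn {u : X n → ℝ} (hu : Growth u) (T : ℝ) :
    IntegrableOn u (closedBall (0 : X n) T) := by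
  obtain ⟨hum, M, hM, hu'⟩ := hu
  have h : IntegrableOn u (ball (0 : X n) (|T| + 1)) := by
    refine ⟨hum.aestronglyMeasurable, ?_⟩
    rw [HasFiniteIntegral]
    simp only [Real.enorm_eq_ofReal_abs]
    exact (hu' _ (by linarith [abs_nonneg T])).trans_lt ENNReal.ofReal_lt_top
  exact h.mono_set (closedBall_subset_ball (by linarith [le_abs_self T]))

theorem Growth.locallyIntegrable {u : X n → ℝ} (hu : Growth u) : LocallyIntegrable u := by
  refine locallyIntegrable_iff.2 fun k hk => ?_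
  obtain ⟨r, hr⟩ := hk.isBounded.subset_closedBall 0
  exact (hu.integrableOn r).mono_set hr

theorem Growth.mul_integrable {u χ : X n → ℝ} (hu : Growth u) (hχ : Continuous χ)
    (hχc : HasCompactSupport χ) : Integrable fun x => u x * χ x :=
  (hu.locallyIntegrable.integrable_smul_left_of_hasCompactSupport hχ hχc).congr
    (.of_forall fun x => by simp [mul_comm])

/-- The weighted integral at every scale. -/
theorem Growth.weight {u : X n → ℝ} (hu : Growth u) :
    ∃ C : ℝ, 0 ≤ C ∧ ∀ L : ℝ, 1 ≤ L → Integrable (fun x => u x * wt L x) ∧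
      ∫ x, |u x| * wt L x ≤ C * L ^ ((n : ℝ) + 7 / 4) := by
  obtain ⟨hum, M, hM, hu'⟩ := hu
  set p := (n : ℝ) + 7 / 4
  set q := (2 : ℝ) ^ p * ((2 : ℝ) ^ (n + 2))⁻¹
  have hq0 : 0 ≤ q := by positivity
  have hq1 : q < 1 := by
    simp only [q]
    rw [← div_eq_mul_inv, div_lt_one (by positivity), ← Real.rpow_natCast]
    exact Real.rpow_lt_rpow_of_exponent_lt one_lt_two (by simp only [p]; push_cast; linarith)
  have hs : Summable fun k : ℕ => q ^ k := summable_geometric_of_lt_one hq0 hq1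
  refine ⟨M * 2 ^ p * ∑' k, q ^ k, by positivity, fun L hL => ?_⟩
  have hL0 : (0 : ℝ) < L := by linarith
  set s : ℕ → Set (X n) := fun k => ball 0 (L * 2 ^ (k + 1))
  set c : ℕ → ℝ := fun k => (((2 : ℝ) ^ k) ^ (n + 2))⁻¹
  have hpt : ∀ x, ENNReal.ofReal (|u x| * wt L x) ≤
      ∑' k, ENNReal.ofReal (c k) * (s k).indicator (fun z => ENNReal.ofReal |u z|) x := fun x => by
    obtain ⟨k, hk1, hk2⟩ := exists_nat_pow_near
      (le_add_of_nonneg_right (by positivity : 0 ≤ ‖x‖ / L) : (1 : ℝ) ≤ 1 + ‖x‖ / L) one_lt_two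
    refine le_trans ?_ (ENNReal.le_tsum k)
    have hmem : x ∈ s k := by
      have : ‖x‖ / L < 2 ^ (k + 1) := by linarith
      rw [div_lt_iff₀ hL0] at this
      simp only [s, mem_ball_zero_iff]
      linarith
    rw [indicator_of_mem hmem, ← ENNReal.ofReal_mul (by positivity), mul_comm (c k)]
    refine ENNReal.ofReal_le_ofReal (mul_le_mul_of_nonneg_left ?_ (abs_nonneg _))
    exact inv_anti₀ (by positivity) (pow_le_pow_left₀ (by positivity) hk1 _)
  have hterm : ∀ k, ENNReal.ofReal (c k) * ∫⁻ x in s k, ENNReal.ofReal |u x| ≤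
      ENNReal.ofReal (M * 2 ^ p * L ^ p * q ^ k) := fun k => by
    refine (mul_le_mul_right (hu' _ ?_) _).trans (le_of_eq ?_)
    · exact one_le_mul_of_one_le_of_one_le hL (one_le_pow₀ one_le_two)
    rw [← ENNReal.ofReal_mul (by positivity)]
    congr 1
    simp only [c, q]
    rw [Real.mul_rpow hL0.le (by positivity), ← Real.rpow_pow_comm zero_le_two, pow_succ ((2 : ℝ) ^ p),
      mul_pow, inv_pow, ← pow_mul, ← pow_mul, mul_comm k (n + 2)]
    ring
  have hfin : ∫⁻ x, ENNReal.ofReal (|u x| * wt L x) ≤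
      ENNReal.ofReal (M * 2 ^ p * (∑' k, q ^ k) * L ^ p) := by
    refine (lintegral_mono hpt).trans ?_
    rw [lintegral_tsum fun k =>
      ((hum.abs.ennreal_ofReal.indicator measurableSet_ball).const_mul _).aemeasurable]
    simp only [lintegral_const_mul _ (hum.abs.ennreal_ofReal.indicator measurableSet_ball),
      lintegral_indicator measurableSet_ball]
    refine (ENNReal.tsum_le_tsum hterm).trans (le_of_eq ?_)
    rw [← ENNReal.ofReal_tsum_of_nonneg (fun k => by positivity) (hs.mul_left _), tsum_mul_left]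
    congr 1
    ring
  have hm : AEStronglyMeasurable (fun x => u x * wt L x) :=
    (hum.mul (wt_continuous hL0.le).measurable).aestronglyMeasurable
  refine ⟨⟨hm, ?_⟩, ?_⟩
  · rw [HasFiniteIntegral]
    simp only [Real.enorm_eq_ofReal_abs, abs_mul, abs_of_nonneg (wt_nonneg hL0.le _)]
    exact hfin.trans_lt ENNReal.ofReal_lt_top
  · rw [integral_eq_lintegral_of_nonneg_ae (.of_forall fun x => mul_nonneg (abs_nonneg _)
      (wt_nonneg hL0.le x)) (hum.abs.mul (wt_continuous hL0.le).measurable).aestronglyMeasurable]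
    exact ENNReal.toReal_le_of_le_ofReal (by positivity) hfin

theorem Growth.mul_decay {u F : X n → ℝ} (hu : Growth u) (hF : AEStronglyMeasurable F) {A : ℝ}
    (h : ∀ x, |F x| ≤ A / (1 + ‖x‖) ^ (n + 2)) : Integrable fun x => u x * F x := by
  obtain ⟨C, -, hC⟩ := hu.weight
  refine ((hC 1 le_rfl).1.norm.const_mul A).mono' (hu.1.aestronglyMeasurable.mul hF)
    (.of_forall fun x => ?_)
  rw [norm_mul, norm_mul, Real.norm_eq_abs, Real.norm_eq_abs, Real.norm_eq_abs,
    abs_of_nonneg (wt_nonneg zero_le_one x), wt, div_one]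
  calc |u x| * |F x| ≤ |u x| * (A / (1 + ‖x‖) ^ (n + 2)) := mul_le_mul_of_nonneg_left (h x) (abs_nonneg _)
    _ = _ := by ring

/-- Scaling of the operator. -/
theorem lap_comp (φ : X n → ℝ) {c : ℝ} (hc : 0 < c) (y z : X n) :
    lap (fun x => φ (c • (x - y))) z = c * lap φ (c • (z - y)) := by
  have h := Measure.integral_comp_smul volume
    (fun h : X n => d2 φ (c • (z - y)) h / ‖h‖ ^ (n + 1)) c
  simp only [finrank_euclideanSpace_fin, smul_eq_mul] at h
  rw [abs_of_pos (by positivity)] at h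
  have e : ∀ k : X n, d2 (fun x => φ (c • (x - y))) z k / ‖k‖ ^ (n + 1)
      = c ^ (n + 1) * (d2 φ (c • (z - y)) (c • k) / ‖c • k‖ ^ (n + 1)) := fun k => by
    rw [norm_smul, Real.norm_of_nonneg hc.le, mul_pow, d2, d2, ← smul_add, ← smul_sub,
      show z + k - y = z - y + k by abel, show z - k - y = z - y - k by abel]
    field_simp
  rw [lap, lap]
  simp only [e, integral_const_mul, h]
  field_simp
  ring

theorem Cls.affine {u : X n → ℝ} (hu : Cls u) {L : ℝ} (hL : 0 < L) (y : X n) :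
    Cls fun x => u (L • x + y) := by
  refine ⟨((hu.1.translate y).scale hL), fun φ hφ hc h0 => ?_⟩
  set ψ : X n → ℝ := fun x => φ (L⁻¹ • (x - y)) with hψ
  have h1 : ContDiff ℝ ∞ ψ := hφ.comp ((contDiff_id.sub contDiff_const).const_smul L⁻¹)
  have h2 : HasCompactSupport ψ := by
    have h := hc.comp_homeomorph
      ((Homeomorph.addRight (-y)).trans (Homeomorph.smulOfNeZero L⁻¹ (inv_ne_zero hL.ne')))
    have e : φ ∘ ((Homeomorph.addRight (-y)).trans (Homeomorph.smulOfNeZero L⁻¹ (inv_ne_zero hL.ne')))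
        = ψ := by
      funext x
      simp [ψ, sub_eq_add_neg]
    exact e ▸ h
  have hsc : ∀ F : X n → ℝ, ∫ x, F (L⁻¹ • (x - y)) = L ^ n * ∫ x, F x := fun F => by
    rw [integral_sub_right_eq_self (fun x => F (L⁻¹ • x)) y, Measure.integral_comp_smul,
      finrank_euclideanSpace_fin, smul_eq_mul, inv_pow, inv_inv, abs_of_pos (by positivity)]
  have h3 : ∫ x, ψ x = 0 := by rw [hψ, hsc φ, h0, mul_zero]
  have h4 := hu.2 ψ h1 h2 h3
  simp only [ψ, lap_comp φ (inv_pos.2 hL)] at h4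
  have h5 := hsc fun x => u (L • x + y) * lap φ x
  simp only [smul_smul, mul_inv_cancel₀ hL.ne', one_smul, sub_add_cancel] at h5
  have h6 : L⁻¹ * ∫ x, u x * lap φ (L⁻¹ • (x - y)) = 0 := by
    rw [← integral_const_mul, ← h4]
    exact integral_congr_ae (.of_forall fun x => by simp only; ring)
  rw [h5] at h6
  simpa [hL.ne'] using h6

/-- Rapid decrease of all derivatives. -/
def Rapid (G : X n → ℝ) : Prop :=
  ContDiff ℝ ∞ G ∧ ∀ m N : ℕ, ∃ C : ℝ, ∀ x, (1 + ‖x‖) ^ N * ‖iteratedFDeriv ℝ m G x‖ ≤ C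

theorem contDiff_dd {G : X n → ℝ} (hG : ContDiff ℝ ∞ G) (v : X n) :
    ContDiff ℝ ∞ fun x => fderiv ℝ G x v :=
  (hG.fderiv_right (by simp)).clm_apply contDiff_const

theorem norm_dd_le {G : X n → ℝ} (hG : ContDiff ℝ ∞ G) (v : X n) (m : ℕ) (x : X n) :
    ‖iteratedFDeriv ℝ m (fun x => fderiv ℝ G x v) x‖ ≤ ‖v‖ * ‖iteratedFDeriv ℝ (m + 1) G x‖ := by
  rw [← norm_iteratedFDeriv_fderiv]
  exact norm_iteratedFDeriv_clm_apply_const (hG.fderiv_right (m := ∞) (by simp)).contDiffAt
    (WithTop.coe_le_coe.2 le_top)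

theorem Rapid.dd {G : X n → ℝ} (hG : Rapid G) (v : X n) : Rapid fun x => fderiv ℝ G x v := by
  refine ⟨contDiff_dd hG.1 v, fun m N => ?_⟩
  obtain ⟨C, hC⟩ := hG.2 (m + 1) N
  refine ⟨‖v‖ * C, fun x => ?_⟩
  refine (mul_le_mul_of_nonneg_left (norm_dd_le hG.1 v m x) (by positivity)).trans ?_
  rw [mul_left_comm]
  exact mul_le_mul_of_nonneg_left (hC x) (norm_nonneg _)

theorem norm_fderiv_fderiv (φ : X n → ℝ) (x : X n) :
    ‖fderiv ℝ (fderiv ℝ φ) x‖ = ‖iteratedFDeriv ℝ 2 φ x‖ := by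
  rw [← norm_iteratedFDeriv_one, norm_iteratedFDeriv_fderiv]

theorem dd_bd {G : X n → ℝ} (hG : ContDiff ℝ ∞ G) {B : ℝ}
    (hB : ∀ m ≤ 3, ∀ x, (1 + ‖x‖) ^ (n + 4) * ‖iteratedFDeriv ℝ m G x‖ ≤ B) (v : X n) :
    Bd (fun x => fderiv ℝ G x v) (‖v‖ * B) := by
  refine ⟨(contDiff_dd hG v).of_le (WithTop.coe_le_coe.2 le_top), fun x => ?_, fun x => ?_⟩
  · rw [mul_comm, ← Real.norm_eq_abs, ← norm_iteratedFDeriv_zero (𝕜 := ℝ) (f := fun x => fderiv ℝ G x v)]
    refine (mul_le_mul_of_nonneg_left (norm_dd_le hG v 0 x) (by positivity)).trans ?_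
    rw [mul_left_comm]
    exact mul_le_mul_of_nonneg_left (hB 1 (by norm_num) x) (norm_nonneg _)
  · rw [mul_comm, norm_fderiv_fderiv]
    refine (mul_le_mul_of_nonneg_left (norm_dd_le hG v 2 x) (by positivity)).trans ?_
    rw [mul_left_comm]
    exact mul_le_mul_of_nonneg_left (hB 3 le_rfl x) (norm_nonneg _)

theorem Rapid.bd {G : X n → ℝ} (hG : Rapid G) : ∃ A, Bd G A := by
  obtain ⟨A₀, h₀⟩ := hG.2 0 (n + 4)
  obtain ⟨A₂, h₂⟩ := hG.2 2 (n + 4)
  refine ⟨max A₀ A₂, hG.1.of_le (WithTop.coe_le_coe.2 le_top), fun x => ?_, fun x => ?_⟩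
  · rw [mul_comm, ← Real.norm_eq_abs, ← norm_iteratedFDeriv_zero (𝕜 := ℝ) (f := G)]
    exact (h₀ x).trans (le_max_left _ _)
  · rw [mul_comm, norm_fderiv_fderiv]
    exact (h₂ x).trans (le_max_right _ _)

theorem Bd.decay {φ : X n → ℝ} {A : ℝ} (hφ : Bd φ A) (x : X n) :
    |φ x| ≤ A / (1 + ‖x‖) ^ (n + 2) :=
  ((hφ.abs_le x).trans (mul_le_mul_of_nonneg_left (inv_anti₀ (by positivity)
    (pow_le_pow_right₀ (by linarith [norm_nonneg x]) (by omega))) hφ.nonneg)).trans_eq
    (div_eq_mul_inv _ _).symm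

theorem Rapid.decay {G : X n → ℝ} (hG : Rapid G) :
    ∃ A, 0 ≤ A ∧ ∀ x, |G x| ≤ A / (1 + ‖x‖) ^ (n + 2) :=
  let ⟨A, hA⟩ := hG.bd
  ⟨A, hA.nonneg, hA.decay⟩

theorem Bd.integ {φ : X n → ℝ} {A : ℝ} (hφ : Bd φ A) : Integrable φ :=
  ((integrable_decay (show n < n + 4 by omega)).const_mul A).mono'
    hφ.contDiff.continuous.aestronglyMeasurable (.of_forall fun y => hφ.abs_le y)

/-- The integral of a derivative vanishes. -/
theorem integral_dd {G : X n → ℝ} (hG : Differentiable ℝ G) (v : X n) (h1 : Integrable G)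
    (h2 : Integrable fun x => fderiv ℝ G x v) : ∫ x, fderiv ℝ G x v = 0 := by
  simpa using integral_mul_fderiv_eq_neg_fderiv_mul_of_integrable (μ := volume) (v := v)
    (f := fun _ : X n => (1 : ℝ)) (g := G) (by simp) (by simpa using h2) (by simpa using h1)
    (fun _ _ => differentiableAt_const _) fun x _ => hG x

theorem Rapid.integral_dd {G : X n → ℝ} (hG : Rapid G) (v : X n) :
    ∫ x, fderiv ℝ G x v = 0 :=
  Liou.integral_dd (hG.1.differentiable (by simp)) v hG.bd.choose_spec.integ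
    (hG.dd v).bd.choose_spec.integ

/-- The annihilation extends to derivatives of rapidly decreasing functions. -/
theorem Cls.pair (hn : 0 < n) {u : X n → ℝ} (hu : Cls u) {F : X n → ℝ} (hF : Rapid F)
    (v : X n) : ∫ x, u x * lap (fun z => fderiv ℝ F z v) x = 0 := by
  let χ : ContDiffBump (0 : X n) := ⟨1, 2, one_pos, one_lt_two⟩
  have hχs : ContDiff ℝ ∞ (χ : X n → ℝ) := χ.contDiff
  have hK : ∀ i : ℕ, ∃ K, ∀ x, ‖iteratedFDeriv ℝ i (χ : X n → ℝ) x‖ ≤ K := fun i =>
    (hχs.continuous_iteratedFDeriv (WithTop.coe_le_coe.2 le_top)).bounded_above_of_compact_support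
      (χ.hasCompactSupport.iteratedFDeriv i)
  choose K hK using hK
  have hC : ∀ i : ℕ, ∃ C, ∀ x, (1 + ‖x‖) ^ (n + 4) * ‖iteratedFDeriv ℝ i F x‖ ≤ C := fun i =>
    hF.2 i (n + 4)
  choose C hC using hC
  have hK0 : ∀ i, 0 ≤ K i := fun i => (norm_nonneg _).trans (hK i 0)
  have hC0 : ∀ i, 0 ≤ C i := fun i => le_trans (by positivity) (hC i 0)
  set ε : ℕ → ℝ := fun k => 1 / ((k : ℝ) + 1) with hε
  have hε0 : ∀ k, 0 < ε k := fun k => by positivity
  have hε1 : ∀ k, ε k ≤ 1 := fun k => by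
    rw [hε, div_le_one (by positivity)]; simp
  set G : ℕ → X n → ℝ := fun k x => χ (ε k • x) * F x with hG
  have hcs : ∀ k, ContDiff ℝ ∞ fun x : X n => χ (ε k • x) := fun k =>
    hχs.comp (contDiff_id.const_smul (ε k))
  have hGs : ∀ k, ContDiff ℝ ∞ (G k) := fun k => (hcs k).mul hF.1
  have hGc : ∀ k, HasCompactSupport (G k) := fun k =>
    (χ.hasCompactSupport.comp_homeomorph (Homeomorph.smulOfNeZero (ε k) (hε0 k).ne')).mul_right
  set B : ℝ := ∑ m ∈ Finset.range 4, ∑ i ∈ Finset.range (m + 1), (m.choose i : ℝ) * K i * C (m - i)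
    with hBd
  have hGB : ∀ k, ∀ m ≤ 3, ∀ x, (1 + ‖x‖) ^ (n + 4) * ‖iteratedFDeriv ℝ m (G k) x‖ ≤ B := by
    intro k m hm x
    refine (mul_le_mul_of_nonneg_left (norm_iteratedFDeriv_mul_le (hcs k) hF.1 x
      (WithTop.coe_le_coe.2 le_top)) (by positivity)).trans ?_
    refine le_trans ?_ (Finset.single_le_sum (fun j _ => Finset.sum_nonneg fun i _ =>
      mul_nonneg (mul_nonneg (Nat.cast_nonneg _) (hK0 i)) (hC0 (j - i)))
      (Finset.mem_range.2 (Nat.lt_succ_of_le hm)))
    rw [Finset.mul_sum]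
    refine Finset.sum_le_sum fun i _ => ?_
    have h1 : ‖iteratedFDeriv ℝ i (fun y : X n => χ (ε k • y)) x‖ ≤ K i := by
      rw [iteratedFDeriv_comp_const_smul (ε k) (hχs.of_le (WithTop.coe_le_coe.2 le_top)), norm_smul,
        norm_pow, Real.norm_of_nonneg (hε0 k).le]
      exact (mul_le_of_le_one_left (norm_nonneg _) (pow_le_one₀ (hε0 k).le (hε1 k))).trans (hK i _)
    calc (1 + ‖x‖) ^ (n + 4) * ((m.choose i : ℝ) * ‖iteratedFDeriv ℝ i (fun y : X n => χ (ε k • y)) x‖ *
          ‖iteratedFDeriv ℝ (m - i) F x‖)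
        = (m.choose i : ℝ) * ‖iteratedFDeriv ℝ i (fun y : X n => χ (ε k • y)) x‖ *
          ((1 + ‖x‖) ^ (n + 4) * ‖iteratedFDeriv ℝ (m - i) F x‖) := by ring
      _ ≤ _ := mul_le_mul (mul_le_mul_of_nonneg_left h1 (Nat.cast_nonneg _)) (hC _ x)
          (by positivity) (mul_nonneg (Nat.cast_nonneg _) (hK0 i))
  set φ : ℕ → X n → ℝ := fun k x => fderiv ℝ (G k) x v
  set ψ : X n → ℝ := fun x => fderiv ℝ F x v
  have hφb : ∀ k, Bd (φ k) (‖v‖ * B) := fun k => dd_bd (hGs k) (hGB k) v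
  have hφ0 : ∀ k, ∫ x, φ k x = 0 := fun k => Liou.integral_dd ((hGs k).differentiable (by simp)) v
    ((hGs k).continuous.integrable_of_hasCompactSupport (hGc k)) (hφb k).integ
  have hz : ∀ k, ∫ x, u x * lap (φ k) x = 0 := fun k =>
    hu.2 _ (contDiff_dd (hGs k) v) ((hGc k).fderiv_apply (𝕜 := ℝ) v) (hφ0 k)
  have hev : ∀ z, ∀ᶠ k in atTop, φ k z = ψ z := fun z => by
    have ht : Tendsto (fun k => ε k * (‖z‖ + 1)) atTop (𝓝 0) := by
      simpa [hε] using (tendsto_one_div_add_atTop_nhds_zero_nat.mul_const (‖z‖ + 1))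
    filter_upwards [ht.eventually_le_const one_pos] with k hk
    have he : G k =ᶠ[𝓝 z] F := by
      filter_upwards [ball_mem_nhds z one_pos] with w hw
      simp only [G]
      rw [χ.one_of_mem_closedBall, one_mul]
      rw [mem_closedBall_zero_iff, norm_smul, Real.norm_of_nonneg (hε0 k).le]
      refine le_trans (mul_le_mul_of_nonneg_left ?_ (hε0 k).le) hk
      rw [mem_ball, dist_eq_norm] at hw
      linarith [norm_le_norm_add_norm_sub' w z]
    simp only [φ, ψ]
    rw [he.fderiv_eq]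
  have hlim : ∀ x, Tendsto (fun k => lap (φ k) x) atTop (𝓝 (lap ψ x)) := fun x =>
    tendsto_integral_of_dominated_convergence _
      (fun k => ((hφb k).integrable hn x).aestronglyMeasurable)
      (((knear_integrable hn _).const_mul _).add ((kfar_integrable (by positivity)).const_mul _))
      (fun k => .of_forall fun h => (hφb k).integrand_le x h)
      (.of_forall fun h => tendsto_const_nhds.congr' (by
        filter_upwards [hev x, hev (x + h), hev (x - h)] with k h1 h2 h3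
        simp only [d2, h1, h2, h3]))
  obtain ⟨C₁, hC₁⟩ := lap_decay (n := n) hn
  obtain ⟨C₂, -, hC₂⟩ := hu.1.weight
  have := tendsto_integral_of_dominated_convergence (F := fun k x => u x * lap (φ k) x)
    (f := fun x => u x * lap ψ x) (fun x => C₁ * (‖v‖ * B) * ‖u x * wt 1 x‖)
    (fun k => hu.1.1.aestronglyMeasurable.mul
      (lap_measurable (hφb k).contDiff.continuous).aestronglyMeasurable)
    ((hC₂ 1 le_rfl).1.norm.const_mul _)
    (fun k => .of_forall fun x => by
      rw [norm_mul, norm_mul, Real.norm_eq_abs, Real.norm_eq_abs, Real.norm_eq_abs,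
        abs_of_nonneg (wt_nonneg zero_le_one x), wt, div_one]
      calc |u x| * |lap (φ k) x| ≤ |u x| * (C₁ * (‖v‖ * B) / (1 + ‖x‖) ^ (n + 2)) :=
            mul_le_mul_of_nonneg_left (hC₁ _ _ (hφb k) (hφ0 k) x) (abs_nonneg _)
        _ = _ := by ring)
    (.of_forall fun x => (hlim x).const_mul _)
  simp only [hz] at this
  exact (tendsto_nhds_unique this tendsto_const_nhds)

end

end Vale.Agent.P120.Full.Liou
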