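import Vale.Agent.P120.Full.LiouvilleClass

/-!
# P120, module C: the Gaussian test functions

A function of the class pairs to zero with every mixed second derivative of the Gaussian: these
derivatives are, up to a constant, averages over scales of images of themselves under `lap`.
-/

namespace Vale.Agent.P120.Full.Liou

open MeasureTheory Set Filter Metric
open scoped Topology RealInnerProductSpace ContDiff ENNReal Nat

noncomputable section

variable {n : ℕ}

/-- The Gaussian. -/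
def gauss (x : X n) : ℝ := Real.exp (-‖x‖ ^ 2)

theorem exp_bound (N : ℕ) {b : ℝ} (hb : 1 / 4 ≤ b) (r : ℝ) (hr : 0 ≤ r) :
    (1 + r) ^ N * Real.exp (-(b * r ^ 2)) ≤ N ! * Real.exp 2 := by
  have h1 := Real.pow_div_factorial_le_exp (x := 1 + r) (by linarith) N
  rw [div_le_iff₀ (by exact_mod_cast N.factorial_pos)] at h1
  refine (mul_le_mul_of_nonneg_right h1 (Real.exp_nonneg _)).trans ?_
  rw [mul_comm (Real.exp _), mul_assoc, ← Real.exp_add]
  refine mul_le_mul_of_nonneg_left (Real.exp_le_exp.2 ?_) (Nat.cast_nonneg _)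
  nlinarith [sq_nonneg (r - 2), sq_nonneg r]

theorem gauss_rapid : Rapid (gauss (n := n)) := by
  have htg : Function.HasTemperateGrowth fun x : X n => ‖x‖ ^ 2 :=
    Function.hasTemperateGrowth_norm_sq (H := X n)
  have hneg : Function.HasTemperateGrowth fun x : X n => -‖x‖ ^ 2 := htg.neg
  refine ⟨Real.contDiff_exp.comp hneg.1, fun m N => ?_⟩
  obtain ⟨k, C, hC0, hC⟩ := hneg.norm_iteratedFDeriv_le_uniform m
  refine ⟨m ! * (C + 1) ^ m * (((N + k * m) ! : ℕ) * Real.exp 2), fun x => ?_⟩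
  have h1 : ‖iteratedFDeriv ℝ m (Real.exp ∘ fun x : X n => -‖x‖ ^ 2) x‖
      ≤ m ! * Real.exp (-‖x‖ ^ 2) * ((C + 1) * (1 + ‖x‖) ^ k) ^ m := by
    refine norm_iteratedFDeriv_comp_le (N := ∞) Real.contDiff_exp hneg.1
      (WithTop.coe_le_coe.2 le_top) x (fun i _ => ?_) (fun i hi him => ?_)
    · rw [norm_iteratedFDeriv_eq_norm_iteratedDeriv, iteratedDeriv_eq_iterate, Real.iter_deriv_exp,
        Real.norm_eq_abs, Real.abs_exp]
    · refine (hC i him x).trans ?_
      have hD : 1 ≤ (C + 1) * (1 + ‖x‖) ^ k :=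
        one_le_mul_of_one_le_of_one_le (by linarith) (one_le_pow₀ (by linarith [norm_nonneg x]))
      refine le_trans ?_ (le_self_pow₀ hD (by omega))
      exact mul_le_mul_of_nonneg_right (by linarith) (by positivity)
  refine (mul_le_mul_of_nonneg_left h1 (by positivity)).trans ?_
  calc (1 + ‖x‖) ^ N * (m ! * Real.exp (-‖x‖ ^ 2) * ((C + 1) * (1 + ‖x‖) ^ k) ^ m)
      = m ! * (C + 1) ^ m * ((1 + ‖x‖) ^ (N + k * m) * Real.exp (-(1 * ‖x‖ ^ 2))) := by
        rw [mul_pow, ← pow_mul, pow_add, one_mul]; ring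
    _ ≤ _ := mul_le_mul_of_nonneg_left (exp_bound _ (by norm_num) _ (norm_nonneg x)) (by positivity)

theorem amp_integrable {a : X n → ℝ} (ha : Continuous a) {C : ℝ} (N : ℕ)
    (h : ∀ ξ, |a ξ| ≤ C * ((1 + ‖ξ‖) ^ N * Real.exp (-(1 / 4 * ‖ξ‖ ^ 2)))) : Integrable a := by
  have hC : 0 ≤ C := by
    have := (abs_nonneg (a 0)).trans (h 0)
    simpa using this
  refine ((integrable_decay (Nat.lt_succ_self n)).const_mul
    (C * (((N + (n + 1)) ! : ℕ) * Real.exp 2))).mono' ha.aestronglyMeasurable (.of_forall fun ξ => ?_)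
  refine (h ξ).trans ?_
  rw [← div_eq_mul_inv, le_div_iff₀ (by positivity)]
  calc C * ((1 + ‖ξ‖) ^ N * Real.exp (-(1 / 4 * ‖ξ‖ ^ 2))) * (1 + ‖ξ‖) ^ (n + 1)
      = C * ((1 + ‖ξ‖) ^ (N + (n + 1)) * Real.exp (-(1 / 4 * ‖ξ‖ ^ 2))) := by rw [pow_add]; ring
    _ ≤ _ := mul_le_mul_of_nonneg_left (exp_bound _ le_rfl _ (norm_nonneg ξ)) hC

/-- A superposition of waves with a phase. -/
def wave (a : X n → ℝ) (θ : ℝ) (x : X n) : ℝ := ∫ ξ, a ξ * Real.cos (⟪x, ξ⟫ + θ)

theorem wave_integrable {a : X n → ℝ} (ha : Integrable a) (θ : ℝ) (x : X n) :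
    Integrable fun ξ => a ξ * Real.cos (⟪x, ξ⟫ + θ) :=
  ha.norm.mono' (ha.aestronglyMeasurable.mul (by fun_prop : Continuous fun ξ : X n =>
    Real.cos (⟪x, ξ⟫ + θ)).aestronglyMeasurable) (.of_forall fun ξ => by
      rw [norm_mul]; exact mul_le_of_le_one_right (norm_nonneg _) (Real.abs_cos_le_one _))

theorem wave_deriv {a : X n → ℝ} (ha : Integrable a) (v : X n)
    (hav : Integrable fun ξ => a ξ * ⟪v, ξ⟫) (θ : ℝ) {G : X n → ℝ} (hG : Differentiable ℝ G)
    (hGw : ∀ x, G x = wave a θ x) (x : X n) :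
    fderiv ℝ G x v = wave (fun ξ => a ξ * ⟪v, ξ⟫) (θ + Real.pi / 2) x := by
  have h1 : HasDerivAt (fun t : ℝ => G (x + t • v)) (fderiv ℝ G x v) 0 :=
    (hG x).hasFDerivAt.hasLineDerivAt v
  have h2 := (hasDerivAt_integral_of_dominated_loc_of_deriv_le (𝕜 := ℝ) (μ := volume)
    (F := fun t ξ => a ξ * Real.cos (⟪x, ξ⟫ + t * ⟪v, ξ⟫ + θ))
    (F' := fun t ξ => a ξ * ⟪v, ξ⟫ * Real.cos (⟪x, ξ⟫ + t * ⟪v, ξ⟫ + θ + Real.pi / 2))
    (x₀ := 0) (bound := fun ξ => ‖a ξ * ⟪v, ξ⟫‖) univ_mem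
    (.of_forall fun t => ha.aestronglyMeasurable.mul (by fun_prop : Continuous fun ξ : X n =>
      Real.cos (⟪x, ξ⟫ + t * ⟪v, ξ⟫ + θ)).aestronglyMeasurable)
    (by simpa using wave_integrable ha θ x)
    (hav.aestronglyMeasurable.mul (by fun_prop : Continuous fun ξ : X n =>
      Real.cos (⟪x, ξ⟫ + 0 * ⟪v, ξ⟫ + θ + Real.pi / 2)).aestronglyMeasurable)
    (.of_forall fun ξ t _ => by
      rw [norm_mul (a ξ * ⟪v, ξ⟫)]; exact mul_le_of_le_one_right (norm_nonneg _) (Real.abs_cos_le_one _))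
    hav.norm
    (.of_forall fun ξ t _ => by
      rw [Real.cos_add_pi_div_two]
      have := ((((hasDerivAt_id t).mul_const ⟪v, ξ⟫).const_add ⟪x, ξ⟫).add_const θ).cos.const_mul (a ξ)
      refine this.congr_deriv ?_
      simp only [id_eq]
      ring)).2
  have e : (fun t : ℝ => G (x + t • v))
      = fun t => ∫ ξ, a ξ * Real.cos (⟪x, ξ⟫ + t * ⟪v, ξ⟫ + θ) := by
    funext t
    simp only [hGw, wave, inner_add_left, real_inner_smul_left]
  rw [e] at h1
  rw [h1.unique h2]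
  simp only [wave, zero_mul, add_zero, add_assoc]

/-- The normalising constant of the Gaussian. -/
def Kg (n : ℕ) : ℝ := ((4 * Real.pi) ^ ((n : ℝ) / 2))⁻¹

theorem gauss_wave (x : X n) :
    gauss x = wave (fun ξ => Kg n * Real.exp (-(1 / 4 * ‖ξ‖ ^ 2))) 0 x := by
  have hb : 0 < ((1 / 4 : ℝ) : ℂ).re := by simp
  have h := GaussianFourier.integral_cexp_neg_mul_sq_norm_add (V := X n) hb Complex.I x
  have hint : Integrable fun v : X n =>
      Complex.exp (-((1 / 4 : ℝ) : ℂ) * (‖v‖ : ℂ) ^ 2 + Complex.I * (⟪x, v⟫ : ℂ)) := by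
    refine (amp_integrable (a := fun v : X n => Real.exp (-(1 / 4 * ‖v‖ ^ 2))) (C := 1) (by fun_prop) 0
      fun v => by simp).mono' (by fun_prop) (.of_forall fun v => le_of_eq ?_)
    rw [Complex.norm_exp]
    simp [← Complex.ofReal_pow]
  have h' := congrArg Complex.re h
  rw [← Complex.reCLM_apply, ← Complex.reCLM.integral_comp_comm hint] at h'
  simp only [Complex.reCLM_apply] at h'
  have e1 : ∀ v : X n, Complex.re (Complex.exp (-((1 / 4 : ℝ) : ℂ) * (‖v‖ : ℂ) ^ 2 + Complex.I * (⟪x, v⟫ : ℂ)))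
      = Real.exp (-(1 / 4 * ‖v‖ ^ 2)) * Real.cos ⟪x, v⟫ := fun v => by
    simp [Complex.exp_re, ← Complex.ofReal_pow]
  have e2 : ((Real.pi : ℂ) / ((1 / 4 : ℝ) : ℂ)) ^ (((Module.finrank ℝ (X n) : ℕ) : ℂ) / 2) *
      Complex.exp (Complex.I ^ 2 * (‖x‖ : ℂ) ^ 2 / (4 * ((1 / 4 : ℝ) : ℂ)))
      = (((4 * Real.pi) ^ ((n : ℝ) / 2) * Real.exp (-‖x‖ ^ 2) : ℝ) : ℂ) := by
    rw [finrank_euclideanSpace_fin, Complex.ofReal_mul, Complex.ofReal_cpow (by positivity),
      Complex.ofReal_exp]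
    push_cast
    rw [Complex.I_sq]
    congr 1
    · congr 1; ring
    · congr 1; ring
  simp only [e1, e2, Complex.ofReal_re] at h'
  simp only [wave, add_zero, mul_assoc, integral_const_mul, h', Kg, gauss]
  field_simp

/-- The amplitude of a mixed second derivative of the Gaussian. -/
def amp (v w : X n) (ξ : X n) : ℝ := -(Kg n * Real.exp (-(1 / 4 * ‖ξ‖ ^ 2)) * ⟪w, ξ⟫ * ⟪v, ξ⟫)

theorem amp_le (v w : X n) (ξ : X n) :
    |amp v w ξ| ≤ Kg n * ‖w‖ * ‖v‖ * ((1 + ‖ξ‖) ^ 2 * Real.exp (-(1 / 4 * ‖ξ‖ ^ 2))) := by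
  have hK : 0 ≤ Kg n := inv_nonneg.2 (by positivity)
  rw [amp, abs_neg, abs_mul, abs_mul, abs_mul, abs_of_nonneg hK, Real.abs_exp]
  calc Kg n * Real.exp (-(1 / 4 * ‖ξ‖ ^ 2)) * |⟪w, ξ⟫| * |⟪v, ξ⟫|
      ≤ Kg n * Real.exp (-(1 / 4 * ‖ξ‖ ^ 2)) * (‖w‖ * (1 + ‖ξ‖)) * (‖v‖ * (1 + ‖ξ‖)) := by
        gcongr
        · exact (abs_real_inner_le_norm w ξ).trans (by gcongr; linarith)
        · exact (abs_real_inner_le_norm v ξ).trans (by gcongr; linarith)
    _ = _ := by ring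

theorem amp_continuous (v w : X n) : Continuous (amp v w) := by unfold amp; fun_prop

/-- The test function. -/
def g2 (v w : X n) (x : X n) : ℝ := fderiv ℝ (fun z => fderiv ℝ gauss z w) x v

theorem g2_rapid (v w : X n) : Rapid (g2 v w) := (gauss_rapid.dd w).dd v

theorem g2_eq (v w : X n) : g2 v w = osc (amp v w) := by
  have hK : 0 ≤ Kg n := inv_nonneg.2 (by positivity)
  set a : X n → ℝ := fun ξ => Kg n * Real.exp (-(1 / 4 * ‖ξ‖ ^ 2)) with ha
  have i0 : Integrable a := amp_integrable (C := Kg n) (by fun_prop) 0 fun ξ => by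
    simp [ha, abs_of_nonneg hK]
  have i1 : Integrable fun ξ => a ξ * ⟪w, ξ⟫ :=
    amp_integrable (C := Kg n * ‖w‖) (by fun_prop) 1 fun ξ => by
      rw [abs_mul, ha, abs_mul, abs_of_nonneg hK, Real.abs_exp, pow_one]
      calc Kg n * Real.exp (-(1 / 4 * ‖ξ‖ ^ 2)) * |⟪w, ξ⟫|
          ≤ Kg n * Real.exp (-(1 / 4 * ‖ξ‖ ^ 2)) * (‖w‖ * (1 + ‖ξ‖)) := by
            gcongr; exact (abs_real_inner_le_norm w ξ).trans (by gcongr; linarith)
        _ = _ := by ring
  have i2 : Integrable fun ξ => a ξ * ⟪w, ξ⟫ * ⟪v, ξ⟫ :=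
    amp_integrable (by fun_prop) 2 fun ξ => by simpa [amp, ha] using amp_le v w ξ
  funext x
  rw [g2, wave_deriv i1 v i2 (0 + Real.pi / 2) ((gauss_rapid.dd w).1.differentiable (by simp))
    (wave_deriv i0 w i1 0 (gauss_rapid.1.differentiable (by simp)) gauss_wave) x]
  simp only [wave, osc, amp, ha, zero_add, add_halves, Real.cos_add_pi]
  exact integral_congr_ae (.of_forall fun ξ => by ring)

theorem amp_norm_integrable (v w : X n) (m : ℕ) :
    Integrable fun ξ => (1 + ‖ξ‖) ^ m * |amp v w ξ| := by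
  refine amp_integrable (by have := amp_continuous v w; fun_prop) (C := Kg n * ‖w‖ * ‖v‖) (m + 2) fun ξ => ?_
  rw [abs_mul, abs_abs, abs_of_nonneg (by positivity)]
  refine (mul_le_mul_of_nonneg_left (amp_le v w ξ) (by positivity)).trans (le_of_eq ?_)
  rw [pow_add]; ring

theorem lap_g2 (hn : 0 < n) {c : ℝ} (hc : ∀ ξ : X n, symbol ξ = c * ‖ξ‖) (v w : X n) (x : X n) :
    lap (g2 v w) x = ∫ ξ, c * ‖ξ‖ * amp v w ξ * Real.cos ⟪x, ξ⟫ := by
  have i : Integrable (amp v w) :=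
    amp_integrable (amp_continuous v w) 2 (amp_le v w)
  rw [g2_eq, lap_osc hn i (amp_norm_integrable v w 2) x, osc]
  simp only [hc]

/-- The action of `lap` at the scale `q`. -/
theorem lap_g2_scale (hn : 0 < n) {c : ℝ} (hc : ∀ ξ : X n, symbol ξ = c * ‖ξ‖) (v w : X n)
    {s : ℝ} (hs : 0 < s) (x : X n) :
    lap (g2 v w) ((Real.sqrt (1 + s))⁻¹ • x) = Real.sqrt (1 + s) ^ (n + 3) *
      ∫ ξ, c * ‖ξ‖ * amp v w ξ * Real.exp (-(‖ξ‖ ^ 2 / 4 * s)) * Real.cos ⟪x, ξ⟫ := by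
  set q := Real.sqrt (1 + s)
  have hq : 0 < q := by positivity
  have hq2 : q ^ 2 = 1 + s := Real.sq_sqrt (by linarith)
  rw [lap_g2 hn hc]
  have h := Measure.integral_comp_smul volume
    (fun ξ : X n => c * ‖ξ‖ * amp v w ξ * Real.cos ⟪q⁻¹ • x, ξ⟫) q
  rw [finrank_euclideanSpace_fin, smul_eq_mul, abs_of_pos (by positivity)] at h
  have e : ∀ ξ : X n, c * ‖q • ξ‖ * amp v w (q • ξ) * Real.cos ⟪q⁻¹ • x, q • ξ⟫ =
      q ^ 3 * (c * ‖ξ‖ * amp v w ξ * Real.exp (-(‖ξ‖ ^ 2 / 4 * s)) * Real.cos ⟪x, ξ⟫) := fun ξ => by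
    simp only [amp, norm_smul, Real.norm_of_nonneg hq.le, inner_smul_right, real_inner_smul_left,
      mul_pow, hq2, ← mul_assoc, mul_inv_cancel₀ hq.ne', one_mul]
    rw [show -(1 / 4 * (1 + s) * ‖ξ‖ ^ 2) = -(1 / 4 * ‖ξ‖ ^ 2) + -(‖ξ‖ ^ 2 / 4 * s) by ring,
      Real.exp_add]
    ring
  simp only [e, integral_const_mul] at h
  rw [pow_add]
  rw [mul_assoc, h, ← mul_assoc, mul_inv_cancel₀ (pow_ne_zero n hq.ne'), one_mul]

theorem gamma_half {ρ : ℝ} (hρ : 0 < ρ) :
    ∫ s in Ioi (0 : ℝ), s ^ (-(1 / 2) : ℝ) * Real.exp (-(ρ ^ 2 / 4 * s)) = 2 * Real.sqrt Real.pi / ρ := by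
  have h := Real.integral_rpow_mul_exp_neg_mul_Ioi (a := 1 / 2) (r := ρ ^ 2 / 4) (by norm_num) (by positivity)
  norm_num at h ⊢
  rw [h, Real.Gamma_one_half_eq, ← Real.sqrt_eq_rpow, Real.sqrt_div' _ (sq_nonneg ρ),
    Real.sqrt_sq hρ.le, show (4 : ℝ) = 2 ^ 2 by norm_num, Real.sqrt_sq zero_le_two]
  ring

theorem gamma_half_integrable {ρ : ℝ} (hρ : 0 < ρ) :
    IntegrableOn (fun s : ℝ => s ^ (-(1 / 2) : ℝ) * Real.exp (-(ρ ^ 2 / 4 * s))) (Ioi 0) :=
  Integrable.of_integral_ne_zero (by rw [gamma_half hρ]; positivity)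

theorem gamma_half_all (r : ℝ) (hr : 0 ≤ r) :
    (∫ s in Ioi (0 : ℝ), s ^ (-(1 / 2) : ℝ) * Real.exp (-(r ^ 2 / 4 * s))) * r
      = if r = 0 then 0 else 2 * Real.sqrt Real.pi := by
  rcases hr.eq_or_lt with rfl | h
  · simp
  · rw [gamma_half h, if_neg h.ne']; field_simp

/-- The reproducing identity of the test function. -/
theorem g2_repr (hn : 0 < n) {c : ℝ} (hc : ∀ ξ : X n, symbol ξ = c * ‖ξ‖) (v w : X n) (x : X n) :
    ∫ s in Ioi (0 : ℝ), s ^ (-(1 / 2) : ℝ) * (Real.sqrt (1 + s) ^ (n + 3))⁻¹ *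
      lap (g2 v w) ((Real.sqrt (1 + s))⁻¹ • x) = 2 * Real.sqrt Real.pi * c * g2 v w x := by
  set f : ℝ → X n → ℝ := fun s ξ => s ^ (-(1 / 2) : ℝ) *
    (c * ‖ξ‖ * amp v w ξ * Real.exp (-(‖ξ‖ ^ 2 / 4 * s)) * Real.cos ⟪x, ξ⟫) with hf
  have hm : Measurable (Function.uncurry f) := by
    have := amp_continuous v w
    simp only [hf, Function.uncurry_def]
    exact (measurable_fst.pow_const _).mul (by fun_prop : Continuous fun p : ℝ × X n =>
      c * ‖p.2‖ * amp v w p.2 * Real.exp (-(‖p.2‖ ^ 2 / 4 * p.1)) * Real.cos ⟪x, p.2⟫).measurable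
  have hsec : ∀ ξ : X n, ξ ≠ 0 → IntegrableOn (fun s => f s ξ) (Ioi 0) := fun ξ hξ =>
    IntegrableOn.congr_fun ((gamma_half_integrable (norm_pos_iff.2 hξ)).const_mul
      (c * ‖ξ‖ * amp v w ξ * Real.cos ⟪x, ξ⟫)) (fun s _ => by simp only [hf]; ring)
      measurableSet_Ioi
  have hint : Integrable (Function.uncurry f) ((volume.restrict (Ioi 0)).prod volume) := by
    refine (integrable_prod_iff' hm.aestronglyMeasurable).2 ⟨.of_forall fun ξ => ?_, ?_⟩
    · rcases eq_or_ne ξ 0 with rfl | hξ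
      · simp [hf]
      · exact hsec ξ hξ
    · refine (((amp_norm_integrable v w 0).const_mul (2 * Real.sqrt Real.pi * |c|))).mono'
        hm.aestronglyMeasurable.norm.prod_swap.integral_prod_right' (.of_forall fun ξ => ?_)
      rw [Real.norm_of_nonneg (integral_nonneg fun _ => norm_nonneg _), pow_zero, one_mul]
      calc ∫ s in Ioi (0 : ℝ), ‖Function.uncurry f (s, ξ)‖
          = ∫ s in Ioi (0 : ℝ), |c * amp v w ξ * Real.cos ⟪x, ξ⟫| * ‖ξ‖ *
              (s ^ (-(1 / 2) : ℝ) * Real.exp (-(‖ξ‖ ^ 2 / 4 * s))) :=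
            setIntegral_congr_fun measurableSet_Ioi fun s (hs : 0 < s) => by
              simp only [Function.uncurry_apply_pair, hf, Real.norm_eq_abs, abs_mul, abs_norm,
                Real.abs_exp, abs_of_pos (Real.rpow_pos_of_pos hs _)]
              ring
        _ = |c * amp v w ξ * Real.cos ⟪x, ξ⟫| * (if ‖ξ‖ = 0 then 0 else 2 * Real.sqrt Real.pi) := by
            rw [integral_const_mul, mul_assoc, mul_comm ‖ξ‖, gamma_half_all _ (norm_nonneg ξ)]
        _ ≤ |c| * |amp v w ξ| * 1 * (2 * Real.sqrt Real.pi) := by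
            rw [abs_mul, abs_mul]
            refine mul_le_mul (mul_le_mul_of_nonneg_left (Real.abs_cos_le_one _) (by positivity)) ?_ ?_
              (by positivity)
            · split_ifs
              · positivity
              · exact le_rfl
            · split_ifs
              · exact le_rfl
              · positivity
        _ = _ := by ring
  calc ∫ s in Ioi (0 : ℝ), s ^ (-(1 / 2) : ℝ) * (Real.sqrt (1 + s) ^ (n + 3))⁻¹ *
        lap (g2 v w) ((Real.sqrt (1 + s))⁻¹ • x)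
      = ∫ s in Ioi (0 : ℝ), ∫ ξ, f s ξ := setIntegral_congr_fun measurableSet_Ioi fun s (hs : 0 < s) => by
        have : Real.sqrt (1 + s) ^ (n + 3) ≠ 0 := by positivity
        simp only [hf]
        rw [lap_g2_scale hn hc v w hs x, integral_const_mul, mul_assoc, inv_mul_cancel_left₀ this]
    _ = ∫ ξ, ∫ s in Ioi (0 : ℝ), f s ξ := integral_integral_swap hint
    _ = ∫ ξ, 2 * Real.sqrt Real.pi * c * (amp v w ξ * Real.cos ⟪x, ξ⟫) := by
        refine integral_congr_ae (.of_forall fun ξ => ?_)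
        calc ∫ s in Ioi (0 : ℝ), f s ξ
            = ∫ s in Ioi (0 : ℝ), c * amp v w ξ * Real.cos ⟪x, ξ⟫ * ‖ξ‖ *
                (s ^ (-(1 / 2) : ℝ) * Real.exp (-(‖ξ‖ ^ 2 / 4 * s))) :=
              setIntegral_congr_fun measurableSet_Ioi fun s _ => by simp only [hf]; ring
          _ = c * amp v w ξ * Real.cos ⟪x, ξ⟫ * (if ‖ξ‖ = 0 then 0 else 2 * Real.sqrt Real.pi) := by
              rw [integral_const_mul, mul_assoc _ ‖ξ‖, mul_comm ‖ξ‖, gamma_half_all _ (norm_nonneg ξ)]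
          _ = _ := by
              rcases eq_or_ne ξ 0 with rfl | hξ
              · simp [amp]
              · rw [if_neg (norm_ne_zero_iff.2 hξ)]; ring
    _ = _ := by rw [integral_const_mul, g2_eq]; rfl

theorem kernel_time_integrable :
    IntegrableOn (fun s : ℝ => s ^ (-(1 / 2) : ℝ) * (1 + s) ^ (-(5 / 8) : ℝ)) (Ioi 0) := by
  have hm : Measurable fun s : ℝ => s ^ (-(1 / 2) : ℝ) * (1 + s) ^ (-(5 / 8) : ℝ) :=
    (measurable_id.pow_const _).mul ((measurable_id.const_add 1).pow_const _)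
  rw [← Ioc_union_Ioi_eq_Ioi (zero_le_one (α := ℝ))]
  refine IntegrableOn.union ?_ ?_
  · have h : IntegrableOn (fun s : ℝ => s ^ (-(1 / 2) : ℝ)) (Ioc 0 1) := by
      rw [← intervalIntegrable_iff_integrableOn_Ioc_of_le zero_le_one]
      exact intervalIntegral.intervalIntegrable_rpow' (by norm_num)
    refine h.mono' hm.aestronglyMeasurable (ae_restrict_of_forall_mem measurableSet_Ioc fun s hs => ?_)
    have h0 : 0 < s := hs.1
    rw [Real.norm_of_nonneg (by positivity)]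
    exact mul_le_of_le_one_right (by positivity)
      (Real.rpow_le_one_of_one_le_of_nonpos (by linarith) (by norm_num))
  · refine (integrableOn_Ioi_rpow_of_lt (show (-(9 / 8) : ℝ) < -1 by norm_num) one_pos).mono'
      hm.aestronglyMeasurable (ae_restrict_of_forall_mem measurableSet_Ioi fun s hs => ?_)
    have h0 : (0 : ℝ) < s := zero_lt_one.trans hs
    rw [Real.norm_of_nonneg (by positivity), show (-(9 / 8) : ℝ) = -(1 / 2) + -(5 / 8) by norm_num,
      Real.rpow_add h0]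
    exact mul_le_mul_of_nonneg_left (Real.rpow_le_rpow_of_nonpos h0 (by linarith) (by norm_num))
      (by positivity)

/-- Every function of the class annihilates the test functions. -/
theorem Cls.g2_zero (hn : 0 < n) {u : X n → ℝ} (hu : Cls u) (v w : X n) :
    ∫ x, u x * g2 v w x = 0 := by
  obtain ⟨c, hc0, hc⟩ := symbol_eq (n := n) hn
  obtain ⟨A, hA⟩ := (g2_rapid v w).bd
  have hA0 : ∫ x, g2 v w x = 0 := (gauss_rapid.dd w).integral_dd v
  obtain ⟨C₁, hC₁⟩ := lap_decay (n := n) hn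
  obtain ⟨C₂, hC₂0, hC₂⟩ := hu.1.weight
  have hCA : 0 ≤ C₁ * A := by
    have := (abs_nonneg _).trans (hC₁ _ _ hA hA0 0)
    simpa using this
  set q : ℝ → ℝ := fun s => Real.sqrt (1 + s) with hq
  set f : X n → ℝ → ℝ := fun x s =>
    u x * (s ^ (-(1 / 2) : ℝ) * (q s ^ (n + 3))⁻¹ * lap (g2 v w) ((q s)⁻¹ • x)) with hf
  have hm : Measurable (Function.uncurry f) := by
    simp only [hf, hq, Function.uncurry_def]
    refine (hu.1.1.comp measurable_fst).mul (((measurable_snd.pow_const _).mul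
      ((Real.continuous_sqrt.measurable.comp (measurable_snd.const_add 1)).pow_const _).inv).mul ?_)
    exact (lap_measurable (g2_rapid v w).1.continuous).measurable.comp
      (((Real.continuous_sqrt.measurable.comp (measurable_snd.const_add 1)).inv).smul measurable_fst)
  have hq1 : ∀ s : ℝ, 0 < s → 1 ≤ q s := fun s hs =>
    Real.one_le_sqrt.2 (by linarith)
  have hsl : ∀ s : ℝ, 0 < s → Integrable (fun x => f x s) ∧ ∫ x, ‖f x s‖ ≤
      C₁ * A * C₂ * (s ^ (-(1 / 2) : ℝ) * (1 + s) ^ (-(5 / 8) : ℝ)) := fun s hs => by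
    have h1 := hq1 s hs
    have hpt : ∀ x, ‖f x s‖ ≤ s ^ (-(1 / 2) : ℝ) * (q s ^ (n + 3))⁻¹ * (C₁ * A) * (|u x| * wt (q s) x) :=
      fun x => by
      have hb := hC₁ _ _ hA hA0 ((q s)⁻¹ • x)
      rw [norm_smul, Real.norm_of_nonneg (by positivity : 0 ≤ (q s)⁻¹), ← div_eq_inv_mul] at hb
      simp only [hf, Real.norm_eq_abs, abs_mul, abs_inv, abs_pow, abs_of_nonneg (by linarith : 0 ≤ q s),
        abs_of_pos (Real.rpow_pos_of_pos hs _), wt]
      calc |u x| * (s ^ (-(1 / 2) : ℝ) * (q s ^ (n + 3))⁻¹ * |lap (g2 v w) ((q s)⁻¹ • x)|)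
          ≤ |u x| * (s ^ (-(1 / 2) : ℝ) * (q s ^ (n + 3))⁻¹ * (C₁ * A / (1 + ‖x‖ / q s) ^ (n + 2))) := by
            gcongr
        _ = _ := by ring
    have hi : Integrable fun x => |u x| * wt (q s) x := by
      refine (hC₂ _ h1).1.norm.congr (.of_forall fun x => ?_)
      simp only [Real.norm_eq_abs, abs_mul, abs_of_nonneg (wt_nonneg (by linarith : (0 : ℝ) ≤ q s) x)]
    have hint : Integrable fun x => f x s :=
      (hi.const_mul _).mono' (hm.comp measurable_prodMk_right).aestronglyMeasurable (.of_forall hpt)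
    refine ⟨hint, (integral_mono hint.norm (hi.const_mul _) hpt).trans ?_⟩
    rw [integral_const_mul]
    refine (mul_le_mul_of_nonneg_left (hC₂ _ h1).2 (by positivity)).trans (le_of_eq ?_)
    have e : (q s ^ (n + 3))⁻¹ * q s ^ ((n : ℝ) + 7 / 4) = (1 + s) ^ (-(5 / 8) : ℝ) := by
      rw [← Real.rpow_natCast, ← Real.rpow_neg (by linarith), ← Real.rpow_add (by linarith)]
      simp only [hq]
      rw [Real.sqrt_eq_rpow, ← Real.rpow_mul (by linarith)]
      congr 1
      push_cast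
      ring
    rw [← e]
    ring
  have hint : Integrable (Function.uncurry f) (volume.prod (volume.restrict (Ioi 0))) := by
    refine (integrable_prod_iff' hm.aestronglyMeasurable).2
      ⟨ae_restrict_of_forall_mem measurableSet_Ioi fun s hs => (hsl s hs).1, ?_⟩
    refine (kernel_time_integrable.const_mul (C₁ * A * C₂)).mono'
      hm.aestronglyMeasurable.norm.prod_swap.integral_prod_right'
      (ae_restrict_of_forall_mem measurableSet_Ioi fun s hs => ?_)
    rw [Real.norm_of_nonneg (integral_nonneg fun _ => norm_nonneg _)]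
    exact (hsl s hs).2
  have key : ∫ x, ∫ s in Ioi (0 : ℝ), f x s = 0 := by
    rw [integral_integral_swap hint]
    refine setIntegral_eq_zero_of_forall_eq_zero fun s (hs : 0 < s) => ?_
    have h1 := hq1 s hs
    have h0 : 0 < q s := by linarith
    have h2 := Cls.pair hn (hu.affine h0 0) (gauss_rapid.dd w) v
    simp only [add_zero] at h2
    have h3 := Measure.integral_comp_smul volume (fun x => u x * lap (g2 v w) ((q s)⁻¹ • x)) (q s)
    simp only [smul_smul, inv_mul_cancel₀ h0.ne', one_smul, finrank_euclideanSpace_fin, smul_eq_mul] at h3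
    unfold g2 at h3
    rw [h2] at h3
    have h4 : ∫ x, u x * lap (g2 v w) ((q s)⁻¹ • x) = 0 := by
      rcases mul_eq_zero.1 h3.symm with h | h
      · simp [h0.ne'] at h
      · exact h
    calc ∫ x, f x s = s ^ (-(1 / 2) : ℝ) * (q s ^ (n + 3))⁻¹ *
          ∫ x, u x * lap (g2 v w) ((q s)⁻¹ • x) := by
          rw [← integral_const_mul]
          exact integral_congr_ae (.of_forall fun x => by simp only [hf]; ring)
      _ = 0 := by rw [h4, mul_zero]
  have e : ∀ x, ∫ s in Ioi (0 : ℝ), f x s = 2 * Real.sqrt Real.pi * c * (u x * g2 v w x) := fun x => by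
    simp only [hf, hq]
    rw [integral_const_mul, g2_repr hn hc v w x]
    ring
  simp only [e, integral_const_mul] at key
  have : 2 * Real.sqrt Real.pi * c ≠ 0 := by positivity
  exact (mul_eq_zero.1 key).resolve_left this

end

end Vale.Agent.P120.Full.Liou
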