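import Mathlib

/-!
# P120, module C: the operator of order one with kernel `‖h‖ ^ (-(n + 1))`

Bounds for the symmetrised second difference operator on rapidly decreasing mean-zero functions and
its action on cosine waves.
-/

namespace Vale.Agent.P120.Full.Liou

open MeasureTheory Set Filter Metric
open scoped Topology RealInnerProductSpace SchwartzMap ContDiff

noncomputable section

/-- The euclidean space of dimension `n`. -/
abbrev X (n : ℕ) := EuclideanSpace ℝ (Fin n)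

variable {n : ℕ}

/-- The symmetric second difference. -/
def d2 (φ : X n → ℝ) (x h : X n) : ℝ := 2 * φ x - φ (x + h) - φ (x - h)

/-- The operator of order one. -/
def lap (φ : X n → ℝ) (x : X n) : ℝ := ∫ h, d2 φ x h / ‖h‖ ^ (n + 1)

/-- The kernel without its singularity. -/
def kfar (ρ : ℝ) (h : X n) : ℝ := (max ‖h‖ ρ)⁻¹ ^ (n + 1)

/-- The kernel near the origin, times the square of the distance. -/
def knear (ρ : ℝ) (h : X n) : ℝ :=
  (closedBall (0 : X n) ρ).indicator (fun h => ‖h‖ ^ 2 / ‖h‖ ^ (n + 1)) h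

/-- Rapid decrease of a function and of its second derivative. -/
structure Bd (φ : X n → ℝ) (A : ℝ) : Prop where
  contDiff : ContDiff ℝ 2 φ
  val : ∀ x, |φ x| * (1 + ‖x‖) ^ (n + 4) ≤ A
  der : ∀ x, ‖fderiv ℝ (fderiv ℝ φ) x‖ * (1 + ‖x‖) ^ (n + 4) ≤ A

theorem Bd.nonneg {φ : X n → ℝ} {A : ℝ} (h : Bd φ A) : 0 ≤ A :=
  le_trans (by positivity) (h.val 0)

theorem kfar_nonneg {ρ : ℝ} (hρ : 0 ≤ ρ) (h : X n) : 0 ≤ kfar ρ h :=
  pow_nonneg (inv_nonneg.2 (hρ.trans (le_max_right _ _))) _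

theorem knear_nonneg (ρ : ℝ) (h : X n) : 0 ≤ knear ρ h := indicator_nonneg (fun _ _ => by positivity) _

theorem kfar_continuous {ρ : ℝ} (hρ : 0 < ρ) : Continuous (kfar (n := n) ρ) :=
  ((continuous_norm.max continuous_const).inv₀ fun h => (lt_max_of_lt_right hρ).ne').pow _

theorem integrable_decay {m : ℕ} (hm : n < m) :
    Integrable fun x : X n => ((1 + ‖x‖) ^ m)⁻¹ := by
  have h := integrable_one_add_norm (E := X n) (μ := volume) (r := (m : ℝ))
    (by simpa using (Nat.cast_lt (α := ℝ)).2 hm)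
  refine h.congr (.of_forall fun x => ?_)
  simp only [Real.rpow_neg (by positivity : (0 : ℝ) ≤ 1 + ‖x‖), Real.rpow_natCast]

theorem kfar_integrable {ρ : ℝ} (hρ : 0 < ρ) : Integrable (kfar (n := n) ρ) := by
  refine ((integrable_decay (n := n) (Nat.lt_succ_self n)).const_mul (((1 + ρ) / ρ) ^ (n + 1))).mono'
    (kfar_continuous hρ).aestronglyMeasurable (.of_forall fun h => ?_)
  rw [Real.norm_of_nonneg (kfar_nonneg hρ.le h), kfar, inv_pow, ← div_eq_mul_inv,
    inv_le_iff_one_le_mul₀ (pow_pos (lt_max_of_lt_right hρ) _), div_mul_eq_mul_div, one_le_div (by positivity),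
    ← mul_pow]
  refine pow_le_pow_left₀ (by positivity) ?_ _
  rw [div_mul_eq_mul_div, le_div_iff₀ hρ]
  nlinarith [le_max_left ‖h‖ ρ, le_max_right ‖h‖ ρ, norm_nonneg h]

theorem knear_integrable (hn : 0 < n) (ρ : ℝ) : Integrable (knear (n := n) ρ) := by
  have : Nontrivial (X n) := Module.nontrivial_of_finrank_pos (R := ℝ) (by simpa using hn)
  have e : knear (n := n) ρ = fun h => (Iic ρ).indicator (fun y : ℝ => y ^ 2 / y ^ (n + 1)) ‖h‖ := by
    funext h
    by_cases hh : ‖h‖ ≤ ρ <;> simp [knear, hh]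
  rw [e, integrable_fun_norm_addHaar volume
    (f := (Iic ρ).indicator fun y : ℝ => y ^ 2 / y ^ (n + 1))]
  have hc : IntegrableOn ((Iic ρ).indicator fun _ : ℝ => (1 : ℝ)) (Ioi 0) := by
    rw [IntegrableOn, integrable_indicator_iff measurableSet_Iic, IntegrableOn,
      Measure.restrict_restrict measurableSet_Iic, Iic_inter_Ioi]
    exact (integrableOn_const (C := (1 : ℝ)) measure_Ioc_lt_top.ne)
  refine hc.congr_fun (fun y (hy : 0 < y) => ?_) measurableSet_Ioi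
  by_cases h : y ≤ ρ
  · rw [smul_eq_mul, indicator_of_mem (show y ∈ Iic ρ from h),
      indicator_of_mem (show y ∈ Iic ρ from h)]
    obtain ⟨m, rfl⟩ : ∃ m, n = m + 1 := ⟨n - 1, by omega⟩
    simp only [finrank_euclideanSpace_fin, Nat.add_sub_cancel]
    field_simp
    ring
  · rw [smul_eq_mul, indicator_of_notMem (show y ∉ Iic ρ from h),
      indicator_of_notMem (show y ∉ Iic ρ from h), mul_zero]

theorem integral_kfar {ρ : ℝ} (hρ : 0 < ρ) :
    ∫ h : X n, kfar ρ h = ρ⁻¹ * ∫ h : X n, kfar 1 h := by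
  have e : ∀ h : X n, kfar ρ (ρ • h) = ρ⁻¹ ^ (n + 1) * kfar 1 h := fun h => by
    rw [kfar, kfar, norm_smul, Real.norm_of_nonneg hρ.le, ← mul_pow, ← mul_inv,
      mul_max_of_nonneg _ _ hρ.le, mul_one]
  have h := Measure.integral_comp_smul volume (fun h : X n => kfar ρ h) ρ
  simp only [e, finrank_euclideanSpace_fin, smul_eq_mul, integral_const_mul] at h
  rw [abs_of_pos (by positivity), inv_pow] at h
  linear_combination (norm := (field_simp; ring)) (-ρ ^ n) * h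

theorem integral_knear {ρ : ℝ} (hρ : 0 < ρ) :
    ∫ h : X n, knear ρ h = ρ * ∫ h : X n, knear 1 h := by
  have e : ∀ h : X n, knear ρ (ρ • h) = ρ ^ 2 / ρ ^ (n + 1) * knear 1 h := fun h => by
    have hiff : ρ • h ∈ closedBall (0 : X n) ρ ↔ h ∈ closedBall (0 : X n) 1 := by
      simp [norm_smul, abs_of_pos hρ, hρ]
    by_cases hh : h ∈ closedBall (0 : X n) 1
    · rw [knear, knear, indicator_of_mem (hiff.2 hh), indicator_of_mem hh, norm_smul,
        Real.norm_of_nonneg hρ.le, mul_pow, mul_pow, mul_div_mul_comm]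
    · rw [knear, knear, indicator_of_notMem (hh ∘ hiff.1), indicator_of_notMem hh, mul_zero]
  have h := Measure.integral_comp_smul volume (fun h : X n => knear ρ h) ρ
  simp only [e, finrank_euclideanSpace_fin, smul_eq_mul, integral_const_mul] at h
  rw [abs_of_pos (by positivity)] at h
  linear_combination (norm := (field_simp; ring)) (-ρ ^ n) * h

theorem kfar_lipschitz {ρ : ℝ} (hρ : 0 < ρ) (a b : X n) :
    |kfar ρ a - kfar ρ b| ≤ (n + 1) * ρ⁻¹ ^ (n + 2) * ‖a - b‖ := by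
  set p := max ‖a‖ ρ
  set q := max ‖b‖ ρ
  have hp : ρ ≤ p := le_max_right _ _
  have hq : ρ ≤ q := le_max_right _ _
  have hp0 := hρ.trans_le hp
  have hq0 := hρ.trans_le hq
  have h1 : |p⁻¹ - q⁻¹| ≤ ρ⁻¹ ^ 2 * ‖a - b‖ := by
    rw [inv_sub_inv hp0.ne' hq0.ne', abs_div, abs_of_pos (mul_pos hp0 hq0), inv_pow, ← div_eq_inv_mul]
    refine div_le_div₀ (norm_nonneg _) ?_ (by positivity) (by rw [sq]; gcongr)
    refine (abs_max_sub_max_le_max _ _ _ _).trans (max_le ?_ (by simp))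
    rw [norm_sub_rev]; exact abs_norm_sub_norm_le b a
  have h2 := abs_pow_sub_pow_le p⁻¹ q⁻¹ (n + 1)
  refine h2.trans ?_
  have h3 : max |p⁻¹| |q⁻¹| ≤ ρ⁻¹ := max_le (by rw [abs_of_pos (inv_pos.2 hp0)]; gcongr)
    (by rw [abs_of_pos (inv_pos.2 hq0)]; gcongr)
  have h4 : max |p⁻¹| |q⁻¹| ^ n ≤ ρ⁻¹ ^ n := pow_le_pow_left₀ (le_max_of_le_left (abs_nonneg _)) h3 n
  rw [show n + 1 - 1 = n by omega]
  push_cast
  calc |p⁻¹ - q⁻¹| * ((n : ℝ) + 1) * max |p⁻¹| |q⁻¹| ^ n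
      ≤ ρ⁻¹ ^ 2 * ‖a - b‖ * ((n : ℝ) + 1) * ρ⁻¹ ^ n := by gcongr
    _ = ((n : ℝ) + 1) * ρ⁻¹ ^ (n + 2) * ‖a - b‖ := by ring

theorem kfar_comm (ρ : ℝ) (a b : X n) : kfar ρ (a - b) = kfar ρ (b - a) := by
  rw [kfar, kfar, norm_sub_rev]

theorem kfar_neg (ρ : ℝ) (a : X n) : kfar ρ (-a) = kfar ρ a := by
  rw [kfar, kfar, norm_neg]

/-- The second difference is controlled by the second derivative. -/
theorem d2_le {φ : X n → ℝ} (hφ : ContDiff ℝ 2 φ) {x h : X n} {B : ℝ}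
    (hB : ∀ z ∈ closedBall x ‖h‖, ‖fderiv ℝ (fderiv ℝ φ) z‖ ≤ B) : |d2 φ x h| ≤ 2 * B * ‖h‖ ^ 2 := by
  have hd : Differentiable ℝ φ := hφ.differentiable two_ne_zero
  have hd' : Differentiable ℝ (fderiv ℝ φ) := (hφ.fderiv_right le_rfl).differentiable one_ne_zero
  have hs : Convex ℝ (closedBall x ‖h‖) := convex_closedBall _ _
  have hx : x ∈ closedBall x ‖h‖ := mem_closedBall_self (norm_nonneg _)
  have h1 : ∀ z ∈ closedBall x ‖h‖, ‖fderiv ℝ φ z - fderiv ℝ φ x‖ ≤ B * ‖h‖ := fun z hz => by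
    refine (hs.norm_image_sub_le_of_norm_fderiv_le (fun y _ => hd' y) hB hx hz).trans ?_
    exact mul_le_mul_of_nonneg_left (by simpa [dist_eq_norm] using hz)
      (le_trans (norm_nonneg (fderiv ℝ (fderiv ℝ φ) x)) (hB x hx))
  have h2 : ∀ z ∈ closedBall x ‖h‖, ‖φ z - φ x - fderiv ℝ φ x (z - x)‖ ≤ B * ‖h‖ * ‖z - x‖ :=
    fun z hz => hs.norm_image_sub_le_of_norm_fderiv_le' (fun y _ => hd y) h1 hx hz
  have a := h2 (x + h) (by simp)
  have b := h2 (x - h) (by simp)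
  rw [add_sub_cancel_left, Real.norm_eq_abs] at a
  rw [sub_sub_cancel_left, map_neg, norm_neg, Real.norm_eq_abs] at b
  have e : d2 φ x h = -(φ (x + h) - φ x - fderiv ℝ φ x h) - (φ (x - h) - φ x - -fderiv ℝ φ x h) := by
    rw [d2]; ring
  rw [e]
  refine (abs_sub _ _).trans ?_
  rw [abs_neg]
  linarith

/-- Near bound for a rapidly decreasing function. -/
theorem Bd.d2_near {φ : X n → ℝ} {A : ℝ} (hφ : Bd φ A) {x h : X n}
    (hh : ‖h‖ ≤ (1 + ‖x‖) / 2) :
    |d2 φ x h| ≤ 2 * (A * 2 ^ (n + 4) / (1 + ‖x‖) ^ (n + 4)) * ‖h‖ ^ 2 := by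
  refine d2_le hφ.contDiff fun z hz => ?_
  rw [mem_closedBall, dist_eq_norm] at hz
  have h1 : (1 + ‖x‖) ≤ 2 * (1 + ‖z‖) := by linarith [norm_sub_norm_le x z, norm_sub_rev x z, norm_nonneg z]
  have h2 := hφ.der z
  rw [← le_div_iff₀ (by positivity)] at h2
  refine h2.trans ?_
  rw [div_le_div_iff₀ (by positivity) (by positivity)]
  calc A * (1 + ‖x‖) ^ (n + 4) ≤ A * (2 * (1 + ‖z‖)) ^ (n + 4) :=
        mul_le_mul_of_nonneg_left (pow_le_pow_left₀ (by positivity) h1 _) hφ.nonneg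
    _ = A * 2 ^ (n + 4) * (1 + ‖z‖) ^ (n + 4) := by rw [mul_pow]; ring

theorem Bd.abs_le {φ : X n → ℝ} {A : ℝ} (hφ : Bd φ A) (x : X n) :
    |φ x| ≤ A * ((1 + ‖x‖) ^ (n + 4))⁻¹ := by
  rw [← div_eq_mul_inv, le_div_iff₀ (by positivity)]; exact hφ.val x

theorem Bd.abs_le' {φ : X n → ℝ} {A : ℝ} (hφ : Bd φ A) (x : X n) : |φ x| ≤ A :=
  (hφ.abs_le x).trans (mul_le_of_le_one_right hφ.nonneg
    (inv_le_one_of_one_le₀ (one_le_pow₀ (by linarith [norm_nonneg x]))))

/-- The part of the kernel cut away near the origin. -/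
theorem kernel_split {ρ : ℝ} (hρ : 0 < ρ) (h : X n) (hh : h ≠ 0) :
    0 ≤ (‖h‖ ^ (n + 1))⁻¹ - kfar ρ h ∧ (ρ ≤ ‖h‖ → (‖h‖ ^ (n + 1))⁻¹ - kfar ρ h = 0) := by
  have h0 : 0 < ‖h‖ := norm_pos_iff.2 hh
  refine ⟨sub_nonneg.2 ?_, fun hle => by rw [kfar, max_eq_left hle, inv_pow, sub_self]⟩
  rw [kfar, inv_pow]
  exact inv_anti₀ (pow_pos h0 _) (pow_le_pow_left₀ h0.le (le_max_left _ _) _)

/-- The integrand of `lap` with the singular part bounded. -/
theorem Bd.split_le {φ : X n → ℝ} {A : ℝ} (hφ : Bd φ A) (x h : X n) :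
    |d2 φ x h / ‖h‖ ^ (n + 1) - d2 φ x h * kfar ((1 + ‖x‖) / 2) h|
      ≤ 2 * (A * 2 ^ (n + 4) / (1 + ‖x‖) ^ (n + 4)) * knear ((1 + ‖x‖) / 2) h := by
  set ρ := (1 + ‖x‖) / 2
  set B := A * 2 ^ (n + 4) / (1 + ‖x‖) ^ (n + 4)
  have hA := hφ.nonneg
  have hρ : 0 < ρ := by positivity
  rcases eq_or_ne h 0 with rfl | hh
  · rw [show d2 φ x 0 = 0 by rw [d2, add_zero, sub_zero]; ring]
    simp only [zero_div, zero_mul, sub_zero, abs_zero]
    exact mul_nonneg (by positivity) (knear_nonneg _ _)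
  obtain ⟨hs0, hs1⟩ := kernel_split hρ h hh
  rw [div_eq_mul_inv, ← mul_sub, abs_mul, abs_of_nonneg hs0]
  rcases le_or_gt ‖h‖ ρ with hle | hlt
  · rw [knear, indicator_of_mem (mem_closedBall_zero_iff.2 hle)]
    calc |d2 φ x h| * ((‖h‖ ^ (n + 1))⁻¹ - kfar ρ h)
        ≤ 2 * B * ‖h‖ ^ 2 * (‖h‖ ^ (n + 1))⁻¹ := mul_le_mul (hφ.d2_near hle)
          (sub_le_self _ (kfar_nonneg hρ.le h)) hs0 (by positivity)
      _ = 2 * B * (‖h‖ ^ 2 / ‖h‖ ^ (n + 1)) := by ring
  · rw [hs1 hlt.le, mul_zero]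
    exact mul_nonneg (by positivity) (knear_nonneg _ _)

/-- A dominating function for the integrand of `lap`, depending only on the bound. -/
theorem Bd.integrand_le {φ : X n → ℝ} {A : ℝ} (hφ : Bd φ A) (x h : X n) :
    |d2 φ x h / ‖h‖ ^ (n + 1)| ≤ 2 * (A * 2 ^ (n + 4) / (1 + ‖x‖) ^ (n + 4)) * knear ((1 + ‖x‖) / 2) h
      + 4 * A * kfar ((1 + ‖x‖) / 2) h := by
  have h1 := hφ.split_le x h
  have h2 : |d2 φ x h| ≤ 4 * A := by
    have := _root_.abs_le.1 (hφ.abs_le' x); have := _root_.abs_le.1 (hφ.abs_le' (x + h))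
    have := _root_.abs_le.1 (hφ.abs_le' (x - h))
    rw [d2, _root_.abs_le]; constructor <;> linarith
  have h3 : |d2 φ x h * kfar ((1 + ‖x‖) / 2) h| ≤ 4 * A * kfar ((1 + ‖x‖) / 2) h := by
    rw [abs_mul, abs_of_nonneg (kfar_nonneg (by positivity) h)]
    exact mul_le_mul_of_nonneg_right h2 (kfar_nonneg (by positivity) h)
  linarith [abs_sub_abs_le_abs_sub (d2 φ x h / ‖h‖ ^ (n + 1)) (d2 φ x h * kfar ((1 + ‖x‖) / 2) h)]

theorem d2_measurable {φ : X n → ℝ} (hφ : Continuous φ) :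
    Measurable fun p : X n × X n => d2 φ p.1 p.2 / ‖p.2‖ ^ (n + 1) := by
  have h1 : Continuous fun p : X n × X n => d2 φ p.1 p.2 := by unfold d2; fun_prop
  exact h1.measurable.div (measurable_snd.norm.pow_const _)

theorem lap_measurable {φ : X n → ℝ} (hφ : Continuous φ) : StronglyMeasurable (lap φ) :=
  StronglyMeasurable.integral_prod_right (f := fun x h => d2 φ x h / ‖h‖ ^ (n + 1))
    (d2_measurable hφ).stronglyMeasurable

theorem Bd.integrable (hn : 0 < n) {φ : X n → ℝ} {A : ℝ} (hφ : Bd φ A) (x : X n) :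
    Integrable fun h => d2 φ x h / ‖h‖ ^ (n + 1) :=
  (((knear_integrable hn _).const_mul _).add ((kfar_integrable (by positivity)).const_mul _)).mono'
    ((d2_measurable hφ.contDiff.continuous).comp measurable_prodMk_left).aestronglyMeasurable
    (.of_forall fun h => hφ.integrand_le x h)

/-- Decay of `lap` of a rapidly decreasing function with mean zero. -/
theorem lap_decay (hn : 0 < n) :
    ∃ C : ℝ, ∀ (φ : X n → ℝ) (A : ℝ), Bd φ A → ∫ y, φ y = 0 →
      ∀ x, |lap φ x| ≤ C * A / (1 + ‖x‖) ^ (n + 2) := by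
  set J := ∫ h : X n, knear 1 h
  set J' := ∫ h : X n, kfar 1 h
  set I₀ := ∫ y : X n, ((1 + ‖y‖) ^ (n + 3))⁻¹
  have hJ : 0 ≤ J := integral_nonneg (knear_nonneg 1)
  have hJ' : 0 ≤ J' := integral_nonneg (kfar_nonneg zero_le_one)
  have hI : 0 ≤ I₀ := integral_nonneg fun y => by positivity
  refine ⟨2 ^ (n + 4) * J + 4 * J' + 2 * ((n + 1) * 2 ^ (n + 2) * I₀), fun φ A hφ h0 x => ?_⟩
  have hA := hφ.nonneg
  set ρ := (1 + ‖x‖) / 2 with hρd
  set w := 1 + ‖x‖ with hw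
  set B := A * 2 ^ (n + 4) / w ^ (n + 4) with hB
  have hw1 : 1 ≤ w := by simp [hw]
  have hρ : 0 < ρ := by positivity
  have hdi := hφ.integrable hn x
  have hfi : Integrable fun h => d2 φ x h * kfar ρ h := by
    refine ((kfar_integrable hρ).const_mul (4 * A)).mono'
      ((show Continuous fun h => d2 φ x h by unfold d2; have := hφ.contDiff.continuous; fun_prop).mul
        (kfar_continuous hρ)).aestronglyMeasurable (.of_forall fun h => ?_)
    rw [Real.norm_eq_abs, abs_mul, abs_of_nonneg (kfar_nonneg hρ.le h)]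
    refine mul_le_mul_of_nonneg_right ?_ (kfar_nonneg hρ.le h)
    have := abs_le.1 (hφ.abs_le' x); have := abs_le.1 (hφ.abs_le' (x + h))
    have := abs_le.1 (hφ.abs_le' (x - h))
    rw [d2, _root_.abs_le]; constructor <;> linarith
  have hnear : |lap φ x - ∫ h, d2 φ x h * kfar ρ h| ≤ 2 * B * (ρ * J) := by
    rw [lap, ← integral_sub hdi hfi, ← integral_knear hρ, ← integral_const_mul, ← Real.norm_eq_abs]
    exact norm_integral_le_of_norm_le ((knear_integrable hn ρ).const_mul _)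
      (.of_forall fun h => hφ.split_le x h)
  have hφi : Integrable φ := ((integrable_decay (show n < n + 4 by omega)).const_mul A).mono'
    hφ.contDiff.continuous.aestronglyMeasurable (.of_forall fun y => hφ.abs_le y)
  have hK : ∀ y, |kfar ρ y| ≤ kfar ρ (0 : X n) := fun y => by
    rw [abs_of_nonneg (kfar_nonneg hρ.le y), kfar, kfar, norm_zero, max_eq_right hρ.le]
    exact pow_le_pow_left₀ (inv_nonneg.2 (hρ.le.trans (le_max_right _ _)))
      (inv_anti₀ hρ (le_max_right _ _)) _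
  have hki : ∀ c : X n, Integrable fun y => φ y * kfar ρ (y - c) := fun c => by
    refine (hφi.norm.mul_const (kfar ρ (0 : X n))).mono' (hφ.contDiff.continuous.mul
      ((kfar_continuous hρ).comp (continuous_id.sub continuous_const))).aestronglyMeasurable
      (.of_forall fun y => ?_)
    rw [norm_mul]
    exact mul_le_mul_of_nonneg_left (hK _) (norm_nonneg _)
  set Q := ∫ y, φ y * kfar ρ (y - x)
  have hfar : ∫ h, d2 φ x h * kfar ρ h = 2 * φ x * (ρ⁻¹ * J') - 2 * Q := by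
    have e1 : ∫ h, φ (x + h) * kfar ρ h = Q := by
      simpa [Q] using (integral_add_left_eq_self (μ := volume) (fun y => φ y * kfar ρ (y - x)) x)
    have e2 : ∫ h, φ (x - h) * kfar ρ h = Q := by
      rw [show Q = ∫ y, φ y * kfar ρ (x - y) by simp only [Q, kfar_comm ρ x],
        ← integral_sub_left_eq_self (fun y => φ y * kfar ρ (x - y)) volume x]
      simp
    have i1 : Integrable fun h => φ (x + h) * kfar ρ h := by
      simpa using (hki x).comp_add_left x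
    have i2 : Integrable fun h => φ (x - h) * kfar ρ h := by
      have := (hki x).comp_sub_left x
      simpa [kfar_neg] using this
    simp only [d2, sub_mul]
    rw [integral_sub (f := fun h => 2 * φ x * kfar ρ h - φ (x + h) * kfar ρ h)
        (((kfar_integrable hρ).const_mul _).sub i1) i2,
      integral_sub ((kfar_integrable hρ).const_mul _) i1, e1, e2, integral_const_mul, integral_kfar hρ]
    ring
  have hQ : |Q| ≤ (n + 1) * ρ⁻¹ ^ (n + 2) * (A * I₀) := by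
    have e : Q = ∫ y, φ y * (kfar ρ (y - x) - kfar ρ ((0 : X n) - x)) := by
      simp only [mul_sub]
      rw [integral_sub (hki x) (hφi.mul_const _), integral_mul_const, h0, zero_mul, sub_zero]
    rw [e, ← Real.norm_eq_abs, ← integral_const_mul A, ← integral_const_mul]
    refine norm_integral_le_of_norm_le (((integrable_decay (show n < n + 3 by omega)).const_mul A).const_mul _)
      (.of_forall fun y => ?_)
    rw [norm_mul, Real.norm_eq_abs, Real.norm_eq_abs]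
    have h1 := kfar_lipschitz (n := n) hρ (y - x) (0 - x)
    rw [sub_sub_sub_cancel_right, sub_zero] at h1
    refine (mul_le_mul (hφ.abs_le y) h1 (abs_nonneg _) (by positivity)).trans ?_
    rw [show ((1 + ‖y‖) ^ (n + 4))⁻¹ = ((1 + ‖y‖) ^ (n + 3))⁻¹ * (1 + ‖y‖)⁻¹ by
      rw [← mul_inv, ← pow_succ]]
    have h3 : (1 + ‖y‖)⁻¹ * ‖y‖ ≤ 1 := by
      rw [inv_mul_le_iff₀ (by positivity)]; linarith
    calc A * (((1 + ‖y‖) ^ (n + 3))⁻¹ * (1 + ‖y‖)⁻¹) * ((n + 1) * ρ⁻¹ ^ (n + 2) * ‖y‖)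
        = (n + 1) * ρ⁻¹ ^ (n + 2) * (A * ((1 + ‖y‖) ^ (n + 3))⁻¹) * ((1 + ‖y‖)⁻¹ * ‖y‖) := by ring
      _ ≤ _ := mul_le_of_le_one_right (by positivity) h3
  -- assembly
  have hwm : ∀ m : ℕ, n + 2 ≤ m → (w ^ m)⁻¹ ≤ (w ^ (n + 2))⁻¹ := fun m hm =>
    inv_anti₀ (by positivity) (pow_le_pow_right₀ hw1 hm)
  have t1 : 2 * B * (ρ * J) ≤ 2 ^ (n + 4) * J * A * (w ^ (n + 2))⁻¹ := by
    have e : 2 * B * (ρ * J) = 2 ^ (n + 4) * J * A * (w ^ (n + 3))⁻¹ := by
      rw [hB, hρd]; field_simp; ring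
    rw [e]
    exact mul_le_mul_of_nonneg_left (hwm _ (by omega)) (by positivity)
  have t2 : |2 * φ x * (ρ⁻¹ * J')| ≤ 4 * J' * A * (w ^ (n + 2))⁻¹ := by
    rw [abs_mul, abs_mul, abs_of_pos (two_pos (α := ℝ)), abs_of_nonneg (mul_nonneg (inv_nonneg.2 hρ.le) hJ')]
    calc 2 * |φ x| * (ρ⁻¹ * J') ≤ 2 * (A * (w ^ (n + 4))⁻¹) * (ρ⁻¹ * J') := by
          gcongr; exact hφ.abs_le x
      _ = 4 * J' * A * (w ^ (n + 5))⁻¹ := by rw [hρd]; field_simp; ring
      _ ≤ _ := mul_le_mul_of_nonneg_left (hwm _ (by omega)) (by positivity)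
  have t3 : |2 * Q| ≤ 2 * ((n + 1) * 2 ^ (n + 2) * I₀) * A * (w ^ (n + 2))⁻¹ := by
    rw [abs_mul, abs_of_pos (two_pos (α := ℝ))]
    refine (mul_le_mul_of_nonneg_left hQ zero_le_two).trans (le_of_eq ?_)
    rw [hρd, inv_div, div_pow]
    ring
  rw [div_eq_mul_inv]
  have t4 : |∫ h, d2 φ x h * kfar ρ h| ≤ |2 * φ x * (ρ⁻¹ * J')| + |2 * Q| := hfar ▸ abs_sub _ _
  linarith [abs_sub_abs_le_abs_sub (lap φ x) (∫ h, d2 φ x h * kfar ρ h)]

/-- The symbol of `lap`. -/
def symbol (ξ : X n) : ℝ := ∫ h, 2 * (1 - Real.cos ⟪h, ξ⟫) / ‖h‖ ^ (n + 1)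

theorem symbol_integrand_le (ξ h : X n) :
    |2 * (1 - Real.cos ⟪h, ξ⟫) / ‖h‖ ^ (n + 1)| ≤ (1 + ‖ξ‖) ^ 2 * (knear 1 h + 4 * kfar 1 h) := by
  have h0 : 0 ≤ 2 * (1 - Real.cos ⟪h, ξ⟫) := by linarith [Real.cos_le_one ⟪h, ξ⟫]
  rw [abs_of_nonneg (div_nonneg h0 (by positivity))]
  have hk := knear_nonneg 1 h
  have hf := kfar_nonneg zero_le_one h
  have hξ : 1 ≤ (1 + ‖ξ‖) ^ 2 := one_le_pow₀ (by linarith [norm_nonneg ξ])
  rcases le_or_gt ‖h‖ 1 with hle | hlt
  · refine le_trans ?_ (mul_le_mul_of_nonneg_left (le_add_of_nonneg_right (by positivity)) (by positivity))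
    rw [knear, indicator_of_mem (mem_closedBall_zero_iff.2 hle), mul_div_assoc']
    refine div_le_div_of_nonneg_right ?_ (by positivity)
    have h1 : |⟪h, ξ⟫| ≤ ‖h‖ * (1 + ‖ξ‖) :=
      (abs_real_inner_le_norm h ξ).trans (by nlinarith [norm_nonneg h])
    have h2 := pow_le_pow_left₀ (abs_nonneg _) h1 2
    rw [sq_abs, mul_pow] at h2
    linarith [Real.one_sub_sq_div_two_le_cos (x := ⟪h, ξ⟫)]
  · refine le_trans ?_ (le_mul_of_one_le_left (by positivity) hξ)
    rw [kfar, max_eq_left hlt.le, inv_pow, ← div_eq_mul_inv]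
    refine le_add_of_nonneg_of_le hk (div_le_div_of_nonneg_right ?_ (by positivity))
    linarith [Real.neg_one_le_cos ⟪h, ξ⟫]

theorem symbol_dom_integrable (hn : 0 < n) :
    Integrable fun h : X n => knear 1 h + 4 * kfar 1 h :=
  (knear_integrable hn 1).add ((kfar_integrable one_pos).const_mul 4)

theorem symbol_integrand_measurable :
    Measurable fun p : X n × X n => 2 * (1 - Real.cos ⟪p.1, p.2⟫) / ‖p.1‖ ^ (n + 1) :=
  ((by fun_prop : Continuous fun p : X n × X n => 2 * (1 - Real.cos ⟪p.1, p.2⟫))).measurable.div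
    (measurable_fst.norm.pow_const _)

theorem symbol_smul (ξ : X n) {t : ℝ} (ht : 0 < t) : symbol (t • ξ) = t * symbol ξ := by
  have h := Measure.integral_comp_smul volume
    (fun h : X n => 2 * (1 - Real.cos ⟪h, ξ⟫) / ‖h‖ ^ (n + 1)) t
  simp only [finrank_euclideanSpace_fin, smul_eq_mul] at h
  rw [symbol, symbol, abs_of_pos (by positivity)] at *
  have e : ∀ k : X n, 2 * (1 - Real.cos ⟪k, t • ξ⟫) / ‖k‖ ^ (n + 1)
      = t ^ (n + 1) * (2 * (1 - Real.cos ⟪t • k, ξ⟫) / ‖t • k‖ ^ (n + 1)) := fun k => by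
    rw [norm_smul, Real.norm_of_nonneg ht.le, mul_pow, inner_smul_right, real_inner_smul_left]
    field_simp
  simp only [e, integral_const_mul, h]
  field_simp
  ring

theorem symbol_isometry (e : X n ≃ₗᵢ[ℝ] X n) (ξ : X n) : symbol (e ξ) = symbol ξ := by
  rw [symbol, symbol, ← e.measurePreserving.integral_comp e.toHomeomorph.measurableEmbedding]
  simp

/-- The symbol is a positive multiple of the norm. -/
theorem symbol_eq (hn : 0 < n) : ∃ c : ℝ, 0 < c ∧ ∀ ξ : X n, symbol ξ = c * ‖ξ‖ := by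
  set e₀ : X n := EuclideanSpace.single ⟨0, hn⟩ 1
  have he : ‖e₀‖ = 1 := by simp [e₀]
  refine ⟨symbol e₀, ?_, fun ξ => ?_⟩
  · have hnn : ∀ h : X n, 0 ≤ 2 * (1 - Real.cos ⟪h, e₀⟫) / ‖h‖ ^ (n + 1) := fun h =>
      div_nonneg (by linarith [Real.cos_le_one ⟪h, e₀⟫]) (by positivity)
    have hint : Integrable fun h : X n => 2 * (1 - Real.cos ⟪h, e₀⟫) / ‖h‖ ^ (n + 1) :=
      ((symbol_dom_integrable hn).const_mul _).mono'
        (symbol_integrand_measurable.comp measurable_prodMk_right).aestronglyMeasurable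
        (.of_forall fun h => symbol_integrand_le e₀ h)
    refine (integral_pos_iff_support_of_nonneg hnn hint).2 ?_
    have hopen : IsOpen {h : X n | Real.cos ⟪h, e₀⟫ < 1} := isOpen_lt (by fun_prop) continuous_const
    have hne : {h : X n | Real.cos ⟪h, e₀⟫ < 1}.Nonempty := ⟨Real.pi • e₀, by
      simp [real_inner_smul_left, real_inner_self_eq_norm_sq, he]⟩
    refine (hopen.measure_pos volume hne).trans_le (measure_mono fun h (hh : Real.cos ⟪h, e₀⟫ < 1) => ?_)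
    have h0 : h ≠ 0 := fun e => by simp [e] at hh
    exact (div_pos (by linarith) (by positivity)).ne'
  · rcases eq_or_ne ξ 0 with rfl | hξ
    · simp [symbol]
    have h0 : 0 < ‖ξ‖ := norm_pos_iff.2 hξ
    set u : X n := ‖ξ‖⁻¹ • ξ
    have hu : ‖u‖ = ‖e₀‖ := by simp [u, norm_smul, he, h0.ne']
    have hs : symbol u = symbol e₀ := by
      rw [← symbol_isometry (Submodule.reflection (ℝ ∙ (u - e₀))ᗮ) u, Submodule.reflection_sub hu]
    rw [show ξ = ‖ξ‖ • u by simp [u, smul_smul, h0.ne'], symbol_smul u h0, hs, norm_smul, hu, he]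
    simp [mul_comm]

/-- A superposition of cosine waves. -/
def osc (a : X n → ℝ) (x : X n) : ℝ := ∫ ξ, a ξ * Real.cos ⟪x, ξ⟫

theorem osc_integrable {a : X n → ℝ} (ha : Integrable a) (x : X n) :
    Integrable fun ξ => a ξ * Real.cos ⟪x, ξ⟫ :=
  ha.norm.mono' (ha.aestronglyMeasurable.mul (by fun_prop : Continuous fun ξ : X n =>
    Real.cos ⟪x, ξ⟫).aestronglyMeasurable) (.of_forall fun ξ => by
      rw [norm_mul]; exact mul_le_of_le_one_right (norm_nonneg _) (Real.abs_cos_le_one _))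

/-- `lap` multiplies the amplitude of each wave by the symbol. -/
theorem lap_osc (hn : 0 < n) {a : X n → ℝ} (ha : Integrable a)
    (ha2 : Integrable fun ξ => (1 + ‖ξ‖) ^ 2 * |a ξ|) (x : X n) :
    lap (osc a) x = osc (fun ξ => symbol ξ * a ξ) x := by
  have e : ∀ h, d2 (osc a) x h / ‖h‖ ^ (n + 1)
      = ∫ ξ, a ξ * Real.cos ⟪x, ξ⟫ * (2 * (1 - Real.cos ⟪h, ξ⟫) / ‖h‖ ^ (n + 1)) := fun h => by
    rw [d2, osc, osc, osc, ← integral_const_mul,
      ← integral_sub ((osc_integrable ha x).const_mul 2) (osc_integrable ha (x + h)),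
      ← integral_sub (f := fun ξ => 2 * (a ξ * Real.cos ⟪x, ξ⟫) - a ξ * Real.cos ⟪x + h, ξ⟫)
        (((osc_integrable ha x).const_mul 2).sub (osc_integrable ha (x + h)))
        (osc_integrable ha (x - h)), ← integral_div]
    refine integral_congr_ae (.of_forall fun ξ => ?_)
    simp only [inner_add_left, inner_sub_left, Real.cos_add, Real.cos_sub, Pi.sub_apply]
    ring
  have hint : Integrable (Function.uncurry fun (h ξ : X n) =>
      a ξ * Real.cos ⟪x, ξ⟫ * (2 * (1 - Real.cos ⟪h, ξ⟫) / ‖h‖ ^ (n + 1))) (volume.prod volume) := by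
    refine ((symbol_dom_integrable hn).mul_prod ha2).mono' ?_ (.of_forall fun p => ?_)
    · exact ((ha.aestronglyMeasurable.comp_snd).mul
        ((by fun_prop : Continuous fun ξ : X n => Real.cos ⟪x, ξ⟫).aestronglyMeasurable.comp_snd)).mul
        symbol_integrand_measurable.aestronglyMeasurable
    · simp only [Function.uncurry_def, Real.norm_eq_abs, abs_mul]
      calc |a p.2| * |Real.cos ⟪x, p.2⟫| * |2 * (1 - Real.cos ⟪p.1, p.2⟫) / ‖p.1‖ ^ (n + 1)|
          ≤ |a p.2| * 1 * ((1 + ‖p.2‖) ^ 2 * (knear 1 p.1 + 4 * kfar 1 p.1)) := by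
            gcongr
            · exact Real.abs_cos_le_one _
            · exact symbol_integrand_le _ _
        _ = (knear 1 p.1 + 4 * kfar 1 p.1) * ((1 + ‖p.2‖) ^ 2 * |a p.2|) := by ring
  rw [lap]
  simp only [e]
  rw [integral_integral_swap hint, osc]
  refine integral_congr_ae (.of_forall fun ξ => ?_)
  simp only [integral_const_mul, symbol]
  ring

end

end Vale.Agent.P120.Full.Liou
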