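import Vale.Agent.P120.Full.Pair

/-!
# P120, full answer: packing of the coefficients
-/

namespace Vale.Agent.P120.Full

open MeasureTheory Set Filter
open scoped Topology RealInnerProductSpace ENNReal

noncomputable section

variable {E : Type*} [NormedAddCommGroup E] [InnerProductSpace ℝ E] [MeasurableSpace E]
  [BorelSpace E] [FiniteDimensional ℝ E] {n : ℕ} {C A R : ℝ} {ν : Measure E} {x₀ z : E}
  {φ ψ : E → E} {l : ℝ}

lemma Mol.bounded (h : Mol n ν z l φ) : ∃ K, ∀ x, ‖φ x‖ ≤ K := by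
  obtain ⟨⟨L, hL⟩, hsup, -, -⟩ := h
  obtain ⟨K, hK⟩ := (isCompact_closedBall z (8 * l)).exists_bound_of_continuousOn
    hL.continuous.continuousOn
  refine ⟨max K 0, fun x => ?_⟩
  by_cases hx : 8 * l ≤ dist x z
  · rw [hsup x hx, norm_zero]; exact le_max_right _ _
  · exact (hK x (Metric.mem_closedBall.2 (not_le.1 hx).le)).trans (le_max_left _ _)

lemma Mol.sq_le (hl : 0 ≤ l) (h : Mol n ν z l φ) : ∫ y, ‖φ y‖ ^ 2 ∂ν ≤ l ^ n := by
  linarith [h.2.2.2, mul_nonneg hl (energy_nonneg n ν φ)]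

lemma Mol.energy_le (hl : 0 < l) (h : Mol n ν z l φ) : energy n ν φ ≤ l ^ n / l := by
  rw [le_div_iff₀ hl]
  linarith [h.2.2.2, (integral_nonneg (fun y => sq_nonneg ‖φ y‖) : 0 ≤ ∫ y, ‖φ y‖ ^ 2 ∂ν), mul_comm l (energy n ν φ)]

lemma Mol.zero (hl : 0 ≤ l) : Mol n ν z l (fun _ => (0 : E)) :=
  ⟨⟨0, LipschitzWith.const' (0 : E)⟩, fun _ _ => rfl, by simp,
    by simp [energy, pow_nonneg hl n]⟩

lemma Nice.bddAbove_coef (hn : 1 ≤ n) (h : Nice n C A ν x₀ R) (hl : 0 < l) (z : E) :
    BddAbove {c : ℝ | ∃ φ, Mol n ν z l φ ∧ c = |pair n ν φ| / l ^ n} := by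
  refine ⟨Real.sqrt (A ^ 2 * ν.real univ) * Real.sqrt (l ^ n) / l ^ n, ?_⟩
  rintro c ⟨φ, hφ, rfl⟩
  obtain ⟨L, hL⟩ := hφ.1
  obtain ⟨K, hK⟩ := hφ.bounded
  refine div_le_div_of_nonneg_right ?_ (by positivity)
  exact (abs_pair_le hn h hL hK).trans
    (mul_le_mul_of_nonneg_left (Real.sqrt_le_sqrt (hφ.sq_le hl.le)) (Real.sqrt_nonneg _))

lemma Nice.coef_nonneg (hn : 1 ≤ n) (h : Nice n C A ν x₀ R) (hl : 0 < l) (z : E) :
    0 ≤ coef n ν z l :=
  le_csSup (h.bddAbove_coef hn hl z) ⟨_, Mol.zero hl.le, by simp [pair]⟩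

/-- The coefficient controls the pairing with every test field. -/
lemma Nice.abs_pair_le_coef (hn : 1 ≤ n) (h : Nice n C A ν x₀ R) (hl : 0 < l)
    (hφ : Mol n ν z l φ) : |pair n ν φ| ≤ coef n ν z l * l ^ n :=
  (div_le_iff₀ (by positivity)).1 (le_csSup (h.bddAbove_coef hn hl z) ⟨φ, hφ, rfl⟩)

lemma Nice.exists_mol (hn : 1 ≤ n) (h : Nice n C A ν x₀ R) (hl : 0 < l) (z : E) :
    ∃ φ, Mol n ν z l φ ∧ coef n ν z l / 2 * l ^ n ≤ |pair n ν φ| := by
  rcases (h.coef_nonneg hn hl z).eq_or_lt with h0 | h0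
  · exact ⟨_, Mol.zero hl.le, by rw [← h0, zero_div, zero_mul]; exact abs_nonneg _⟩
  · obtain ⟨c, ⟨φ, hφ, rfl⟩, hc⟩ := exists_lt_of_lt_csSup
      (s := {c : ℝ | ∃ φ, Mol n ν z l φ ∧ c = |pair n ν φ| / l ^ n})
      ⟨_, fun _ => (0 : E), Mol.zero hl.le, rfl⟩ (half_lt_self h0)
    exact ⟨φ, hφ, ((lt_div_iff₀ (by positivity)).1 hc).le⟩

/-- The part of the energy that lives on pairs inside a set. -/
def localEnergy (n : ℕ) (ν : Measure E) (φ : E → E) (S : Set E) : ℝ :=
  ∫ p in S ×ˢ S, ‖φ p.1 - φ p.2‖ ^ 2 / dist p.1 p.2 ^ (n + 1) ∂(ν.prod ν)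

lemma localEnergy_nonneg (n : ℕ) (ν : Measure E) (φ : E → E) (S : Set E) :
    0 ≤ localEnergy n ν φ S :=
  integral_nonneg fun p => by positivity

/-- The Poincaré inequality given by the energy. -/
lemma Nice.poincare (hn : 1 ≤ n) (h : Nice n C A ν x₀ R) {L : NNReal} (hφ : LipschitzWith L φ)
    (hb : ∃ K, ∀ x, ‖φ x‖ ≤ K) (z : E) {t : ℝ} (ht : 0 < t)
    (hm : 0 < ν.real (Metric.ball z t)) :
    ∫ y in Metric.ball z t, ‖φ y - (ν.real (Metric.ball z t))⁻¹ •
        ∫ x in Metric.ball z t, φ x ∂ν‖ ^ 2 ∂ν ≤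
      (2 * t) ^ (n + 1) / ν.real (Metric.ball z t) * localEnergy n ν φ (Metric.ball z t) := by
  have := h.finite
  obtain ⟨K, hK⟩ := hb
  set S := Metric.ball z t with hS
  set m := ν.real S with hmdef
  set a := m⁻¹ • ∫ x in S, φ x ∂ν with ha
  have hcont := hφ.continuous
  have hint : Integrable φ (ν.restrict S) :=
    Integrable.of_bound hcont.aestronglyMeasurable K (Eventually.of_forall hK)
  have hsqi : ∀ b : E, Integrable (fun x => ‖b - φ x‖ ^ 2) (ν.restrict S) := fun b =>
    Integrable.of_bound (C := (‖b‖ + K) ^ 2) (by fun_prop) (Eventually.of_forall fun x => by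
      rw [Real.norm_eq_abs, abs_of_nonneg (sq_nonneg _)]
      exact pow_le_pow_left₀ (norm_nonneg _) ((norm_sub_le _ _).trans (by linarith [hK x])) 2)
  have hpt : ∀ y : E, ‖φ y - a‖ ^ 2 ≤ m⁻¹ * ∫ x in S, ‖φ y - φ x‖ ^ 2 ∂ν := by
    intro y
    have e : φ y - a = m⁻¹ • ∫ x in S, (φ y - φ x) ∂ν := by
      rw [integral_sub (integrable_const _) hint, smul_sub, setIntegral_const, smul_smul, ← hmdef,
        inv_mul_cancel₀ hm.ne', one_smul, ha]
    have hcs : (∫ x in S, ‖φ y - φ x‖ ∂ν) ^ 2 ≤ m * ∫ x in S, ‖φ y - φ x‖ ^ 2 ∂ν := by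
      have hf : MemLp (fun x => ‖φ y - φ x‖) 2 (ν.restrict S) :=
        MemLp.of_bound (C := ‖φ y‖ + K) (by fun_prop) (Eventually.of_forall fun x => by
          rw [Real.norm_eq_abs, abs_of_nonneg (norm_nonneg _)]
          exact (norm_sub_le _ _).trans (by linarith [hK x]))
      have h1 := integral_mul_le_Lp_mul_Lq_of_nonneg Real.HolderConjugate.two_two
        (μ := ν.restrict S) (Eventually.of_forall fun x => norm_nonneg (φ y - φ x))
        (Eventually.of_forall fun _ => zero_le_one) (by simpa using hf) (by simpa using memLp_const (1 : ℝ))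
      simp only [mul_one, Real.one_rpow, integral_const, smul_eq_mul, measureReal_restrict_apply,
        MeasurableSet.univ, univ_inter, Real.rpow_two, one_pow, ← Real.sqrt_eq_rpow] at h1
      have h2 := pow_le_pow_left₀ (integral_nonneg fun x => norm_nonneg _) h1 2
      rw [mul_pow, Real.sq_sqrt (integral_nonneg fun x => sq_nonneg _), Real.sq_sqrt measureReal_nonneg, ← hmdef] at h2
      linarith
    rw [e, norm_smul, mul_pow, Real.norm_eq_abs, sq_abs]
    calc m⁻¹ ^ 2 * ‖∫ x in S, (φ y - φ x) ∂ν‖ ^ 2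
        ≤ m⁻¹ ^ 2 * (∫ x in S, ‖φ y - φ x‖ ∂ν) ^ 2 := by
          gcongr
          exact norm_integral_le_integral_norm _
      _ ≤ m⁻¹ ^ 2 * (m * ∫ x in S, ‖φ y - φ x‖ ^ 2 ∂ν) := by gcongr
      _ = _ := by field_simp
  have hae : ∀ᵐ p ∂((ν.restrict S).prod (ν.restrict S)), ‖φ p.1 - φ p.2‖ ^ 2 ≤
      (2 * t) ^ (n + 1) * (‖φ p.1 - φ p.2‖ ^ 2 / dist p.1 p.2 ^ (n + 1)) := by
    rw [Measure.prod_restrict]
    refine (ae_restrict_iff' (measurableSet_ball.prod measurableSet_ball)).2
      (Eventually.of_forall fun p hp => ?_)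
    rcases eq_or_ne (dist p.1 p.2) 0 with h0 | h0
    · simp [dist_eq_zero.1 h0]
    · have hd : dist p.1 p.2 ≤ 2 * t := by
        have h1 := Metric.mem_ball.1 hp.1
        have h2 := Metric.mem_ball.1 hp.2
        linarith [dist_triangle_right p.1 p.2 z]
      have hd0 : 0 < dist p.1 p.2 := lt_of_le_of_ne dist_nonneg (Ne.symm h0)
      rw [← mul_div_assoc, le_div_iff₀ (by positivity), mul_comm]
      exact mul_le_mul_of_nonneg_right (pow_le_pow_left₀ dist_nonneg hd _) (sq_nonneg _)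
  have hEi : Integrable (fun p : E × E => ‖φ p.1 - φ p.2‖ ^ 2 / dist p.1 p.2 ^ (n + 1))
      ((ν.restrict S).prod (ν.restrict S)) := by
    rw [Measure.prod_restrict]
    exact (h.integrable_energy hn hφ).integrableOn
  have hQi : Integrable (fun p : E × E => ‖φ p.1 - φ p.2‖ ^ 2)
      ((ν.restrict S).prod (ν.restrict S)) :=
    (hEi.const_mul ((2 * t) ^ (n + 1))).mono' (by fun_prop) (hae.mono fun p hp => by
      rw [Real.norm_eq_abs, abs_of_nonneg (sq_nonneg _)]; exact hp)
  calc ∫ y in S, ‖φ y - a‖ ^ 2 ∂ν ≤ ∫ y in S, m⁻¹ * ∫ x in S, ‖φ y - φ x‖ ^ 2 ∂ν ∂ν :=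
        integral_mono_of_nonneg (Eventually.of_forall fun y => sq_nonneg _)
          (hQi.integral_prod_left.const_mul _) (Eventually.of_forall hpt)
    _ = m⁻¹ * ∫ p, ‖φ p.1 - φ p.2‖ ^ 2 ∂((ν.restrict S).prod (ν.restrict S)) := by
        rw [integral_const_mul, integral_prod _ hQi]
    _ ≤ m⁻¹ * ((2 * t) ^ (n + 1) * localEnergy n ν φ S) := by
        gcongr
        refine (integral_mono_ae hQi (hEi.const_mul _) hae).trans (le_of_eq ?_)
        rw [integral_const_mul, localEnergy, Measure.prod_restrict]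
    _ = _ := by ring

/-- Two test fields at different scales are almost orthogonal. -/
lemma Nice.abs_inner_le (hn : 1 ≤ n) (h : Nice n C A ν x₀ R) {zP : E} (hzP : zP ∈ ν.support)
    (hdP : dist zP x₀ ≤ R / 2) {lP : ℝ} (hlP : 0 < lP) (hlPR : 8 * lP ≤ R / 4)
    (hφ : Mol n ν zP lP φ) {L : NNReal} (hψ : LipschitzWith L ψ) (hψb : ∃ K, ∀ x, ‖ψ x‖ ≤ K) :
    |∫ y, ⟪φ y, ψ y⟫ ∂ν| ≤ Real.sqrt (lP ^ n) *
      Real.sqrt (16 ^ (n + 1) * C * lP * localEnergy n ν ψ (Metric.ball zP (8 * lP))) := by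
  have := h.finite
  have hC0 : 0 < C := zero_lt_one.trans_le h.1
  set S := Metric.ball zP (8 * lP) with hS
  have hm : C⁻¹ * (8 * lP) ^ n ≤ ν.real S :=
    h.2.2.2.2.2.1 zP hzP hdP _ (by positivity) hlPR
  have hm0 : 0 < ν.real S := lt_of_lt_of_le (by positivity) hm
  set a := (ν.real S)⁻¹ • ∫ x in S, ψ x ∂ν
  obtain ⟨⟨L', hL'⟩, hsup, hmean, -⟩ := id hφ
  obtain ⟨K, hK⟩ := hφ.bounded
  obtain ⟨K', hK'⟩ := hψb
  have hφi : Integrable φ ν :=
    Integrable.of_bound hL'.continuous.aestronglyMeasurable K (Eventually.of_forall hK)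
  have hPi : ∀ b : E, Integrable (fun y => ⟪φ y, ψ y - b⟫) ν := fun b => by
    refine Integrable.of_bound (C := K * (K' + ‖b‖))
      ((hL'.continuous.inner (hψ.continuous.sub continuous_const)).aestronglyMeasurable)
      (Eventually.of_forall fun y => ?_)
    refine (abs_real_inner_le_norm _ _).trans ?_
    exact mul_le_mul (hK y) ((norm_sub_le _ _).trans (by linarith [hK' y])) (norm_nonneg _)
      ((norm_nonneg _).trans (hK y))
  have e : ∫ y, ⟪φ y, ψ y⟫ ∂ν = ∫ y in S, ⟪φ y, ψ y - a⟫ ∂ν := by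
    rw [setIntegral_eq_integral_of_forall_compl_eq_zero fun y hy => by
      rw [hsup y (not_lt.1 fun hh => hy (Metric.mem_ball.2 hh)), inner_zero_left]]
    have h0 : ∫ y, ⟪φ y, a⟫ ∂ν = 0 := by
      rw [integral_congr_ae (Eventually.of_forall fun y => real_inner_comm a (φ y)),
        integral_inner hφi, hmean, inner_zero_right]
    have h1 := hPi 0
    simp only [sub_zero] at h1
    simp only [inner_sub_right]
    rw [integral_sub h1 (hφi.inner_const a), h0, sub_zero]
  have hf : MemLp φ 2 (ν.restrict S) :=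
    (h.memLp_lipschitz hL' ⟨K, hK⟩).restrict S
  have hg : MemLp (fun y => ψ y - a) 2 (ν.restrict S) :=
    MemLp.of_bound (C := K' + ‖a‖) (hψ.continuous.sub continuous_const).aestronglyMeasurable
      (Eventually.of_forall fun y => (norm_sub_le _ _).trans (by linarith [hK' y]))
  have h1 := integral_mul_le_Lp_mul_Lq_of_nonneg Real.HolderConjugate.two_two
    (μ := ν.restrict S) (Eventually.of_forall fun x => norm_nonneg (φ x))
    (Eventually.of_forall fun x => norm_nonneg (ψ x - a))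
    (by simpa using hf.norm) (by simpa using hg.norm)
  simp only [Real.rpow_two, ← Real.sqrt_eq_rpow] at h1
  rw [e, ← Real.norm_eq_abs]
  refine (norm_integral_le_integral_norm _).trans ((integral_mono_of_nonneg
    (Eventually.of_forall fun x => norm_nonneg _) (hf.norm.integrable_mul hg.norm)
    (Eventually.of_forall fun x => abs_real_inner_le_norm _ _)).trans (h1.trans ?_))
  refine mul_le_mul (Real.sqrt_le_sqrt ?_) (Real.sqrt_le_sqrt ?_) (Real.sqrt_nonneg _)
    (Real.sqrt_nonneg _)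
  · refine le_trans ?_ (hφ.sq_le hlP.le)
    exact setIntegral_le_integral ((h.memLp_lipschitz hL' ⟨K, hK⟩).integrable_norm_pow two_ne_zero)
      (Eventually.of_forall fun y => sq_nonneg _)
  · refine (h.poincare hn hψ ⟨K', hK'⟩ zP (by positivity) hm0).trans ?_
    refine mul_le_mul_of_nonneg_right ?_ (localEnergy_nonneg _ _ _ _)
    rw [div_le_iff₀ hm0]
    calc (2 * (8 * lP)) ^ (n + 1) = 16 ^ (n + 1) * lP * lP ^ n := by
          rw [show 2 * (8 * lP) = 16 * lP by ring, mul_pow, pow_succ lP]; ring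
      _ ≤ 16 ^ (n + 1) * lP * (C * ν.real S) := by
          gcongr
          rw [inv_mul_le_iff₀ hC0] at hm
          exact (pow_le_pow_left₀ hlP.le (by linarith) n).trans hm
      _ = _ := by ring

/-- A separated family has boundedly many points in a ball of comparable radius. -/
lemma Nice.card_near_le (h : Nice n C A ν x₀ R) {l : ℝ} (hl : 0 < l) (hlR : l ≤ R / 4)
    {Z : Finset E} (hZ : ∀ z ∈ Z, z ∈ ν.support ∧ dist z x₀ ≤ R / 2)
    (hsep : (↑Z : Set E).Pairwise fun u v => l ≤ dist u v) (w : E) :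
    ((Z.filter fun z => dist z w < 32 * l).card : ℝ) ≤ C ^ 2 * 66 ^ n := by
  have := h.finite
  have hC0 : 0 < C := zero_lt_one.trans_le h.1
  set F := Z.filter fun z => dist z w < 32 * l
  have hdis : (↑F : Set E).PairwiseDisjoint fun z => Metric.ball z (l / 2) :=
    fun u hu v hv huv => Metric.ball_disjoint_ball (by
      linarith [hsep (Finset.mem_filter.1 hu).1 (Finset.mem_filter.1 hv).1 huv])
  have h1 : (F.card : ℝ) * (C⁻¹ * (l / 2) ^ n) ≤ C * (33 * l) ^ n := by
    calc (F.card : ℝ) * (C⁻¹ * (l / 2) ^ n) = ∑ _z ∈ F, C⁻¹ * (l / 2) ^ n := by simp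
      _ ≤ ∑ z ∈ F, ν.real (Metric.ball z (l / 2)) := Finset.sum_le_sum fun z hz =>
          h.2.2.2.2.2.1 z (hZ z (Finset.mem_filter.1 hz).1).1 (hZ z (Finset.mem_filter.1 hz).1).2 _
            (by positivity) (by linarith)
      _ = ν.real (⋃ z ∈ F, Metric.ball z (l / 2)) := by
          rw [measureReal_biUnion_finset hdis fun z _ => measurableSet_ball]
      _ ≤ ν.real (Metric.ball w (33 * l)) := measureReal_mono (iUnion₂_subset fun z hz y hy => by
          rw [Metric.mem_ball] at hy ⊢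
          linarith [dist_triangle y z w, (Finset.mem_filter.1 hz).2])
      _ ≤ _ := h.2.2.2.2.1 w _ (by positivity)
  have h2 : (33 * l) ^ n = 66 ^ n * (l / 2) ^ n := by rw [← mul_pow]; ring
  rw [h2] at h1
  have hp : 0 < C⁻¹ * (l / 2) ^ n := by positivity
  refine le_of_mul_le_mul_right (h1.trans (le_of_eq ?_)) hp
  field_simp

lemma geom_quarter_le (m : ℕ) : ∑ i ∈ Finset.range m, (1 / 4 : ℝ) ^ i ≤ 2 := by
  rw [geom_sum_eq (by norm_num)]
  have : (0 : ℝ) ≤ (1 / 4) ^ m := by positivity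
  rw [div_le_iff_of_neg (by norm_num)]
  linarith

lemma sum_dist_le (N k : ℕ) : ∑ j ∈ Finset.range N, (1 / 4 : ℝ) ^ Nat.dist k j ≤ 4 := by
  have h1 : ∑ j ∈ (Finset.range N).filter (fun j => k ≤ j), (1 / 4 : ℝ) ^ Nat.dist k j ≤
      ∑ i ∈ Finset.range N, (1 / 4 : ℝ) ^ i := by
    rw [← Finset.sum_image (f := fun i => (1 / 4 : ℝ) ^ i) (g := fun j => Nat.dist k j)]
    · refine Finset.sum_le_sum_of_subset_of_nonneg (fun i hi => ?_) fun i _ _ => by positivity
      simp only [Finset.mem_image, Finset.mem_filter, Finset.mem_range] at hi ⊢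
      obtain ⟨j, ⟨hj, hkj⟩, rfl⟩ := hi
      unfold Nat.dist
      omega
    · intro a ha b hb hab
      simp only [Finset.coe_filter, Finset.mem_range, Set.mem_setOf_eq] at ha hb
      simp only [Nat.dist] at hab
      omega
  have h2 : ∑ j ∈ (Finset.range N).filter (fun j => ¬ k ≤ j), (1 / 4 : ℝ) ^ Nat.dist k j ≤
      ∑ i ∈ Finset.range (k + 1), (1 / 4 : ℝ) ^ i := by
    rw [← Finset.sum_image (f := fun i => (1 / 4 : ℝ) ^ i) (g := fun j => Nat.dist k j)]
    · refine Finset.sum_le_sum_of_subset_of_nonneg (fun i hi => ?_) fun i _ _ => by positivity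
      simp only [Finset.mem_image, Finset.mem_filter, Finset.mem_range] at hi ⊢
      obtain ⟨j, ⟨hj, hkj⟩, rfl⟩ := hi
      unfold Nat.dist
      omega
    · intro a ha b hb hab
      simp only [Finset.coe_filter, Finset.mem_range, Set.mem_setOf_eq] at ha hb
      simp only [Nat.dist] at hab
      omega
  rw [← Finset.sum_filter_add_sum_filter_not (Finset.range N) (fun j => k ≤ j)]
  linarith [geom_quarter_le N, geom_quarter_le (k + 1)]

lemma exists_lipschitz_sum {ι : Type*} (s : Finset ι) (w : ι → ℝ) (f : ι → E → E)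
    (hf : ∀ i ∈ s, (∃ L : NNReal, LipschitzWith L (f i)) ∧ ∃ K, ∀ x, ‖f i x‖ ≤ K) :
    (∃ L : NNReal, LipschitzWith L fun y => ∑ i ∈ s, w i • f i y) ∧
      ∃ K, ∀ x, ‖∑ i ∈ s, w i • f i x‖ ≤ K := by
  choose hL hK using hf
  choose L hL using hL
  choose K hK using hK
  refine ⟨⟨∑ i ∈ s.attach, ‖w i.1‖₊ * L i.1 i.2, LipschitzWith.of_dist_le_mul fun x y => ?_⟩,
    ∑ i ∈ s.attach, |w i.1| * K i.1 i.2, fun x => ?_⟩
  · rw [dist_eq_norm, ← Finset.sum_sub_distrib, ← Finset.sum_attach]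
    push_cast
    rw [Finset.sum_mul]
    refine (norm_sum_le _ _).trans (Finset.sum_le_sum fun i _ => ?_)
    rw [← smul_sub, norm_smul, ← dist_eq_norm, mul_assoc]
    exact mul_le_mul_of_nonneg_left ((hL i.1 i.2).dist_le_mul x y) (norm_nonneg _)
  · rw [← Finset.sum_attach]
    refine (norm_sum_le _ _).trans (Finset.sum_le_sum fun i _ => ?_)
    rw [norm_smul, Real.norm_eq_abs]
    exact mul_le_mul_of_nonneg_left (hK i.1 i.2 x) (abs_nonneg _)

/-- The constant of a Gram estimate between two levels. -/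
def gramConst (n : ℕ) (C : ℝ) : ℝ := C ^ 2 * 66 ^ n * (1 + 16 ^ (n + 1) * C)

/-- The Gram estimate between a fine level `k'` and a coarser level `k`. -/
theorem Nice.gram_levels_le (hn : 1 ≤ n) (h : Nice n C A ν x₀ R) {k k' : ℕ} (hk : k ≤ k')
    {P Q : Finset E} (hP : ∀ z ∈ P, z ∈ ν.support ∧ dist z x₀ ≤ R / 4)
    (hQ : ∀ z ∈ Q, z ∈ ν.support ∧ dist z x₀ ≤ R / 4)
    (hsP : (↑P : Set E).Pairwise fun u v => scale R k' ≤ dist u v)
    (hsQ : (↑Q : Set E).Pairwise fun u v => scale R k ≤ dist u v)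
    (f g : E → E → E) (hf : ∀ z ∈ P, Mol n ν z (scale R k') (f z))
    (hg : ∀ z ∈ Q, Mol n ν z (scale R k) (g z)) (a b : E → ℝ) :
    ∑ z ∈ P, ∑ z' ∈ Q, |a z| * |b z'| * |∫ y, ⟪f z y, g z' y⟫ ∂ν| ≤
      gramConst n C * (1 / 4 : ℝ) ^ (k' - k) *
        (∑ z ∈ P, a z ^ 2 * scale R k' ^ n + ∑ z ∈ Q, b z ^ 2 * scale R k ^ n) := by
  have := h.finite
  have hR := h.2.2.1
  set l := scale R k with hl
  set l' := scale R k' with hl'
  have hl0 : 0 < l := scale_pos hR k
  have hl'0 : 0 < l' := scale_pos hR k'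
  have hlle : l ≤ R / 65536 := scale_le hR k
  have hl'le : l' ≤ R / 65536 := scale_le hR k'
  have hll : l' = (1 / 16 : ℝ) ^ (k' - k) * l := by
    rw [hl, hl', scale, scale, show k' + 4 = (k' - k) + (k + 4) by omega, pow_add]
    ring
  have hl'l : l' ≤ l := by
    rw [hll]; exact mul_le_of_le_one_left hl0.le (pow_le_one₀ (by norm_num) (by norm_num))
  set t := (1 / 4 : ℝ) ^ (k' - k) with ht
  have ht0 : 0 < t := by positivity
  have hC0 : 0 < C := zero_lt_one.trans_le h.1
  set N0 := C ^ 2 * 66 ^ n with hN0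
  set c1 := 16 ^ (n + 1) * C with hc1
  set V := fun z z' => localEnergy n ν (g z') (Metric.ball z (8 * l')) with hV
  set near := fun z z' : E => dist z' z < 32 * l with hnear
  have hpair : ∀ z ∈ P, ∀ z' ∈ Q, |a z| * |b z'| * |∫ y, ⟪f z y, g z' y⟫ ∂ν| ≤
      (if near z z' then t * (a z ^ 2 * l' ^ n) else 0) + t⁻¹ * (b z' ^ 2 * (c1 * l' * V z z')) := by
    intro z hz z' hz'
    have hVn : 0 ≤ V z z' := localEnergy_nonneg _ _ _ _
    by_cases hnz : near z z'
    · rw [if_pos hnz]
      have h1 := h.abs_inner_le hn (hP z hz).1 ((hP z hz).2.trans (by linarith)) hl'0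
        (by linarith) (hf z hz) (hg z' hz').1.choose_spec (hg z' hz').bounded
      refine (mul_le_mul_of_nonneg_left h1 (by positivity)).trans ?_
      set X := |a z| * Real.sqrt (l' ^ n) with hX
      set Y := |b z'| * Real.sqrt (c1 * l' * V z z') with hY
      have hX2 : X ^ 2 = a z ^ 2 * l' ^ n := by
        rw [hX, mul_pow, sq_abs, Real.sq_sqrt (by positivity)]
      have hY2 : Y ^ 2 = b z' ^ 2 * (c1 * l' * V z z') := by
        rw [hY, mul_pow, sq_abs, Real.sq_sqrt (by positivity)]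
      rw [← hX2, ← hY2, show |a z| * |b z'| * (Real.sqrt (l' ^ n) *
        Real.sqrt (16 ^ (n + 1) * C * l' * localEnergy n ν (g z') (Metric.ball z (8 * l')))) = X * Y
        by rw [hX, hY, hc1]; ring, ← sub_nonneg,
        show t * X ^ 2 + t⁻¹ * Y ^ 2 - X * Y = t⁻¹ * ((t * X - Y / 2) ^ 2 + 3 / 4 * Y ^ 2) by
          field_simp; ring]
      positivity
    · rw [if_neg hnz, zero_add]
      have h0 : ∫ y, ⟪f z y, g z' y⟫ ∂ν = 0 := by
        refine integral_eq_zero_of_ae (Eventually.of_forall fun y => ?_)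
        by_cases hy : 8 * l' ≤ dist y z
        · simp [(hf z hz).2.1 y hy]
        · have : 8 * l ≤ dist y z' := by
            simp only [hnear, not_lt] at hnz
            linarith [dist_triangle z' y z, dist_comm z' y]
          simp [(hg z' hz').2.1 y this]
      rw [h0, abs_zero, mul_zero]
      positivity
  refine (Finset.sum_le_sum fun z hz => Finset.sum_le_sum fun z' hz' => hpair z hz z' hz').trans ?_
  simp only [Finset.sum_add_distrib]
  rw [mul_add]
  refine add_le_add ?_ ?_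
  · rw [Finset.mul_sum]
    refine Finset.sum_le_sum fun z hz => ?_
    rw [← Finset.sum_filter, Finset.sum_const, nsmul_eq_mul]
    have hcard := h.card_near_le hl0 (by linarith) (Z := Q)
      (fun w hw => ⟨(hQ w hw).1, (hQ w hw).2.trans (by linarith)⟩) hsQ z
    calc (((Q.filter fun z' => near z z').card : ℕ) : ℝ) * (t * (a z ^ 2 * l' ^ n))
        ≤ gramConst n C * (t * (a z ^ 2 * l' ^ n)) := by
          refine mul_le_mul_of_nonneg_right (hcard.trans ?_) (by positivity)
          rw [gramConst]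
          exact le_mul_of_one_le_right (by positivity) (by
            linarith [show 0 ≤ 16 ^ (n + 1) * C by positivity])
      _ = _ := by ring
  · rw [Finset.sum_comm, Finset.mul_sum]
    refine Finset.sum_le_sum fun z' hz' => ?_
    obtain ⟨L, hL⟩ := (hg z' hz').1
    set e := fun p : E × E => ‖g z' p.1 - g z' p.2‖ ^ 2 / dist p.1 p.2 ^ (n + 1) with he
    have hei : Integrable e (ν.prod ν) := h.integrable_energy hn hL
    have hVsum : ∑ z ∈ P, V z z' ≤ N0 * energy n ν (g z') := by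
      simp only [hV, localEnergy]
      have hms : ∀ z : E, MeasurableSet (Metric.ball z (8 * l') ×ˢ Metric.ball z (8 * l')) :=
        fun z => measurableSet_ball.prod measurableSet_ball
      simp only [← integral_indicator (hms _)]
      rw [← integral_finsetSum _ fun z _ => hei.indicator (hms z), energy, ← integral_const_mul]
      refine integral_mono (integrable_finsetSum _ fun z _ => hei.indicator (hms z))
        (hei.const_mul _) fun p => ?_
      have he0 : 0 ≤ e p := by positivity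
      calc ∑ z ∈ P, (Metric.ball z (8 * l') ×ˢ Metric.ball z (8 * l')).indicator e p
          ≤ ∑ z ∈ P, (if dist z p.1 < 32 * l' then e p else 0) := Finset.sum_le_sum fun z _ => by
            by_cases hp : p ∈ Metric.ball z (8 * l') ×ˢ Metric.ball z (8 * l')
            · rw [indicator_of_mem hp, if_pos]
              have := Metric.mem_ball.1 hp.1
              rw [dist_comm] at this
              linarith
            · rw [indicator_of_notMem hp]
              split_ifs
              · exact he0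
              · exact le_rfl
        _ = (((P.filter fun z => dist z p.1 < 32 * l').card : ℕ) : ℝ) * e p := by
            rw [← Finset.sum_filter, Finset.sum_const, nsmul_eq_mul]
        _ ≤ N0 * e p := mul_le_mul_of_nonneg_right (h.card_near_le hl'0 (by linarith)
            (fun w hw => ⟨(hP w hw).1, (hP w hw).2.trans (by linarith)⟩) hsP p.1) he0
    have hE : energy n ν (g z') ≤ l ^ n / l := (hg z' hz').energy_le hl0
    simp only [← Finset.mul_sum]
    calc t⁻¹ * (b z' ^ 2 * (c1 * l' * ∑ z ∈ P, V z z'))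
        ≤ t⁻¹ * (b z' ^ 2 * (c1 * l' * (N0 * (l ^ n / l)))) := by
          gcongr
          exact hVsum.trans (mul_le_mul_of_nonneg_left hE (by positivity))
      _ = c1 * N0 * t * (b z' ^ 2 * l ^ n) := by
          have h4 : (1 / 16 : ℝ) ^ (k' - k) = t ^ 2 := by
            rw [ht, ← pow_mul, mul_comm, pow_mul]; norm_num
          rw [hll, h4]
          field_simp
      _ ≤ gramConst n C * t * (b z' ^ 2 * l ^ n) := by
          refine mul_le_mul_of_nonneg_right (mul_le_mul_of_nonneg_right ?_ ht0.le) (by positivity)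
          rw [gramConst, ← hc1, ← hN0]
          nlinarith [show 0 ≤ N0 by positivity]
      _ = _ := by ring

/-- Module B. -/
theorem coefPacking (hn : 1 ≤ n) : CoefPacking E n := by
  intro C A hC hA
  set G := gramConst n C
  have hG0 : 0 ≤ G := by
    simp only [G, gramConst]
    positivity
  refine ⟨4 * A ^ 2 * C * (8 * G), fun ν x₀ R h N Z hZ hsep => ?_⟩
  have := h.finite
  have hR := h.2.2.1
  have hs : ∀ k, 0 < scale R k := scale_pos hR
  choose f hf using fun (k : ℕ) (z : E) => h.exists_mol hn (hs k) z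
  set s := (Finset.range N).sigma Z with hsdef
  set F := fun i : Σ _ : ℕ, E => f i.1 i.2
  set w := fun i : Σ _ : ℕ, E => (if 0 ≤ pair n ν (F i) then 1 else -1) *
    coef n ν i.2 (scale R i.1) with hw
  have hsgn : ∀ x : ℝ, (if 0 ≤ x then (1 : ℝ) else -1) * x = |x| := fun x => by
    split_ifs with hx
    · rw [one_mul, abs_of_nonneg hx]
    · rw [abs_of_neg (not_le.1 hx)]; ring
  have habs : ∀ i, |w i| = coef n ν i.2 (scale R i.1) := fun i => by
    simp only [hw, abs_mul, abs_of_nonneg (h.coef_nonneg hn (hs _) _)]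
    split_ifs <;> simp
  set S := ∑ k ∈ Finset.range N, ∑ z ∈ Z k, coef n ν z (scale R k) ^ 2 * scale R k ^ n with hS
  set Φ := fun y => ∑ i ∈ s, w i • F i y
  obtain ⟨⟨L, hL⟩, K, hK⟩ := exists_lipschitz_sum s w F
    fun i _ => ⟨(hf i.1 i.2).1.1, (hf i.1 i.2).1.bounded⟩
  have hlow : S / 2 ≤ pair n ν Φ := by
    rw [pair_sum hn h s w F fun i _ => (hf i.1 i.2).1.1, hsdef, Finset.sum_sigma, hS,
      Finset.sum_div]
    refine Finset.sum_le_sum fun k _ => ?_
    rw [Finset.sum_div]
    refine Finset.sum_le_sum fun z _ => ?_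
    have h1 := (hf k z).2
    simp only [hw, F]
    rw [show (if 0 ≤ pair n ν (f k z) then (1 : ℝ) else -1) * coef n ν z (scale R k) *
      pair n ν (f k z) = coef n ν z (scale R k) *
        ((if 0 ≤ pair n ν (f k z) then (1 : ℝ) else -1) * pair n ν (f k z)) by ring, hsgn]
    nlinarith [h.coef_nonneg hn (hs k) z]
  have hgram : ∫ y, ‖Φ y‖ ^ 2 ∂ν ≤ 8 * G * S := by
    have hint : ∀ i ∈ s, ∀ j ∈ s, Integrable (fun y => w i * (w j * ⟪F j y, F i y⟫)) ν := by
      intro i _ j _
      obtain ⟨Li, hLi⟩ := (hf i.1 i.2).1.1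
      obtain ⟨Lj, hLj⟩ := (hf j.1 j.2).1.1
      obtain ⟨Ki, hKi⟩ := (hf i.1 i.2).1.bounded
      obtain ⟨Kj, hKj⟩ := (hf j.1 j.2).1.bounded
      refine (Integrable.of_bound (C := Ki * Kj)
        (hLj.continuous.inner hLi.continuous).aestronglyMeasurable
        (Eventually.of_forall fun y => ?_)).const_mul _ |>.const_mul _
      rw [Real.norm_eq_abs, real_inner_comm]
      exact (abs_real_inner_le_norm _ _).trans
        (mul_le_mul (hKi y) (hKj y) (norm_nonneg _) ((norm_nonneg _).trans (hKi y)))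
    have e : ∫ y, ‖Φ y‖ ^ 2 ∂ν = ∑ i ∈ s, ∑ j ∈ s, w i * (w j * ∫ y, ⟪F j y, F i y⟫ ∂ν) := by
      simp only [Φ, ← real_inner_self_eq_norm_sq, sum_inner, inner_sum, real_inner_smul_left,
        real_inner_smul_right]
      rw [integral_finsetSum _ fun i hi => integrable_finsetSum _ fun j hj => hint i hi j hj]
      refine Finset.sum_congr rfl fun i hi => ?_
      rw [integral_finsetSum _ fun j hj => hint i hi j hj]
      simp only [integral_const_mul]
    set c := fun k z => coef n ν z (scale R k) with hc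
    set T := fun k k' => ∑ z ∈ Z k, ∑ z' ∈ Z k',
      |c k z| * |c k' z'| * |∫ y, ⟪f k z y, f k' z' y⟫ ∂ν| with hT
    set S1 := fun k => ∑ z ∈ Z k, c k z ^ 2 * scale R k ^ n with hS1
    have hTle : ∀ k k', T k k' ≤ G * (1 / 4 : ℝ) ^ Nat.dist k k' * (S1 k + S1 k') := by
      intro k k'
      rcases le_total k' k with hkk | hkk
      · rw [show Nat.dist k k' = k - k' by unfold Nat.dist; omega]
        exact h.gram_levels_le hn hkk (hZ k) (hZ k') (hsep k) (hsep k') (f k) (f k')
          (fun z _ => (hf k z).1) (fun z _ => (hf k' z).1) (c k) (c k')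
      · rw [show Nat.dist k k' = k' - k by unfold Nat.dist; omega, add_comm (S1 k)]
        refine le_of_eq_of_le ?_ (h.gram_levels_le hn hkk (hZ k') (hZ k) (hsep k') (hsep k) (f k')
          (f k) (fun z _ => (hf k' z).1) (fun z _ => (hf k z).1) (c k') (c k))
        simp only [hT]
        rw [Finset.sum_comm]
        refine Finset.sum_congr rfl fun z _ => Finset.sum_congr rfl fun z' _ => ?_
        simp only [real_inner_comm (f k' z _)]
        ring
    calc ∫ y, ‖Φ y‖ ^ 2 ∂ν = ∑ i ∈ s, ∑ j ∈ s, w i * (w j * ∫ y, ⟪F j y, F i y⟫ ∂ν) := e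
      _ ≤ ∑ i ∈ s, ∑ j ∈ s, |w i| * |w j| * |∫ y, ⟪F j y, F i y⟫ ∂ν| :=
          Finset.sum_le_sum fun i _ => Finset.sum_le_sum fun j _ => by
            rw [← mul_assoc, ← abs_mul, ← abs_mul]; exact le_abs_self _
      _ = ∑ k ∈ Finset.range N, ∑ k' ∈ Finset.range N, T k k' := by
          simp only [hsdef, Finset.sum_sigma, hT, habs, hc, F, abs_of_nonneg (h.coef_nonneg hn (hs _) _)]
          refine Finset.sum_congr rfl fun k _ => ?_
          rw [Finset.sum_comm]
          refine Finset.sum_congr rfl fun k' _ => Finset.sum_congr rfl fun z _ =>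
            Finset.sum_congr rfl fun z' _ => ?_
          simp only [real_inner_comm (f k z _) (f k' z' _)]
      _ ≤ ∑ k ∈ Finset.range N, ∑ k' ∈ Finset.range N,
          G * (1 / 4 : ℝ) ^ Nat.dist k k' * (S1 k + S1 k') :=
          Finset.sum_le_sum fun k _ => Finset.sum_le_sum fun k' _ => hTle k k'
      _ = 2 * G * ∑ k ∈ Finset.range N, S1 k * ∑ k' ∈ Finset.range N,
          (1 / 4 : ℝ) ^ Nat.dist k k' := by
          simp only [mul_add, Finset.sum_add_distrib]
          conv_lhs => arg 2; rw [Finset.sum_comm]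
          simp only [Finset.mul_sum, ← Finset.sum_add_distrib]
          refine Finset.sum_congr rfl fun k _ => Finset.sum_congr rfl fun k' _ => ?_
          rw [Nat.dist_comm k' k]
          ring
      _ ≤ 2 * G * ∑ k ∈ Finset.range N, S1 k * 4 := by
          refine mul_le_mul_of_nonneg_left (Finset.sum_le_sum fun k _ =>
            mul_le_mul_of_nonneg_left (sum_dist_le N k) ?_) (by positivity)
          have := hs k
          positivity
      _ = _ := by
          rw [← Finset.sum_mul, hS]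
          simp only [hS1, hc]
          ring
  have hS0 : 0 ≤ S := Finset.sum_nonneg fun k _ => Finset.sum_nonneg fun z _ => by
    have := hs k; positivity
  have hup := (le_abs_self _).trans (abs_pair_le hn h hL hK)
  have h2 : S / 2 ≤ Real.sqrt (A ^ 2 * ν.real univ) * Real.sqrt (8 * G * S) :=
    (hlow.trans hup).trans (mul_le_mul_of_nonneg_left (Real.sqrt_le_sqrt hgram) (Real.sqrt_nonneg _))
  rw [← Real.sqrt_mul (by positivity)] at h2
  have h3 := pow_le_pow_left₀ (by positivity) h2 2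
  rw [Real.sq_sqrt (by positivity)] at h3
  rcases hS0.eq_or_lt with h0 | h0
  · rw [← h0]
    have : 0 ≤ R ^ n := pow_nonneg hR.le n
    positivity
  · refine le_of_mul_le_mul_right ?_ h0
    calc S * S ≤ 4 * (A ^ 2 * ν.real univ * (8 * G * S)) := by nlinarith
      _ ≤ 4 * (A ^ 2 * (C * R ^ n) * (8 * G * S)) := by
          gcongr
          exact h.real_univ_le
      _ = _ := by ring

end

end Vale.Agent.P120.Full
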