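import Vale.Agent.P120.Full.Assembly
import Vale.Agent.P120.Full.CellsExist
import Vale.Agent.P120.Full.CoronaBuild
import Vale.Agent.P120.Full.Decay
import Vale.Agent.P120.Full.DecayBuild
import Vale.Agent.P120.Full.Energy
import Vale.Agent.P120.Full.Packing
import Vale.Agent.P120.Full.Planes
import Vale.Agent.P120.Full.Stops

/-!
# P120, full answer: the assembly
-/

namespace Vale.Agent.P120.Full

open MeasureTheory

variable {E : Type*} [NormedAddCommGroup E] [InnerProductSpace ℝ E] [MeasurableSpace E]
  [BorelSpace E] [FiniteDimensional ℝ E] {n : ℕ} {μ : Measure E}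

/-- Excess decay gives uniform rectifiability. -/
theorem uniformlyRectifiable_of_decay (hn : 1 ≤ n) (hnd : n < Module.finrank ℝ E)
    (hd : Decay E n) (hAD : ADRegular n μ) (hR : RieszBounded n μ) :
    UniformlyRectifiable n μ :=
  uniformlyRectifiable_of_corona hn hnd (cellsExist n)
    (coronaExist_of hn hnd.le hd (coefPacking hn) (planeCompare hn)
      fun C A θ ε₀ => stops_le hn C A θ ε₀)
    hAD hR

/-- A bounded Riesz transform on a regular measure forces uniform rectifiability. -/
theorem davidSemmes (hn : 1 ≤ n) (hnd : n < Module.finrank ℝ E) (hAD : ADRegular n μ)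
    (hR : RieszBounded n μ) : UniformlyRectifiable n μ :=
  uniformlyRectifiable_of_decay hn hnd (decay_of_build hn hnd.le (buildStatement hn hnd.le)) hAD hR

end Vale.Agent.P120.Full
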