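import Mathlib

/-!
# P120, full answer: tilt packing over a tree of nearly compatible affine maps

Each level of the tree is glued by a partition of unity at its own scale. The increments are small
together with two derivatives, so integration by parts makes their gradients almost orthogonal.
-/

namespace Vale.Agent.P120.Full

open MeasureTheory Set Filter Metric Finset
open scoped Topology RealInnerProductSpace

noncomputable section

variable {n M : ℕ}

/-- The root plane. -/
abbrev TiltSpace (n : ℕ) : Type := EuclideanSpace ℝ (Fin n)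

/-- The scale of level `k`. -/
def tiltScale (L : ℝ) (k : ℕ) : ℝ := L * (1 / 16 : ℝ) ^ k

/-- The derivative in direction `e`. -/
def dirDeriv (e : TiltSpace n) (f : TiltSpace n → ℝ) (x : TiltSpace n) : ℝ := fderiv ℝ f x e

/-- Scaled size of two derivatives. -/
def jetSize (l : ℝ) (e : TiltSpace n) (f : TiltSpace n → ℝ) (x : TiltSpace n) : ℝ :=
  |f x| + l * |dirDeriv e f x| + l ^ 2 / 2 * |dirDeriv e (dirDeriv e f) x|

variable {e x : TiltSpace n} {f g : TiltSpace n → ℝ} {l : ℝ}

theorem contDiff_dirDeriv (hf : ContDiff ℝ 2 f) : ContDiff ℝ 1 (dirDeriv e f) :=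
  (hf.fderiv_right (by norm_num)).clm_apply contDiff_const

theorem continuous_dirDeriv_two (hf : ContDiff ℝ 2 f) : Continuous (dirDeriv e (dirDeriv e f)) :=
  ((contDiff_dirDeriv hf).continuous_fderiv one_ne_zero).clm_apply continuous_const

theorem jetSize_nonneg (hl : 0 ≤ l) : 0 ≤ jetSize l e f x := by unfold jetSize; positivity

theorem abs_le_jetSize (hl : 0 ≤ l) : |f x| ≤ jetSize l e f x := by
  unfold jetSize
  linarith [mul_nonneg hl (abs_nonneg (dirDeriv e f x)),
    mul_nonneg (show 0 ≤ l ^ 2 / 2 by positivity) (abs_nonneg (dirDeriv e (dirDeriv e f) x))]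

theorem dirDeriv_le_jetSize (hl : 0 < l) : |dirDeriv e f x| ≤ jetSize l e f x / l := by
  rw [le_div_iff₀ hl, jetSize]
  linarith [abs_nonneg (f x),
    mul_nonneg (show 0 ≤ l ^ 2 / 2 by positivity) (abs_nonneg (dirDeriv e (dirDeriv e f) x))]

theorem dirDeriv_two_le_jetSize (hl : 0 < l) :
    |dirDeriv e (dirDeriv e f) x| ≤ 2 * jetSize l e f x / l ^ 2 := by
  rw [le_div_iff₀ (by positivity), jetSize]
  linarith [abs_nonneg (f x), mul_nonneg hl.le (abs_nonneg (dirDeriv e f x))]

theorem jetSize_mono {l' : ℝ} (hl : 0 ≤ l) (h : l ≤ l') : jetSize l e f x ≤ jetSize l' e f x := by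
  unfold jetSize
  gcongr

theorem jetSize_congr (h : f =ᶠ[𝓝 x] g) : jetSize l e f x = jetSize l e g x := by
  have h1 : dirDeriv e f =ᶠ[𝓝 x] dirDeriv e g := (h.fderiv (𝕜 := ℝ)).mono fun y hy => by
    simp [dirDeriv, hy]
  simp only [jetSize, h.eq_of_nhds, h1.eq_of_nhds]
  rw [show dirDeriv e (dirDeriv e f) x = dirDeriv e (dirDeriv e g) x by
    simp only [dirDeriv]; exact congrArg (fun T : TiltSpace n →L[ℝ] ℝ => T e) h1.fderiv_eq]

theorem jetSize_zero : jetSize l e (fun _ => 0) x = 0 := by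
  have : dirDeriv e (fun _ : TiltSpace n => (0 : ℝ)) = fun _ => 0 := funext fun y => by
    simp [dirDeriv]
  simp [jetSize, this]

theorem dirDeriv_add (hf : Differentiable ℝ f) (hg : Differentiable ℝ g) :
    dirDeriv e (fun y => f y + g y) = fun y => dirDeriv e f y + dirDeriv e g y := funext fun y => by
  simp [dirDeriv, fderiv_fun_add (hf y) (hg y)]

theorem dirDeriv_sub (hf : Differentiable ℝ f) (hg : Differentiable ℝ g) :
    dirDeriv e (fun y => f y - g y) = fun y => dirDeriv e f y - dirDeriv e g y := funext fun y => by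
  simp [dirDeriv, fderiv_fun_sub (hf y) (hg y)]

theorem dirDeriv_mul (hf : Differentiable ℝ f) (hg : Differentiable ℝ g) :
    dirDeriv e (fun y => f y * g y) = fun y => dirDeriv e f y * g y + f y * dirDeriv e g y :=
  funext fun y => by
    simp [dirDeriv, fderiv_fun_mul (hf y) (hg y)]; ring

theorem jetSize_add (hl : 0 ≤ l) (hf : ContDiff ℝ 2 f) (hg : ContDiff ℝ 2 g) :
    jetSize l e (fun y => f y + g y) x ≤ jetSize l e f x + jetSize l e g x := by
  rw [jetSize, dirDeriv_add (hf.differentiable (by norm_num)) (hg.differentiable (by norm_num)),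
    dirDeriv_add ((contDiff_dirDeriv hf).differentiable (by norm_num))
      ((contDiff_dirDeriv hg).differentiable (by norm_num))]
  have h1 := mul_le_mul_of_nonneg_left (abs_add_le (dirDeriv e f x) (dirDeriv e g x)) hl
  have h2 := mul_le_mul_of_nonneg_left (abs_add_le (dirDeriv e (dirDeriv e f) x)
    (dirDeriv e (dirDeriv e g) x)) (show 0 ≤ l ^ 2 / 2 by positivity)
  simp only [jetSize]
  linarith [abs_add_le (f x) (g x)]

theorem jetSize_sub (hl : 0 ≤ l) (hf : ContDiff ℝ 2 f) (hg : ContDiff ℝ 2 g) :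
    jetSize l e (fun y => f y - g y) x ≤ jetSize l e f x + jetSize l e g x := by
  rw [jetSize, dirDeriv_sub (hf.differentiable (by norm_num)) (hg.differentiable (by norm_num)),
    dirDeriv_sub ((contDiff_dirDeriv hf).differentiable (by norm_num))
      ((contDiff_dirDeriv hg).differentiable (by norm_num))]
  have h1 := mul_le_mul_of_nonneg_left (abs_sub (dirDeriv e f x) (dirDeriv e g x)) hl
  have h2 := mul_le_mul_of_nonneg_left (abs_sub (dirDeriv e (dirDeriv e f) x)
    (dirDeriv e (dirDeriv e g) x)) (show 0 ≤ l ^ 2 / 2 by positivity)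
  simp only [jetSize]
  linarith [abs_sub (f x) (g x)]

theorem jetSize_mul (hl : 0 ≤ l) (hf : ContDiff ℝ 2 f) (hg : ContDiff ℝ 2 g) :
    jetSize l e (fun y => f y * g y) x ≤ jetSize l e f x * jetSize l e g x := by
  have df := hf.differentiable (by norm_num)
  have dg := hg.differentiable (by norm_num)
  have df1 := (contDiff_dirDeriv (e := e) hf).differentiable (by norm_num)
  have dg1 := (contDiff_dirDeriv (e := e) hg).differentiable (by norm_num)
  rw [jetSize, dirDeriv_mul df dg, dirDeriv_add (df1.fun_mul dg) (df.fun_mul dg1),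
    dirDeriv_mul df1 dg, dirDeriv_mul df dg1]
  simp only [jetSize]
  set a := f x
  set a1 := dirDeriv e f x
  set a2 := dirDeriv e (dirDeriv e f) x
  set b := g x
  set b1 := dirDeriv e g x
  set b2 := dirDeriv e (dirDeriv e g) x
  have h1 : |a1 * b + a * b1| ≤ |a1| * |b| + |a| * |b1| := by
    rw [← abs_mul, ← abs_mul]; exact abs_add_le _ _
  have h2 : |a2 * b + a1 * b1 + (a1 * b1 + a * b2)| ≤
      |a2| * |b| + |a1| * |b1| + (|a1| * |b1| + |a| * |b2|) := by
    simp only [← abs_mul]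
    exact (abs_add_le _ _).trans (add_le_add (abs_add_le _ _) (abs_add_le _ _))
  have h1' := mul_le_mul_of_nonneg_left h1 hl
  have h2' := mul_le_mul_of_nonneg_left h2 (show 0 ≤ l ^ 2 / 2 by positivity)
  have p1 : 0 ≤ l * |a1| * (l ^ 2 / 2 * |b2|) := by positivity
  have p2 : 0 ≤ l ^ 2 / 2 * |a2| * (l * |b1|) := by positivity
  have p3 : 0 ≤ l ^ 2 / 2 * |a2| * (l ^ 2 / 2 * |b2|) := by positivity
  rw [abs_mul]
  linarith

theorem jetSize_sum {κ : Type*} (s : Finset κ) (F : κ → TiltSpace n → ℝ) (hl : 0 ≤ l)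
    (hF : ∀ i ∈ s, ContDiff ℝ 2 (F i)) :
    jetSize l e (fun y => ∑ i ∈ s, F i y) x ≤ ∑ i ∈ s, jetSize l e (F i) x := by
  classical
  induction s using Finset.induction with
  | empty => simp [jetSize_zero]
  | insert i s hi ih =>
    simp only [Finset.sum_insert hi]
    exact (jetSize_add hl (hF i (mem_insert_self _ _))
      (ContDiff.sum fun j hj => hF j (mem_insert_of_mem hj))).trans
      (add_le_add le_rfl (ih fun j hj => hF j (mem_insert_of_mem hj)))

/-- A profile placed at position `c` and scale `l`. -/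
def placed (F : TiltSpace n → ℝ) (c : TiltSpace n) (l : ℝ) (y : TiltSpace n) : ℝ :=
  F (l⁻¹ • (y - c))

theorem contDiff_placed {F : TiltSpace n → ℝ} (hF : ContDiff ℝ 2 F) (c : TiltSpace n) (l : ℝ) :
    ContDiff ℝ 2 (placed F c l) := hF.comp (by fun_prop)

theorem dirDeriv_placed {F : TiltSpace n → ℝ} (hF : Differentiable ℝ F) (c : TiltSpace n) (l : ℝ) :
    dirDeriv e (placed F c l) = fun y => l⁻¹ * placed (dirDeriv e F) c l y := funext fun y => by
  have h : HasFDerivAt (fun z : TiltSpace n => l⁻¹ • (z - c))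
      (l⁻¹ • ContinuousLinearMap.id ℝ (TiltSpace n)) y := ((hasFDerivAt_id y).sub_const c).const_smul l⁻¹
  have h2 := ((hF (l⁻¹ • (y - c))).hasFDerivAt.comp y h).fderiv
  show fderiv ℝ (F ∘ fun z : TiltSpace n => l⁻¹ • (z - c)) y e = _
  rw [h2]
  simp [placed, dirDeriv]

theorem jetSize_placed {F : TiltSpace n → ℝ} (hF : ContDiff ℝ 2 F) (hl : 0 < l) (c : TiltSpace n) :
    jetSize l e (placed F c l) x = jetSize 1 e F (l⁻¹ • (x - c)) := by
  have d1 := (contDiff_dirDeriv (e := e) hF).differentiable (by norm_num)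
  have e2 : dirDeriv e (dirDeriv e (placed F c l)) x =
      l⁻¹ * (l⁻¹ * placed (dirDeriv e (dirDeriv e F)) c l x) := by
    rw [dirDeriv_placed (hF.differentiable (by norm_num)) c l]
    show fderiv ℝ (fun y => l⁻¹ * placed (dirDeriv e F) c l y) x e = _
    have hd : DifferentiableAt ℝ (placed (dirDeriv e F) c l) x :=
      (d1.comp (show Differentiable ℝ fun y : TiltSpace n => l⁻¹ • (y - c) by fun_prop)) x
    rw [fderiv_const_mul hd, ← congrFun (dirDeriv_placed (e := e) d1 c l) x]
    rfl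
  rw [jetSize, e2, dirDeriv_placed (hF.differentiable (by norm_num)) c l]
  simp only [jetSize, placed, abs_mul, abs_inv, abs_of_pos hl]
  field_simp

theorem jetSize_comp {τ : ℝ → ℝ} (hτ : ContDiff ℝ 2 τ) (hf : ContDiff ℝ 2 f) (hl : 0 ≤ l) {K : ℝ}
    (h0 : |τ (f x)| ≤ K) (h1 : |deriv τ (f x)| ≤ K) (h2 : |deriv (deriv τ) (f x)| ≤ K) :
    jetSize l e (fun y => τ (f y)) x ≤ K * (1 + jetSize l e f x) ^ 2 := by
  have df := hf.differentiable (by norm_num)
  have dτ := hτ.differentiable (by norm_num)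
  have dτ' : Differentiable ℝ (deriv τ) :=
    (show ContDiff ℝ 1 (deriv τ) from hτ.deriv').differentiable (by norm_num)
  have e1 : ∀ (u : ℝ → ℝ), Differentiable ℝ u →
      dirDeriv e (fun y => u (f y)) = fun y => deriv u (f y) * dirDeriv e f y := fun u hu =>
    funext fun y => by
      have h := ((hu (f y)).hasDerivAt.comp_hasFDerivAt y (df y).hasFDerivAt).fderiv
      show fderiv ℝ (u ∘ f) y e = _
      rw [h]; simp [dirDeriv]
  have e2 : dirDeriv e (fun y => deriv τ (f y) * dirDeriv e f y) =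
      fun y => dirDeriv e (fun z => deriv τ (f z)) y * dirDeriv e f y +
        deriv τ (f y) * dirDeriv e (dirDeriv e f) y :=
    dirDeriv_mul (f := fun z => deriv τ (f z)) (dτ'.comp df)
      ((contDiff_dirDeriv hf).differentiable (by norm_num))
  rw [jetSize, e1 τ dτ, e2, e1 _ dτ']
  simp only [jetSize]
  set s1 := dirDeriv e f x
  set s2 := dirDeriv e (dirDeriv e f) x
  have hK : 0 ≤ K := (abs_nonneg _).trans h0
  have t1 : l * |deriv τ (f x) * s1| ≤ K * (l * |s1|) := by
    rw [abs_mul, mul_left_comm]; exact mul_le_mul_of_nonneg_right h1 (by positivity)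
  have t2 : l ^ 2 / 2 * |deriv (deriv τ) (f x) * s1 * s1 + deriv τ (f x) * s2| ≤
      K * ((l * |s1|) ^ 2 / 2 + l ^ 2 / 2 * |s2|) := by
    have h3 : |deriv (deriv τ) (f x) * s1 * s1 + deriv τ (f x) * s2| ≤
        K * |s1| * |s1| + K * |s2| := by
      refine (abs_add_le _ _).trans ?_
      rw [abs_mul, abs_mul, abs_mul]
      gcongr
    exact (mul_le_mul_of_nonneg_left h3 (by positivity)).trans_eq (by ring)
  have hX : 0 ≤ |f x| := abs_nonneg _
  nlinarith [mul_nonneg hK hX, mul_nonneg hK (mul_nonneg hX hX), mul_nonneg hK (mul_nonneg hl (abs_nonneg s1)),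
    mul_nonneg hK (mul_nonneg (show 0 ≤ l ^ 2 / 2 by positivity) (abs_nonneg s2)),
    mul_nonneg hK (sq_nonneg (l * |s1|)), mul_nonneg hK (mul_nonneg hX (mul_nonneg hl (abs_nonneg s1))),
    mul_nonneg hK (mul_nonneg (add_nonneg hX (mul_nonneg hl (abs_nonneg s1)))
      (mul_nonneg (show 0 ≤ l ^ 2 / 2 by positivity) (abs_nonneg s2))),
    mul_nonneg hK (sq_nonneg (l ^ 2 / 2 * |s2|))]

theorem jetSize_le_bound {F : TiltSpace n → ℝ} (hF : ContDiff ℝ 2 F) (hc : HasCompactSupport F) :
    ∃ C : ℝ, 0 ≤ C ∧ ∀ e : TiltSpace n, ‖e‖ = 1 → ∀ y, jetSize 1 e F y ≤ C := by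
  obtain ⟨C0, h0⟩ := hF.continuous.bounded_above_of_compact_support hc
  obtain ⟨C1, h1⟩ := (hF.continuous_fderiv (by norm_num)).bounded_above_of_compact_support (hc.fderiv (𝕜 := ℝ))
  have hF1 : ContDiff ℝ 1 (fderiv ℝ F) := hF.fderiv_right (by norm_num)
  obtain ⟨C2, h2⟩ := (hF1.continuous_fderiv one_ne_zero).bounded_above_of_compact_support
    ((hc.fderiv (𝕜 := ℝ)).fderiv (𝕜 := ℝ))
  have hC : 0 ≤ C0 + C1 + C2 := by
    linarith [norm_nonneg (F 0), h0 0, norm_nonneg (fderiv ℝ F 0), h1 0,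
      norm_nonneg (fderiv ℝ (fderiv ℝ F) 0), h2 0]
  refine ⟨C0 + C1 + C2, hC, fun e he y => ?_⟩
  have b0 : |F y| ≤ C0 := h0 y
  have b1 : |dirDeriv e F y| ≤ C1 :=
    ((fderiv ℝ F y).le_opNorm e).trans (by rw [he, mul_one]; exact h1 y)
  have b2 : |dirDeriv e (dirDeriv e F) y| ≤ C2 := by
    have h : dirDeriv e (dirDeriv e F) y = fderiv ℝ (fderiv ℝ F) y e e := by
      show fderiv ℝ (fun z => fderiv ℝ F z e) y e = _
      rw [fderiv_clm_apply (hF1.differentiable (by norm_num) y) (differentiableAt_const e)]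
      simp
    rw [h]
    refine ((fderiv ℝ (fderiv ℝ F) y).le_opNorm₂ e e).trans ?_
    rw [he, mul_one, mul_one]
    exact h2 y
  simp only [jetSize]
  nlinarith [abs_nonneg (dirDeriv e (dirDeriv e F) y)]

/-- The profile of the partition of unity. -/
def bumpProfile (n : ℕ) : ContDiffBump (0 : TiltSpace n) := ⟨3, 4, by norm_num, by norm_num⟩

/-- The profile of the test functions at the stops. -/
def testProfile (n : ℕ) : ContDiffBump (0 : TiltSpace n) := ⟨1 / 2, 1, by norm_num, by norm_num⟩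

/-- A smooth substitute for `1 / s`, exact for `s ≥ 1/2`. -/
def recipCut (s : ℝ) : ℝ :=
  (Real.smoothTransition (2 * s) * s + (1 - Real.smoothTransition (2 * s)))⁻¹

theorem recipCut_pos (s : ℝ) :
    0 < Real.smoothTransition (2 * s) * s + (1 - Real.smoothTransition (2 * s)) := by
  rcases le_or_gt s 0 with h | h
  · rw [Real.smoothTransition.zero_of_nonpos (by linarith)]; norm_num
  · rcases (Real.smoothTransition.le_one (2 * s)).lt_or_eq with h1 | h1
    · nlinarith [Real.smoothTransition.nonneg (2 * s)]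
    · rw [h1]; linarith

theorem contDiff_recipCut : ContDiff ℝ 2 recipCut := by
  have h : ContDiff ℝ 2 fun s : ℝ => Real.smoothTransition (2 * s) :=
    Real.smoothTransition.contDiff.comp (contDiff_const.mul contDiff_id)
  exact ((h.mul contDiff_id).add (contDiff_const.sub h)).inv fun s => (recipCut_pos s).ne'

theorem mul_recipCut {s : ℝ} (h : 1 / 2 ≤ s) : s * recipCut s = 1 := by
  rw [recipCut, Real.smoothTransition.one_of_one_le (by linarith)]
  field_simp
  ring

theorem recipCut_bound (M : ℝ) : ∃ K : ℝ, 1 ≤ K ∧ ∀ s ∈ Icc 0 M,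
    |recipCut s| ≤ K ∧ |deriv recipCut s| ≤ K ∧ |deriv (deriv recipCut) s| ≤ K := by
  have h1 : ContDiff ℝ 1 (deriv recipCut) := contDiff_recipCut.deriv'
  obtain ⟨A, hA⟩ := isCompact_Icc.exists_bound_of_continuousOn (s := Icc (0 : ℝ) M)
    contDiff_recipCut.continuous.continuousOn
  obtain ⟨B, hB⟩ := isCompact_Icc.exists_bound_of_continuousOn (s := Icc (0 : ℝ) M)
    h1.continuous.continuousOn
  obtain ⟨C, hC⟩ := isCompact_Icc.exists_bound_of_continuousOn (s := Icc (0 : ℝ) M)
    (h1.continuous_deriv le_rfl).continuousOn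
  exact ⟨max (max A B) (max C 1), le_max_of_le_right (le_max_right _ _), fun s hs =>
    ⟨(hA s hs).trans (le_max_of_le_left (le_max_left _ _)),
      (hB s hs).trans (le_max_of_le_left (le_max_right _ _)),
      (hC s hs).trans (le_max_of_le_right (le_max_left _ _))⟩⟩

/-- A tree of affine maps over the root plane. -/
structure TiltData (n M : ℕ) (ι : Type) where
  L : ℝ
  hL : 0 < L
  T : Finset ι
  lev : ι → ℕ
  c : ι → TiltSpace n
  a : ι → TiltSpace n
  v : ι → ℝ
  b : ι → ℝ
  b_nonneg : ∀ q ∈ T, 0 ≤ b q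
  root : ∀ q ∈ T, lev q = 0 → a q = 0 ∧ v q = 0
  parent : ∀ q ∈ T, 0 < lev q →
    ∃ p ∈ T, lev p + 1 = lev q ∧ dist (c q) (c p) ≤ 2 * tiltScale L (lev p)
  compat : ∀ p ∈ T, ∀ q ∈ T, (lev q = lev p ∧ dist (c q) (c p) ≤ 7 * tiltScale L (lev p)) ∨
      (lev q = lev p + 1 ∧ dist (c q) (c p) ≤ 4 * tiltScale L (lev p)) →
    ‖a q - a p‖ ≤ b p ∧ |v q - (v p + ⟪a p, c q - c p⟫)| ≤ b p * tiltScale L (lev p)
  count : ∀ x k, (T.filter fun q => lev q = k ∧ dist x (c q) ≤ 4 * tiltScale L k).card ≤ M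

namespace TiltData

variable {ι : Type} (D : TiltData n M ι)

/-- The scale of level `k`. -/
def sc (k : ℕ) : ℝ := tiltScale D.L k

theorem sc_pos (k : ℕ) : 0 < D.sc k := mul_pos D.hL (by positivity)

theorem sc_fold (k : ℕ) : tiltScale D.L k = D.sc k := rfl

theorem sc_succ (k : ℕ) : D.sc (k + 1) = D.sc k / 16 := by
  simp only [sc, tiltScale, pow_succ]; ring

/-- The members of level `k`. -/
def lvl (k : ℕ) : Finset ι := D.T.filter fun q => D.lev q = k

theorem mem_lvl {k : ℕ} {q : ι} : q ∈ D.lvl k ↔ q ∈ D.T ∧ D.lev q = k := Finset.mem_filter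

/-- The bump of a member. -/
def bump (q : ι) : TiltSpace n → ℝ := placed (bumpProfile n) (D.c q) (D.sc (D.lev q))

/-- The total bump of a level. -/
def mass (k : ℕ) (x : TiltSpace n) : ℝ := ∑ q ∈ D.lvl k, D.bump q x

/-- The weight of a member in its level. -/
def weight (q : ι) (x : TiltSpace n) : ℝ := D.bump q x * recipCut (D.mass (D.lev q) x)

/-- The affine map of a member. -/
def aff (q : ι) (x : TiltSpace n) : ℝ := D.v q + ⟪D.a q, x - D.c q⟫

/-- The glued map down to level `k`. -/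
def approx : ℕ → TiltSpace n → ℝ
  | 0 => fun _ => 0
  | k + 1 => fun x => approx k x + ∑ q ∈ D.lvl (k + 1), D.weight q x * (D.aff q x - approx k x)

/-- The increment from level `k` to level `k + 1`. -/
def incr (k : ℕ) (x : TiltSpace n) : ℝ :=
  ∑ q ∈ D.lvl (k + 1), D.weight q x * (D.aff q x - D.approx k x)

/-- The sum of the numbers `b` of the members of level `k` near `x`. -/
def bsum (k : ℕ) (x : TiltSpace n) : ℝ :=
  ∑ p ∈ D.lvl k, (Metric.closedBall (D.c p) (4 * D.sc k)).indicator (fun _ => D.b p) x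

theorem contDiff_bump (q : ι) : ContDiff ℝ 2 (D.bump q) :=
  contDiff_placed (bumpProfile n).contDiff _ _

theorem contDiff_mass (k : ℕ) : ContDiff ℝ 2 (D.mass k) := ContDiff.sum fun q _ => D.contDiff_bump q

theorem contDiff_weight (q : ι) : ContDiff ℝ 2 (D.weight q) :=
  (D.contDiff_bump q).mul (contDiff_recipCut.comp (D.contDiff_mass _))

theorem contDiff_aff (q : ι) : ContDiff ℝ 2 (D.aff q) :=
  contDiff_const.add (contDiff_const.inner ℝ (contDiff_id.sub contDiff_const))

theorem contDiff_approx : ∀ k, ContDiff ℝ 2 (D.approx k)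
  | 0 => contDiff_const
  | k + 1 => (contDiff_approx k).add (ContDiff.sum fun q _ =>
      (D.contDiff_weight q).mul ((D.contDiff_aff q).sub (contDiff_approx k)))

theorem contDiff_incr (k : ℕ) : ContDiff ℝ 2 (D.incr k) := ContDiff.sum fun q _ =>
  (D.contDiff_weight q).mul ((D.contDiff_aff q).sub (D.contDiff_approx k))

theorem bump_eventually_zero {q : ι} (h : 4 * D.sc (D.lev q) < dist x (D.c q)) :
    D.bump q =ᶠ[𝓝 x] fun _ => 0 := by
  filter_upwards [(isOpen_lt continuous_const (continuous_id.dist continuous_const)).mem_nhds h]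
    with y hy
  refine (bumpProfile n).zero_of_le_dist ?_
  rw [dist_zero_right, norm_smul, norm_inv, Real.norm_eq_abs, abs_of_pos (D.sc_pos _),
    ← dist_eq_norm, inv_mul_eq_div, le_div_iff₀ (D.sc_pos _)]
  exact hy.le

theorem weight_eventually_zero {q : ι} (h : 4 * D.sc (D.lev q) < dist x (D.c q)) :
    D.weight q =ᶠ[𝓝 x] fun _ => 0 := by
  filter_upwards [D.bump_eventually_zero h] with y hy
  simp [weight, hy]

/-- Only the near members of a level matter. -/
theorem sum_le_card {k : ℕ} {G : ι → ℝ} {B : ℝ}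
    (hfar : ∀ q ∈ D.lvl k, 4 * D.sc k < dist x (D.c q) → G q = 0)
    (hnear : ∀ q ∈ D.lvl k, dist x (D.c q) ≤ 4 * D.sc k → G q ≤ B) (hB : 0 ≤ B) :
    ∑ q ∈ D.lvl k, G q ≤ M * B := by
  classical
  rw [← Finset.sum_filter_add_sum_filter_not (D.lvl k) fun q => dist x (D.c q) ≤ 4 * D.sc k,
    Finset.sum_eq_zero (s := (D.lvl k).filter fun q => ¬dist x (D.c q) ≤ 4 * D.sc k) fun q hq =>
      hfar q (Finset.mem_filter.1 hq).1 (not_le.1 (Finset.mem_filter.1 hq).2), add_zero]
  refine (Finset.sum_le_card_nsmul _ _ B fun q hq =>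
    hnear q (Finset.mem_filter.1 hq).1 (Finset.mem_filter.1 hq).2).trans ?_
  rw [nsmul_eq_mul]
  refine mul_le_mul_of_nonneg_right (Nat.cast_le.2 ?_) hB
  refine le_trans (le_of_eq ?_) (D.count x k)
  congr 1
  ext q
  exact ⟨fun h => Finset.mem_filter.2 ⟨(Finset.mem_filter.1 (Finset.mem_filter.1 h).1).1,
      (Finset.mem_filter.1 (Finset.mem_filter.1 h).1).2, (Finset.mem_filter.1 h).2⟩,
    fun h => Finset.mem_filter.2 ⟨Finset.mem_filter.2 ⟨(Finset.mem_filter.1 h).1,
      (Finset.mem_filter.1 h).2.1⟩, (Finset.mem_filter.1 h).2.2⟩⟩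

theorem b_le_bsum {k : ℕ} {p : ι} (hp : p ∈ D.lvl k) (hx : dist x (D.c p) ≤ 4 * D.sc k) :
    D.b p ≤ D.bsum k x := by
  refine le_trans (le_of_eq ?_) (Finset.single_le_sum (fun q hq =>
    Set.indicator_nonneg (fun _ _ => D.b_nonneg q (D.mem_lvl.1 hq).1) x) hp)
  rw [Set.indicator_of_mem (Metric.mem_closedBall.2 hx)]

theorem bsum_nonneg (k : ℕ) (x : TiltSpace n) : 0 ≤ D.bsum k x :=
  Finset.sum_nonneg fun q hq => Set.indicator_nonneg (fun _ _ => D.b_nonneg q (D.mem_lvl.1 hq).1) x

theorem bump_nonneg (q : ι) (x : TiltSpace n) : 0 ≤ D.bump q x := (bumpProfile n).nonneg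

theorem mass_mem (k : ℕ) (x : TiltSpace n) : D.mass k x ∈ Icc (0 : ℝ) M := by
  refine ⟨Finset.sum_nonneg fun q _ => D.bump_nonneg q x, ?_⟩
  refine (D.sum_le_card (x := x) (B := 1) (fun q hq hfar => ?_) (fun q _ _ => (bumpProfile n).le_one)
    zero_le_one).trans_eq (mul_one _)
  exact (D.bump_eventually_zero (by rwa [(D.mem_lvl.1 hq).2])).eq_of_nhds

/-- Near the centre of a member the weights of its level sum to one. -/
theorem weight_sum_eventually {k : ℕ} {p : ι} (hp : p ∈ D.lvl k)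
    (hx : dist x (D.c p) ≤ 3 * D.sc k) :
    (fun y => ∑ q ∈ D.lvl k, D.weight q y) =ᶠ[𝓝 x] fun _ => 1 := by
  have h1 : D.bump p x = 1 := by
    refine (bumpProfile n).one_of_mem_closedBall ?_
    rw [Metric.mem_closedBall, dist_zero_right, norm_smul, norm_inv, Real.norm_eq_abs,
      abs_of_pos (D.sc_pos _), ← dist_eq_norm, (D.mem_lvl.1 hp).2, inv_mul_eq_div,
      div_le_iff₀ (D.sc_pos _)]
    exact hx
  have h2 : (1 : ℝ) / 2 < D.mass k x := lt_of_lt_of_le (by norm_num)
    (h1.ge.trans (Finset.single_le_sum (fun q _ => D.bump_nonneg q x) hp))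
  filter_upwards [((D.contDiff_mass k).continuous.continuousAt).eventually_const_lt h2] with y hy
  have : ∀ q ∈ D.lvl k, D.weight q y = D.bump q y * recipCut (D.mass k y) := fun q hq => by
    rw [weight, (D.mem_lvl.1 hq).2]
  rw [Finset.sum_congr rfl this, ← Finset.sum_mul]
  exact mul_recipCut hy.le

end TiltData

/-- Uniform bounds for the profiles. -/
structure TiltBounds (n M : ℕ) where
  Cw : ℝ
  Cw_nonneg : 0 ≤ Cw
  weight_le : ∀ {ι : Type} (D : TiltData n M ι) (q : ι) (e x : TiltSpace n), ‖e‖ = 1 →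
    jetSize (D.sc (D.lev q)) e (D.weight q) x ≤ Cw

theorem tiltBounds (n M : ℕ) : Nonempty (TiltBounds n M) := by
  obtain ⟨Cb, hCb0, hCb⟩ := jetSize_le_bound (F := bumpProfile n) (bumpProfile n).contDiff
    (bumpProfile n).hasCompactSupport
  obtain ⟨K, hK1, hK⟩ := recipCut_bound M
  refine ⟨⟨Cb * (K * (1 + M * Cb) ^ 2), by positivity, fun D q e x he => ?_⟩⟩
  have hl := (D.sc_pos (D.lev q)).le
  have hb : ∀ p, D.lev p = D.lev q → jetSize (D.sc (D.lev q)) e (D.bump p) x ≤ Cb := fun p hp => by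
    rw [TiltData.bump, hp, jetSize_placed (bumpProfile n).contDiff (D.sc_pos _)]
    exact hCb e he _
  have hmass : jetSize (D.sc (D.lev q)) e (D.mass (D.lev q)) x ≤ M * Cb := by
    refine (jetSize_sum _ (fun p => D.bump p) hl fun p _ => D.contDiff_bump p).trans
      (D.sum_le_card (x := x) (fun p hp hfar => ?_) (fun p hp _ => hb p (D.mem_lvl.1 hp).2) hCb0)
    rw [jetSize_congr (D.bump_eventually_zero (by rwa [(D.mem_lvl.1 hp).2])), jetSize_zero]
  obtain ⟨k0, k1, k2⟩ := hK _ (D.mass_mem (D.lev q) x)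
  refine (jetSize_mul hl (D.contDiff_bump q) (contDiff_recipCut.comp (D.contDiff_mass _))).trans ?_
  refine mul_le_mul (hb q rfl) ?_ (jetSize_nonneg hl) hCb0
  refine (jetSize_comp contDiff_recipCut (D.contDiff_mass _) hl k0 k1 k2).trans ?_
  have := jetSize_nonneg (e := e) (f := D.mass (D.lev q)) (x := x) hl
  gcongr

namespace TiltData

variable {ι : Type} (D : TiltData n M ι) (B : TiltBounds n M)

theorem jetSize_aff_sub (he : ‖e‖ = 1) (hl : 0 ≤ l) (p q : ι) :
    jetSize l e (fun y => D.aff q y - D.aff p y) x ≤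
      |D.v q - (D.v p + ⟪D.a p, D.c q - D.c p⟫)| + ‖D.a q - D.a p‖ * (dist x (D.c q) + l) := by
  have heq : (fun y => D.aff q y - D.aff p y) = fun y =>
      (D.v q - (D.v p + ⟪D.a p, D.c q - D.c p⟫)) + ⟪D.a q - D.a p, y - D.c q⟫ := funext fun y => by
    simp only [aff, inner_sub_left, inner_sub_right]; ring
  set w := D.a q - D.a p
  set r := D.v q - (D.v p + ⟪D.a p, D.c q - D.c p⟫)
  have d1 : dirDeriv e (fun y => r + ⟪w, y - D.c q⟫) = fun _ => ⟪w, e⟫ := funext fun y => by
    have h : HasFDerivAt (fun z : TiltSpace n => r + ⟪w, z - D.c q⟫) (innerSL ℝ w) y :=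
      (((innerSL ℝ w).hasFDerivAt).comp y ((hasFDerivAt_id y).sub_const (D.c q))).const_add r
    simp [dirDeriv, h.fderiv]
  have d2 : dirDeriv e (fun _ : TiltSpace n => ⟪w, e⟫) x = 0 := by simp [dirDeriv]
  rw [heq, jetSize, d1, d2, abs_zero, mul_zero, add_zero]
  have i1 := abs_add_le r ⟪w, x - D.c q⟫
  have i2 := abs_real_inner_le_norm w (x - D.c q)
  have i3 := abs_real_inner_le_norm w e
  rw [he, mul_one] at i3
  rw [← dist_eq_norm x (D.c q)] at i2
  nlinarith [mul_le_mul_of_nonneg_left i3 hl]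

/-- The glued map is close to the affine map of each member on its plateau. -/
theorem dev_le (he : ‖e‖ = 1) {k : ℕ} {p : ι} (hp : p ∈ D.lvl k)
    (hx : dist x (D.c p) ≤ 3 * D.sc k) :
    jetSize (D.sc k) e (fun y => D.approx k y - D.aff p y) x ≤
      6 * M * B.Cw * D.bsum k x * D.sc k := by
  have hs := D.sc_pos k
  have hR : 0 ≤ 6 * M * B.Cw * D.bsum k x * D.sc k :=
    mul_nonneg (mul_nonneg (mul_nonneg (by positivity) B.Cw_nonneg) (D.bsum_nonneg k x)) hs.le
  cases k with
  | zero =>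
    obtain ⟨ha, hv⟩ := D.root p (D.mem_lvl.1 hp).1 (D.mem_lvl.1 hp).2
    have : (fun y => D.approx 0 y - D.aff p y) = fun _ => 0 := funext fun y => by
      simp [approx, aff, ha, hv]
    rw [this, jetSize_zero]
    exact hR
  | succ k =>
    have hW := D.weight_sum_eventually hp hx
    have h1 : (fun y => D.approx (k + 1) y - D.aff p y) =ᶠ[𝓝 x]
        fun y => ∑ q ∈ D.lvl (k + 1), D.weight q y * (D.aff q y - D.aff p y) := by
      filter_upwards [hW] with y hy
      simp only [approx, mul_sub, Finset.sum_sub_distrib, ← Finset.sum_mul, hy]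
      ring
    rw [jetSize_congr h1]
    refine (jetSize_sum _ _ hs.le fun q _ =>
      (D.contDiff_weight q).mul ((D.contDiff_aff q).sub (D.contDiff_aff p))).trans ?_
    refine (D.sum_le_card (x := x) (B := B.Cw * (6 * D.bsum (k + 1) x * D.sc (k + 1))) (fun q hq hfar => ?_)
      (fun q hq hnear => ?_) (mul_nonneg B.Cw_nonneg
        (mul_nonneg (by linarith [D.bsum_nonneg (k + 1) x]) hs.le))).trans_eq (by ring)
    · rw [jetSize_congr (g := fun _ => 0) ((D.weight_eventually_zero
        (by rwa [(D.mem_lvl.1 hq).2])).mono fun y hy => by simp [hy]), jetSize_zero]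
    · obtain ⟨hpT, hpk⟩ := D.mem_lvl.1 hp
      obtain ⟨hqT, hqk⟩ := D.mem_lvl.1 hq
      obtain ⟨c1, c2⟩ := D.compat p hpT q hqT (.inl ⟨by rw [hpk, hqk], by
        rw [hpk]
        have := dist_triangle_left (D.c q) (D.c p) x
        simp only [D.sc_fold] at *
        linarith⟩)
      rw [hpk] at c2
      refine (jetSize_mul hs.le (D.contDiff_weight q) ((D.contDiff_aff q).sub (D.contDiff_aff p))).trans ?_
      refine mul_le_mul (by rw [← hqk]; exact B.weight_le D q e x he) ?_ (jetSize_nonneg hs.le)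
        B.Cw_nonneg
      refine (D.jetSize_aff_sub he hs.le p q).trans ?_
      have hbp := D.b_le_bsum hp (hx.trans (by linarith))
      have hb0 := D.b_nonneg p hpT
      simp only [D.sc_fold] at c2
      nlinarith [mul_le_mul c1 (show dist x (D.c q) + D.sc (k + 1) ≤ 5 * D.sc (k + 1) by linarith)
        (add_nonneg dist_nonneg hs.le) hb0]

/-- The increments are small with two derivatives. -/
theorem incr_le (he : ‖e‖ = 1) (k : ℕ) (x : TiltSpace n) :
    jetSize (D.sc (k + 1)) e (D.incr k) x ≤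
      M * B.Cw * (2 + 6 * M * B.Cw) * D.bsum k x * D.sc k := by
  have hs := D.sc_pos k
  have hs' := D.sc_pos (k + 1)
  have hss := D.sc_succ k
  have hB0 := D.bsum_nonneg k x
  have hC0 := B.Cw_nonneg
  refine (jetSize_sum _ _ hs'.le fun q _ =>
    (D.contDiff_weight q).mul ((D.contDiff_aff q).sub (D.contDiff_approx k))).trans ?_
  refine (D.sum_le_card (x := x) (B := B.Cw * ((2 + 6 * M * B.Cw) * D.bsum k x * D.sc k))
    (fun q hq hfar => ?_) (fun q hq hnear => ?_) (by positivity)).trans_eq (by ring)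
  · rw [jetSize_congr (g := fun _ => 0) ((D.weight_eventually_zero
      (by rwa [(D.mem_lvl.1 hq).2])).mono fun y hy => by simp [hy]), jetSize_zero]
  · obtain ⟨hqT, hqk⟩ := D.mem_lvl.1 hq
    obtain ⟨p, hpT, hpk, hd⟩ := D.parent q hqT (by omega)
    have hpk' : D.lev p = k := by omega
    have hp : p ∈ D.lvl k := D.mem_lvl.2 ⟨hpT, hpk'⟩
    obtain ⟨c1, c2⟩ := D.compat p hpT q hqT (.inr ⟨by omega, hd.trans (by
      rw [hpk']; rw [D.sc_fold]; linarith)⟩)
    simp only [hpk', D.sc_fold] at c2 hd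
    have hxp : dist x (D.c p) ≤ 3 * D.sc k := by
      have := dist_triangle x (D.c q) (D.c p)
      linarith
    refine (jetSize_mul hs'.le (D.contDiff_weight q)
      ((D.contDiff_aff q).sub (D.contDiff_approx k))).trans ?_
    refine mul_le_mul (by rw [← hqk]; exact B.weight_le D q e x he) ?_ (jetSize_nonneg hs'.le)
      B.Cw_nonneg
    have heq : (fun y => D.aff q y - D.approx k y) =
        fun y => (D.aff q y - D.aff p y) - (D.approx k y - D.aff p y) := funext fun y => by ring
    rw [heq]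
    refine (jetSize_sub hs'.le ((D.contDiff_aff q).sub (D.contDiff_aff p))
      ((D.contDiff_approx k).sub (D.contDiff_aff p))).trans ?_
    have hdev := (jetSize_mono hs'.le (show D.sc (k + 1) ≤ D.sc k by linarith)).trans
      (D.dev_le B he hp hxp)
    have hbp := D.b_le_bsum hp (hxp.trans (by linarith))
    have hb0 := D.b_nonneg p hpT
    have haff := D.jetSize_aff_sub (x := x) he hs'.le p q
    nlinarith [mul_le_mul c1 (show dist x (D.c q) + D.sc (k + 1) ≤ D.sc k by linarith)
      (add_nonneg dist_nonneg hs'.le) hb0]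

end TiltData

end

end Vale.Agent.P120.Full
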