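import Vale.Agent.P120.Full.Planes
import Vale.Agent.P120.Full.Tilt

/-!
# P120, full answer: planes at a small angle to a root plane are graphs

Coordinates on the root plane `W₀` are a linear map `π : E → ℝ^n` of norm at most one. A plane `W`
with `‖perp W₀ w‖ ≤ ‖w‖ / 2` on `W` has a linear section `L` of `π`, and the vertical distance of
a point to an affine plane with this direction is at most three times its distance to the plane.
-/

namespace Vale.Agent.P120.Full

open MeasureTheory Set
open scoped RealInnerProductSpace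

noncomputable section

variable {E : Type*} [NormedAddCommGroup E] [InnerProductSpace ℝ E] [FiniteDimensional ℝ E]
  {n : ℕ}

/-- Coordinates on an `n`-plane. -/
structure RootCoord (n : ℕ) (W₀ : Submodule ℝ E) where
  π : E →L[ℝ] TiltSpace n
  norm_eq : ∀ x, ‖π x‖ = ‖W₀.starProjection x‖

theorem rootCoord (W₀ : Submodule ℝ E) (h : Module.finrank ℝ W₀ = n) :
    Nonempty (RootCoord n W₀) := by
  set o := ((stdOrthonormalBasis ℝ W₀).reindex (finCongr h)).repr
  refine ⟨⟨(o.toLinearIsometry.toContinuousLinearMap).comp W₀.orthogonalProjectionOnto,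
    fun x => ?_⟩⟩
  simp

variable {W₀ W : Submodule ℝ E} (c : RootCoord n W₀)

/-- Two orthogonal components. -/
theorem norm_le_proj_add_perp (W : Submodule ℝ E) (x : E) :
    ‖x‖ ≤ ‖W.starProjection x‖ + ‖perp W x‖ := by
  have : x = W.starProjection x + perp W x := by simp [perp]
  exact (congrArg norm this).le.trans (norm_add_le _ _)

theorem RootCoord.norm_le (x : E) : ‖c.π x‖ ≤ ‖x‖ := by
  rw [c.norm_eq]; exact W₀.norm_starProjection_apply_le x

/-- A vector that is not too steep is controlled by its coordinates. -/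
theorem RootCoord.le_of_slant {x : E} {s : ℝ} (h : ‖perp W₀ x‖ ≤ 1 / 2 * ‖x‖ + s) :
    ‖x‖ ≤ 2 * ‖c.π x‖ + 2 * s := by
  have := norm_le_proj_add_perp W₀ x
  rw [c.norm_eq]
  linarith

/-- A flat enough plane has a section of the coordinates. -/
theorem RootCoord.exists_section (hW : Module.finrank ℝ W = n)
    (hs : ∀ w ∈ W, ‖perp W₀ w‖ ≤ 1 / 2 * ‖w‖) :
    ∃ L : TiltSpace n →L[ℝ] E, ∀ ξ, L ξ ∈ W ∧ c.π (L ξ) = ξ ∧ ‖L ξ‖ ≤ 2 * ‖ξ‖ := by
  set f : W →ₗ[ℝ] TiltSpace n := c.π.toLinearMap.comp W.subtype
  have hb : ∀ w : W, ‖w‖ ≤ 2 * ‖f w‖ := fun w => by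
    have := c.le_of_slant (x := (w : E)) (s := 0) (by simpa using hs w w.2)
    simpa [f] using this
  have hinj : Function.Injective f := (injective_iff_map_eq_zero f).2 fun w hw => by
    have h' := hb w
    rw [hw, norm_zero, mul_zero] at h'
    exact norm_le_zero_iff.1 h'
  have hbij : Function.Bijective f := ⟨hinj,
    (LinearMap.injective_iff_surjective_of_finrank_eq_finrank
      (by rw [hW]; simp)).1 hinj⟩
  set g := LinearEquiv.ofBijective f hbij
  refine ⟨(W.subtype.comp g.symm.toLinearMap).toContinuousLinearMap, fun ξ => ?_⟩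
  have hf : f (g.symm ξ) = ξ := g.apply_symm_apply ξ
  refine ⟨(g.symm ξ).2, hf, ?_⟩
  have := hb (g.symm ξ)
  rw [hf] at this
  simpa using this

/-- The point of the plane `p + W` above the coordinates `η`. -/
def planePoint (L : TiltSpace n →L[ℝ] E) (p : E) (η : TiltSpace n) : E := p + L (η - c.π p)

theorem planePoint_add (L : TiltSpace n →L[ℝ] E) (p : E) (η ξ : TiltSpace n) :
    planePoint c L p (η + ξ) = planePoint c L p η + L ξ := by
  simp only [planePoint, map_sub, map_add]; abel

variable {L : TiltSpace n →L[ℝ] E}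

theorem planePoint_sub_mem (hL : ∀ ξ, L ξ ∈ W) (p : E) (η : TiltSpace n) :
    planePoint c L p η - p ∈ W := by
  rw [planePoint, add_sub_cancel_left]; exact hL _

/-- Vertical distance to a plane. -/
theorem norm_sub_planePoint_le (hs : ∀ w ∈ W, ‖perp W₀ w‖ ≤ 1 / 2 * ‖w‖)
    (hL : ∀ ξ, L ξ ∈ W ∧ c.π (L ξ) = ξ) (x p : E) :
    ‖x - planePoint c L p (c.π x)‖ ≤ 3 * ‖perp W (x - p)‖ := by
  set d := x - planePoint c L p (c.π x) with hd
  have hπ : c.π d = 0 := by
    simp only [hd, planePoint, map_sub, map_add, (hL _).2]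
    abel
  have hperp : perp W d = perp W (x - p) := by
    have h0 : perp W (L (c.π x - c.π p)) = 0 := by
      simp [perp, Submodule.starProjection_eq_self_iff.2 (hL _).1]
    rw [show d = x - p - L (c.π x - c.π p) by simp only [hd, planePoint]; abel, perp_sub, h0,
      sub_zero]
  have hw := W.starProjection_apply_mem d
  have h1 := c.le_of_slant (x := W.starProjection d) (s := 0) (by simpa using hs _ hw)
  have h2 : ‖c.π (W.starProjection d)‖ ≤ ‖perp W d‖ := by
    rw [show W.starProjection d = d - perp W d by simp [perp], map_sub, hπ, zero_sub, norm_neg]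
    exact c.norm_le _
  have h3 := norm_le_proj_add_perp W d
  rw [← hperp]
  linarith

/-- If a point of a second plane is close to the first plane, then the two planes are vertically
close above it. -/
theorem norm_planePoint_sub_le (hs : ∀ w ∈ W, ‖perp W₀ w‖ ≤ 1 / 2 * ‖w‖)
    (hL : ∀ ξ, L ξ ∈ W ∧ c.π (L ξ) = ξ) {L' : TiltSpace n →L[ℝ] E} (hL' : ∀ ξ, c.π (L' ξ) = ξ)
    (p p' : E) (η : TiltSpace n) :
    ‖planePoint c L' p' η - planePoint c L p η‖ ≤ 3 * ‖perp W (planePoint c L' p' η - p)‖ := by
  have hη : c.π (planePoint c L' p' η) = η := by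
    simp only [planePoint, map_add, hL']; abel
  have := norm_sub_planePoint_le c hs hL (planePoint c L' p' η) p
  rwa [hη] at this

end

end Vale.Agent.P120.Full
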