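import Vale.Agent.P120.Full.WindowTest
import Vale.Agent.P120.Full.Corona
import Vale.Agent.P120.Full.Planes
import Vale.Agent.P120.Descent

/-!
# P120, full answer: roots of the trees

Below a cell the coefficient is large or some descendant at a bounded number of generations has a
small weighted beta number: with bounded windows the descent gives a flat ball of comparable size.
-/

namespace Vale.Agent.P120.Full

open MeasureTheory Set Filter
open scoped Topology RealInnerProductSpace

noncomputable section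

variable {E : Type*} [NormedAddCommGroup E] [InnerProductSpace ℝ E] [MeasurableSpace E]
  [BorelSpace E] [FiniteDimensional ℝ E] {n : ℕ} {C A R : ℝ} {ν : Measure E} {x₀ : E}

lemma scale_add (R : ℝ) (k q : ℕ) : scale R (k + q) = scale R k * (1 / 16) ^ q := by
  rw [scale, scale, mul_assoc, ← pow_add]; congr 2; omega

omit [MeasurableSpace E] [BorelSpace E] [FiniteDimensional ℝ E] in
/-- Norms of normal components are at most distances to the plane. -/
lemma norm_perp_le_dist [FiniteDimensional ℝ E] (W : Submodule ℝ E) {p y w : E} (hw : w ∈ W) :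
    ‖perp W (y - p)‖ ≤ dist y (p + w) := by
  have h0 : perp W w = 0 := by rw [perp, Submodule.starProjection_eq_self_iff.2 hw, sub_self]
  have : y - p = (y - (p + w)) + w := by abel
  rw [this, perp_add, h0, add_zero, dist_eq_norm]
  exact norm_perp_le _ _

omit [InnerProductSpace ℝ E] in
/-- Only the part inside the support matters for the mass. -/
lemma measure_le_of_inter_support [SecondCountableTopology E] {S T : Set E}
    (h : S ∩ ν.support ⊆ T) : ν S ≤ ν T := by
  refine measure_mono_ae ?_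
  have hs : ν.support ∈ ae ν := mem_ae_iff.2 Measure.measure_compl_support
  filter_upwards [hs] with u hu huS
  exact h ⟨huS, hu⟩

lemma Nice.flatness_le (h : Nice n C A ν x₀ R) {z p : E} {l D : ℝ} {W : Submodule ℝ E}
    (hl : 0 < l) (hD : 0 ≤ D)
    (hb : ∀ y ∈ ν.support, dist y z < 4 * l → ‖perp W (y - p)‖ ≤ D) :
    flatness ν n z l p W ≤ D / l * Real.sqrt (C * 4 ^ n) := by
  have := h.finite
  obtain ⟨hC, -, -, -, hgr, -, -⟩ := id h
  have hC0 : 0 < C := lt_of_lt_of_le one_pos hC
  have hle : ∫ y in Metric.ball z (4 * l), ‖perp W (y - p)‖ ^ 2 ∂ν ≤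
      D ^ 2 * (C * (4 * l) ^ n) := by
    calc ∫ y in Metric.ball z (4 * l), ‖perp W (y - p)‖ ^ 2 ∂ν
        ≤ ∫ _ in Metric.ball z (4 * l), D ^ 2 ∂ν := by
          refine integral_mono_of_nonneg (Eventually.of_forall fun y => sq_nonneg _)
            (integrable_const _) ?_
          filter_upwards [ae_mem_support_restrict ν _, ae_restrict_mem measurableSet_ball]
            with y hy hyb
          exact pow_le_pow_left₀ (norm_nonneg _) (hb y hy (Metric.mem_ball.1 hyb)) 2
      _ = ν.real (Metric.ball z (4 * l)) * D ^ 2 := by rw [setIntegral_const, smul_eq_mul]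
      _ ≤ C * (4 * l) ^ n * D ^ 2 :=
          mul_le_mul_of_nonneg_right (hgr z _ (by positivity)) (sq_nonneg D)
      _ = _ := mul_comm _ _
  refine (Real.sqrt_le_sqrt (div_le_div_of_nonneg_right hle (by positivity))).trans (le_of_eq ?_)
  rw [show D ^ 2 * (C * (4 * l) ^ n) / l ^ (n + 2) = (D / l) ^ 2 * (C * 4 ^ n) by
      rw [mul_pow, pow_add]; field_simp,
    Real.sqrt_mul (sq_nonneg _), Real.sqrt_sq (by positivity)]

omit [BorelSpace E] in
lemma beta_le (n : ℕ) (ν : Measure E) (z : E) (l : ℝ) (p : E) {W : Submodule ℝ E}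
    (hW : Module.finrank ℝ W = n) : beta n ν z l ≤ flatness ν n z l p W :=
  csInf_le ⟨0, fun b ⟨_, _, _, hb⟩ => hb ▸ Real.sqrt_nonneg _⟩ ⟨p, W, hW, rfl⟩

omit [BorelSpace E] in
lemma beta_nonneg (n : ℕ) (ν : Measure E) (z : E) (l : ℝ) : 0 ≤ beta n ν z l :=
  Real.sInf_nonneg fun _ ⟨_, _, _, hb⟩ => hb ▸ Real.sqrt_nonneg _

/-- Beta numbers are bounded. -/
lemma Nice.beta_le_const (h : Nice n C A ν x₀ R) (z : E) {l : ℝ} (hl : 0 < l)
    {W : Submodule ℝ E} (hW : Module.finrank ℝ W = n) :
    beta n ν z l ≤ 4 * Real.sqrt (C * 4 ^ n) := by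
  refine (beta_le n ν z l z hW).trans ((h.flatness_le hl (D := 4 * l) (by positivity)
    fun y _ hy => ?_).trans (le_of_eq ?_))
  · have := norm_perp_le_dist W (p := z) (y := y) W.zero_mem
    rw [add_zero] at this
    linarith
  · rw [mul_div_assoc, div_self hl.ne', mul_one]

section Cells

variable (D : Cells ν x₀ R)

omit [InnerProductSpace ℝ E] [BorelSpace E] [FiniteDimensional ℝ E] in
lemma Cells.cell_le (D : Cells ν x₀ R) (f : ℕ → E) :
    ∀ k m : ℕ, f (k + m) ∈ D.Z (k + m) →
      (∀ j, k ≤ j → j < k + m → f j = D.parent j (f (j + 1))) →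
      ∀ j, k ≤ j → j ≤ k + m → f j ∈ D.Z j ∧ D.cell (k + m) (f (k + m)) ⊆ D.cell j (f j) := by
  intro k m
  induction m generalizing k with
  | zero =>
    intro h _ j h1 h2
    obtain rfl : j = k := by omega
    exact ⟨h, Subset.rfl⟩
  | succ m ih =>
    intro h hp j h1 h2
    rcases (Nat.eq_or_lt_of_le h1) with rfl | hlt
    · obtain ⟨h3, h4⟩ := ih (k + 1) (by rwa [Nat.add_right_comm, Nat.add_assoc])
        (fun i hi hi' => hp i (by omega) (by omega)) (k + 1) le_rfl (by omega)
      rw [show k + 1 + m = k + (m + 1) by omega] at h4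
      rw [hp k le_rfl (by omega)]
      exact ⟨D.parent_mem k _ h3, h4.trans (D.cell_subset k _ h3)⟩
    · obtain ⟨h3, h4⟩ := ih (k + 1) (by rwa [Nat.add_right_comm, Nat.add_assoc])
        (fun i hi hi' => hp i (by omega) (by omega)) j (by omega) (by omega)
      rw [show k + 1 + m = k + (m + 1) by omega] at h4
      exact ⟨h3, h4⟩

omit [InnerProductSpace ℝ E] [BorelSpace E] [FiniteDimensional ℝ E] in
/-- A finer cell meeting a coarser one lies inside it. -/
lemma Cells.nested (D : Cells ν x₀ R) {k m : ℕ} {u w y : E} (hu : u ∈ D.Z k)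
    (hw : w ∈ D.Z (k + m)) (hyu : y ∈ D.cell k u) (hyw : y ∈ D.cell (k + m) w) :
    D.cell (k + m) w ⊆ D.cell k u := by
  induction m generalizing w with
  | zero =>
    have : w = u := by
      by_contra hne
      exact Set.disjoint_left.1 (D.disjoint_cell k hw hu hne) hyw hyu
    subst this; exact Subset.rfl
  | succ m ih =>
    have h1 := D.cell_subset (k + m) w hw
    exact h1.trans (ih (D.parent_mem (k + m) w hw) (h1 hyw))

end Cells

/-- The restriction of `ν` to a cell is regular at all scales up to an eighth of the cell. -/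
lemma Cells.localAD (D : Cells ν x₀ R) (h : Nice n C A ν x₀ R) {k : ℕ} {z : E} (hz : z ∈ D.Z k)
    (hzx : dist z x₀ ≤ R / 128) :
    LocalAD (ν.restrict (D.cell k z)) n (C * 512 ^ n) (scale R k / 8) := by
  have := h.finite
  obtain ⟨hC, -, hR, -, hgr, hlo, -⟩ := id h
  have hC0 : 0 < C := lt_of_lt_of_le one_pos hC
  have hl : 0 < scale R k := scale_pos hR k
  have hlR := scale_le hR k
  have h512 : (1 : ℝ) ≤ 512 ^ n := one_le_pow₀ (by norm_num)
  refine ⟨one_le_mul_of_one_le_of_one_le hC h512, by linarith, fun y hy t ht htk => ⟨?_, ?_⟩⟩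
  · set U := D.cell k z
    have hpos : 0 < (ν.restrict U) (Metric.ball y (t / 2)) :=
      (Measure.mem_support_iff_forall _).1 hy _ (Metric.ball_mem_nhds y (by positivity))
    rw [Measure.restrict_apply measurableSet_ball] at hpos
    obtain ⟨y', hy'b, hy'U⟩ := nonempty_of_measure_ne_zero hpos.ne'
    obtain ⟨hy's, hy'z⟩ := D.subset_ball k z hz hy'U
    rw [Metric.mem_closedBall] at hy'z
    have hex : ∃ q, 8 * scale R (k + q) ≤ t := by
      obtain ⟨q, hq⟩ := exists_pow_lt_of_lt_one (div_pos ht (mul_pos (by norm_num : (0 : ℝ) < 8) hl))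
        (by norm_num : (1 / 16 : ℝ) < 1)
      refine ⟨q, ?_⟩
      rw [lt_div_iff₀ (mul_pos (by norm_num) hl)] at hq
      rw [scale_add]
      linarith
    classical
    set q := Nat.find hex with hqdef
    have hq : 8 * scale R (k + q) ≤ t := Nat.find_spec hex
    have hq0 : q ≠ 0 := fun h0 => by rw [h0, Nat.add_zero] at hq; linarith
    have hq' : t ≤ 128 * scale R (k + q) := by
      obtain ⟨r, hr⟩ := Nat.exists_eq_succ_of_ne_zero hq0
      have h1 := Nat.find_min hex (show r < q by omega)
      rw [not_le] at h1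
      rw [hr, Nat.succ_eq_add_one, ← Nat.add_assoc, scale_add R (k + r) 1]
      linarith
    have hdx : dist y' x₀ < R / 32 := by linarith [dist_triangle y' z x₀]
    obtain ⟨w, hw, hy'w⟩ := mem_iUnion₂.1 (D.cover (k + q) ⟨hy's, Metric.mem_ball.2 hdx⟩)
    have hsub : D.cell (k + q) w ⊆ U := D.nested hz hw hy'U hy'w
    obtain ⟨-, hy'wd⟩ := D.subset_ball _ w hw hy'w
    rw [Metric.mem_closedBall] at hy'wd
    have hlq := scale_le hR (k + q)
    have hwx : dist w x₀ ≤ R / 64 := by
      linarith [dist_triangle w y' x₀, dist_comm w y', dist_triangle y' z x₀]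
    have hball : Metric.ball w (scale R (k + q) / 4) ⊆ Metric.ball y t := by
      refine Metric.ball_subset_ball' ?_
      linarith [dist_triangle w y' y, dist_comm w y', Metric.mem_ball.1 hy'b,
        scale_pos hR (k + q)]
    have hmass : C⁻¹ * (t / 512) ^ n ≤
        (ν.restrict U).real (Metric.ball y t) := by
      rw [measureReal_restrict_apply measurableSet_ball]
      have h1 := hlo w (D.mem_support _ w hw).1 (by linarith) (scale R (k + q) / 4)
        (by linarith [scale_pos hR (k + q)]) (by linarith)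
      refine (le_trans ?_ h1).trans ?_
      · exact mul_le_mul_of_nonneg_left (pow_le_pow_left₀ (by positivity) (by linarith) n)
          (by positivity)
      · exact ENNReal.toReal_mono (measure_ne_top _ _) (measure_le_of_inter_support
          fun u ⟨hu, hus⟩ => ⟨hball hu, hsub (D.ball_subset _ w hw hwx ⟨hus, hu⟩)⟩)
    refine le_trans (ENNReal.ofReal_le_ofReal (le_trans (le_of_eq ?_) hmass)) ?_
    · rw [mul_inv, div_pow]; ring
    · rw [ofReal_measureReal]
  · refine (Measure.restrict_apply_le _ _).trans ?_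
    rw [← ofReal_measureReal]
    refine ENNReal.ofReal_le_ofReal ((hgr y t ht).trans ?_)
    exact mul_le_mul_of_nonneg_right (le_mul_of_one_le_right hC0.le h512) (by positivity)

omit [FiniteDimensional ℝ E] in
lemma sum_pow_le (j₀ N : ℕ) :
    ∑ j ∈ Finset.Icc j₀ N, (1 / 4 : ℝ) ^ (N - j) ≤ 2 := by
  have h : ∀ M : ℕ, ∑ j ∈ Finset.range (M + 1), (1 / 4 : ℝ) ^ (M - j) ≤ 4 / 3 := by
    intro M
    induction M with
    | zero => norm_num
    | succ M ih =>
      rw [Finset.sum_range_succ, Nat.sub_self, pow_zero]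
      have : ∑ j ∈ Finset.range (M + 1), (1 / 4 : ℝ) ^ (M + 1 - j) =
          1 / 4 * ∑ j ∈ Finset.range (M + 1), (1 / 4 : ℝ) ^ (M - j) := by
        rw [Finset.mul_sum]
        refine Finset.sum_congr rfl fun j hj => ?_
        have := Finset.mem_range.1 hj
        rw [← pow_succ']
        congr 1
        omega
      rw [this]
      linarith
  refine (Finset.sum_le_sum_of_subset_of_nonneg (t := Finset.range (N + 1)) (fun j hj => ?_)
    fun j _ _ => by positivity).trans ((h N).trans (by norm_num))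
  have := (Finset.mem_Icc.1 hj).2
  exact Finset.mem_range.2 (by omega)

omit [FiniteDimensional ℝ E] in
/-- A weighted sum which is bounded at old levels and small at new ones. -/
lemma sum_split_le (j₀ i p : ℕ) (hj₀ : j₀ ≤ i + p) (b : ℕ → ℝ) {B₀ B₁ : ℝ} (hB₀ : 0 ≤ B₀)
    (hB₁ : 0 ≤ B₁) (h0 : ∀ j, j₀ ≤ j → j ≤ i + p → b j ≤ B₀)
    (h1 : ∀ j, j₀ ≤ j → j ≤ i + p → i ≤ j → b j ≤ B₁) :
    ∑ j ∈ Finset.Icc j₀ (i + p), (1 / 4 : ℝ) ^ (i + p - j) * b j ≤
      2 * (1 / 4) ^ p * B₀ + 2 * B₁ := by
  have hpt : ∀ j ∈ Finset.Icc j₀ (i + p), (1 / 4 : ℝ) ^ (i + p - j) * b j ≤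
      (if j ≤ i then (1 / 4 : ℝ) ^ p * ((1 / 4) ^ (i - j) * B₀) else 0) +
        (1 / 4) ^ (i + p - j) * B₁ := by
    intro j hj
    obtain ⟨hj1, hj2⟩ := Finset.mem_Icc.1 hj
    split_ifs with hji
    · have e : (1 / 4 : ℝ) ^ (i + p - j) = (1 / 4) ^ p * (1 / 4) ^ (i - j) := by
        rw [← pow_add]; congr 1; omega
      have h2 := mul_le_mul_of_nonneg_left (h0 j hj1 hj2)
        (by positivity : (0 : ℝ) ≤ (1 / 4) ^ (i + p - j))
      have h3 : 0 ≤ (1 / 4 : ℝ) ^ (i + p - j) * B₁ := by positivity
      rw [e] at h2 h3 ⊢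
      linarith
    · rw [zero_add]
      exact mul_le_mul_of_nonneg_left (h1 j hj1 hj2 (by omega)) (by positivity)
  refine (Finset.sum_le_sum hpt).trans ?_
  rw [Finset.sum_add_distrib, ← Finset.sum_mul]
  refine add_le_add ?_ (mul_le_mul_of_nonneg_right (sum_pow_le _ _) hB₁)
  rw [← Finset.sum_filter]
  have hsub : (Finset.Icc j₀ (i + p)).filter (fun j => j ≤ i) ⊆ Finset.Icc j₀ i := fun j hj => by
    obtain ⟨h2, h3⟩ := Finset.mem_filter.1 hj
    exact Finset.mem_Icc.2 ⟨(Finset.mem_Icc.1 h2).1, h3⟩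
  refine (Finset.sum_le_sum_of_subset_of_nonneg hsub fun j _ _ => by positivity).trans ?_
  rw [← Finset.mul_sum, ← Finset.sum_mul]
  calc (1 / 4 : ℝ) ^ p * ((∑ j ∈ Finset.Icc j₀ i, (1 / 4 : ℝ) ^ (i - j)) * B₀)
      ≤ (1 / 4 : ℝ) ^ p * (2 * B₀) := mul_le_mul_of_nonneg_left
        (mul_le_mul_of_nonneg_right (sum_pow_le _ _) hB₀) (by positivity)
    _ = _ := by ring

/-- Below every cell: a large coefficient, or a flat descendant at a bounded depth. -/
theorem exists_root (hn : 1 ≤ n) (hnd : n ≤ Module.finrank ℝ E) {C A ε : ℝ} (hC : 1 ≤ C)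
    (_hA : 0 ≤ A) (hε : 0 < ε) :
    ∃ (J : ℕ) (c : ℝ), 0 < c ∧ ∀ (ν : Measure E) (x₀ : E) (R : ℝ), Nice n C A ν x₀ R →
      ∀ (D : Cells ν x₀ R) (k : ℕ), ∀ z ∈ D.Z k, dist z x₀ ≤ R / 128 →
        c ≤ coef n ν z (scale R k) ∨
        ∃ m ≤ J, ∃ w ∈ D.Z (k + m), D.cell (k + m) w ⊆ D.cell k z ∧
          c * ν.real (D.cell k z) ≤ ν.real (D.cell (k + m) w) ∧
          ∀ f : ℕ → E, f (k + m) = w →
            (∀ j, j < k + m → f j = D.parent j (f (j + 1))) →
            ∀ j₀ ≤ k, bHat n ν R f j₀ (k + m) ≤ ε := by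
  have hC0 : 0 < C := lt_of_lt_of_le one_pos hC
  obtain ⟨Wb, hWb, hwin⟩ := exists_window_coef (E := E) hn hC
  set Q := Real.sqrt (C * 4 ^ n) with hQ
  have hQ0 : 0 < Q := by positivity
  obtain ⟨p, hp⟩ := exists_pow_lt_of_lt_one (show 0 < ε / (2 * (1 + 8 * Q)) by positivity)
    (by norm_num : (1 / 4 : ℝ) < 1)
  set ε1 := ε / (4 * (96 * 16 ^ p * Q)) with hε1
  have hε10 : 0 < ε1 := by positivity
  obtain ⟨c1, hc1, hflat⟩ := exists_bilaterallyFlat_unif (E := E) (n := n) hn hnd
    (C := C * 512 ^ n) (A := Wb) (ε := ε1)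
    (one_le_mul_of_one_le_of_one_le hC (one_le_pow₀ (by norm_num))) hWb hε10
  obtain ⟨c0, hc0, hwc⟩ := hwin (c1 / 8) (by positivity)
  obtain ⟨Q₀, hQ₀⟩ := exists_pow_lt_of_lt_one (show 0 < c1 / 48 by positivity)
    (by norm_num : (1 / 16 : ℝ) < 1)
  set c := min c0 ((1 / 16 : ℝ) ^ ((Q₀ + p) * n) / (C ^ 2 * 12 ^ n)) with hc
  refine ⟨Q₀ + p, c, lt_min hc0 (by positivity), ?_⟩
  intro ν x₀ R h D k z hz hzx
  have := h.finite
  obtain ⟨-, -, hR, -, hgr, hlo, -⟩ := id h
  by_cases hbig : c ≤ coef n ν z (scale R k)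
  · exact Or.inl hbig
  right
  rw [not_le] at hbig
  set l := scale R k with hldef
  have hl : 0 < l := scale_pos hR k
  have hlR := scale_le hR k
  set U := D.cell k z with hU
  have hzs := (D.mem_support k z hz).1
  have hballU : ν.support ∩ Metric.ball z (l / 4) ⊆ U := D.ball_subset k z hz (by linarith)
  have hres : ∀ S ⊆ Metric.ball z (l / 4), MeasurableSet S →
      (ν.restrict U) S = ν S ∧ (ν.restrict U).restrict S = ν.restrict S := by
    intro S hS hSm
    have hae : (S ∩ U : Set E) =ᵐ[ν] S := by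
      refine (ae_eq_set.2 ⟨?_, ?_⟩)
      · rw [Set.sdiff_eq_empty.2 inter_subset_left, measure_empty]
      · exact measure_mono_null (fun y hy hys => hy.2 ⟨hy.1, hballU ⟨hys, hS hy.1⟩⟩)
          Measure.measure_compl_support
    exact ⟨by rw [Measure.restrict_apply hSm, measure_congr hae],
      by rw [Measure.restrict_restrict hSm, Measure.restrict_congr_set hae]⟩
  have hsupp : ∀ y ∈ ν.support, dist y z < l / 4 → y ∈ (ν.restrict U).support := by
    intro y hy hyz
    refine (Measure.mem_support_iff_forall _).2 fun V hV => ?_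
    obtain ⟨r, hr, hrV⟩ := Metric.mem_nhds_iff.1 hV
    set S := Metric.ball y (min r (l / 4 - dist y z))
    have hS : S ⊆ Metric.ball z (l / 4) :=
      Metric.ball_subset_ball' (by linarith [min_le_right r (l / 4 - dist y z)])
    refine lt_of_lt_of_le ?_ (measure_mono ((Metric.ball_subset_ball (min_le_left r (l / 4 - dist y z))).trans hrV))
    rw [(hres S hS measurableSet_ball).1]
    exact (Measure.mem_support_iff_forall _).1 hy _ (Metric.ball_mem_nhds y (lt_min hr (by linarith)))
  have hsub' : (ν.restrict U).support ⊆ ν.support :=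
    Measure.support_mono Measure.restrict_le_self
  have hgood : Good n (ν.restrict U) z (l / 8) Wb c1 := by
    intro z' hz' hd a b ha hab hb
    have hwe : win n (ν.restrict U) z' a b = win n ν z' a b := by
      rw [win, win, (hres (annulus z' a b) ?_ (measurableSet_annulus _ _ _)).2]
      intro y hy
      rw [Metric.mem_ball]
      linarith [dist_triangle y z' z, dist_comm y z', hy.2]
    rw [hwe]
    by_contra hcon
    refine absurd (hwc ν x₀ R A h z z' l a b hl (hsub' hz') ?_ (by linarith) (by linarith)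
      (by linarith) hab (by linarith) (not_le.1 hcon)) (not_le.2 (hbig.trans_le (min_le_left _ _)))
    linarith [dist_triangle z' z x₀]
  obtain ⟨x, hx, t, hct, hxt, W, hW, hflat', -⟩ := hflat (ν.restrict U) z
    (hsupp z hzs (by rw [dist_self]; linarith)) (l / 8) (D.localAD h hz hzx) hgood
  have ht : 0 < t := lt_of_lt_of_le (by positivity) hct
  have hxz : dist x z ≤ l / 8 := hxt (Metric.mem_closedBall_self ht.le)
  have hxs : x ∈ ν.support := hsub' hx
  classical
  have hex : ∃ q, 6 * scale R (k + q) < t := by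
    refine ⟨Q₀, ?_⟩
    rw [scale_add, ← hldef]
    have := mul_lt_mul_of_pos_right hQ₀ hl
    nlinarith
  set q := Nat.find hex with hqdef
  have hq : 6 * scale R (k + q) < t := Nat.find_spec hex
  have hqle : q ≤ Q₀ := Nat.find_le (by
    rw [scale_add, ← hldef]
    have := mul_lt_mul_of_pos_right hQ₀ hl
    nlinarith)
  have hxU : x ∈ U := hballU ⟨hxs, Metric.mem_ball.2 (by linarith)⟩
  have hxx : dist x x₀ < R / 32 := by linarith [dist_triangle x z x₀]
  obtain ⟨w, hw, hxw⟩ :=
    mem_iUnion₂.1 (D.cover (k + (q + p)) ⟨hxs, Metric.mem_ball.2 hxx⟩)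
  refine ⟨q + p, by omega, w, hw, D.nested hz hw hxU hxw, ?_, ?_⟩
  · -- comparable mass
    have hlw := scale_le hR (k + (q + p))
    obtain ⟨-, hwd⟩ := D.subset_ball _ w hw hxw
    rw [Metric.mem_closedBall] at hwd
    have hwx : dist w x₀ ≤ R / 64 := by
      linarith [dist_triangle w x x₀, dist_comm w x, dist_triangle x z x₀]
    have h1 : ν.real U ≤ C * (3 * l) ^ n := by
      refine (measureReal_mono ?_ (measure_ne_top _ _)).trans (hgr z (3 * l) (by positivity))
      intro y hy
      have := Metric.mem_closedBall.1 (D.subset_ball k z hz hy).2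
      rw [Metric.mem_ball]
      linarith
    have h2 : C⁻¹ * (scale R (k + (q + p)) / 4) ^ n ≤ ν.real (D.cell (k + (q + p)) w) := by
      refine (hlo w (D.mem_support _ w hw).1 (by linarith) _
        (by linarith [scale_pos hR (k + (q + p))]) (by linarith)).trans ?_
      exact ENNReal.toReal_mono (measure_ne_top _ _) (measure_le_of_inter_support
        fun u ⟨hu, hus⟩ => D.ball_subset _ w hw hwx ⟨hus, hu⟩)
    refine le_trans ?_ h2
    calc c * ν.real U ≤ (1 / 16 : ℝ) ^ ((Q₀ + p) * n) / (C ^ 2 * 12 ^ n) * (C * (3 * l) ^ n) :=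
          mul_le_mul (min_le_right _ _) h1 measureReal_nonneg (by positivity)
      _ = C⁻¹ * (l * (1 / 16) ^ (Q₀ + p) / 4) ^ n := by
          rw [pow_mul, div_pow (l * (1 / 16) ^ (Q₀ + p)) 4, mul_pow l, mul_pow 3 l,
            show (12 : ℝ) = 3 * 4 by norm_num, mul_pow 3 4]
          field_simp
      _ ≤ _ := by
          refine mul_le_mul_of_nonneg_left (pow_le_pow_left₀ (by positivity) ?_ n) (by positivity)
          rw [scale_add]
          refine div_le_div_of_nonneg_right (mul_le_mul_of_nonneg_left ?_ hl.le) (by norm_num)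
          exact pow_le_pow_of_le_one (by norm_num) (by norm_num) (by omega)
  · intro f hf hpar j₀ hj₀
    have hN : k + (q + p) = k + q + p := (Nat.add_assoc _ _ _).symm
    have hmem := D.cell_le f 0 (k + (q + p)) (by rwa [Nat.zero_add, hf])
      (fun j _ hj => hpar j (by omega))
    have hfd : ∀ j, j ≤ k + (q + p) → dist x (f j) ≤ 2 * scale R j := fun j hj => by
      obtain ⟨h1, h2⟩ := hmem j (Nat.zero_le j) (by omega)
      rw [Nat.zero_add, hf] at h2
      exact Metric.mem_closedBall.1 (D.subset_ball j _ h1 (h2 hxw)).2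
    have hnew : ∀ j, j₀ ≤ j → j ≤ k + q + p → k + q ≤ j →
        beta n ν (f j) (scale R j) ≤ 96 * 16 ^ p * ε1 * Q := by
      intro j _ hj hji
      have hlj := scale_pos hR j
      have hle : scale R j ≤ scale R (k + q) := by
        obtain ⟨r, rfl⟩ := Nat.exists_eq_add_of_le hji
        rw [scale_add R (k + q) r]
        exact mul_le_of_le_one_right (scale_pos hR _).le (pow_le_one₀ (by norm_num) (by norm_num))
      refine (beta_le n ν _ _ x hW).trans ((h.flatness_le hlj (D := ε1 * t) (by positivity)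
        fun y hy hyd => ?_).trans (mul_le_mul_of_nonneg_right ?_ hQ0.le))
      · have hyx : dist y x ≤ t := by
          linarith [dist_triangle y (f j) x, dist_comm x (f j), hfd j (by omega)]
        have hyz : dist y z ≤ l / 8 := hxt (Metric.mem_closedBall.2 hyx)
        obtain ⟨u, hu, hud⟩ := hflat' y (hsupp y hy (by linarith)) hyx
        exact (norm_perp_le_dist W hu).trans hud
      · rw [div_le_iff₀ hlj]
        have hmin : scale R (k + q) * (1 / 16) ^ p ≤ scale R j := by
          obtain ⟨r, rfl⟩ := Nat.exists_eq_add_of_le hji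
          rw [scale_add R (k + q) r]
          exact mul_le_mul_of_nonneg_left (pow_le_pow_of_le_one (by norm_num) (by norm_num)
            (by omega)) (scale_pos hR _).le
        have htq : t ≤ 96 * scale R (k + q) := by
          rcases Nat.eq_zero_or_pos q with h0 | h0
          · rw [h0, Nat.add_zero, ← hldef]
            have : t ≤ 3 * l := by
              by_contra hlt
              obtain ⟨e, he⟩ : ∃ e : E, ‖e‖ = t := by
                obtain ⟨v, hv⟩ := Module.finrank_pos_iff_exists_ne_zero.1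
                  (show 0 < Module.finrank ℝ E by omega)
                exact ⟨(t / ‖v‖) • v, by rw [norm_smul, Real.norm_eq_abs, abs_div, abs_norm,
                  abs_of_pos ht, div_mul_cancel₀ _ (norm_ne_zero_iff.2 hv)]⟩
              have h3 : dist (x + e) z ≤ l / 8 := hxt (Metric.mem_closedBall.2 (by
                rw [dist_eq_norm, add_sub_cancel_left, he]))
              linarith [dist_triangle (x + e) z x, dist_comm z x,
                show dist (x + e) x = t by rw [dist_eq_norm, add_sub_cancel_left, he]]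
            linarith
          · obtain ⟨r, hr⟩ := Nat.exists_eq_succ_of_ne_zero h0.ne'
            have h1 := Nat.find_min hex (show r < q by omega)
            rw [not_lt] at h1
            rw [hr, Nat.succ_eq_add_one, ← Nat.add_assoc, scale_add R (k + r) 1]
            linarith
        calc ε1 * t ≤ ε1 * (96 * scale R (k + q)) := mul_le_mul_of_nonneg_left htq hε10.le
          _ = 96 * 16 ^ p * ε1 * (scale R (k + q) * (1 / 16) ^ p) := by
              rw [div_pow, one_pow]; field_simp
          _ ≤ _ := mul_le_mul_of_nonneg_left hmin (by positivity)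
    rw [bHat, hN]
    have hsum := sum_split_le j₀ (k + q) p (by omega)
      (fun j => beta n ν (f j) (scale R j)) (B₀ := 4 * Q) (B₁ := 96 * 16 ^ p * ε1 * Q)
      (by positivity) (by positivity)
      (fun j _ _ => h.beta_le_const _ (scale_pos hR j) hW) hnew
    have h4 : (1 / 4 : ℝ) ^ (k + q + p - j₀) ≤ (1 / 4) ^ p :=
      pow_le_pow_of_le_one (by norm_num) (by norm_num) (by omega)
    have h5 : 96 * 16 ^ p * ε1 * Q = ε / 4 := by rw [hε1]; field_simp
    rw [lt_div_iff₀ (by positivity)] at hp
    linarith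

end

end Vale.Agent.P120.Full
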