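import Vale.Agent.P120.Full.Layers
import Vale.Agent.P120.Full.Pair
import Vale.Agent.P120.Full.PlaneGraph

/-!
# P120, full answer: one tree with its stops

`StopData` records a tree of cells below a root together with the cells where it stops, planes
with flatness at most `b`, and the recursion `b child ≤ b parent / 2 + g parent`. This file has
the bookkeeping: cell measures, counting, ancestors and the sum of `b²` over the tree.
-/

namespace Vale.Agent.P120.Full

open MeasureTheory Set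

noncomputable section

variable {E : Type*} [NormedAddCommGroup E] [InnerProductSpace ℝ E] [MeasurableSpace E]
  [BorelSpace E] [FiniteDimensional ℝ E] {n : ℕ} {C A : ℝ} {ν : Measure E} {x₀ : E} {R : ℝ}

/-- A tree of cells with its stops. -/
structure StopData (n : ℕ) (D : Cells ν x₀ R) (ε₀ : ℝ) where
  k₀ : ℕ
  z₀ : E
  T : Finset (ℕ × E)
  S : Finset (ℕ × E)
  p : ℕ × E → E
  W : ℕ × E → Submodule ℝ E
  b : ℕ × E → ℝ
  g : ℕ × E → ℝ
  root : (k₀, z₀) ∈ T
  S_subset : S ⊆ T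
  b_root : b (k₀, z₀) ≤ ε₀
  mem : ∀ q ∈ T, k₀ ≤ q.1 ∧ (q.1 = k₀ → q.2 = z₀) ∧ q.2 ∈ D.Z q.1 ∧ dist q.2 x₀ ≤ R / 64
  step : ∀ j w, (j + 1, w) ∈ T → k₀ ≤ j → (j, D.parent j w) ∈ T ∧ (j, D.parent j w) ∉ S ∧
    b (j, D.parent j w) ≤ ε₀ ∧ b (j + 1, w) ≤ b (j, D.parent j w) / 2 + g (j, D.parent j w)
  plane : ∀ q ∈ T, Module.finrank ℝ (W q) = n ∧ 0 ≤ b q ∧
    flatness ν n q.2 (scale R q.1) (p q) (W q) ≤ b q

/-- The measure of a cell is at most the growth bound. -/
theorem cell_real_le (hN : Nice n C A ν x₀ R) (D : Cells ν x₀ R) {k : ℕ} {z : E}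
    (hz : z ∈ D.Z k) : ν.real (D.cell k z) ≤ C * 3 ^ n * scale R k ^ n := by
  have := hN.finite
  have hs := scale_pos hN.2.2.1 k
  rw [mul_assoc, ← mul_pow]
  exact (measureReal_mono ((D.subset_ball k z hz).trans (inter_subset_right.trans
    (Metric.closedBall_subset_ball (by linarith))))).trans (hN.2.2.2.2.1 z _ (by linarith))

/-- A cell has at least the measure given by lower regularity. -/
theorem scale_pow_le_cell (hN : Nice n C A ν x₀ R) (D : Cells ν x₀ R) {k : ℕ} {z : E}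
    (hz : z ∈ D.Z k) (hd : dist z x₀ ≤ R / 64) :
    scale R k ^ n ≤ C * 4 ^ n * ν.real (D.cell k z) := by
  have := hN.finite
  have hR := hN.2.2.1
  have hC : 0 < C := zero_lt_one.trans_le hN.1
  have hs := scale_pos hR k
  have hz' := D.mem_support k z hz
  have h1 := hN.2.2.2.2.2.1 z hz'.1 (by linarith) (scale R k / 4) (by linarith)
    (by linarith [scale_le hR k])
  have h2 : ν.real (Metric.ball z (scale R k / 4)) ≤ ν.real (D.cell k z) :=
    ENNReal.toReal_mono (measure_ne_top _ _) (by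
      rw [← measure_inter_conull (s := Metric.ball z (scale R k / 4)) (t := ν.support)
        Measure.measure_compl_support, inter_comm]
      exact measure_mono (D.ball_subset k z hz hd))
  calc scale R k ^ n = C * 4 ^ n * (C⁻¹ * (scale R k / 4) ^ n) := by
        rw [div_pow]; field_simp
    _ ≤ _ := mul_le_mul_of_nonneg_left (h1.trans h2) (by positivity)

namespace StopData

variable {D : Cells ν x₀ R} {ε₀ : ℝ} (P : StopData n D ε₀)

/-- The parent in the tree. -/
def par (_P : StopData n D ε₀) (q : ℕ × E) : ℕ × E := (q.1 - 1, D.parent (q.1 - 1) q.2)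

theorem par_spec {q : ℕ × E} (hq : q ∈ P.T) (hk : P.k₀ < q.1) :
    P.par q ∈ P.T ∧ P.par q ∉ P.S ∧ P.b (P.par q) ≤ ε₀ ∧
      P.b q ≤ P.b (P.par q) / 2 + P.g (P.par q) := by
  obtain ⟨m, w⟩ := q
  obtain ⟨j, rfl⟩ : ∃ j, m = j + 1 := ⟨m - 1, by simp only at hk; omega⟩
  simpa [par] using P.step j w hq (by simp only at hk; omega)

theorem eq_root {q : ℕ × E} (hq : q ∈ P.T) (hk : q.1 = P.k₀) : q = (P.k₀, P.z₀) :=
  Prod.ext hk ((P.mem q hq).2.1 hk)

theorem center_mem (hR : 0 < R) {q : ℕ × E} (hq : q ∈ P.T) : q.2 ∈ D.cell q.1 q.2 := by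
  obtain ⟨-, -, hz, hd⟩ := P.mem q hq
  refine D.ball_subset _ _ hz hd ⟨(D.mem_support _ _ hz).1, Metric.mem_ball_self ?_⟩
  linarith [scale_pos hR q.1]

theorem dist_par {q : ℕ × E} (hq : q ∈ P.T) (hk : P.k₀ < q.1) :
    (P.par q).1 + 1 = q.1 ∧ dist q.2 (P.par q).2 ≤ 2 * scale R (P.par q).1 ∧
      D.cell q.1 q.2 ⊆ D.cell (P.par q).1 (P.par q).2 := by
  have hz := (P.mem q hq).2.2.1
  obtain ⟨m, w⟩ := q
  obtain ⟨j, rfl⟩ : ∃ j, m = j + 1 := ⟨m - 1, by simp only at hk; omega⟩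
  exact ⟨by simp [par], by simpa [par] using D.dist_parent j w hz,
    by simpa [par] using D.cell_subset j w hz⟩

/-- Every tree cell lies in a tree cell of each earlier generation, which is not a stop. -/
theorem ancestor (hR : 0 < R) {q : ℕ × E} (hq : q ∈ P.T) {i : ℕ} (hi : P.k₀ ≤ i) (hiq : i ≤ q.1) :
    ∃ a, (i, a) ∈ P.T ∧ D.cell q.1 q.2 ⊆ D.cell i a ∧ (i < q.1 → (i, a) ∉ P.S) := by
  suffices ∀ j, i ≤ j → ∀ w, (j, w) ∈ P.T →
      ∃ a, (i, a) ∈ P.T ∧ D.cell j w ⊆ D.cell i a ∧ (i < j → (i, a) ∉ P.S) from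
    this q.1 hiq q.2 hq
  intro j hij
  induction j, hij using Nat.le_induction with
  | base => exact fun w hw => ⟨w, hw, subset_rfl, fun h => absurd h (lt_irrefl i)⟩
  | succ j hij ih =>
    intro w hw
    obtain ⟨hp, hpS, -, -⟩ := P.step j w hw (hi.trans hij)
    obtain ⟨a, ha, hsub, haS⟩ := ih _ hp
    refine ⟨a, ha, (D.cell_subset j w (P.mem _ hw).2.2.1).trans hsub, fun _ => ?_⟩
    rcases hij.lt_or_eq with h | h
    · exact haS h
    · subst h
      have hx := P.center_mem hR hp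
      have e : a = D.parent i w :=
        D.eq_of_mem (P.mem _ ha).2.2.1 (P.mem _ hp).2.2.1 (hsub hx) hx
      rwa [e]

/-- Centres of one generation close to a point are few. -/
theorem card_near (hN : Nice n C A ν x₀ R) {k : ℕ} {x : E} {ρ : ℝ} (hρ : 0 ≤ ρ)
    (F : Finset (ℕ × E)) (hF : F ⊆ P.T)
    (h : ∀ q ∈ F, q.1 = k ∧ dist q.2 x ≤ ρ * scale R k) :
    (F.card : ℝ) ≤ C ^ 2 * (2 * (ρ + 1)) ^ n := by
  classical
  have hR := hN.2.2.1
  have hs := scale_pos hR k
  have hinj : Set.InjOn Prod.snd (↑F : Set (ℕ × E)) := fun u hu v hv huv =>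
    Prod.ext ((h u hu).1.trans (h v hv).1.symm) huv
  rw [← Finset.card_image_of_injOn hinj]
  refine (card_le_of_separated hN (c := x) (a := ρ * scale R k) (b := scale R k) (by positivity)
    hs (by linarith [scale_le hR k]) ?_ ?_).trans (le_of_eq ?_)
  · intro z hz
    obtain ⟨q, hq, rfl⟩ := Finset.mem_image.1 hz
    obtain ⟨-, -, hzq, hd⟩ := P.mem q (hF hq)
    exact ⟨(D.mem_support _ _ hzq).1, by linarith, (h q hq).2⟩
  · refine (D.separated k).mono fun z hz => ?_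
    obtain ⟨q, hq, rfl⟩ := Finset.mem_image.1 (Finset.mem_coe.1 hz)
    exact Finset.mem_coe.2 ((h q hq).1 ▸ (P.mem q (hF hq)).2.2.1)
  · congr 2; field_simp

/-- Sums over children are dominated by sums over parents. -/
theorem sum_par_le (hN : Nice n C A ν x₀ R) (f : ℕ × E → ℝ) (hf : ∀ q ∈ P.T, 0 ≤ f q) :
    ∑ q ∈ P.T.filter (fun q => P.k₀ < q.1), f (P.par q) * ν.real (D.cell q.1 q.2) ≤
      ∑ q ∈ P.T, f q * ν.real (D.cell q.1 q.2) := by
  classical
  have := hN.finite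
  set T₁ := P.T.filter fun q => P.k₀ < q.1
  rw [← Finset.sum_fiberwise_of_maps_to (s := T₁) (t := P.T) (g := P.par)
    (fun q hq => (P.par_spec (Finset.mem_filter.1 hq).1 (Finset.mem_filter.1 hq).2).1)]
  refine Finset.sum_le_sum fun r hr => ?_
  set F := T₁.filter fun q => P.par q = r
  have hF : ∀ q ∈ F, q ∈ P.T ∧ r.1 + 1 = q.1 ∧ D.cell q.1 q.2 ⊆ D.cell r.1 r.2 := fun q hq => by
    obtain ⟨h1, rfl⟩ := Finset.mem_filter.1 hq
    obtain ⟨h2, h3⟩ := Finset.mem_filter.1 h1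
    exact ⟨h2, (P.dist_par h2 h3).1, (P.dist_par h2 h3).2.2⟩
  calc ∑ q ∈ F, f (P.par q) * ν.real (D.cell q.1 q.2)
      = f r * ∑ q ∈ F, ν.real (D.cell q.1 q.2) := by
        rw [Finset.mul_sum]
        exact Finset.sum_congr rfl fun q hq => by rw [(Finset.mem_filter.1 hq).2]
    _ ≤ f r * ν.real (D.cell r.1 r.2) := by
        refine mul_le_mul_of_nonneg_left ?_ (hf r hr)
        rw [← measureReal_biUnion_finset ?_ fun q hq => D.measurableSet_cell _ _ (P.mem q (hF q hq).1).2.2.1]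
        · exact measureReal_mono (iUnion₂_subset fun q hq => (hF q hq).2.2)
        · intro q hq q' hq' hne
          obtain ⟨h1, h2, -⟩ := hF q hq
          obtain ⟨h1', h2', -⟩ := hF q' hq'
          have he : q.1 = q'.1 := h2.symm.trans h2'
          have hz' := (P.mem q' h1').2.2.1
          rw [← he] at hz'
          simp only [Function.onFun, ← he]
          exact D.disjoint_cell q.1 (Finset.mem_coe.2 (P.mem q h1).2.2.1) (Finset.mem_coe.2 hz')
            fun h => hne (Prod.ext he h)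

/-- The squares of `b` sum to the root plus the squares of `g`. -/
theorem sum_sq_le (hN : Nice n C A ν x₀ R) :
    ∑ q ∈ P.T, P.b q ^ 2 * ν.real (D.cell q.1 q.2) ≤
      2 * P.b (P.k₀, P.z₀) ^ 2 * ν.real (D.cell P.k₀ P.z₀) +
        4 * ∑ q ∈ P.T, P.g q ^ 2 * ν.real (D.cell q.1 q.2) := by
  classical
  set Sb := ∑ q ∈ P.T, P.b q ^ 2 * ν.real (D.cell q.1 q.2)
  have h1 : ∑ q ∈ P.T.filter (fun q => P.k₀ < q.1), P.b q ^ 2 * ν.real (D.cell q.1 q.2) ≤
      1 / 2 * Sb + 2 * ∑ q ∈ P.T, P.g q ^ 2 * ν.real (D.cell q.1 q.2) := by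
    refine (Finset.sum_le_sum fun q hq => mul_le_mul_of_nonneg_right ?_ measureReal_nonneg).trans
      ((P.sum_par_le hN (fun r => 1 / 2 * P.b r ^ 2 + 2 * P.g r ^ 2) fun r _ => by positivity).trans
        (le_of_eq ?_))
    · obtain ⟨h2, h3⟩ := Finset.mem_filter.1 hq
      have h4 := pow_le_pow_left₀ (P.plane q h2).2.1 (P.par_spec h2 h3).2.2.2 2
      nlinarith [sq_nonneg (P.b (P.par q) / 2 - P.g (P.par q))]
    · simp only [Sb, Finset.mul_sum, ← Finset.sum_add_distrib]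
      exact Finset.sum_congr rfl fun q _ => by ring
  have h2 : Sb = P.b (P.k₀, P.z₀) ^ 2 * ν.real (D.cell P.k₀ P.z₀) +
      ∑ q ∈ P.T.filter (fun q => P.k₀ < q.1), P.b q ^ 2 * ν.real (D.cell q.1 q.2) := by
    rw [show P.T.filter (fun q => P.k₀ < q.1) = P.T.erase (P.k₀, P.z₀) from ?_]
    · exact (Finset.add_sum_erase _ _ P.root).symm
    ext q
    simp only [Finset.mem_filter, Finset.mem_erase]
    refine ⟨fun h => ⟨fun e => absurd h.2 (by simp [e]), h.1⟩, fun h => ⟨h.2, ?_⟩⟩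
    exact lt_of_le_of_ne (P.mem q h.2).1 fun e => h.1 (P.eq_root h.2 e.symm)
  linarith

end StopData

end

end Vale.Agent.P120.Full
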