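import Vale.Agent.P120.Full.Corona

/-!
# P120, full answer, module E: the trees

Every cell has its weighted flatness `cellB` along the chain of its ancestors from generation zero,
and a nearly optimal plane.  A cell is flat when `cellB ≤ ε`.  A flat child of a flat cell continues
the tree when its plane makes an angle at most `θ` with the plane of the root; the other flat cells
are roots.  
-/

namespace Vale.Agent.P120.Full

open MeasureTheory Set
open scoped Classical

noncomputable section

variable {E : Type*} [NormedAddCommGroup E] [InnerProductSpace ℝ E] [MeasurableSpace E]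
  [BorelSpace E] {ν : Measure E} {x₀ : E} {R : ℝ}

namespace Cells

/-- The ancestor of generation `j` of a cell of generation `k` (the cell itself for `j ≥ k`). -/
def anc (D : Cells ν x₀ R) : ℕ → E → ℕ → E
  | 0, z, _ => z
  | k + 1, z, j => if k + 1 ≤ j then z else anc D k (D.parent k z) j

/-- The descendants of the top cells that meet the small ball. -/
def inner (D : Cells ν x₀ R) : ℕ → Finset E
  | 0 => relevant D 0
  | k + 1 => (D.Z (k + 1)).filter fun z => D.parent k z ∈ inner D k

end Cells

/-- The weighted coefficients of a cell along all its ancestors. -/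
def cellE (n : ℕ) (D : Cells ν x₀ R) (k : ℕ) (z : E) : ℝ := eHat n ν R (D.anc k z) 0 k

variable [FiniteDimensional ℝ E]

/-- The weighted flatness of a cell along all its ancestors. -/
def cellB (n : ℕ) (D : Cells ν x₀ R) (k : ℕ) (z : E) : ℝ := bHat n ν R (D.anc k z) 0 k

/-- The plane `W` makes an angle at most `θ` with the plane `W₀`. -/
def AngleLE (θ : ℝ) (W₀ W : Submodule ℝ E) : Prop := ∀ v ∈ W, ‖perp W₀ v‖ ≤ θ * ‖v‖

/-- A choice of nearly optimal planes for the cells. -/
def IsPlanes (n : ℕ) (D : Cells ν x₀ R) (pl : ℕ → E → E × Submodule ℝ E) : Prop :=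
  ∀ k, ∀ z ∈ D.inner k, Module.finrank ℝ (pl k z).2 = n ∧
    flatness ν n z (scale R k) (pl k z).1 (pl k z).2 ≤ beta n ν z (scale R k) + (1 / 4 : ℝ) ^ k

/-- The root of the tree of a cell, as generation and centre: a flat child of a flat cell keeps
the root of its parent unless its plane leaves the angle `θ` around the plane of that root. -/
def treeRoot (n : ℕ) (D : Cells ν x₀ R) (pl : ℕ → E → E × Submodule ℝ E) (ε θ : ℝ) :
    ℕ → E → ℕ × E
  | 0, z => (0, z)
  | k + 1, z =>
    let r := treeRoot n D pl ε θ k (D.parent k z)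
    if cellB n D (k + 1) z ≤ ε ∧ cellB n D k (D.parent k z) ≤ ε ∧
        AngleLE θ (pl r.1 r.2).2 (pl (k + 1) z).2
    then r else (k + 1, z)

/-- The cells of generation `k` in the tree of the root `r`. -/
def treeLevel (n : ℕ) (D : Cells ν x₀ R) (pl : ℕ → E → E × Submodule ℝ E) (ε θ : ℝ) (r : ℕ × E)
    (k : ℕ) : Finset E :=
  (D.inner k).filter fun z => cellB n D k z ≤ ε ∧ treeRoot n D pl ε θ k z = r

/-- The flat children at generation `k + 1` of the tree of `r` whose plane leaves the angle. -/
def tiltStops (n : ℕ) (D : Cells ν x₀ R) (pl : ℕ → E → E × Submodule ℝ E) (ε θ : ℝ) (r : ℕ × E)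
    (k : ℕ) : Finset E :=
  (D.inner (k + 1)).filter fun z => cellB n D (k + 1) z ≤ ε ∧
    D.parent k z ∈ treeLevel n D pl ε θ r k ∧ ¬AngleLE θ (pl r.1 r.2).2 (pl (k + 1) z).2

end

end Vale.Agent.P120.Full
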