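import Vale.Agent.P120.Full.Tree
import Vale.Agent.P120.Full.Layers
import Vale.Agent.P120.Full.Packing

/-!
# P120, full answer, module E: inner cells, their ancestors and their weights

The inner cells are closed under children, so the measure of an inner cell is the sum over its
children, and sums over generations of recursively defined weights telescope.
-/

namespace Vale.Agent.P120.Full

open MeasureTheory Set Filter
open scoped Topology Classical

noncomputable section

variable {E : Type*} [NormedAddCommGroup E] [InnerProductSpace ℝ E] [MeasurableSpace E]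
  [BorelSpace E] {n : ℕ} {C A R : ℝ} {ν : Measure E} {x₀ : E}

namespace Cells

variable (D : Cells ν x₀ R)

lemma anc_of_ge : ∀ {k j : ℕ} (z : E), k ≤ j → D.anc k z j = z
  | 0, _, _, _ => rfl
  | k + 1, j, z, h => by rw [anc, if_pos h]

lemma anc_succ {k j : ℕ} (z : E) (h : j ≤ k) : D.anc (k + 1) z j = D.anc k (D.parent k z) j := by
  rw [anc, if_neg (by omega)]

lemma inner_subset : ∀ {k : ℕ} {z : E}, z ∈ D.inner k → z ∈ D.Z k
  | 0, _, h => (Finset.mem_filter.1 h).1
  | _ + 1, _, h => (Finset.mem_filter.1 h).1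

lemma mem_inner_succ {k : ℕ} {z : E} :
    z ∈ D.inner (k + 1) ↔ z ∈ D.Z (k + 1) ∧ D.parent k z ∈ D.inner k := Finset.mem_filter

lemma parent_inner {k : ℕ} {z : E} (h : z ∈ D.inner (k + 1)) : D.parent k z ∈ D.inner k :=
  (D.mem_inner_succ.1 h).2

lemma anc_inner : ∀ {k : ℕ} {z : E}, z ∈ D.inner k → ∀ j ≤ k, D.anc k z j ∈ D.inner j
  | 0, z, h, j, hj => by
    obtain rfl : j = 0 := by omega
    exact h
  | k + 1, z, h, j, hj => by
    rcases hj.eq_or_lt with rfl | hlt
    · rwa [D.anc_of_ge z le_rfl]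
    · rw [D.anc_succ z (by omega)]
      exact anc_inner (D.parent_inner h) j (by omega)

lemma dist_inner_aux (hR : 0 < R) : ∀ {k : ℕ} {z : E}, z ∈ D.inner k →
    dist z x₀ ≤ R / 256 + 5 * scale R 0 - 3 * scale R k
  | 0, z, h => by
    obtain ⟨hz, x, hx, hb⟩ := Finset.mem_filter.1 h
    have h1 : dist x z ≤ 2 * scale R 0 := (D.subset_ball 0 z hz hx).2
    rw [Metric.mem_ball] at hb
    linarith [dist_triangle_left z x₀ x]
  | k + 1, z, h => by
    have h1 := dist_inner_aux hR (D.parent_inner h)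
    have h2 := D.dist_parent k z (D.inner_subset h)
    have h3 := scale_succ' R k
    have h4 := scale_pos' hR k
    linarith [dist_triangle z (D.parent k z) x₀]

lemma dist_inner (hR : 0 < R) {k : ℕ} {z : E} (h : z ∈ D.inner k) : dist z x₀ ≤ R / 128 := by
  have h1 := D.dist_inner_aux hR h
  have h2 := scale_le' hR 0
  have h3 := scale_pos' hR k
  linarith

lemma inner_mem_cell (hR : 0 < R) {k : ℕ} {z : E} (h : z ∈ D.inner k) : z ∈ D.cell k z := by
  refine D.ball_subset k z (D.inner_subset h) (by linarith [D.dist_inner hR h])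
    ⟨(D.mem_support k z (D.inner_subset h)).1, ?_⟩
  have := scale_pos' hR k
  exact Metric.mem_ball_self (by positivity)

lemma cell_near (hR : 0 < R) {k : ℕ} {z y : E} (h : z ∈ D.inner k) (hy : y ∈ D.cell k z) :
    y ∈ Metric.ball x₀ (R / 32) := by
  have h1 : dist y z ≤ 2 * scale R k := (D.subset_ball k z (D.inner_subset h) hy).2
  have h2 := scale_le' hR k
  have h3 := D.dist_inner hR h
  rw [Metric.mem_ball]
  linarith [dist_triangle y z x₀]

lemma exists_cell_of_inner (hR : 0 < R) {k l : ℕ} {z y : E} (h : z ∈ D.inner k)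
    (hy : y ∈ D.cell k z) : ∃ u ∈ D.Z l, y ∈ D.cell l u := by
  have := D.cover l ⟨(D.subset_ball k z (D.inner_subset h) hy).1, D.cell_near hR h hy⟩
  simp only [mem_iUnion] at this
  obtain ⟨u, hu, hyu⟩ := this
  exact ⟨u, hu, hyu⟩

/-- A cell below an inner cell is inner and descends from it. -/
lemma inner_of_mem {j : ℕ} {z : E} (hz : z ∈ D.inner j) : ∀ {i : ℕ}, j ≤ i → ∀ {w x : E},
    w ∈ D.Z i → x ∈ D.cell i w → x ∈ D.cell j z → w ∈ D.inner i ∧ D.anc i w j = z := by
  intro i hji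
  induction i, hji using Nat.le_induction with
  | base =>
    intro w x hw hxw hxz
    obtain rfl := D.eq_of_mem hw (D.inner_subset hz) hxw hxz
    exact ⟨hz, D.anc_of_ge w le_rfl⟩
  | succ i hji ih =>
    intro w x hw hxw hxz
    obtain ⟨h1, h2⟩ := ih (D.parent_mem i w hw) (D.cell_subset i w hw hxw) hxz
    exact ⟨D.mem_inner_succ.2 ⟨hw, h1⟩, (D.anc_succ w hji).trans h2⟩

lemma inner_of_relevant (hR : 0 < R) {k : ℕ} {z : E} (h : z ∈ relevant D k) : z ∈ D.inner k := by
  obtain ⟨hz, x, hx, hb⟩ := Finset.mem_filter.1 h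
  obtain ⟨u, hu, hxu⟩ := D.exists_cell (l := 0) hz hx hb
  exact (D.inner_of_mem (D.relevant_mem hu hxu hb) (Nat.zero_le k) hz hx hxu).1

lemma cell_subset_anc : ∀ {k : ℕ} {z : E}, z ∈ D.inner k → ∀ j ≤ k,
    D.cell k z ⊆ D.cell j (D.anc k z j)
  | 0, z, h, j, hj => by
    obtain rfl : j = 0 := by omega
    exact subset_rfl
  | k + 1, z, h, j, hj => by
    rcases hj.eq_or_lt with rfl | hlt
    · rw [D.anc_of_ge z le_rfl]
    · rw [D.anc_succ z (by omega)]
      exact (D.cell_subset k z (D.inner_subset h)).trans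
        (cell_subset_anc (D.parent_inner h) j (by omega))

/-- The hypotheses on chains of centres asked by the decay. -/
lemma anc_chain (hR : 0 < R) {k : ℕ} {z : E} (h : z ∈ D.inner k) :
    (∀ j ≤ k, D.anc k z j ∈ ν.support ∧ dist (D.anc k z j) x₀ ≤ R / 8) ∧
      ∀ j < k, dist (D.anc k z (j + 1)) (D.anc k z j) ≤ 2 * scale R j := by
  refine ⟨fun j hj => ⟨(D.mem_support j _ (D.inner_subset (D.anc_inner h j hj))).1, by
    linarith [D.dist_inner hR (D.anc_inner h j hj)]⟩, ?_⟩
  induction k generalizing z with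
  | zero => intro j hj; omega
  | succ k ih =>
    intro j hj
    rcases (Nat.lt_succ_iff.1 hj).eq_or_lt with rfl | hlt
    · rw [D.anc_of_ge z le_rfl, D.anc_succ z le_rfl, D.anc_of_ge _ le_rfl]
      exact D.dist_parent j z (D.inner_subset h)
    · rw [D.anc_succ z (show j + 1 ≤ k by omega), D.anc_succ z hlt.le]
      exact ih (D.parent_inner h) j hlt

/-- The children of a cell. -/
def children (k : ℕ) (z : E) : Finset E := (D.inner (k + 1)).filter fun w => D.parent k w = z

lemma cell_eq_children (hR : 0 < R) {k : ℕ} {z : E} (h : z ∈ D.inner k) :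
    D.cell k z = ⋃ w ∈ D.children k z, D.cell (k + 1) w := by
  refine Subset.antisymm (fun y hy => ?_) ?_
  · obtain ⟨w, hw, hyw⟩ := D.exists_cell_of_inner (l := k + 1) hR h hy
    obtain ⟨h1, h2⟩ := D.inner_of_mem h (Nat.le_succ k) hw hyw hy
    rw [D.anc_succ w le_rfl, D.anc_of_ge _ le_rfl] at h2
    simp only [mem_iUnion]
    exact ⟨w, Finset.mem_filter.2 ⟨h1, h2⟩, hyw⟩
  · simp only [iUnion_subset_iff]
    intro w hw
    obtain ⟨h1, h2⟩ := Finset.mem_filter.1 hw
    exact (D.cell_subset k w (D.inner_subset h1)).trans (h2 ▸ subset_rfl)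

lemma measure_eq_children [IsFiniteMeasure ν] (hR : 0 < R) {k : ℕ} {z : E}
    (h : z ∈ D.inner k) :
    ν.real (D.cell k z) = ∑ w ∈ D.children k z, ν.real (D.cell (k + 1) w) := by
  rw [D.cell_eq_children hR h]
  refine measureReal_biUnion_finset ((D.disjoint_cell (k + 1)).subset fun w hw => ?_)
    fun w hw => D.measurableSet_cell _ w (D.inner_subset (Finset.mem_filter.1 hw).1)
  exact Finset.mem_coe.2 (D.inner_subset (Finset.mem_filter.1 (Finset.mem_coe.1 hw)).1)

/-- Summing a function of the parent over a generation. -/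
lemma sum_parent [IsFiniteMeasure ν] (hR : 0 < R) (k : ℕ) (f : E → ℝ) :
    ∑ w ∈ D.inner (k + 1), f (D.parent k w) * ν.real (D.cell (k + 1) w) =
      ∑ z ∈ D.inner k, f z * ν.real (D.cell k z) := by
  rw [← Finset.sum_fiberwise_of_maps_to (g := D.parent k) fun w hw => D.parent_inner hw]
  refine Finset.sum_congr rfl fun z hz => ?_
  rw [D.measure_eq_children hR hz, Finset.mul_sum]
  refine Finset.sum_congr rfl fun w hw => ?_
  rw [(Finset.mem_filter.1 hw).2]

lemma sum_inner_le [IsFiniteMeasure ν] (k : ℕ) :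
    ∑ z ∈ D.inner k, ν.real (D.cell k z) ≤ ν.real univ := by
  rw [← measureReal_biUnion_finset (f := D.cell k) ((D.disjoint_cell k).subset fun z hz =>
    Finset.mem_coe.2 (D.inner_subset (Finset.mem_coe.1 hz)))
    fun z hz => D.measurableSet_cell k z (D.inner_subset hz)]
  exact measureReal_mono (subset_univ _) (measure_ne_top _ _)

lemma le_measure_cell [FiniteDimensional ℝ E] (hN : Nice n C A ν x₀ R) {k : ℕ} {z : E} (h : z ∈ D.inner k) :
    C⁻¹ * (scale R k / 4) ^ n ≤ ν.real (D.cell k z) := by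
  haveI := hN.finite
  have hR : 0 < R := hN.2.2.1
  have hs := scale_pos' hR k
  have hle := scale_le' hR k
  have hd := D.dist_inner hR h
  obtain ⟨hsupp, -⟩ := D.mem_support k z (D.inner_subset h)
  refine (hN.2.2.2.2.2.1 z hsupp (by linarith) _ (by positivity) (by linarith)).trans ?_
  rw [← measureReal_congr (inter_ae_eq_left_of_ae_eq_univ (s := Metric.ball z (scale R k / 4))
    (t := ν.support) (ae_eq_univ.2 Measure.measure_compl_support)),
    inter_comm]
  exact measureReal_mono (D.ball_subset k z (D.inner_subset h) (by linarith)) (measure_ne_top _ _)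

lemma measure_cell_le (hN : Nice n C A ν x₀ R) {k : ℕ} {z : E} (h : z ∈ D.inner k) :
    ν.real (D.cell k z) ≤ C * (3 * scale R k) ^ n := by
  haveI := hN.finite
  have hs := scale_pos' hN.2.2.1 k
  refine (measureReal_mono (fun y hy => Metric.closedBall_subset_ball (by linarith)
    (D.subset_ball k z (D.inner_subset h) hy).2) (measure_ne_top _ _)).trans
    (hN.2.2.2.2.1 z _ (by positivity))

end Cells

/-- Sums over generations of weights that contract from parent to child telescope. -/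
lemma sum_generations_le {a q : ℕ → ℝ} {θ P : ℝ} (hθ : 0 ≤ θ) (hθ1 : θ < 1) (ha : ∀ k, 0 ≤ a k)
    (M : ℕ) (h : ∀ k, k < M → a (k + 1) ≤ θ * a k + q (k + 1)) (h0 : a 0 ≤ q 0)
    (hq : ∑ k ∈ Finset.range (M + 1), q k ≤ P) :
    ∑ k ∈ Finset.range (M + 1), a k ≤ P / (1 - θ) := by
  rw [le_div_iff₀ (by linarith)]
  have h1 : ∑ k ∈ Finset.range M, a (k + 1) ≤
      θ * ∑ k ∈ Finset.range M, a k + ∑ k ∈ Finset.range M, q (k + 1) := by
    rw [Finset.mul_sum, ← Finset.sum_add_distrib]
    exact Finset.sum_le_sum fun k hk => h k (Finset.mem_range.1 hk)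
  have h2 : ∑ k ∈ Finset.range M, a k ≤ ∑ k ∈ Finset.range (M + 1), a k :=
    Finset.sum_le_sum_of_subset_of_nonneg (Finset.range_mono (Nat.le_succ M)) fun k _ _ => ha k
  have h3 := Finset.sum_range_succ' a M
  have h4 := Finset.sum_range_succ' q M
  nlinarith [mul_le_mul_of_nonneg_left h2 hθ]

lemma cellE_succ (D : Cells ν x₀ R) (k : ℕ) (z : E) :
    cellE n D (k + 1) z = cellE n D k (D.parent k z) / 4 + coef n ν z (scale R (k + 1)) := by
  rw [cellE, cellE, eHat, eHat, Finset.sum_Icc_succ_top (Nat.zero_le _), D.anc_of_ge z le_rfl,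
    Nat.sub_self, pow_zero, one_mul, Finset.sum_div]
  congr 1
  refine Finset.sum_congr rfl fun j hj => ?_
  have hjk := (Finset.mem_Icc.1 hj).2
  rw [D.anc_succ z hjk, Nat.succ_sub hjk, pow_succ]
  ring

lemma cellE_zero (D : Cells ν x₀ R) (z : E) : cellE n D 0 z = coef n ν z (scale R 0) := by
  rw [cellE, eHat, Finset.Icc_self, Finset.sum_singleton, D.anc_of_ge z le_rfl]
  simp

variable [FiniteDimensional ℝ E]

lemma cellE_nonneg (hn : 1 ≤ n) (hN : Nice n C A ν x₀ R) (D : Cells ν x₀ R) (k : ℕ) (z : E) :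
    0 ≤ cellE n D k z := by
  rw [cellE, eHat]
  exact Finset.sum_nonneg fun j _ =>
    mul_nonneg (by positivity) (hN.coef_nonneg hn (scale_pos' hN.2.2.1 j) _)

/-- The weighted coefficients of the inner cells pack. -/
lemma exists_sum_cellE_le (hn : 1 ≤ n) (hB : CoefPacking E n) (hC : 1 ≤ C) (hA : 0 ≤ A) :
    ∃ K : ℝ, 0 ≤ K ∧ ∀ (ν : Measure E) (x₀ : E) (R : ℝ), Nice n C A ν x₀ R →
      ∀ (D : Cells ν x₀ R) (M : ℕ),
        ∑ k ∈ Finset.range M, ∑ z ∈ D.inner k, cellE n D k z ^ 2 * ν.real (D.cell k z) ≤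
          K * R ^ n := by
  obtain ⟨K, hK⟩ := hB C A hC hA
  refine ⟨8 / 7 * (2 * (C * 3 ^ n) * max K 0), ?_, fun ν x₀ R hN D M => ?_⟩
  · have : 0 ≤ max K 0 := le_max_right _ _
    positivity
  haveI := hN.finite
  have hR : 0 < R := hN.2.2.1
  set a := fun k => ∑ z ∈ D.inner k, cellE n D k z ^ 2 * ν.real (D.cell k z) with ha
  set q := fun k => ∑ z ∈ D.inner k,
    2 * (coef n ν z (scale R k) ^ 2 * ν.real (D.cell k z)) with hqdef
  have hq : ∑ k ∈ Finset.range (M + 1), q k ≤ 2 * (C * 3 ^ n) * max K 0 * R ^ n := by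
    have h1 := (hK ν x₀ R hN (M + 1) D.inner (fun k z hz => ⟨(D.mem_support k z
      (D.inner_subset hz)).1, by linarith [D.dist_inner hR hz]⟩)
      (fun k => (D.separated k).mono fun z hz =>
        Finset.mem_coe.2 (D.inner_subset (Finset.mem_coe.1 hz)))).trans
      (mul_le_mul_of_nonneg_right (le_max_left K 0) (by positivity))
    rw [mul_assoc _ (max K 0)]
    refine le_trans ?_ (mul_le_mul_of_nonneg_left h1 (show 0 ≤ 2 * (C * 3 ^ n) by positivity))
    rw [Finset.mul_sum]
    refine Finset.sum_le_sum fun k _ => ?_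
    rw [Finset.mul_sum]
    refine Finset.sum_le_sum fun z hz => ?_
    refine le_trans (mul_le_mul_of_nonneg_left (mul_le_mul_of_nonneg_left
      (D.measure_cell_le hN hz) (sq_nonneg _)) two_pos.le) (le_of_eq ?_)
    rw [mul_pow]
    ring
  have hsum := sum_generations_le (a := a) (q := q) (θ := 1 / 8) (by norm_num) (by norm_num)
    (fun k => Finset.sum_nonneg fun z _ => mul_nonneg (sq_nonneg _) measureReal_nonneg) M
    (fun k _ => ?_) ?_ hq
  · refine (Finset.sum_le_sum_of_subset_of_nonneg (Finset.range_mono (Nat.le_succ M))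
      fun k _ _ => Finset.sum_nonneg fun z _ =>
        mul_nonneg (sq_nonneg _) measureReal_nonneg).trans (hsum.trans (le_of_eq ?_))
    ring
  · simp only [ha, hqdef]
    rw [← D.sum_parent hR k fun z => cellE n D k z ^ 2, Finset.mul_sum, ← Finset.sum_add_distrib]
    refine Finset.sum_le_sum fun w _ => ?_
    rw [cellE_succ]
    nlinarith [mul_nonneg (sq_nonneg (cellE n D k (D.parent k w) / 4 -
      coef n ν w (scale R (k + 1)))) (measureReal_nonneg (μ := ν) (s := D.cell (k + 1) w))]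
  · simp only [ha, hqdef]
    refine Finset.sum_le_sum fun z _ => ?_
    rw [cellE_zero]
    linarith [mul_nonneg (sq_nonneg (coef n ν z (scale R 0)))
      (measureReal_nonneg (μ := ν) (s := D.cell 0 z))]

lemma cellB_succ (D : Cells ν x₀ R) (k : ℕ) (z : E) :
    cellB n D (k + 1) z = cellB n D k (D.parent k z) / 4 + beta n ν z (scale R (k + 1)) := by
  rw [cellB, cellB, bHat, bHat, Finset.sum_Icc_succ_top (Nat.zero_le _), D.anc_of_ge z le_rfl,
    Nat.sub_self, pow_zero, one_mul, add_div, Finset.sum_div, Nat.sub_zero, Nat.sub_zero,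
    pow_succ, ← add_assoc]
  congr 1
  congr 1
  · ring
  refine Finset.sum_congr rfl fun j hj => ?_
  have hjk := (Finset.mem_Icc.1 hj).2
  rw [D.anc_succ z hjk, Nat.succ_sub hjk, pow_succ]
  ring

lemma flatness_nonneg (z : E) (l : ℝ) (p : E) (W : Submodule ℝ E) :
    0 ≤ flatness ν n z l p W := Real.sqrt_nonneg _

lemma beta_nonneg (z : E) (l : ℝ) : 0 ≤ beta n ν z l :=
  Real.sInf_nonneg (by rintro b ⟨p, W, -, rfl⟩; exact Real.sqrt_nonneg _)

lemma beta_le_flatness {z p : E} {l : ℝ} {W : Submodule ℝ E} (hW : Module.finrank ℝ W = n) :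
    beta n ν z l ≤ flatness ν n z l p W :=
  csInf_le ⟨0, by rintro b ⟨p, W, -, rfl⟩; exact Real.sqrt_nonneg _⟩ ⟨p, W, hW, rfl⟩

lemma cellB_nonneg (D : Cells ν x₀ R) (k : ℕ) (z : E) : 0 ≤ cellB n D k z :=
  add_nonneg (by positivity) (Finset.sum_nonneg fun j _ =>
    mul_nonneg (by positivity) (beta_nonneg _ _))

lemma beta_add_le_cellB (D : Cells ν x₀ R) (k : ℕ) (z : E) :
    beta n ν z (scale R k) + (1 / 4 : ℝ) ^ k ≤ cellB n D k z := by
  rw [cellB, bHat, Nat.sub_zero, add_comm]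
  refine add_le_add le_rfl ?_
  refine le_trans (le_of_eq ?_) (Finset.single_le_sum (fun j _ =>
    mul_nonneg (by positivity) (beta_nonneg _ _))
    (Finset.mem_Icc.2 ⟨Nat.zero_le k, le_rfl⟩))
  rw [D.anc_of_ge z le_rfl, Nat.sub_self, pow_zero, one_mul]

lemma flatness_le_cellB {D : Cells ν x₀ R} {pl : ℕ → E → E × Submodule ℝ E}
    (hpl : IsPlanes n D pl) {k : ℕ} {z : E} (hz : z ∈ D.inner k) :
    flatness ν n z (scale R k) (pl k z).1 (pl k z).2 ≤ cellB n D k z :=
  (hpl k z hz).2.trans (beta_add_le_cellB D k z)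

lemma exists_finrank_submodule (hnd : n ≤ Module.finrank ℝ E) :
    ∃ W : Submodule ℝ E, Module.finrank ℝ W = n := by
  set b := Module.finBasis ℝ E
  refine ⟨Submodule.span ℝ (Set.range (b ∘ Fin.castLE hnd)), ?_⟩
  rw [finrank_span_eq_card (b.linearIndependent.comp _ (Fin.castLE_injective hnd)),
    Fintype.card_fin]

lemma exists_planes (hnd : n ≤ Module.finrank ℝ E) (D : Cells ν x₀ R) :
    ∃ pl, IsPlanes n D pl := by
  obtain ⟨W₀, hW₀⟩ := exists_finrank_submodule (E := E) hnd
  have h : ∀ (k : ℕ) (z : E), ∃ p : E × Submodule ℝ E, Module.finrank ℝ p.2 = n ∧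
      flatness ν n z (scale R k) p.1 p.2 ≤ beta n ν z (scale R k) + (1 / 4 : ℝ) ^ k := by
    intro k z
    obtain ⟨b, ⟨p, W, hW, rfl⟩, hlt⟩ := exists_lt_of_csInf_lt
      (s := {b : ℝ | ∃ (p : E) (W : Submodule ℝ E),
        Module.finrank ℝ W = n ∧ b = flatness ν n z (scale R k) p W})
      ⟨_, z, W₀, hW₀, rfl⟩
      (show beta n ν z (scale R k) < beta n ν z (scale R k) + (1 / 4 : ℝ) ^ k from
        lt_add_of_pos_right _ (by positivity))
    exact ⟨(p, W), hW, hlt.le⟩
  choose pl h1 h2 using h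
  exact ⟨pl, fun k z _ => ⟨h1 k z, h2 k z⟩⟩

/-- One step of the decay along the ancestors. -/
lemma exists_cellB_step (hd : Decay E n) (hC : 1 ≤ C) (hA : 0 ≤ A) :
    ∃ ε₀ K : ℝ, 0 < ε₀ ∧ 0 ≤ K ∧ ∀ (ν : Measure E) (x₀ : E) (R : ℝ), Nice n C A ν x₀ R → 1 ≤ n →
      ∀ (D : Cells ν x₀ R) (k : ℕ), ∀ w ∈ D.inner (k + 1),
        cellB n D k (D.parent k w) ≤ ε₀ →
        cellB n D (k + 1) w ≤
          1 / 2 * cellB n D k (D.parent k w) + K * cellE n D k (D.parent k w) := by
  obtain ⟨ε₀, K, hε₀, h⟩ := hd C A (1 / 4) hC hA (by norm_num)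
  refine ⟨ε₀, max K 0, hε₀, le_max_right _ _, fun ν x₀ R hN hn D k w hw hb => ?_⟩
  obtain ⟨hc1, hc2⟩ := D.anc_chain hN.2.2.1 hw
  have hp : ∀ j ∈ Finset.Icc 0 k, D.anc (k + 1) w j = D.anc k (D.parent k w) j := fun j hj =>
    D.anc_succ w (Finset.mem_Icc.1 hj).2
  have eB : bHat n ν R (D.anc (k + 1) w) 0 k = cellB n D k (D.parent k w) := by
    rw [cellB, bHat, bHat]
    congr 1
    exact Finset.sum_congr rfl fun j hj => by rw [hp j hj]
  have eE : eHat n ν R (D.anc (k + 1) w) 0 k = cellE n D k (D.parent k w) := by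
    rw [cellE, eHat, eHat]
    exact Finset.sum_congr rfl fun j hj => by rw [hp j hj]
  have h1 := h ν x₀ R hN (D.anc (k + 1) w) 0 k (Nat.zero_le _) (fun j _ hj => hc1 j hj)
    (fun j _ hj => hc2 j (by omega)) (by rw [eB]; exact hb)
  rw [eB, eE, D.anc_of_ge w le_rfl] at h1
  rw [cellB_succ]
  have h2 := mul_le_mul_of_nonneg_right (le_max_left K 0)
    (cellE_nonneg hn hN D k (D.parent k w))
  linarith

end

end Vale.Agent.P120.Full
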